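import Claimed.Agent.R257.FR3.BinMain
import Claimed.Agent.R257.FR2.PathJoint
import Claimed.Agent.R255.Ent.Restr

/-!
# ROW 257, package FR3, unit BIN, adapter file A: FROM SAMPLED HYPOTHESES TO `BnCfg.Ok`      (architect helper121)

PAPER-FREE (finite probability: `R255/Ent/{Basic,Restr}`, `FR3/EntKit`, `FR2/PathJoint.fp_cond_pt_surC`).
FR2 delivers its facts in SAMPLED form ("off probability `δ`").   `BnCfg.Ok` wants: a POINTWISE domination `dom`, and the entropy inequalities `occ`, `inf`.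
`BnCfg.Sam` = the sampled hypotheses for a configuration `F` (law `P`):
* `G : 𝒳 → Prop`  the typical atoms `x = (Z, τ_l)`, `P(¬ G) ≤ δ`;  `dom` holds at the typical atoms;
* `cnt`           the uniform count on the support of `P`;
* `occ`           for `m ≤ j ≤ 2m` a cell `cel j` (tilted cell of FR2 at a node slightly BELOW `j/m`) with the lower half of the occupancy law `P(cel, θ) ≥ Mo j · P(x, θ)` off probability `δ`; the cell `tub` of BIN has `≤ m₁` values on each `(cel j, θ)`.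
EXIT `bna_ok`: the configuration conditioned on the typical atoms, `F.cnd G`, satisfies `BnCfg.Ok` with the same `K` and a slightly larger `e`.     (`inf` FOLLOWS from `dom`: `fp_cond_pt_surC`.)
LEAVES `L-F3-H*`: prove in place, statements verbatim (defect: one line to helper121), auxiliary lemmas directly above with prefix `bna_`.
-/

set_option autoImplicit false

namespace Claimed.Agent.R257

open scoped BigOperators
open Classical Matrix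
open Claimed.Agent.R255 Claimed.Agent.R255.FLaw

variable {n : ℕ} {𝒳 𝒯 𝒲 𝒞 : Type} [Fintype 𝒳] [Fintype 𝒯]

/-- the configuration conditioned on a set of atoms -/
noncomputable def BnCfg.cnd (F : BnCfg n 𝒳 𝒯 𝒲) (G : 𝒳 → Prop) : BnCfg n 𝒳 𝒯 𝒲 :=
  { F with P := F.P.cnd fun y => G y.1 }

/-- **the sampled hypotheses** -/
structure BnCfg.Sam (F : BnCfg n 𝒳 𝒯 𝒲) (G : 𝒳 → Prop) (cel : ℕ → 𝒳 × 𝒯 → 𝒞) (Mo : ℕ → ℝ) (L M K A d0 γ e δ m₁ : ℝ) (m : ℕ) : Prop where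
  dir0 : ∀ θ, F.dir θ 0 = 1
  hdir : ∀ θ l, |F.dir θ l| ≤ A
  ν0 : ∀ g θ, 0 ≤ F.ν g θ
  ν1 : ∀ g, ∑ θ, F.ν g θ ≤ 1
  strip : ∀ (g : 𝒲) (w : Fin (n + 2) → ℝ), ∑ l, |w l| = 1 → ∀ r : ℝ, L⁻¹ ≤ r → r ≤ 1 → ∑ θ with |w ⬝ᵥ F.dir θ| ≤ r, F.ν g θ ≤ K * r ^ γ
  /-- the atypical atoms -/
  bad : F.P.pr (fun y => ¬ G y.1) ≤ δ
  dom : ∀ x θ, G x → F.P.p (x, θ) ≤ K * F.ν (F.grp x) θ * rdM F.P x
  cnt : ∀ j : ℕ, m ≤ j → j ≤ 4 * m → ∀ x0 : 𝒳,
    (((Finset.univ.filter fun x => rdM F.P x ≠ 0 ∧ F.iso (L ^ ((j : ℝ) / m)) x = F.iso (L ^ ((j : ℝ) / m)) x0).card : ℕ) : ℝ) ≤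
      M * L ^ (((n + 2 : ℕ) : ℝ) * d0 * ((j : ℝ) / m) + e)
  /-- size of the occupancies -/
  Mo_ge : ∀ j : ℕ, m ≤ j → j ≤ 2 * m → Real.log M + (((n + 3 : ℕ) : ℝ) * d0 * ((j : ℝ) / m) - e) * Real.log L ≤ Real.log (Mo j)
  one_le_Mo : ∀ j : ℕ, m ≤ j → j ≤ 2 * m → 1 ≤ Mo j
  /-- lower half of the occupancy law -/
  occ : ∀ j : ℕ, m ≤ j → j ≤ 2 * m → F.P.pr (fun y => F.P.fib (pair (cel j) Prod.snd) y < Mo j * F.P.p y) ≤ δ
  /-- the cells of BIN over the cells of FR2 -/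
  mult : ∀ j : ℕ, m ≤ j → j ≤ 2 * m → F.P.NVal (fun _ => True) (F.tub (L ^ ((j : ℝ) / m)) (L ^ (2 * ((j : ℝ) / m)))) (pair (cel j) Prod.snd) m₁

variable {F : BnCfg n 𝒳 𝒯 𝒲} {G : 𝒳 → Prop} {cel : ℕ → 𝒳 × 𝒯 → 𝒞} {Mo : ℕ → ℝ} {L M K A d0 γ e δ m₁ : ℝ} {m : ℕ}

/-- LEAF `L-F3-H1`  the typical atoms have mass `≥ 1/2` (`ent_pr_not`/`ent_pr_split`). -/
theorem bna_mass (h : F.Sam G cel Mo L M K A d0 γ e δ m₁ m) (hδ : δ ≤ 1 / 2) : 1 / 2 ≤ F.P.pr (fun y => G y.1) := by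
  have h1 := h.bad
  rw [ent_pr_not F.P (fun y => G y.1)] at h1
  linarith

/-- LEAF `L-F3-H1`  the conditioned law and its marginal (`ent_cnd_p`; `rdM`: `Finset.sum_div`, the `if` does not depend on `θ`). -/
theorem bna_cnd_p (F : BnCfg n 𝒳 𝒯 𝒲) (G : 𝒳 → Prop) (h : 0 < F.P.pr (fun y => G y.1)) (x : 𝒳) (θ : 𝒯) :
    (F.cnd G).P.p (x, θ) = (if G x then F.P.p (x, θ) else 0) / F.P.pr (fun y => G y.1) ∧
      rdM (F.cnd G).P x = (if G x then rdM F.P x else 0) / F.P.pr (fun y => G y.1) := by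
  have h1 : ∀ θ : 𝒯, (F.cnd G).P.p (x, θ) = (if G x then F.P.p (x, θ) else 0) / F.P.pr (fun y => G y.1) :=
    fun θ => ent_cnd_p F.P (fun y => G y.1) h (x, θ)
  refine ⟨h1 θ, ?_⟩
  unfold rdM
  simp only [h1]
  rw [← Finset.sum_div]
  by_cases hG : G x
  · simp only [hG, if_true]
  · simp only [hG, if_false, Finset.sum_const_zero]

/-- LEAF `L-F3-H2`  **`Base` for the conditioned configuration** (`pos`, `grp`, `dir`, `ν` are unchanged: `rfl`; `dom`: `bna_cnd_p`, cases on `G x`; `div_le_div_of_nonneg_right`, `mul_div_assoc`). -/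
theorem bna_base (h : F.Sam G cel Mo L M K A d0 γ e δ m₁ m) (hδ : δ ≤ 1 / 2) (hK : 0 ≤ K) : (F.cnd G).Base K A γ L⁻¹ := by
  have hm := bna_mass h hδ
  have hpos : 0 < F.P.pr (fun y => G y.1) := by linarith
  refine ⟨h.dir0, h.hdir, h.ν0, h.ν1, fun x θ => ?_, h.strip⟩
  obtain ⟨e1, e2⟩ := bna_cnd_p F G hpos x θ
  rw [e1, e2]
  show _ ≤ K * F.ν (F.grp x) θ * _
  by_cases hG : G x
  · simp only [hG, if_true]
    rw [← mul_div_assoc]
    exact div_le_div_of_nonneg_right (h.dom x θ hG) hpos.le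
  · simp only [hG, if_false, zero_div, mul_zero, le_refl]

/-- LEAF `L-F3-H2`  **`cnt`** (`iso` is unchanged; `rdM (F.cnd G).P x ≠ 0 → rdM F.P x ≠ 0` by `bna_cnd_p`; `Finset.card_le_card`; `L^e ≤ L^e'`). -/
theorem bna_cnt (h : F.Sam G cel Mo L M K A d0 γ e δ m₁ m) (hδ : δ ≤ 1 / 2) (hL : 1 ≤ L) (hM : 0 ≤ M) {e' : ℝ} (he : e ≤ e') (j : ℕ) (h1 : m ≤ j) (h2 : j ≤ 4 * m)
    (x0 : 𝒳) :
    (((Finset.univ.filter fun x => rdM (F.cnd G).P x ≠ 0 ∧ (F.cnd G).iso (L ^ ((j : ℝ) / m)) x = (F.cnd G).iso (L ^ ((j : ℝ) / m)) x0).card : ℕ) : ℝ) ≤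
      M * L ^ (((n + 2 : ℕ) : ℝ) * d0 * ((j : ℝ) / m) + e') := by
  have hm := bna_mass h hδ
  have hpos : 0 < F.P.pr (fun y => G y.1) := by linarith
  have hsub : (Finset.univ.filter fun x => rdM (F.cnd G).P x ≠ 0 ∧ (F.cnd G).iso (L ^ ((j : ℝ) / m)) x = (F.cnd G).iso (L ^ ((j : ℝ) / m)) x0) ⊆
      (Finset.univ.filter fun x => rdM F.P x ≠ 0 ∧ F.iso (L ^ ((j : ℝ) / m)) x = F.iso (L ^ ((j : ℝ) / m)) x0) := by
    intro x hx
    rw [Finset.mem_filter] at hx ⊢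
    refine ⟨Finset.mem_univ _, fun h0 => hx.2.1 ?_, hx.2.2⟩
    have hr : rdM (F.cnd G).P x = (if G x then rdM F.P x else 0) / F.P.pr (fun y => G y.1) := by
      unfold rdM
      simp only [fun θ : 𝒯 => (bna_cnd_p F G hpos x θ).1]
      rw [← Finset.sum_div]
      by_cases hG : G x
      · simp only [hG, if_true]
      · simp only [hG, if_false, Finset.sum_const_zero]
    rw [hr, h0]
    simp
  calc (((Finset.univ.filter fun x => rdM (F.cnd G).P x ≠ 0 ∧ (F.cnd G).iso (L ^ ((j : ℝ) / m)) x = (F.cnd G).iso (L ^ ((j : ℝ) / m)) x0).card : ℕ) : ℝ)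
      ≤ (((Finset.univ.filter fun x => rdM F.P x ≠ 0 ∧ F.iso (L ^ ((j : ℝ) / m)) x = F.iso (L ^ ((j : ℝ) / m)) x0).card : ℕ) : ℝ) := by
        exact_mod_cast Finset.card_le_card hsub
    _ ≤ M * L ^ (((n + 2 : ℕ) : ℝ) * d0 * ((j : ℝ) / m) + e) := h.cnt j h1 h2 x0
    _ ≤ M * L ^ (((n + 2 : ℕ) : ℝ) * d0 * ((j : ℝ) / m) + e') :=
        mul_le_mul_of_nonneg_left (Real.rpow_le_rpow_of_exponent_le hL (by linarith)) hM

/-- LEAF `L-F3-H3`  **`occ`.**   `Q = P.cnd E`, `E y = G y.1`, `P(E) ≥ 1/2`.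
PLAN.  (1) `Q.entC fst (pair tub snd) ≥ Q.entC fst (pair (cel j) snd) - log m₁`: `ek_compare Q fst (cel j) tub snd` (both are functions of `(fst, snd)`; `NVal` for `Q` from `h.mult` by `ent_nval_dom (ent_cnd_dom ..)`).
(2) `ent_restr_event`: `Q.entC fst (pair (cel j) snd) ≥ Q.ev (P.surC fst (pair (cel j) snd)) - log (1 / P(E))`, `log (1/P(E)) ≤ log 2`.
(3) `P.surC fst (pair c snd) y = log (P.fib (pair c snd) y / P.p y)` on the support (`P.fib (pair fst (pair c snd)) y = P.p y`: the pair `(fst, snd)` determines `y`), it is `≥ 0` (`ent_surC_nonneg`) and `≥ log (Mo j)` off the event of `h.occ`, whose `Q`-mass is `≤ 2δ` (`ent_cnd_pr`);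
so `Q.ev (..) ≥ (1 - 2δ) log (Mo j) ≥ log (Mo j) - 2 δ Bo`.   (4) `h.Mo_ge`, `herr`. -/
theorem bna_occ (h : F.Sam G cel Mo L M K A d0 γ e δ m₁ m) (hδ0 : 0 ≤ δ) (hδ : δ ≤ 1 / 2) (hm₁ : 1 ≤ m₁) {e' Bo : ℝ}
    (hBo : ∀ j : ℕ, m ≤ j → j ≤ 2 * m → Real.log (Mo j) ≤ Bo)
    (herr : 2 * δ * Bo + Real.log (2 * m₁) ≤ (e' - e) * Real.log L) (j : ℕ) (h1 : m ≤ j) (h2 : j ≤ 2 * m) :
    Real.log M + (((n + 3 : ℕ) : ℝ) * d0 * ((j : ℝ) / m) - e') * Real.log L ≤ (F.cnd G).I (L ^ ((j : ℝ) / m)) (L ^ (2 * ((j : ℝ) / m))) := by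
  have hm := bna_mass h hδ
  have hpos : 0 < F.P.pr (fun y => G y.1) := by linarith
  obtain ⟨P, hP⟩ : ∃ P, P = F.P := ⟨_, rfl⟩
  obtain ⟨E, hE⟩ : ∃ E : 𝒳 × 𝒯 → Prop, E = fun y => G y.1 := ⟨_, rfl⟩
  obtain ⟨tub, htub⟩ : ∃ tub, tub = F.tub (L ^ ((j : ℝ) / m)) (L ^ (2 * ((j : ℝ) / m))) := ⟨_, rfl⟩
  have hgoal : (F.cnd G).I (L ^ ((j : ℝ) / m)) (L ^ (2 * ((j : ℝ) / m))) = (P.cnd E).entC Prod.fst (pair tub Prod.snd) := by
    rw [hP, hE, htub]; rfl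
  rw [hgoal]
  rw [← hP, ← hE] at hm hpos
  have hdom : (P.cnd E).Dom (1 / P.pr E) P := ent_cnd_dom P E hpos
  have hdom2 : (P.cnd E).Dom 2 P := ent_dom_mono hdom (by rw [div_le_iff₀ hpos]; linarith)
  -- (1)
  have s1 : (P.cnd E).entC Prod.fst (pair (cel j) Prod.snd) ≤ (P.cnd E).entC Prod.fst (pair tub Prod.snd) + Real.log m₁ := by
    refine ek_compare (P.cnd E) Prod.fst (cel j) tub Prod.snd (fun ω ω' _ _ a b => by rw [Prod.ext a b]) ?_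
    refine ent_nval_dom hdom (E := fun _ => True) (fun _ _ => trivial) ?_
    rw [hP, htub]
    exact h.mult j h1 h2
  -- (2)
  have s2 := (ent_restr_event P E hpos Prod.fst (pair (cel j) Prod.snd)).1
  have s2' : Real.log (1 / P.pr E) ≤ Real.log 2 :=
    Real.log_le_log (by positivity) (by rw [div_le_iff₀ hpos]; linarith)
  -- (3)
  have hMo1 := h.one_le_Mo j h1 h2
  have hlogMo : 0 ≤ Real.log (Mo j) := Real.log_nonneg hMo1
  obtain ⟨Bad, hBad⟩ : ∃ Bad : 𝒳 × 𝒯 → Prop, Bad = fun y => P.fib (pair (cel j) Prod.snd) y < Mo j * P.p y := ⟨_, rfl⟩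
  have hbadP : P.pr Bad ≤ δ := by
    rw [hBad, hP]; exact h.occ j h1 h2
  have hbadQ : (P.cnd E).pr Bad ≤ 2 * δ := (ent_dom_pr hdom2 Bad).trans (by linarith)
  have s3 := ent_ev_ge_of_bad (P.cnd E) (f := P.surC Prod.fst (pair (cel j) Prod.snd)) Bad (c := Real.log (Mo j)) (M := 0)
    (fun ω hω hb => by
      have hω' : P.p ω ≠ 0 := ent_dom_supp hdom hω
      have hp : 0 < P.p ω := lt_of_le_of_ne (P.nonneg ω) (Ne.symm hω')
      have e1 : P.fib (pair Prod.fst (pair (cel j) Prod.snd)) ω = P.p ω := by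
        rw [← ent_fib_id P ω]
        unfold FLaw.fib
        refine ent_pr_congr P fun y' _ => ?_
        simp only [pair, Prod.mk.injEq]
        constructor
        · rintro ⟨a, -, b⟩
          exact Prod.ext a b
        · rintro rfl
          exact ⟨rfl, rfl, rfl⟩
      rw [ent_surC_eq_sub P _ _ hω', e1, ← Real.log_div (ent_fib_pos P _ hω').ne' hp.ne']
      refine Real.log_le_log (by linarith) ?_
      rw [le_div_iff₀ hp]
      rw [hBad] at hb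
      exact not_lt.1 hb)
    (fun ω hω _ => ent_surC_nonneg P _ _ (ent_dom_supp hdom hω))
  have hBoj := hBo j h1 h2
  have s4 : Real.log (Mo j) - 2 * δ * Bo ≤ (P.cnd E).ev (P.surC Prod.fst (pair (cel j) Prod.snd)) := by
    refine le_trans ?_ s3
    have a1 : Real.log (Mo j) * (P.cnd E).pr Bad ≤ Real.log (Mo j) * (2 * δ) := mul_le_mul_of_nonneg_left hbadQ hlogMo
    have a2 : Real.log (Mo j) * (2 * δ) ≤ Bo * (2 * δ) := mul_le_mul_of_nonneg_right hBoj (by linarith)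
    nlinarith
  have s5 := h.Mo_ge j h1 h2
  have s6 : Real.log (2 * m₁) = Real.log 2 + Real.log m₁ := Real.log_mul (by norm_num) (by linarith)
  nlinarith

/-- LEAF `L-F3-H4`  **`inf`.**   `C y = F.iso s y.1`, `N = M L^((n+2) d0 (j/m) + e)`.
PLAN.  (1) `Q.miC fst snd C = Q.entC fst C - Q.entC fst (pair C snd)` (definitions; `ent_miC_eq`-type lemma or unfold + `ent_ent_congr` for the reorderings of pairs).
(2) `ent_restr_event` twice: `≤ Q.ev (P.surC fst C) - Q.ev (P.surC fst (pair C snd)) + log 2`.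
(3) `FR2.fp_cond_pt_surC P fst fst C snd .. (ν := fun c θ => F.ν c.1 θ) (K₁ := 1) (K := K) (E := fun y => ¬ G y.1)` (`hdom`: `rd_fib_pair`, `rd_fib_fst`, `h.dom`; `(C y).1 = F.grp y.1`): off an event `Bd` with `P(Bd) ≤ 2δ + 2/t`: `surC fst C ≤ surC fst (pair C snd) + log (2 K t)`.
(4) on `Bd`: `surC fst C - surC fst (pair C snd) ≤ surC fst C ≤ log N + (surC fst C - log N)₊`;  `ek_excess P fst C` (`NVal` from `h.cnt`: the atoms of the support in one cell) gives `P.ev (..)₊ ≤ 1`;  `Q.ev f ≤ 2 P.ev f` for `f ≥ 0` (`ent_cnd_ev`).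
Total: `log (2 K t) + log 2 + 2 ((2δ + 2/t) log N + 1)`. -/
theorem bna_inf (h : F.Sam G cel Mo L M K A d0 γ e δ m₁ m) (hδ0 : 0 ≤ δ) (hδ : δ ≤ 1 / 2) (hL : 1 < L) (hK : 1 ≤ K) {e' t Bn : ℝ} (ht : 1 ≤ t)
    (hBn0 : 0 ≤ Bn) (hBn : ∀ j : ℕ, m ≤ j → j ≤ 4 * m → Real.log (M * L ^ (((n + 2 : ℕ) : ℝ) * d0 * ((j : ℝ) / m) + e)) ≤ Bn)
    (hN1 : ∀ j : ℕ, m ≤ j → j ≤ 4 * m → 0 < M * L ^ (((n + 2 : ℕ) : ℝ) * d0 * ((j : ℝ) / m) + e))
    (herr : Real.log (2 * K * t) + Real.log 2 + 2 * ((2 * δ + 2 / t) * Bn + 1) ≤ e' * Real.log L) (j : ℕ) (h1 : m ≤ j) (h2 : j ≤ 4 * m) :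
    (F.cnd G).io (L ^ ((j : ℝ) / m)) ≤ e' * Real.log L := by
  have hm := bna_mass h hδ
  have hpos : 0 < F.P.pr (fun y => G y.1) := by linarith
  have ht0 : 0 < t := by linarith
  have hK0 : 0 < K := by linarith
  obtain ⟨P, hP⟩ : ∃ P, P = F.P := ⟨_, rfl⟩
  obtain ⟨E, hE⟩ : ∃ E : 𝒳 × 𝒯 → Prop, E = fun y => G y.1 := ⟨_, rfl⟩
  obtain ⟨C, hC⟩ : ∃ C : 𝒳 × 𝒯 → 𝒲 × (Fin (n + 2) → ℤ), C = fun y => F.iso (L ^ ((j : ℝ) / m)) y.1 := ⟨_, rfl⟩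
  obtain ⟨N, hN⟩ : ∃ N : ℝ, N = M * L ^ (((n + 2 : ℕ) : ℝ) * d0 * ((j : ℝ) / m) + e) := ⟨_, rfl⟩
  have hN0 : 0 < N := by rw [hN]; exact hN1 j h1 h2
  have hNB : Real.log N ≤ Bn := by rw [hN]; exact hBn j h1 h2
  have hgoal : (F.cnd G).io (L ^ ((j : ℝ) / m)) = (P.cnd E).miC Prod.fst Prod.snd C := by
    rw [hP, hE, hC]; rfl
  rw [hgoal]
  rw [← hP, ← hE] at hm hpos
  have hdom : (P.cnd E).Dom (1 / P.pr E) P := ent_cnd_dom P E hpos
  have hdom2 : (P.cnd E).Dom 2 P := ent_dom_mono hdom (by rw [div_le_iff₀ hpos]; linarith)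
  -- (1), (2)
  rw [ent_miC_eq]
  have s1 := (ent_restr_event P E hpos Prod.fst C).2
  have s2 := (ent_restr_event P E hpos Prod.fst (pair Prod.snd C)).1
  have s2' : Real.log (1 / P.pr E) ≤ Real.log 2 :=
    Real.log_le_log (by positivity) (by rw [div_le_iff₀ hpos]; linarith)
  -- (3)
  obtain ⟨Bd, hBd⟩ : ∃ Bd : 𝒳 × 𝒯 → Prop, Bd = fun ω => ¬ (P.surC Prod.fst (pair C Prod.snd) ω ≤ P.surC Prod.fst C ω + Real.log t ∧
      P.surC Prod.fst C ω ≤ P.surC Prod.fst (pair C Prod.snd) ω + Real.log (2 * K * t)) := ⟨_, rfl⟩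
  have s3 : P.pr Bd ≤ 2 * δ + 2 / t := by
    have := fp_cond_pt_surC P (Prod.fst : 𝒳 × 𝒯 → 𝒳) (Prod.fst : 𝒳 × 𝒯 → 𝒳) C (Prod.snd : 𝒳 × 𝒯 → 𝒯) (fun _ _ a => a)
      (fun ω ω' a => by rw [hC]; simp only; rw [a]) (fun c θ => F.ν c.1 θ) (fun c θ => h.ν0 c.1 θ) (K₁ := 1) (K := K) (t := t)
      (fun c S => (Finset.sum_le_sum_of_subset_of_nonneg (Finset.subset_univ S) fun θ _ _ => h.ν0 c.1 θ).trans (h.ν1 c.1))
      hK0 (fun y => ¬ G y.1)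
      (fun ω _ hG => by
        rw [rd_fib_pair, rd_fib_fst, hC, hP]
        exact h.dom ω.1 ω.2 (not_not.1 hG)) ht0
    rw [← hBd] at this
    have hb : P.pr (fun y => ¬ G y.1) ≤ δ := by rw [hP]; exact h.bad
    have e2 : ((1 : ℝ) + 1) / t = 2 / t := by norm_num
    rw [e2] at this
    linarith
  -- (4)
  have hnv : P.NVal (fun _ => True) (Prod.fst : 𝒳 × 𝒯 → 𝒳) C N := by
    intro ω₀
    refine ⟨Finset.univ.filter fun x => rdM F.P x ≠ 0 ∧ F.iso (L ^ ((j : ℝ) / m)) x = F.iso (L ^ ((j : ℝ) / m)) ω₀.1, ?_, ?_⟩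
    · rw [hN]; exact h.cnt j h1 h2 ω₀.1
    · intro ω hω _ hCω
      rw [Finset.mem_filter]
      refine ⟨Finset.mem_univ _, ?_, ?_⟩
      · intro h0
        unfold rdM at h0
        rw [Finset.sum_eq_zero_iff_of_nonneg fun θ _ => F.P.nonneg _] at h0
        rw [hP] at hω
        exact hω (h0 ω.2 (Finset.mem_univ _))
      · rw [hC] at hCω
        exact hCω
  have s4 := ek_excess P (Prod.fst : 𝒳 × 𝒯 → 𝒳) C hN0 hnv
  obtain ⟨g, hg⟩ : ∃ g : 𝒳 × 𝒯 → ℝ, g = fun ω => max (P.surC Prod.fst C ω - Real.log N) 0 := ⟨_, rfl⟩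
  rw [← hg] at s4
  have hlog : 0 ≤ Real.log (2 * K * t) := Real.log_nonneg (by nlinarith)
  have hg0 : ∀ ω, 0 ≤ g ω := fun ω => by rw [hg]; exact le_max_right _ _
  have s5 : (P.cnd E).ev (fun ω => P.surC Prod.fst C ω - P.surC Prod.fst (pair Prod.snd C) ω)
      ≤ (P.cnd E).ev (fun ω => Real.log (2 * K * t) + (Bn * (if Bd ω then 1 else 0) + g ω)) := by
    refine ent_ev_mono _ fun ω hω => ?_
    have hω' : P.p ω ≠ 0 := ent_dom_supp hdom hω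
    have e1 : P.surC Prod.fst (pair Prod.snd C) ω = P.surC Prod.fst (pair C Prod.snd) ω := by
      refine ent_surC_congr P _ _ _ _ ω (fun ω' _ => ?_) (fun _ _ _ => Iff.rfl)
      simp only [pair, Prod.mk.injEq]
      exact and_comm
    rw [e1]
    by_cases hb : Bd ω
    · rw [if_pos hb, mul_one]
      have a1 := ent_surC_nonneg P Prod.fst (pair C Prod.snd) hω'
      have a2 : P.surC Prod.fst C ω - Real.log N ≤ g ω := by rw [hg]; exact le_max_left _ _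
      linarith
    · rw [if_neg hb, mul_zero]
      rw [hBd] at hb
      have a1 := (not_not.1 hb).2
      have a2 := hg0 ω
      linarith
  have s6 : (P.cnd E).ev (fun ω => Real.log (2 * K * t) + (Bn * (if Bd ω then 1 else 0) + g ω))
      = Real.log (2 * K * t) + (P.cnd E).ev (fun ω => Bn * (if Bd ω then 1 else 0) + g ω) := by
    rw [ent_ev_add, ent_ev_const]
  have s7 : (P.cnd E).ev (fun ω => Bn * (if Bd ω then 1 else 0) + g ω) ≤ 2 * P.ev (fun ω => Bn * (if Bd ω then 1 else 0) + g ω) :=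
    ent_dom_ev hdom2 fun ω => add_nonneg (mul_nonneg hBn0 (by split_ifs <;> norm_num)) (hg0 ω)
  have s8 : P.ev (fun ω => Bn * (if Bd ω then 1 else 0) + g ω) = Bn * P.pr Bd + P.ev g := by
    rw [ent_ev_add, ent_ev_mul_left, ← ent_pr_eq_ev]
  have s9 : Bn * P.pr Bd ≤ Bn * (2 * δ + 2 / t) := mul_le_mul_of_nonneg_left s3 hBn0
  have s10 := ent_ev_sub (P.cnd E) (P.surC Prod.fst C) (P.surC Prod.fst (pair Prod.snd C))
  nlinarith

/-- **EXIT of the abstract adapter** -/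
theorem bna_ok (h : F.Sam G cel Mo L M K A d0 γ e δ m₁ m) (hδ0 : 0 ≤ δ) (hδ : δ ≤ 1 / 2) (hL : 1 < L) (hM : 0 < M) (hK : 1 ≤ K) (hm₁ : 1 ≤ m₁)
    {e' t Bo Bn : ℝ} (he : e ≤ e') (ht : 1 ≤ t) (hBo : ∀ j : ℕ, m ≤ j → j ≤ 2 * m → Real.log (Mo j) ≤ Bo)
    (herr1 : 2 * δ * Bo + Real.log (2 * m₁) ≤ (e' - e) * Real.log L) (hBn0 : 0 ≤ Bn)
    (hBn : ∀ j : ℕ, m ≤ j → j ≤ 4 * m → Real.log (M * L ^ (((n + 2 : ℕ) : ℝ) * d0 * ((j : ℝ) / m) + e)) ≤ Bn)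
    (herr2 : Real.log (2 * K * t) + Real.log 2 + 2 * ((2 * δ + 2 / t) * Bn + 1) ≤ e' * Real.log L) :
    (F.cnd G).Ok L M K A d0 γ e' m :=
  { toBase := bna_base h hδ (zero_le_one.trans hK)
    cnt := fun j h1 h2 x0 => bna_cnt h hδ hL.le hM.le he j h1 h2 x0
    occ := fun j h1 h2 => bna_occ h hδ0 hδ hm₁ hBo herr1 j h1 h2
    inf := fun j h1 h2 => bna_inf h hδ0 hδ hL hK ht hBn0 hBn (fun j _ _ => mul_pos hM (Real.rpow_pos_of_pos (zero_lt_one.trans hL) _)) herr2 j h1 h2 }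

end Claimed.Agent.R257
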