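import Claimed.Agent.R257.FR3.BlkDefs
import Claimed.Agent.R257.FR3.BinAdA
import Claimed.Agent.R257.FR2.ProfGlue

/-!
# ROW 257, package FR3, unit BIN, adapter file B: THE CONFIGURATION OF A BLOCK AND ITS SAMPLED HYPOTHESES      (architect helper121)

`k = n + 1`.   Data: a configuration `F : FCfg (n+1)`, a field `j`, a cap height `lam`, a block package `B : BlkDat F j lam` (`FR3/BlkDefs.lean`), the path law `P` of the kernel `B.J` on the root set `B.Y'` (`tp_law_exists`).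
`bnbCfg F j lam B u P : BnCfg n (Y × Lb lam) (Lb 0) (Lb lam × ℤ^{n+2})`:   `x = (Z, τ)`, `θ = Ω`, law = image of `P` under `(z, ω) ↦ ((z, anc lam ω), ω)`, `pos = npos`, `dir = ndir`, `grp` = (cap, macro box of side `Λ^{5u}`), `ν = B.ν`.
KEY IDENTITY (`bnb_cel`): with `σ = κ_i / κ_lam`, `(X, τ) = npos`, `v = ndir`:   `natX κ_i (fr 0 ω) z = ((X - τ v)/σ, τ/σ²)`:  the tilted cell of FR2 of height `i` IS the cell `tub σ σ²` of BIN.
LEAVES `L-F3-G*`: prove in place, statements verbatim (defect: one line to helper121), auxiliary lemmas directly above with prefix `bnb_`.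
-/

set_option autoImplicit false

namespace Claimed.Agent.R257.FR3

open scoped BigOperators
open Classical Matrix
open Claimed.Agent.R255 Claimed.Agent.R255.FLaw Claimed.Agent.R257 Claimed.Agent.R257.FR2 Claimed.Agent.R257.Tree

noncomputable section

variable {n : ℕ} (F : FCfg (n + 1)) (j : Fin (n + 1 + 1)) (lam : ℕ)

/-- `(Z, Ω) ↦ ((Z, cap), Ω)` -/
def bnbφ (y : (F.D j).Y × (F.D j).Lb 0) : ((F.D j).Y × (F.D j).Lb lam) × (F.D j).Lb 0 := ((y.1, (F.D j).anc lam y.2), y.2)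

/-- **the BIN configuration of a block** -/
def bnbCfg (B : BlkDat F j lam) (u : ℝ) (P : FLaw ((F.D j).Y × (F.D j).Lb 0)) :
    BnCfg n ((F.D j).Y × (F.D j).Lb lam) ((F.D j).Lb 0) ((F.D j).Lb lam × (Fin (n + 2) → ℤ)) where
  P := P.map (bnbφ F j lam)
  pos := F.npos j lam
  grp := F.ngrp j lam (F.Λ ^ (5 * u))
  dir := F.ndir j lam
  ν := B.ν

/-- the typical atoms: `P(τ | Z) ≥ ε · lcap` -/
def bnbGood (B : BlkDat F j lam) (u : ℝ) (P : FLaw ((F.D j).Y × (F.D j).Lb 0)) (ε : ℝ) (x : (F.D j).Y × (F.D j).Lb lam) : Prop :=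
  ε * F.lcap j lam x.1 x.2 * (∑ τ, rdM (bnbCfg F j lam B u P).P (x.1, τ)) ≤ rdM (bnbCfg F j lam B u P).P x

/-- the tilted cell of FR2 of height `i` -/
def bnbCel (i : ℕ) (y : ((F.D j).Y × (F.D j).Lb lam) × (F.D j).Lb 0) : Lat (n + 1) :=
  flo (natX ((F.D j).κ i) ((F.D j).fr 0 y.2) ((F.D j).pt y.1.1))

variable {F j lam} {B : BlkDat F j lam} {u γ K₁ : ℝ} {P : FLaw ((F.D j).Y × (F.D j).Lb 0)} {m' : ℕ}

/-! ## the law -/

/-- LEAF `L-F3-G1`  the image law (`FLaw.map`: `p x = ∑ ω, if φ ω = x then P.p ω else 0`; `bnbφ` is injective: `Finset.sum_eq_single (z, ω)`). -/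
theorem bnb_p (B : BlkDat F j lam) (u : ℝ) (P : FLaw ((F.D j).Y × (F.D j).Lb 0)) (z : (F.D j).Y) (τ : (F.D j).Lb lam) (ω : (F.D j).Lb 0) :
    (bnbCfg F j lam B u P).P.p ((z, τ), ω) = if (F.D j).anc lam ω = τ then P.p (z, ω) else 0 := by
  show P.pr (fun y => bnbφ F j lam y = ((z, τ), ω)) = _
  unfold FLaw.pr
  by_cases h : (F.D j).anc lam ω = τ
  · rw [if_pos h, Finset.sum_eq_single (z, ω)]
    · rw [if_pos]
      simp only [bnbφ, h]
    · intro y _ hy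
      rw [if_neg]
      intro hc
      apply hy
      simp only [bnbφ, Prod.mk.injEq] at hc
      exact Prod.ext hc.1.1 hc.2
    · intro hc
      exact absurd (Finset.mem_univ _) hc
  · rw [if_neg h]
    refine Finset.sum_eq_zero fun y _ => if_neg fun hc => h ?_
    simp only [bnbφ, Prod.mk.injEq] at hc
    rw [← hc.2]
    exact hc.1.2

/-- LEAF `L-F3-G1`  the path law on the product space (`hL.joint`, `FLaw.pr` of a singleton: as at the end of the proof of `tp_law_exists`). -/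
theorem bnb_P_p (hL : (F.D j).geo.IsLaw B.J B.Y' P Prod.fst Prod.snd) (z : (F.D j).Y) (ω : (F.D j).Lb 0) :
    P.p (z, ω) = if z ∈ B.Y' then B.J z ω / (B.Y'.card * ∑ ω', B.J z ω') else 0 := by
  have h0 := hL.joint z ω
  refine Eq.trans ?_ h0
  unfold FLaw.pr
  have h1 : ∀ x : (F.D j).Y × (F.D j).Lb 0, (x.1 = z ∧ x.2 = ω) ↔ x = (z, ω) := fun x =>
    ⟨fun h => Prod.ext h.1 h.2, fun h => by rw [h]; exact ⟨rfl, rfl⟩⟩
  symm
  rw [Finset.sum_eq_single (z, ω)]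
  · rw [if_pos ⟨rfl, rfl⟩]
  · intro x _ hx
    exact if_neg fun hc => hx ((h1 x).1 hc)
  · intro hc
    exact absurd (Finset.mem_univ _) hc

/-- LEAF `L-F3-G1`  the marginal of the witness (`bnb_p`, `rdM`, `Finset.sum_comm`, `Finset.sum_ite_eq`; `bnb_P_p`, `Finset.sum_div`, `hB.mass`: the total mass is positive). -/
theorem bnb_margZ (hB : B.Ok u γ K₁) (hK : 0 < K₁) (hL : (F.D j).geo.IsLaw B.J B.Y' P Prod.fst Prod.snd) (z : (F.D j).Y) :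
    ∑ τ, rdM (bnbCfg F j lam B u P).P (z, τ) = if z ∈ B.Y' then 1 / (B.Y'.card : ℝ) else 0 := by
  unfold rdM
  simp only [bnb_p]
  rw [Finset.sum_comm]
  simp only [Finset.sum_ite_eq, Finset.mem_univ, if_true]
  simp only [bnb_P_p hL]
  by_cases hz : z ∈ B.Y'
  · simp only [if_pos hz]
    rw [← Finset.sum_div]
    have hW : 0 < ∑ ω, B.J z ω := lt_of_lt_of_le (inv_pos.2 hK) (hB.mass z hz)
    have hN : (0 : ℝ) < B.Y'.card := by exact_mod_cast Finset.card_pos.2 ⟨_, hz⟩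
    field_simp
  · simp only [if_neg hz, Finset.sum_const_zero]

/-- LEAF `L-F3-G1`  the support: an atom of positive mass is attached to a retained active cell of its cap.
PLAN: `rdM ≠ 0` gives `ω` with `p ((z,τ),ω) ≠ 0` (`Finset.sum_eq_zero` contrapositive); `bnb_p`: `anc lam ω = τ`, `P.p (z, ω) ≠ 0`; `bnb_P_p`: `B.J z ω ≠ 0`; `hB.J_nonneg`, `hB.J_le`: `Jn B.R z ω ≠ 0`; `TGeo.tp_attached (hF.sys j) hg B.R z ω _ lam hlam`; `hB.R_lam`, `hB.R_sub`.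
(`cap lam T = T.1.1`, `inc lam z T = near lam (pt z) T.1`: `rfl`.) -/
theorem bnb_att (hF : F.Ok m') {g : GPar} (hg : (F.D j).geo.Ok g) (hB : B.Ok u γ K₁) (hL : (F.D j).geo.IsLaw B.J B.Y' P Prod.fst Prod.snd) (hlam : lam ≤ F.c.ℓ)
    (x : (F.D j).Y × (F.D j).Lb lam) (hx : rdM (bnbCfg F j lam B u P).P x ≠ 0) :
    ∃ T : (F.D j).Cl lam, T ∈ B.P0 ∧ T ∈ F.S j lam ∧ T.1.1 = x.2 ∧ (F.D j).near lam ((F.D j).pt x.1) T.1 := by
  obtain ⟨z, τ⟩ := x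
  have h1 : ∃ ω, (bnbCfg F j lam B u P).P.p ((z, τ), ω) ≠ 0 := by
    by_contra hcon
    push Not at hcon
    exact hx (Finset.sum_eq_zero fun ω _ => hcon ω)
  obtain ⟨ω, hω⟩ := h1
  rw [bnb_p] at hω
  by_cases ha : (F.D j).anc lam ω = τ
  swap
  · rw [if_neg ha] at hω
    exact absurd rfl hω
  rw [if_pos ha, bnb_P_p hL] at hω
  have hJ : B.J z ω ≠ 0 := by
    intro h0
    apply hω
    rw [h0, zero_div, ite_self]
  have hJn : (F.D j).geo.Jn B.R z ω ≠ 0 :=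
    ne_of_gt (lt_of_lt_of_le (lt_of_le_of_ne (hB.J_nonneg z ω) (Ne.symm hJ)) (hB.J_le z ω))
  obtain ⟨T, hT, hcap, hinc⟩ := TGeo.tp_attached (hF.sys j) hg B.R z ω hJn lam hlam
  exact ⟨T, hB.R_lam ω hT, hB.R_sub lam ω hT, hcap.trans ha, hinc⟩

/-! ## domination -/

theorem bnb_lcap_nonneg (hF : F.Ok m') (z : (F.D j).Y) (τ : (F.D j).Lb lam) : 0 ≤ F.lcap j lam z τ :=
  Finset.sum_nonneg fun ω _ => by
    split_ifs
    exacts [TGeo.leafw_nonneg (𝔊 := (F.D j).geo) (hF.sys j) z ω, le_rfl]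

theorem bnb_lcap_sum (hF : F.Ok m') (z : (F.D j).Y) (S : Finset ((F.D j).Lb lam)) : ∑ τ ∈ S, F.lcap j lam z τ ≤ (F.tp j).ϖ0 := by
  calc ∑ τ ∈ S, F.lcap j lam z τ ≤ ∑ τ, F.lcap j lam z τ :=
        Finset.sum_le_univ_sum_of_nonneg fun τ => bnb_lcap_nonneg hF z τ
    _ = ∑ ω : (F.D j).Lb 0, (F.D j).geo.leafw z ω := by
        unfold FCfg.lcap
        rw [Finset.sum_comm]
        refine Finset.sum_congr rfl fun ω _ => ?_
        rw [Finset.sum_ite_eq, if_pos (Finset.mem_univ _)]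
    _ ≤ (F.tp j).ϖ0 := TGeo.tp_sum_leafw (𝔊 := (F.D j).geo) (hF.sys j) z Finset.univ
/-- LEAF `L-F3-G2`  **the atypical atoms** (lower half of the cap law with the leaf weight of the cap).
PLAN: `fp_exc P₀ (fun y => y.1.2) (fun y => y.1.1) (fun z τ => F.lcap j lam z τ)` with `K = ϖ0`: `lcap ≥ 0` (`TGeo.leafw_nonneg (hF.sys j)`); `∑_{τ ∈ S} lcap z τ ≤ ∑_ω leafw z ω ≤ ϖ0` (`Finset.sum_comm`, each `ω` has one cap; `TGeo.tp_sum_leafw`);
`P₀.fib (pair (·.1.2) (·.1.1)) y = rdM P₀ y.1`, `P₀.fib (·.1.1) y = ∑ τ, rdM P₀ (y.1.1, τ)` (unfold `fib`, `pr`; `Fintype.sum_prod_type`). -/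
theorem bnb_bad (hF : F.Ok m') (B : BlkDat F j lam) (u : ℝ) (P : FLaw ((F.D j).Y × (F.D j).Lb 0)) {ε : ℝ} (hε : 0 ≤ ε) :
    (bnbCfg F j lam B u P).P.pr (fun y => ¬ bnbGood F j lam B u P ε y.1) ≤ ε * (F.tp j).ϖ0 := by
  obtain ⟨P₀, hP₀⟩ : ∃ P₀, P₀ = (bnbCfg F j lam B u P).P := ⟨_, rfl⟩
  have h1 := fp_exc P₀ (fun y => y.1.2) (fun y => y.1.1) (fun z τ => F.lcap j lam z τ) (fun z τ => bnb_lcap_nonneg hF z τ)
    (K := (F.tp j).ϖ0) (fun z S => bnb_lcap_sum hF z S) hε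
  have e1 : ∀ y, P₀.fib (pair (fun y : ((F.D j).Y × (F.D j).Lb lam) × (F.D j).Lb 0 => y.1.2) (fun y => y.1.1)) y = rdM P₀ y.1 := by
    intro y
    have : P₀.fib (pair (fun y : ((F.D j).Y × (F.D j).Lb lam) × (F.D j).Lb 0 => y.1.2) (fun y => y.1.1)) y = P₀.fib Prod.fst y := by
      unfold FLaw.fib
      refine ent_pr_congr P₀ fun y' _ => ?_
      simp only [pair, Prod.mk.injEq]
      exact ⟨fun h => Prod.ext h.2 h.1, fun h => by rw [h]; exact ⟨rfl, rfl⟩⟩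
    rw [this, rd_fib_fst]
    rfl
  have e2 : ∀ y, P₀.fib (fun y : ((F.D j).Y × (F.D j).Lb lam) × (F.D j).Lb 0 => y.1.1) y = ∑ τ, rdM P₀ (y.1.1, τ) := by
    intro y
    unfold FLaw.fib FLaw.pr rdM
    rw [Fintype.sum_prod_type, Fintype.sum_prod_type, Finset.sum_eq_single y.1.1]
    · simp
    · intro z' _ hz'
      exact Finset.sum_eq_zero fun τ _ => Finset.sum_eq_zero fun θ _ => if_neg hz'
    · intro h
      exact absurd (Finset.mem_univ _) h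
  rw [← hP₀]
  refine le_trans (ent_pr_mono P₀ fun y _ hb => ?_) h1
  rw [e1, e2]
  unfold bnbGood at hb
  rw [← hP₀] at hb
  exact not_le.1 hb

/-- LEAF `L-F3-G2`  **pointwise domination at the typical atoms.**
PLAN: `x = (z, τ)`.  `bnb_p`: if `anc lam θ ≠ τ` the left side is `0`.  `bnb_P_p`: if `z ∉ Y'` it is `0`.  Otherwise `p = J z θ / (N W)`, `W = ∑ J z · ≥ K₁⁻¹` (`hB.mass`), `J z θ ≤ K₁ ν lcap` (`hB.dom`; `grp x = ngrp .. (z, anc lam θ)`), `bnb_margZ`: `ε lcap / N ≤ rdM P₀ x`. -/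
theorem bnb_dom (hF : F.Ok m') (hB : B.Ok u γ K₁) (hK : 0 < K₁) (hL : (F.D j).geo.IsLaw B.J B.Y' P Prod.fst Prod.snd) {ε : ℝ} (hε : 0 < ε)
    (x : (F.D j).Y × (F.D j).Lb lam) (θ : (F.D j).Lb 0) (hx : bnbGood F j lam B u P ε x) :
    (bnbCfg F j lam B u P).P.p (x, θ) ≤ K₁ ^ 2 / ε * (bnbCfg F j lam B u P).ν ((bnbCfg F j lam B u P).grp x) θ * rdM (bnbCfg F j lam B u P).P x := by
  obtain ⟨z, τ⟩ := x
  have hr0 : 0 ≤ rdM (bnbCfg F j lam B u P).P (z, τ) := rd_M_nonneg _ _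
  have hν0 : 0 ≤ (bnbCfg F j lam B u P).ν ((bnbCfg F j lam B u P).grp (z, τ)) θ := hB.ν_nonneg _ _
  have hR0 : 0 ≤ K₁ ^ 2 / ε * (bnbCfg F j lam B u P).ν ((bnbCfg F j lam B u P).grp (z, τ)) θ * rdM (bnbCfg F j lam B u P).P (z, τ) := by
    positivity
  rw [bnb_p]
  by_cases ha : (F.D j).anc lam θ = τ
  swap
  · rw [if_neg ha]; exact hR0
  rw [if_pos ha, bnb_P_p hL]
  by_cases hz : z ∈ B.Y'
  swap
  · rw [if_neg hz]; exact hR0
  rw [if_pos hz]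
  subst ha
  unfold bnbGood at hx
  rw [bnb_margZ hB hK hL, if_pos hz] at hx
  have hW : K₁⁻¹ ≤ ∑ ω, B.J z ω := hB.mass z hz
  have hW0 : 0 < ∑ ω, B.J z ω := lt_of_lt_of_le (inv_pos.2 hK) hW
  have hN : (0 : ℝ) < B.Y'.card := by exact_mod_cast Finset.card_pos.2 ⟨_, hz⟩
  have hd := hB.dom z θ
  have hlc := bnb_lcap_nonneg (lam := lam) hF z ((F.D j).anc lam θ)
  obtain ⟨ν0, hν0d⟩ : ∃ ν0, ν0 = (bnbCfg F j lam B u P).ν ((bnbCfg F j lam B u P).grp (z, (F.D j).anc lam θ)) θ := ⟨_, rfl⟩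
  have hd' : B.J z θ ≤ K₁ * ν0 * F.lcap j lam z ((F.D j).anc lam θ) := by rw [hν0d]; exact hd
  rw [← hν0d] at hν0 ⊢
  obtain ⟨r, hr⟩ : ∃ r, r = rdM (bnbCfg F j lam B u P).P (z, (F.D j).anc lam θ) := ⟨_, rfl⟩
  rw [← hr] at hx hr0 ⊢
  obtain ⟨lc, hlcd⟩ : ∃ lc, lc = F.lcap j lam z ((F.D j).anc lam θ) := ⟨_, rfl⟩
  simp only [] at hx
  rw [← hlcd] at hx hd' hlc
  rw [div_le_iff₀ (by positivity)]
  calc B.J z θ ≤ K₁ * ν0 * lc := hd'
    _ = K₁ ^ 2 * ν0 * lc * K₁⁻¹ := by field_simp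
    _ ≤ K₁ ^ 2 * ν0 * lc * ∑ ω, B.J z ω := mul_le_mul_of_nonneg_left hW (by positivity)
    _ = K₁ ^ 2 / ε * ν0 * (ε * lc * (1 / (B.Y'.card : ℝ))) * ((B.Y'.card : ℝ) * ∑ ω, B.J z ω) := by field_simp
    _ ≤ K₁ ^ 2 / ε * ν0 * r * ((B.Y'.card : ℝ) * ∑ ω, B.J z ω) := by
        refine mul_le_mul_of_nonneg_right (mul_le_mul_of_nonneg_left hx (by positivity)) (by positivity)

/-! ## the count -/

theorem bnb_floor_close {s a b : ℝ} (hs : 0 < s) (h : ⌊a / s⌋ = ⌊b / s⌋) : |a - b| ≤ s := by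
  have h1 := Int.abs_sub_lt_one_of_floor_eq_floor h
  rw [← sub_div, abs_div, abs_of_pos hs, div_lt_one hs] at h1
  exact h1.le

theorem bnb_stv_close {k : ℕ} (hk1 : 1 ≤ k) {s : ℝ} (hs : 0 < s) (X c : ST k) (h : ∀ l, |stv X l - stv c l| ≤ s) : ‖X - c‖ ≤ (k : ℝ) * s := by
  have hk : (1 : ℝ) ≤ k := by exact_mod_cast hk1
  rw [Prod.norm_def]
  refine max_le ?_ ?_
  · rw [EuclideanSpace.norm_eq]
    refine Real.sqrt_le_iff.2 ⟨by positivity, ?_⟩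
    have h1 : ∀ i : Fin k, ‖(X - c).1 i‖ ^ 2 ≤ s ^ 2 := by
      intro i
      have h2 := h i.succ
      simp only [stv, Fin.cons_succ] at h2
      have h3 : (X - c).1 i = X.1 i - c.1 i := rfl
      rw [h3, Real.norm_eq_abs]
      exact pow_le_pow_left₀ (abs_nonneg _) h2 2
    calc ∑ i : Fin k, ‖(X - c).1 i‖ ^ 2 ≤ ∑ _i : Fin k, s ^ 2 := Finset.sum_le_sum fun i _ => h1 i
      _ = (k : ℝ) * s ^ 2 := by simp
      _ ≤ ((k : ℝ) * s) ^ 2 := by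
        have : 0 ≤ s ^ 2 := by positivity
        nlinarith
  · have h2 := h 0
    simp only [stv, Fin.cons_zero] at h2
    have h3 : (X - c).2 = X.2 - c.2 := rfl
    rw [h3, Real.norm_eq_abs]
    nlinarith
/-- LEAF `L-F3-G3`  **`cnt`.**
PLAN.  `x0 = (z0, τ0)`, `c = natX κ_lam (fr lam τ0) (pt z0)`.   For `x = (z, τ)` in the filter: `iso` equal gives `τ = τ0` (first component of `grp`) and `⌊npos x l / s⌋ = ⌊npos x0 l / s⌋`, so `|npos x l - npos x0 l| < s` for all `l`, hence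
`‖natX .. (pt z) - c‖ ≤ (n+1) s` (`Prod.norm_def`; `‖v‖ ≤ ∑ |v i|` in `E (n+1)`; `stv`: `Fin.cons`).   `bnb_att` gives `T ∈ P0 ∩ S lam`, `T.1.1 = τ0`, `‖natX .. (pt z) - lat T.1.2‖ ≤ G lam` (first half of `near`, `TDat.X`), so `‖lat T.1.2 - c‖ ≤ κ_i/κ_lam` (`h3`).
So the filter injects (`x ↦ x.1`) into `⋃_{T ∈ 𝒯'} {z | inc lam z T}`, `𝒯'` = the filter of `hB.cnt i .. τ0 c`;  `Finset.card_biUnion_le`, `(hF.frozen j).occ_le lam hlam T` (`TSys.occ`; `F.Mo j lam = vol (r/A)^q`: `rfl`). -/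
theorem bnb_cnt (hF : F.Ok m') {g : GPar} (hg : (F.D j).geo.Ok g) (hB : B.Ok u γ K₁) (hK : 0 < K₁) (hL : (F.D j).geo.IsLaw B.J B.Y' P Prod.fst Prod.snd) (hlam : lam ≤ F.c.ℓ)
    {s : ℝ} (hs : 0 < s) (i : ℕ) (hi : i ≤ lam) (h1 : u / 2 ≤ F.s j i - F.s j lam) (h2 : F.s j i - F.s j lam ≤ 5 * u)
    (h3 : (F.D j).G lam + ((n : ℝ) + 1) * s ≤ (F.D j).κ i / (F.D j).κ lam) (x0 : (F.D j).Y × (F.D j).Lb lam) :
    (((Finset.univ.filter fun x => rdM (bnbCfg F j lam B u P).P x ≠ 0 ∧ (bnbCfg F j lam B u P).iso s x = (bnbCfg F j lam B u P).iso s x0).card : ℕ) : ℝ) ≤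
      K₁ * ((F.D j).κ i / (F.D j).κ lam) ^ (n + 1 + 1) * (F.r j i / F.r j lam) ^ pk' (n + 1) * (F.Go * F.Mo j lam) := by
  obtain ⟨z0, τ0⟩ := x0
  obtain ⟨c, hc⟩ : ∃ c : ST (n + 1), c = natX ((F.D j).κ lam) ((F.D j).fr lam τ0) ((F.D j).pt z0) := ⟨_, rfl⟩
  have hcard := hB.cnt i hi h1 h2 τ0 c
  obtain ⟨𝒯, h𝒯⟩ : ∃ 𝒯 : Finset ((F.D j).sys.C lam), 𝒯 = B.P0.filter fun T : (F.D j).Cl lam => T.1.1 = τ0 ∧ ‖lat T.1.2 - c‖ ≤ (F.D j).κ i / (F.D j).κ lam := ⟨_, rfl⟩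
  rw [← h𝒯] at hcard
  obtain ⟨𝒜, h𝒜⟩ : ∃ 𝒜, 𝒜 = Finset.univ.filter fun x => rdM (bnbCfg F j lam B u P).P x ≠ 0 ∧ (bnbCfg F j lam B u P).iso s x = (bnbCfg F j lam B u P).iso s (z0, τ0) := ⟨_, rfl⟩
  rw [← h𝒜]
  have key : ∀ x ∈ 𝒜, x.2 = τ0 ∧ ∃ T ∈ 𝒯.filter (fun T => T ∈ F.S j lam), (F.D j).sys.inc lam x.1 T := by
    rintro ⟨z, τ⟩ hx
    rw [h𝒜, Finset.mem_filter] at hx
    obtain ⟨-, hr, hiso⟩ := hx
    simp only [BnCfg.iso, Prod.mk.injEq] at hiso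
    obtain ⟨hgrp, hpos⟩ := hiso
    have hτ : τ = τ0 := congrArg Prod.fst hgrp
    subst hτ
    refine ⟨rfl, ?_⟩
    obtain ⟨T, hT1, hT2, hT3, hT4⟩ := bnb_att hF hg hB hL hlam (z, τ) hr
    refine ⟨T, ?_, hT4⟩
    refine Finset.mem_filter.2 ⟨?_, hT2⟩
    rw [h𝒯]
    refine Finset.mem_filter.2 ⟨hT1, hT3, ?_⟩
    have a1 : ‖natX ((F.D j).κ lam) ((F.D j).fr lam τ) ((F.D j).pt z) - c‖ ≤ ((n + 1 : ℕ) : ℝ) * s := by
      refine bnb_stv_close (by omega) hs _ _ fun l => ?_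
      rw [hc]
      exact bnb_floor_close hs (congrFun hpos l)
    have a2 : ‖natX ((F.D j).κ lam) ((F.D j).fr lam τ) ((F.D j).pt z) - lat T.1.2‖ ≤ (F.D j).G lam := by
      have := hT4.1
      unfold TDat.X at this
      rw [hT3] at this
      exact this
    have a3 : lat T.1.2 - c = (natX ((F.D j).κ lam) ((F.D j).fr lam τ) ((F.D j).pt z) - c) - (natX ((F.D j).κ lam) ((F.D j).fr lam τ) ((F.D j).pt z) - lat T.1.2) := by
      abel
    rw [a3]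
    refine (norm_sub_le _ _).trans ?_
    push_cast at a1
    linarith
  have hGo : 0 < F.Go := lt_of_lt_of_le (lt_of_lt_of_le one_pos (hF.sys j).one_le_ϖ1) (hF.ϖ1_Go j)
  have hMo : 0 ≤ F.Mo j lam := by
    unfold FCfg.Mo TSys.Mocc
    have b1 := (hF.sys j).vol_pos lam
    have b2 := (hF.frozen j).r_pos lam
    have b3 := hF.one_le_A j
    have b4 : 0 ≤ F.r j lam / F.A j := by positivity
    positivity
  have hinj : 𝒜.card ≤ ((𝒯.filter (fun T => T ∈ F.S j lam)).biUnion fun T => Finset.univ.filter fun z => (F.D j).sys.inc lam z T).card := by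
    refine Finset.card_le_card_of_injOn Prod.fst ?_ ?_
    · intro x hx
      obtain ⟨-, T, hT, hinc⟩ := key x hx
      exact Finset.mem_coe.2 (Finset.mem_biUnion.2 ⟨T, hT, Finset.mem_filter.2 ⟨Finset.mem_univ _, hinc⟩⟩)
    · intro x hx y hy hxy
      exact Prod.ext hxy ((key x hx).1.trans (key y hy).1.symm)
  have hsum : (((𝒯.filter (fun T => T ∈ F.S j lam)).biUnion fun T => Finset.univ.filter fun z => (F.D j).sys.inc lam z T).card : ℝ)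
      ≤ ∑ T ∈ 𝒯.filter (fun T => T ∈ F.S j lam), (F.Go * F.Mo j lam) := by
    calc (((𝒯.filter (fun T => T ∈ F.S j lam)).biUnion fun T => Finset.univ.filter fun z => (F.D j).sys.inc lam z T).card : ℝ)
        ≤ ((∑ T ∈ 𝒯.filter (fun T => T ∈ F.S j lam), (Finset.univ.filter fun z => (F.D j).sys.inc lam z T).card : ℕ) : ℝ) := by
          exact_mod_cast Finset.card_biUnion_le
      _ = ∑ T ∈ 𝒯.filter (fun T => T ∈ F.S j lam), (((Finset.univ.filter fun z => (F.D j).sys.inc lam z T).card : ℕ) : ℝ) := by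
          push_cast; rfl
      _ ≤ _ := by
          refine Finset.sum_le_sum fun T hT => ?_
          exact (hF.frozen j).occ_le lam hlam T (Finset.mem_filter.1 hT).2
  rw [Finset.sum_const, nsmul_eq_mul] at hsum
  calc (𝒜.card : ℝ) ≤ _ := by exact_mod_cast hinj
    _ ≤ ((𝒯.filter (fun T => T ∈ F.S j lam)).card : ℝ) * (F.Go * F.Mo j lam) := hsum
    _ ≤ (𝒯.card : ℝ) * (F.Go * F.Mo j lam) := by
        refine mul_le_mul_of_nonneg_right ?_ (by positivity)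
        exact_mod_cast Finset.card_filter_le _ _
    _ ≤ _ := mul_le_mul_of_nonneg_right hcard (by positivity)

/-! ## occupancy -/

/-- LEAF `L-F3-G4`  **lower half of the occupancy law.**
PLAN: `TGeo.tp_occ_law (hF.sys j) hg (hF.frozen j) .. (R := B.R) hB.R_sub hB.J_nonneg hB.J_le hL hY K₁⁻¹ .. hB.mass (F.K * K₁) hbal i hi Ko ..` (`p.q = qk (n+1)`: `rfl`);
`hbal`: `hF.bal j`, `Fintype.card F.Qc = Fintype.card (F.D j).Y` (`Fintype.card_congr (F.e j)`), `hB.card`.   `ent_pr_mono`: keep the lower half.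
Transfer to `P₀ = P.map φ`: `ent_map_pr`, `ent_map_fib` (`(pair (bnbCel i) snd) ∘ φ = pair (cel i ..) snd`: `rfl`), `P₀.p (φ y) = P.p y` (`bnb_p`), `P.fib (pair fst snd) y = P.p y`. -/
theorem bnb_occ (hF : F.Ok m') {g : GPar} (hg : (F.D j).geo.Ok g) (hB : B.Ok u γ K₁) (hK : 0 < K₁) (hL : (F.D j).geo.IsLaw B.J B.Y' P Prod.fst Prod.snd)
    (i : ℕ) (hi : i ≤ F.c.ℓ) (Ko : ℝ) (hK1 : g.Γc ^ F.c.ℓ / K₁⁻¹ ≤ Ko) (hK2 : (F.tp j).ϖ0 ≤ Ko) (hK3 : g.Kc ≤ Ko) (hK4 : g.Γc ^ F.c.ℓ * g.Γw / K₁⁻¹ ≤ Ko)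
    (hK5 : g.m * F.K * (F.K * K₁) ≤ Ko) (hK6 : g.m * F.Go ≤ Ko) {t : ℝ} (ht : 0 < t) :
    (bnbCfg F j lam B u P).P.pr (fun y => (bnbCfg F j lam B u P).P.fib (pair (bnbCel F j lam i) Prod.snd) y < F.Mo j i / (Ko * t) * (bnbCfg F j lam B u P).P.p y) ≤ 2 * Ko / t := by
  have hA : 0 < F.A j := by linarith [hF.one_le_A j]
  have hcardY : 0 < Fintype.card (F.D j).Y := by
    obtain ⟨q⟩ := hF.ne
    exact Fintype.card_pos_iff.2 ⟨F.e j q⟩
  have hY : B.Y'.Nonempty := by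
    rw [Finset.nonempty_iff_ne_empty]
    intro h0
    have h1 := hB.card
    rw [h0, Finset.card_empty, Nat.cast_zero, mul_zero] at h1
    have h2 : (0 : ℝ) < Fintype.card (F.D j).Y := Nat.cast_pos.2 hcardY
    linarith
  have hbal : (F.D j).sys.D ≤ (F.K * K₁) * (B.Y'.card * F.A j ^ (qk (n + 1))) := by
    have h1 := hF.bal j
    rw [Fintype.card_congr (F.e j)] at h1
    have hK0 : 0 ≤ F.K := by linarith [hF.two_le_K]
    have hAq : 0 ≤ F.A j ^ qk (n + 1) := by positivity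
    calc _ ≤ F.K * (Fintype.card (F.D j).Y * F.A j ^ qk (n + 1)) := h1
      _ ≤ F.K * ((K₁ * B.Y'.card) * F.A j ^ qk (n + 1)) := by
        gcongr
        exact hB.card
      _ = _ := by ring
  have key := TGeo.tp_occ_law (hF.sys j) hg (hF.frozen j) hA hB.R_sub hB.J_nonneg hB.J_le hL hY K₁⁻¹ (inv_pos.2 hK) hB.mass (F.K * K₁) hbal i hi Ko hK1 hK2 hK3 hK4 hK5 hK6 ht
  refine le_trans ?_ key
  change (P.map (bnbφ F j lam)).pr _ ≤ _
  rw [ent_map_pr]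
  refine ent_pr_mono P fun y _ hy hcon => ?_
  have e1 : (bnbCfg F j lam B u P).P.fib (pair (bnbCel F j lam i) Prod.snd) (bnbφ F j lam y) = P.fib (pair (fun x => (F.D j).geo.cel i x.1 x.2) Prod.snd) y :=
    ent_map_fib P (bnbφ F j lam) _ y
  have e2 : (bnbCfg F j lam B u P).P.p (bnbφ F j lam y) = P.p y := by
    have h1 := bnb_p B u P y.1 ((F.D j).anc lam y.2) y.2
    rw [if_pos rfl] at h1
    exact h1
  have e3 : P.fib (pair Prod.fst Prod.snd) y = P.p y := by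
    unfold FLaw.fib FLaw.pr
    rw [Finset.sum_eq_single y]
    · rw [if_pos rfl]
    · intro y' _ hne
      rw [if_neg]
      intro h
      exact hne h
    · intro h
      exact absurd (Finset.mem_univ _) h
  rw [e1, e2] at hy
  have h1 := hcon.1
  change (F.D j).sys.Mocc (F.tp j).q (F.A j) (F.r j) i / (Ko * t) * P.fib (pair Prod.fst Prod.snd) y ≤ _ at h1
  rw [e3] at h1
  exact absurd h1 (not_le.2 hy)

/-- LEAF `L-F3-G5`  **the key identity**: the tilted cell of FR2 in the native coordinates of the cap.   (`natX`, `stv`, `Fin.cons_succ`, `Fin.cons_zero`; `field_simp`; `σ = κ_i/κ_lam`.) -/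
theorem bnb_cel (hκi : 0 < (F.D j).κ lam) (i : ℕ) (hκ : 0 < (F.D j).κ i) (z : (F.D j).Y) (ω : (F.D j).Lb 0) :
    (∀ l : Fin (n + 1), (natX ((F.D j).κ i) ((F.D j).fr 0 ω) ((F.D j).pt z)).1 l =
      (F.npos j lam (z, (F.D j).anc lam ω) l.succ - F.npos j lam (z, (F.D j).anc lam ω) 0 * F.ndir j lam ω l.succ) / ((F.D j).κ i / (F.D j).κ lam)) ∧
    (natX ((F.D j).κ i) ((F.D j).fr 0 ω) ((F.D j).pt z)).2 = F.npos j lam (z, (F.D j).anc lam ω) 0 / ((F.D j).κ i / (F.D j).κ lam) ^ 2 := by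
  constructor
  · intro l
    simp only [FCfg.npos, FCfg.ndir, stv, natX, Fin.cons_succ, Fin.cons_zero, PiLp.smul_apply, PiLp.sub_apply, smul_eq_mul]
    field_simp
    ring
  · simp only [FCfg.npos, stv, natX, Fin.cons_zero]
    field_simp

/-- LEAF `L-F3-G5`  a floor label at a coarser scale has at most two values on a set of diameter `≤` the scale:  if `|a - a0| ≤ d ≤ s` then `⌊a/s⌋ ∈ {⌊a0/s⌋ - 1, ⌊a0/s⌋, ⌊a0/s⌋ + 1}`;  SHARPER (used): if `c ≤ a < c + d`, `d ≤ s`, then `⌊a/s⌋ ∈ {⌊c/s⌋, ⌊c/s⌋ + 1}`. -/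
theorem bnb_floor_two {s d c a : ℝ} (hs : 0 < s) (hd : d ≤ s) (h1 : c ≤ a) (h2 : a < c + d) : ⌊a / s⌋ = ⌊c / s⌋ ∨ ⌊a / s⌋ = ⌊c / s⌋ + 1 := by
  have e1 : c / s ≤ a / s := div_le_div_of_nonneg_right h1 hs.le
  have e2 : a / s < c / s + 1 := by
    have : a / s < (c + s) / s := div_lt_div_of_pos_right (by linarith) hs
    rwa [add_div, div_self hs.ne'] at this
  have f1 : ⌊c / s⌋ ≤ ⌊a / s⌋ := Int.floor_le_floor e1
  have f2 : ⌊a / s⌋ ≤ ⌊c / s⌋ + 1 := by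
    have : ⌊a / s⌋ ≤ ⌊c / s + 1⌋ := Int.floor_le_floor e2.le
    rwa [Int.floor_add_one] at this
  omega

theorem bnb_mult_fl {σ w : ℝ} {a : ℤ} (hσ : 0 < σ) (h : ⌊w / σ⌋ = a) : σ * a ≤ w ∧ w < σ * a + σ := by
  rw [Int.floor_eq_iff, le_div_iff₀ hσ, div_lt_iff₀ hσ] at h
  constructor <;> nlinarith [h.1, h.2]

theorem bnb_mult_abs {n : ℕ} {σ s s2 Rb A : ℝ} (hσ : 0 < σ) (h1 : σ ≤ s) (h2 : σ ^ 2 ≤ s2) (h3 : σ + A * σ ^ 2 ≤ Rb) (hA1 : 1 ≤ A)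
    (v : Fin (n + 2) → ℝ) (hv0 : v 0 = 1) (hv : ∀ l, |v l| ≤ A) (a : Fin (n + 1) → ℤ) (b : ℤ) :
    ∃ S : Finset ((Fin (n + 2) → ℤ) × (Fin (n + 2) → ℤ) × ℤ), S.card ≤ 2 ^ (2 * n + 4) ∧
      ∀ x : Fin (n + 2) → ℝ, (∀ l : Fin (n + 1), ⌊(x l.succ - x 0 * v l.succ) / σ⌋ = a l) → ⌊x 0 / σ ^ 2⌋ = b →
        ((fun l => ⌊x l / Rb⌋), bnTub s x v, ⌊x 0 / s2⌋) ∈ S := by
  have hσ2 : 0 < σ ^ 2 := by positivity
  have hs : 0 < s := hσ.trans_le h1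
  have hs2 : 0 < s2 := hσ2.trans_le h2
  have hRb : 0 < Rb := by nlinarith
  have hσRb : σ ^ 2 ≤ Rb := by nlinarith
  obtain ⟨c, hc⟩ : ∃ c : Fin (n + 2) → ℝ, c = Fin.cons (σ ^ 2 * b) (fun l : Fin (n + 1) => σ * a l + min (σ ^ 2 * b * v l.succ) ((σ ^ 2 * b + σ ^ 2) * v l.succ)) := ⟨_, rfl⟩
  obtain ⟨T2, hT2⟩ : ∃ T2 : Fin (n + 2) → Finset ℤ, T2 = Fin.cons ({0} : Finset ℤ) (fun l' : Fin (n + 1) => ({⌊σ * a l' / s⌋, ⌊σ * a l' / s⌋ + 1} : Finset ℤ)) := ⟨_, rfl⟩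
  refine ⟨(Fintype.piFinset fun l => ({⌊c l / Rb⌋, ⌊c l / Rb⌋ + 1} : Finset ℤ)) ×ˢ (Fintype.piFinset T2) ×ˢ ({⌊σ ^ 2 * b / s2⌋, ⌊σ ^ 2 * b / s2⌋ + 1} : Finset ℤ), ?_, ?_⟩
  · rw [Finset.card_product, Finset.card_product, Fintype.card_piFinset, Fintype.card_piFinset, Fin.prod_univ_succ (fun l => (T2 l).card)]
    have e1 : ∏ l : Fin (n + 2), ({⌊c l / Rb⌋, ⌊c l / Rb⌋ + 1} : Finset ℤ).card ≤ 2 ^ (n + 2) := by
      refine (Finset.prod_le_pow_card _ _ 2 fun l _ => Finset.card_le_two).trans_eq ?_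
      rw [Finset.card_univ, Fintype.card_fin]
    have e2 : ∏ l : Fin (n + 1), (T2 l.succ).card ≤ 2 ^ (n + 1) := by
      refine (Finset.prod_le_pow_card _ _ 2 fun l _ => ?_).trans_eq ?_
      · rw [hT2, Fin.cons_succ]
        exact Finset.card_le_two
      · rw [Finset.card_univ, Fintype.card_fin]
    have e3 : (T2 0).card = 1 := by
      rw [hT2, Fin.cons_zero, Finset.card_singleton]
    have e4 : ({⌊σ ^ 2 * b / s2⌋, ⌊σ ^ 2 * b / s2⌋ + 1} : Finset ℤ).card ≤ 2 := Finset.card_le_two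
    rw [e3, one_mul]
    calc _ ≤ 2 ^ (n + 2) * (2 ^ (n + 1) * 2) := Nat.mul_le_mul e1 (Nat.mul_le_mul e2 e4)
      _ = 2 ^ (2 * n + 4) := by
        rw [← pow_succ, ← pow_add]
        congr 1
        omega
  · intro x hx hb
    obtain ⟨t1, t2⟩ := bnb_mult_fl hσ2 hb
    rw [Finset.mem_product, Finset.mem_product, Fintype.mem_piFinset, Fintype.mem_piFinset]
    refine ⟨fun l => ?_, fun l => ?_, ?_⟩
    · rw [Finset.mem_insert, Finset.mem_singleton]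
      refine Fin.cases ?_ (fun l' => ?_) l
      · refine bnb_floor_two hRb hσRb ?_ ?_
        · rw [hc, Fin.cons_zero]; exact t1
        · rw [hc, Fin.cons_zero]; exact t2
      · obtain ⟨w1, w2⟩ := bnb_mult_fl hσ (hx l')
        have hvl := abs_le.1 (hv l'.succ)
        refine bnb_floor_two (d := σ + A * σ ^ 2) hRb h3 ?_ ?_
        · rw [hc, Fin.cons_succ]
          rcases le_total 0 (v l'.succ) with hv0' | hv0'
          · have := min_le_left (σ ^ 2 * b * v l'.succ) ((σ ^ 2 * b + σ ^ 2) * v l'.succ)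
            have h5 : σ ^ 2 * b * v l'.succ ≤ x 0 * v l'.succ := mul_le_mul_of_nonneg_right t1 hv0'
            linarith
          · have := min_le_right (σ ^ 2 * b * v l'.succ) ((σ ^ 2 * b + σ ^ 2) * v l'.succ)
            have h5 : (σ ^ 2 * b + σ ^ 2) * v l'.succ ≤ x 0 * v l'.succ := mul_le_mul_of_nonpos_right t2.le hv0'
            linarith
        · rw [hc, Fin.cons_succ]
          rcases le_total 0 (v l'.succ) with hv0' | hv0'
          · have e : min (σ ^ 2 * b * v l'.succ) ((σ ^ 2 * b + σ ^ 2) * v l'.succ) = σ ^ 2 * b * v l'.succ :=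
              min_eq_left (mul_le_mul_of_nonneg_right (by linarith) hv0')
            rw [e]
            have h5 : x 0 * v l'.succ ≤ (σ ^ 2 * b + σ ^ 2) * v l'.succ := mul_le_mul_of_nonneg_right t2.le hv0'
            have h6 : σ ^ 2 * v l'.succ ≤ σ ^ 2 * A := mul_le_mul_of_nonneg_left hvl.2 hσ2.le
            nlinarith
          · have e : min (σ ^ 2 * b * v l'.succ) ((σ ^ 2 * b + σ ^ 2) * v l'.succ) = (σ ^ 2 * b + σ ^ 2) * v l'.succ :=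
              min_eq_right (mul_le_mul_of_nonpos_right (by linarith) hv0')
            rw [e]
            have h5 : x 0 * v l'.succ ≤ σ ^ 2 * b * v l'.succ := mul_le_mul_of_nonpos_right t1 hv0'
            have h6 : σ ^ 2 * (-A) ≤ σ ^ 2 * v l'.succ := mul_le_mul_of_nonneg_left hvl.1 hσ2.le
            nlinarith
    · refine Fin.cases ?_ (fun l' => ?_) l
      · rw [hT2, Fin.cons_zero, Finset.mem_singleton]
        show ⌊(x 0 - x 0 * v 0) / s⌋ = 0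
        rw [hv0, mul_one, sub_self, zero_div, Int.floor_zero]
      · rw [hT2, Fin.cons_succ, Finset.mem_insert, Finset.mem_singleton]
        obtain ⟨w1, w2⟩ := bnb_mult_fl hσ (hx l')
        exact bnb_floor_two hs h1 w1 w2
    · rw [Finset.mem_insert, Finset.mem_singleton]
      exact bnb_floor_two hs2 h2 t1 t2

/-- LEAF `L-F3-G6`  **the cells of BIN over the cells of FR2.**   `σ = κ_i/κ_lam ≤ s`, `σ² ≤ s2`, `σ + A σ² ≤ Λ^{5u}`.
PLAN.  On the support `y.1.2 = anc lam y.2` (`bnb_p`).   Fix `y₀`; let `(a, b) = bnbCel i y₀`, `θ = y₀.2`.  For `y` in the support with the same `(cel, θ)`: by `bnb_cel`, with `(X, τ) = npos`, `v = ndir θ`: `(X_l - τ v_l)/σ ∈ [a_l, a_l + 1)`, `τ/σ² ∈ [b, b+1)`.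
`tub s s2 y = (grp, bnTub s pos dir, ⌊τ/s2⌋)`:  `bnTub .. 0 = ⌊0/s⌋ = 0` (`dir 0 = 1`);  `bnTub .. l.succ`: `bnb_floor_two` (`c = σ a_l`, `d = σ`);  time: `bnb_floor_two` (`c = σ² b`, `d = σ²`);
macro box: time as before (`σ² ≤ Λ^{5u}`), space `X_l = (X_l - τ v_l) + τ v_l` ranges in an interval of length `< σ + A σ²` (cases on the sign of `v_l`).     `S` = image of `{0,1}^{n+2} × {0,1}^{n+1} × {0,1}` (`Fintype.piFinset`), `card ≤ 2^{n+2} 2^{n+1} 2`. -/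
theorem bnb_mult (B : BlkDat F j lam) (u : ℝ) (P : FLaw ((F.D j).Y × (F.D j).Lb 0)) {A s s2 : ℝ} (hκl : 0 < (F.D j).κ lam) (i : ℕ) (hκ : 0 < (F.D j).κ i)
    (hA : ∀ ω l, |F.ndir j lam ω l| ≤ A) (hA1 : 1 ≤ A) (h1 : (F.D j).κ i / (F.D j).κ lam ≤ s) (h2 : ((F.D j).κ i / (F.D j).κ lam) ^ 2 ≤ s2)
    (h3 : (F.D j).κ i / (F.D j).κ lam + A * ((F.D j).κ i / (F.D j).κ lam) ^ 2 ≤ F.Λ ^ (5 * u)) :
    (bnbCfg F j lam B u P).P.NVal (fun _ => True) ((bnbCfg F j lam B u P).tub s s2) (pair (bnbCel F j lam i) Prod.snd) (2 ^ (2 * n + 4)) := by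
  intro y₀
  obtain ⟨S, hS, hS2⟩ := bnb_mult_abs (n := n) (div_pos hκ hκl) h1 h2 h3 hA1 (F.ndir j lam y₀.2) rfl (hA y₀.2) (bnbCel F j lam i y₀).1 (bnbCel F j lam i y₀).2
  refine ⟨S.image fun q => (((F.D j).anc lam y₀.2, q.1), q.2.1, q.2.2), ?_, fun y hy _ hyy => ?_⟩
  · have h4 : ((S.image fun q => (((F.D j).anc lam y₀.2, q.1), q.2.1, q.2.2)).card : ℝ) ≤ S.card := by exact_mod_cast Finset.card_image_le
    refine h4.trans ?_
    exact_mod_cast hS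
  · obtain ⟨⟨z, τ⟩, ω⟩ := y
    simp only [pair, Prod.mk.injEq] at hyy
    obtain ⟨hcel, hω⟩ := hyy
    have hω' : ω = y₀.2 := hω
    subst hω'
    rw [bnb_p] at hy
    have hτ : (F.D j).anc lam y₀.2 = τ := by
      by_contra hcon
      rw [if_neg hcon] at hy
      exact hy rfl
    subst hτ
    obtain ⟨c1, c2⟩ := bnb_cel (F := F) (j := j) (lam := lam) hκl i hκ z y₀.2
    rw [Finset.mem_image]
    refine ⟨_, hS2 (F.npos j lam (z, (F.D j).anc lam y₀.2)) (fun l => ?_) ?_, rfl⟩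
    · rw [← c1 l, ← hcel]
      rfl
    · rw [← c2, ← hcel]
      rfl

/-! ## directions -/

theorem bnb_dir0 (ω : (F.D j).Lb 0) : F.ndir j lam ω 0 = 1 := rfl

/-- LEAF `L-F3-G7`  a leaf label is within `2 Cc/κ_i` of its ancestor when the scales at least double from the height `1` on (NO factor `ℓ`).   PLAN: induction on `i`; `hD.par_near i`, `TDat.anc`; step `0 → 1`: `0 + Cc/κ_1`; step `i → i+1`, `1 ≤ i`: `2/κ_i ≤ 1/κ_{i+1}`. -/
theorem bnb_anc {c : TCls (n + 1)} (hc : c.Ok) (D : TDat c) (hD : D.Good) (h2 : ∀ i, 1 ≤ i → i < c.ℓ → 2 * D.κ (i + 1) ≤ D.κ i) (i : ℕ) (hi : i ≤ c.ℓ) (ω : D.Lb 0) :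
    ‖D.fr 0 ω - D.fr i (D.anc i ω)‖ ≤ 2 * c.Cc / D.κ i := by
  have hCc : 0 ≤ c.Cc := by linarith [hc.one_le_Cc]
  induction i with
  | zero =>
    have e : D.fr 0 ω - D.fr 0 (D.anc 0 ω) = 0 := sub_self _
    rw [e, norm_zero]
    have := hD.one_le_κ 0
    positivity
  | succ i ih =>
    have hκ1 : 0 < D.κ (i + 1) := by linarith [hD.one_le_κ (i + 1)]
    have hκi : 0 < D.κ i := by linarith [hD.one_le_κ i]
    have hp := hD.par_near i (D.anc i ω)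
    have htri : ‖D.fr 0 ω - D.fr (i + 1) (D.anc (i + 1) ω)‖ ≤ ‖D.fr 0 ω - D.fr i (D.anc i ω)‖ + ‖D.fr i (D.anc i ω) - D.fr (i + 1) (D.par i (D.anc i ω))‖ := by
      have e : D.fr 0 ω - D.fr (i + 1) (D.anc (i + 1) ω) = (D.fr 0 ω - D.fr i (D.anc i ω)) + (D.fr i (D.anc i ω) - D.fr (i + 1) (D.par i (D.anc i ω))) := by
        change D.fr 0 ω - D.fr (i + 1) (D.par i (D.anc i ω)) = _
        abel
      rw [e]
      exact norm_add_le _ _
    have e2 : 2 * c.Cc / D.κ (i + 1) = c.Cc / D.κ (i + 1) + c.Cc / D.κ (i + 1) := by ring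
    have hq : 0 ≤ c.Cc / D.κ (i + 1) := by positivity
    rcases Nat.eq_zero_or_pos i with h0 | h0
    · subst h0
      have e : D.fr 0 ω - D.fr 0 (D.anc 0 ω) = 0 := sub_self _
      have e0 : ‖D.fr 0 ω - D.fr 0 (D.anc 0 ω)‖ = 0 := by rw [e, norm_zero]
      linarith
    · have ih' := ih (by omega)
      have h3 : 2 * c.Cc / D.κ i ≤ c.Cc / D.κ (i + 1) := by
        rw [div_le_div_iff₀ hκi hκ1]
        have := h2 i h0 (by omega)
        nlinarith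
      linarith

/-- LEAF `L-F3-G7`  (`l = 0`: `bnb_dir0`; `l = l'.succ`: `|v l'| ≤ ‖v‖` (`PiLp.norm_apply_le`), `norm_smul`, `bnb_anc hF.cls _ (hF.good j) (hF.lac j)`.) -/
theorem bnb_hdir (hF : F.Ok m') (hlam : lam ≤ F.c.ℓ) (ω : (F.D j).Lb 0) (l : Fin (n + 1 + 1)) :
    |F.ndir j lam ω l| ≤ 4 * F.c.Cc + 1 := by
  have hCc : 0 ≤ F.c.Cc := by linarith [hF.cls.one_le_Cc]
  refine Fin.cases ?_ (fun l' => ?_) l
  · rw [bnb_dir0, abs_one]
    linarith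
  · have hκ : 0 < (F.D j).κ lam := by linarith [(hF.good j).one_le_κ lam]
    have ha := bnb_anc hF.cls _ (hF.good j) (hF.lac j) lam hlam ω
    have e : F.ndir j lam ω l'.succ = ((2 * (F.D j).κ lam) • ((F.D j).fr 0 ω - (F.D j).fr lam ((F.D j).anc lam ω))) l' := rfl
    rw [e]
    have h1 := PiLp.norm_apply_le ((2 * (F.D j).κ lam) • ((F.D j).fr 0 ω - (F.D j).fr lam ((F.D j).anc lam ω))) l'
    rw [Real.norm_eq_abs, norm_smul, Real.norm_eq_abs, abs_of_pos (show (0 : ℝ) < 2 * (F.D j).κ lam by positivity)] at h1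
    calc _ ≤ 2 * (F.D j).κ lam * ‖(F.D j).fr 0 ω - (F.D j).fr lam ((F.D j).anc lam ω)‖ := h1
      _ ≤ 2 * (F.D j).κ lam * (2 * F.c.Cc / (F.D j).κ lam) := by gcongr
      _ = 4 * F.c.Cc := by
        field_simp
        ring
      _ ≤ _ := by linarith

/-! ## the occupancy sizes -/

/-! ## the occupancy sizes -/

theorem bnb_ratio_aux (hF : F.Ok m') (i : ℕ) :
    (F.D j).κ i / (F.D j).κ lam = F.Λ ^ (F.s j i - F.s j lam) ∧ F.r j i / F.r j lam = F.Λ ^ (F.ρ j i - F.ρ j lam) := by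
  have hΛ : 3 ≤ F.Λ := by
    have := hF.Λ_ge
    have h0 : (0 : ℝ) ≤ m' := Nat.cast_nonneg _
    linarith
  have hΛ0 : 0 < F.Λ := by linarith
  have hΛ1 : F.Λ ≠ 1 := by linarith
  have hκ : ∀ a, 0 < (F.D j).κ a := fun a => by linarith [(hF.good j).one_le_κ a]
  have hr : ∀ a, 0 < F.r j a := (hF.frozen j).r_pos
  have hκr := hF.κr_pos j
  constructor
  · unfold FCfg.s
    rw [Real.rpow_sub hΛ0, Real.rpow_logb hΛ0 hΛ1 (div_pos (hκ i) hκr), Real.rpow_logb hΛ0 hΛ1 (div_pos (hκ lam) hκr)]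
    have := hκ lam
    field_simp
  · unfold FCfg.ρ
    rw [Real.rpow_sub hΛ0, Real.rpow_logb hΛ0 hΛ1 (hr i), Real.rpow_logb hΛ0 hΛ1 (hr lam)]

/-- LEAF `L-F3-G8`  `M_i / M_lam = Λ^{(k+2)(s_i - s_lam) + q (ρ_i - ρ_lam)}`.   (`TSys.Mocc`, `vol i = κ_i^{k+2}`; `Real.rpow_logb`, `Real.logb_div`-type: `κ_i/κ_lam = Λ^{s_i - s_lam}`, `r_i/r_lam = Λ^{ρ_i - ρ_lam}`; `Real.rpow_add`, `Real.rpow_mul`, `Real.div_rpow`.) -/
theorem bnb_Mo_ratio (hF : F.Ok m') (i : ℕ) :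
    F.Mo j i = F.Mo j lam * F.Λ ^ ((((n + 3 : ℕ) : ℝ)) * (F.s j i - F.s j lam) + qk (n + 1) * (F.ρ j i - F.ρ j lam)) := by
  have hΛ : 3 ≤ F.Λ := by
    have := hF.Λ_ge
    have h0 : (0 : ℝ) ≤ m' := Nat.cast_nonneg _
    linarith
  have hΛ0 : 0 < F.Λ := by linarith
  have hκ : ∀ a, 0 < (F.D j).κ a := fun a => by linarith [(hF.good j).one_le_κ a]
  have hr : ∀ a, 0 < F.r j a := (hF.frozen j).r_pos
  have hA : 0 < F.A j := by linarith [hF.one_le_A j]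
  obtain ⟨h1, h2⟩ := bnb_ratio_aux (j := j) (lam := lam) hF i
  rw [Real.rpow_add hΛ0, mul_comm (((n + 3 : ℕ) : ℝ)), Real.rpow_mul hΛ0.le, mul_comm (qk (n + 1)), Real.rpow_mul hΛ0.le, ← h1, ← h2,
    Real.rpow_natCast]
  show (F.D j).κ i ^ (n + 1 + 2) * (F.r j i / F.A j) ^ qk (n + 1) = (F.D j).κ lam ^ (n + 1 + 2) * (F.r j lam / F.A j) ^ qk (n + 1) * _
  have e1 : (F.r j i / F.A j) ^ qk (n + 1) = (F.r j lam / F.A j) ^ qk (n + 1) * (F.r j i / F.r j lam) ^ qk (n + 1) := by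
    rw [← Real.mul_rpow (div_pos (hr lam) hA).le (div_pos (hr i) (hr lam)).le]
    congr 1
    have := hr lam
    field_simp
  have e2 : (F.D j).κ i ^ (n + 1 + 2) = (F.D j).κ lam ^ (n + 1 + 2) * ((F.D j).κ i / (F.D j).κ lam) ^ (n + 3) := by
    rw [← mul_pow]
    congr 1
    have := hκ lam
    field_simp
  rw [e1, e2]
  ring

/-- LEAF `L-F3-G8`  `κ_i / κ_lam = Λ^{s_i - s_lam}`, `r_i / r_lam = Λ^{ρ_i - ρ_lam}`. -/
theorem bnb_ratio (hF : F.Ok m') (i : ℕ) :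
    (F.D j).κ i / (F.D j).κ lam = F.Λ ^ (F.s j i - F.s j lam) ∧ F.r j i / F.r j lam = F.Λ ^ (F.ρ j i - F.ρ j lam) := by
  exact bnb_ratio_aux hF i

theorem bnb_Mo_ge_aux45 (k : ℕ) (hk : 1 ≤ k) (c0 κ r A : ℝ) (hc : 0 < c0) (hκ : 0 < κ) (hr : 0 < r) (hA : 0 < A) (h : A ^ 2 ≤ c0 * κ ^ k * r ^ 2) :
    c0 ^ (-(qk k / 2)) ≤ κ ^ (k + 2) * (r / A) ^ qk k := by
  have hk0 : (0 : ℝ) < k := by exact_mod_cast hk
  have hq : 0 ≤ qk k / 2 := by
    unfold qk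
    positivity
  have hy : 0 < r / A := by positivity
  have h1 : 1 ≤ c0 * κ ^ k * (r / A) ^ 2 := by
    rw [div_pow, mul_div_assoc', le_div_iff₀ (by positivity), one_mul]
    exact h
  have h2 : 1 ≤ (c0 * κ ^ k * (r / A) ^ 2) ^ (qk k / 2) := Real.one_le_rpow h1 hq
  have e1 : (κ ^ k) ^ (qk k / 2) = κ ^ (k + 2) := by
    rw [← Real.rpow_natCast κ k, ← Real.rpow_mul hκ.le, ← Real.rpow_natCast κ (k + 2)]
    congr 1
    unfold qk
    push_cast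
    field_simp
  have e2 : ((r / A) ^ 2) ^ (qk k / 2) = (r / A) ^ qk k := by
    rw [← Real.rpow_natCast (r / A) 2, ← Real.rpow_mul hy.le]
    congr 1
    push_cast
    ring
  rw [Real.mul_rpow (by positivity) (by positivity), Real.mul_rpow hc.le (by positivity), e1, e2] at h2
  rw [Real.rpow_neg hc.le, inv_le_iff_one_le_mul₀' (Real.rpow_pos_of_pos hc _)]
  linarith

/-- LEAF `L-F3-G9`  **lower bound of the occupancy sizes** (root Cauchy).   PLAN: `TSys.ts_prof_root (hF.sys j) (hF.frozen j) .. i hi`: `A ≤ 2 K √(Γr_i ϖ0) r_i`, `Γr_i = Cp κ_i^k`;  so `(r_i/A)² ≥ (4 K² Cp ϖ0)⁻¹ κ_i^{-k}`; raise to `q/2`, `k q/2 = k + 2`. -/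
theorem bnb_Mo_ge (hF : F.Ok m') (i : ℕ) (hi : i ≤ F.c.ℓ) : (4 * F.K ^ 2 * F.Cp * (F.tp j).ϖ0) ^ (-(qk (n + 1) / 2)) ≤ F.Mo j i := by
  have hA : 0 < F.A j := by linarith [hF.one_le_A j]
  have hY : (Finset.univ : Finset (F.D j).sys.Y).Nonempty := by
    obtain ⟨q⟩ := hF.ne
    exact ⟨F.e j q, Finset.mem_univ _⟩
  have hK : 0 < F.K := by linarith [hF.two_le_K]
  have hr : 0 < F.r j i := (hF.frozen j).r_pos i
  have hκ : 0 < (F.D j).κ i := by linarith [(hF.good j).one_le_κ i]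
  have h := TSys.ts_prof_root (hF.sys j) (hF.frozen j) hY i hi
  obtain ⟨x, hx⟩ : ∃ x : ℝ, x = (F.tp j).Γr i * (F.tp j).ϖ0 := ⟨_, rfl⟩
  rw [← hx] at h
  have hx0 : 0 < x := by
    by_contra hcon
    rw [Real.sqrt_eq_zero_of_nonpos (not_lt.1 hcon)] at h
    linarith
  have hsq : F.A j ^ 2 ≤ 4 * F.K ^ 2 * x * F.r j i ^ 2 := by
    have h1 := pow_le_pow_left₀ hA.le h 2
    rw [mul_pow, mul_pow, mul_pow, Real.sq_sqrt hx0.le] at h1
    linarith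
  obtain ⟨c0, hc0⟩ : ∃ c0 : ℝ, c0 = 4 * F.K ^ 2 * F.Cp * (F.tp j).ϖ0 := ⟨_, rfl⟩
  have hxe : 4 * F.K ^ 2 * x = c0 * (F.D j).κ i ^ (n + 1) := by
    rw [hx, hc0]
    change 4 * F.K ^ 2 * ((F.Cp * (F.D j).κ i ^ (n + 1)) * (F.tp j).ϖ0) = _
    ring
  rw [← hc0]
  have hc0pos : 0 < c0 := by
    have h1 : 0 < c0 * (F.D j).κ i ^ (n + 1) := by
      rw [← hxe]
      positivity
    by_contra hc
    have h2 := mul_nonpos_of_nonpos_of_nonneg (not_lt.1 hc) (pow_pos hκ (n + 1)).le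
    linarith
  exact bnb_Mo_ge_aux45 (n + 1) (by omega) c0 ((F.D j).κ i) (F.r j i) (F.A j) hc0pos hκ hr hA (by rw [← hxe]; exact hsq)

theorem bnb_Mo_le_aux45 (k : ℕ) (hk : 1 ≤ k) (ℓ : ℕ) (X K κ κt r A : ℝ) (hX : 1 ≤ X) (hK : 0 < K) (hκ : 0 < κ) (hκt : 0 < κt) (hr : 0 < r) (hA : 0 < A)
    (h1 : κ ≤ X ^ ℓ * κt) (h2 : r ≤ (4 * X) ^ ℓ) (h3 : κt ^ (k + 2) ≤ K * A ^ qk k) :
    κ ^ (k + 2) * (r / A) ^ qk k ≤ K * (4 * X) ^ ((ℓ : ℝ) * (((k + 2 : ℕ) : ℝ) + qk k)) := by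
  have hk0 : (0 : ℝ) < k := by exact_mod_cast hk
  have hq : 0 ≤ qk k := by
    unfold qk
    positivity
  have h4X : 0 < 4 * X := by linarith
  have hAq : 0 < A ^ qk k := Real.rpow_pos_of_pos hA _
  have a1 : κ ^ (k + 2) ≤ ((4 * X) ^ ℓ) ^ (k + 2) * (K * A ^ qk k) := by
    calc κ ^ (k + 2) ≤ (X ^ ℓ * κt) ^ (k + 2) := pow_le_pow_left₀ hκ.le h1 _
      _ = (X ^ ℓ) ^ (k + 2) * κt ^ (k + 2) := mul_pow _ _ _
      _ ≤ ((4 * X) ^ ℓ) ^ (k + 2) * (K * A ^ qk k) := by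
        refine mul_le_mul (pow_le_pow_left₀ (by positivity) (pow_le_pow_left₀ (by linarith) (by linarith) _) _) h3 (by positivity) (by positivity)
  have a2 : (r / A) ^ qk k ≤ ((4 * X) ^ ℓ) ^ qk k / A ^ qk k := by
    rw [Real.div_rpow hr.le hA.le]
    exact div_le_div_of_nonneg_right (Real.rpow_le_rpow hr.le h2 hq) hAq.le
  have e : (4 * X) ^ ((ℓ : ℝ) * (((k + 2 : ℕ) : ℝ) + qk k)) = ((4 * X) ^ ℓ) ^ (k + 2) * ((4 * X) ^ ℓ) ^ qk k := by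
    rw [mul_add, Real.rpow_add h4X, Real.rpow_mul h4X.le, Real.rpow_mul h4X.le, Real.rpow_natCast, Real.rpow_natCast]
  rw [e]
  calc κ ^ (k + 2) * (r / A) ^ qk k ≤ (((4 * X) ^ ℓ) ^ (k + 2) * (K * A ^ qk k)) * (((4 * X) ^ ℓ) ^ qk k / A ^ qk k) :=
        mul_le_mul a1 a2 (by positivity) (by positivity)
    _ = K * (((4 * X) ^ ℓ) ^ (k + 2) * ((4 * X) ^ ℓ) ^ qk k) := by
        field_simp

/-- LEAF `L-F3-G9`  **polynomial upper bound of the occupancy sizes.**   PLAN: `r_0 = 1`, `TSys.ts_prof_cauchy`: `r_{a+1} ≤ 2 √Γ_a r_a ≤ 2 √X r_a` (`hF.Γ_le`), so `r_i ≤ (4X)^{ℓ}`-type bound;  `hF.vol_tr`: `A^{-q} ≤ K κ_tr^{-(k+2)}`;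
`κ_a/κ_{a+1} ≤ X` (`Γ_a = Cp (κ_a/κ_{a+1})^k ≤ X`, `1 ≤ Cp`: `(hF.sys j).one_le_Γ2`), so `κ_i/κ_tr ≤ X^ℓ` (`κ` nonincreasing if `i ≥ tr`). -/
theorem bnb_Mo_le (hF : F.Ok m') (i : ℕ) (hi : i ≤ F.c.ℓ) : F.Mo j i ≤ F.K * (4 * F.X) ^ ((F.c.ℓ : ℝ) * (((n + 3 : ℕ) : ℝ) + qk (n + 1))) := by
  have hA : 0 < F.A j := by linarith [hF.one_le_A j]
  have hY : (Finset.univ : Finset (F.D j).sys.Y).Nonempty := by
    obtain ⟨q⟩ := hF.ne
    exact ⟨F.e j q, Finset.mem_univ _⟩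
  have hK : 0 < F.K := by linarith [hF.two_le_K]
  have hΛ : 1 ≤ F.Λ := by
    have := hF.Λ_ge
    have h0 : (0 : ℝ) ≤ (m' : ℝ) := Nat.cast_nonneg _
    linarith
  have hX1 : 1 ≤ F.X := one_le_pow₀ hΛ
  have hκpos : ∀ a, 0 < (F.D j).κ a := fun a => by linarith [(hF.good j).one_le_κ a]
  have hrpos : ∀ a, 0 < F.r j a := (hF.frozen j).r_pos
  have hr : ∀ a, a ≤ F.c.ℓ → F.r j a ≤ (4 * F.X) ^ a := by
    intro a
    induction a with
    | zero =>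
      intro _
      rw [(hF.frozen j).r_zero, pow_zero]
    | succ a ih =>
      intro ha
      have h1 := TSys.ts_prof_cauchy (hF.sys j) (hF.frozen j) hY hA a ha
      have h2 : Real.sqrt ((F.tp j).Γ a) ≤ F.X := by
        refine (Real.sqrt_le_sqrt (hF.Γ_le j a ha)).trans ?_
        rw [Real.sqrt_le_left (by linarith)]
        nlinarith
      have h3 := ih (by omega)
      have h4 : 0 ≤ Real.sqrt ((F.tp j).Γ a) := Real.sqrt_nonneg _
      calc F.r j (a + 1) ≤ 2 * Real.sqrt ((F.tp j).Γ a) * F.r j a := h1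
        _ ≤ 2 * F.X * (4 * F.X) ^ a := by
          refine mul_le_mul (by linarith) h3 (hrpos a).le (by linarith)
        _ ≤ 4 * F.X * (4 * F.X) ^ a := by
          refine mul_le_mul_of_nonneg_right (by linarith) (by positivity)
        _ = (4 * F.X) ^ (a + 1) := by ring
  have hstep : ∀ a, a < F.c.ℓ → (F.D j).κ a ≤ F.X * (F.D j).κ (a + 1) := by
    intro a ha
    have h1 : F.Cp * ((F.D j).κ a / (F.D j).κ (a + 1)) ^ (n + 1) ≤ F.X := hF.Γ_le j a ha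
    have hCp : 1 ≤ F.Cp := (hF.sys j).one_le_Γ2
    have h2 : 1 ≤ (F.D j).κ a / (F.D j).κ (a + 1) := by
      rw [one_le_div (hκpos _)]
      exact (hF.good j).κ_anti a
    have h3 : (F.D j).κ a / (F.D j).κ (a + 1) ≤ ((F.D j).κ a / (F.D j).κ (a + 1)) ^ (n + 1) := le_self_pow₀ h2 (by omega)
    have h4 : ((F.D j).κ a / (F.D j).κ (a + 1)) ^ (n + 1) ≤ F.Cp * ((F.D j).κ a / (F.D j).κ (a + 1)) ^ (n + 1) :=
      le_mul_of_one_le_left (by positivity) hCp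
    rw [← div_le_iff₀ (hκpos _)]
    linarith
  have hchain : ∀ d a, a + d ≤ F.c.ℓ → (F.D j).κ a ≤ F.X ^ d * (F.D j).κ (a + d) := by
    intro d
    induction d with
    | zero =>
      intro a _
      simp
    | succ d ih =>
      intro a ha
      have h1 := ih a (by omega)
      have h2 := hstep (a + d) (by omega)
      calc (F.D j).κ a ≤ F.X ^ d * (F.D j).κ (a + d) := h1
        _ ≤ F.X ^ d * (F.X * (F.D j).κ (a + d + 1)) := mul_le_mul_of_nonneg_left h2 (by positivity)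
        _ = F.X ^ (d + 1) * (F.D j).κ (a + (d + 1)) := by
          rw [← add_assoc]
          ring
  have hκtr : (F.D j).κ i ≤ F.X ^ F.c.ℓ * (F.D j).κ F.c.tr := by
    rcases le_total i F.c.tr with h | h
    · have h1 := hchain (F.c.tr - i) i (by have := hF.cls.tr_le; omega)
      rw [Nat.add_sub_cancel' h] at h1
      refine h1.trans (mul_le_mul_of_nonneg_right (pow_le_pow_right₀ hX1 (by have := hF.cls.tr_le; omega)) (hκpos _).le)
    · have h1 : (F.D j).κ i ≤ (F.D j).κ F.c.tr := antitone_nat_of_succ_le (hF.good j).κ_anti h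
      exact h1.trans (le_mul_of_one_le_left (hκpos _).le (one_le_pow₀ hX1))
  have hri : F.r j i ≤ (4 * F.X) ^ F.c.ℓ := (hr i hi).trans (pow_le_pow_right₀ (by linarith) hi)
  exact bnb_Mo_le_aux45 (n + 1) (by omega) F.c.ℓ F.X F.K ((F.D j).κ i) ((F.D j).κ F.c.tr) (F.r j i) (F.A j) hX1 hK (hκpos _) (hκpos _) (hrpos i) hA hκtr hri (hF.vol_tr j)

end

end Claimed.Agent.R257.FR3
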