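import Claimed.Agent.R257.FR3.BinAdB

/-!
# ROW 257, package FR3, unit BIN, adapter file C: ASSEMBLY OF THE SAMPLED HYPOTHESES      (architect helper121)

`bnb_sam`: the configuration of a block satisfies `BnCfg.Sam` (glue, proved from the leaves of file B), with explicit numerical side conditions at chosen nodes `ic a` (count, slightly ABOVE `a/m`), `io a` (occupancy, slightly BELOW `a/m`).
-/

set_option autoImplicit false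

namespace Claimed.Agent.R257.FR3

open scoped BigOperators
open Classical Matrix
open Claimed.Agent.R255 Claimed.Agent.R255.FLaw Claimed.Agent.R257 Claimed.Agent.R257.FR2 Claimed.Agent.R257.Tree

noncomputable section

variable {n : ℕ} {F : FCfg (n + 1)} {j : Fin (n + 1 + 1)} {lam : ℕ} {B : BlkDat F j lam} {u γ K₁ : ℝ} {P : FLaw ((F.D j).Y × (F.D j).Lb 0)} {m' : ℕ}

/-- the relative scale `κ_i / κ_lam` -/
def FCfg.rs (F : FCfg (n + 1)) (j : Fin (n + 1 + 1)) (lam i : ℕ) : ℝ := (F.D j).κ i / (F.D j).κ lam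

theorem bnb_sam (hF : F.Ok m') {g : GPar} (hg : (F.D j).geo.Ok g) (hB : B.Ok u γ K₁) (hK₁ : 1 ≤ K₁)
    (hL : (F.D j).geo.IsLaw B.J B.Y' P Prod.fst Prod.snd) (hlam : lam ≤ F.c.ℓ)
    {d0 e ε Ko t Ks δ : ℝ} {m : ℕ} (ic io : ℕ → ℕ) (hε : 0 < ε) (ht : 0 < t) (hKs1 : K₁ ≤ Ks) (hKs2 : K₁ ^ 2 / ε ≤ Ks)
    (hδ1 : ε * (F.tp j).ϖ0 ≤ δ) (hδ2 : 2 * Ko / t ≤ δ)
    (hK1 : g.Γc ^ F.c.ℓ / K₁⁻¹ ≤ Ko) (hK2 : (F.tp j).ϖ0 ≤ Ko) (hK3 : g.Kc ≤ Ko) (hK4 : g.Γc ^ F.c.ℓ * g.Γw / K₁⁻¹ ≤ Ko)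
    (hK5 : g.m * F.K * (F.K * K₁) ≤ Ko) (hK6 : g.m * F.Go ≤ Ko)
    (hc : ∀ a : ℕ, m ≤ a → a ≤ 4 * m → ic a ≤ lam ∧ u / 2 ≤ F.s j (ic a) - F.s j lam ∧ F.s j (ic a) - F.s j lam ≤ 5 * u ∧
      (F.D j).G lam + ((n : ℝ) + 1) * (F.Λ ^ u) ^ ((a : ℝ) / m) ≤ F.rs j lam (ic a) ∧
      K₁ * F.rs j lam (ic a) ^ (n + 1 + 1) * (F.r j (ic a) / F.r j lam) ^ pk' (n + 1) * F.Go ≤ (F.Λ ^ u) ^ (((n + 2 : ℕ) : ℝ) * d0 * ((a : ℝ) / m) + e))
    (ho : ∀ a : ℕ, m ≤ a → a ≤ 2 * m → io a ≤ lam ∧ F.rs j lam (io a) ≤ (F.Λ ^ u) ^ ((a : ℝ) / m) ∧ F.rs j lam (io a) ^ 2 ≤ (F.Λ ^ u) ^ (2 * ((a : ℝ) / m)) ∧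
      F.rs j lam (io a) + (4 * F.c.Cc + 1) * F.rs j lam (io a) ^ 2 ≤ F.Λ ^ (5 * u) ∧
      Real.log (F.Mo j lam) + (((n + 3 : ℕ) : ℝ) * d0 * ((a : ℝ) / m) - e) * Real.log (F.Λ ^ u) ≤ Real.log (F.Mo j (io a) / (Ko * t)) ∧
      1 ≤ F.Mo j (io a) / (Ko * t)) :
    (bnbCfg F j lam B u P).Sam (bnbGood F j lam B u P ε) (fun a => bnbCel F j lam (io a)) (fun a => F.Mo j (io a) / (Ko * t))
      (F.Λ ^ u) (F.Mo j lam) Ks (4 * F.c.Cc + 1) d0 γ e δ (2 ^ (2 * n + 4)) m := by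
  have hK0 : 0 < K₁ := zero_lt_one.trans_le hK₁
  have hΛ : 0 < F.Λ := by
    have := hF.Λ_ge
    have h0 : (0 : ℝ) ≤ m' := Nat.cast_nonneg _
    linarith
  have hκ : ∀ i, 0 < (F.D j).κ i := fun i => zero_lt_one.trans_le ((hF.good j).one_le_κ i)
  have hMo : 0 ≤ F.Mo j lam :=
    mul_nonneg ((hF.sys j).vol_pos lam).le (Real.rpow_nonneg (div_nonneg ((hF.frozen j).r_pos lam).le (zero_le_one.trans (hF.one_le_A j))) _)
  have hCc : 1 ≤ 4 * F.c.Cc + 1 := by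
    have := hF.cls.one_le_Cc
    linarith
  refine
    { dir0 := fun θ => bnb_dir0 (lam := lam) θ
      hdir := fun θ l => bnb_hdir hF hlam θ l
      ν0 := hB.ν_nonneg
      ν1 := hB.ν_sum
      strip := ?_
      bad := (bnb_bad hF B u P hε.le).trans hδ1
      dom := ?_
      cnt := ?_
      Mo_ge := fun a h1 h2 => (ho a h1 h2).2.2.2.2.1
      one_le_Mo := fun a h1 h2 => (ho a h1 h2).2.2.2.2.2
      occ := fun a h1 h2 => (bnb_occ hF hg hB hK0 hL (io a) ((ho a h1 h2).1.trans hlam) Ko hK1 hK2 hK3 hK4 hK5 hK6 ht).trans hδ2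
      mult := fun a h1 h2' => bnb_mult B u P (hκ lam) (io a) (hκ _) (fun ω l => bnb_hdir hF hlam ω l) hCc (ho a h1 h2').2.1 (ho a h1 h2').2.2.1 (ho a h1 h2').2.2.2.1 }
  · intro g' w hw r hr1 hr2
    have hr0 : 0 < r := lt_of_lt_of_le (inv_pos.2 (Real.rpow_pos_of_pos hΛ u)) hr1
    rw [← Real.rpow_neg hΛ.le] at hr1
    exact (hB.strip g' w hw r hr1 hr2).trans (mul_le_mul_of_nonneg_right hKs1 (Real.rpow_nonneg hr0.le _))
  · intro x θ hx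
    refine (bnb_dom hF hB hK0 hL hε x θ hx).trans ?_
    exact mul_le_mul_of_nonneg_right (mul_le_mul_of_nonneg_right hKs2 (hB.ν_nonneg _ _)) (rd_M_nonneg _ _)
  · intro a h1 h2' x0
    obtain ⟨c1, c2, c3, c4, c5⟩ := hc a h1 h2'
    have hs : 0 < (F.Λ ^ u) ^ ((a : ℝ) / m) := Real.rpow_pos_of_pos (Real.rpow_pos_of_pos hΛ u) _
    have key := bnb_cnt hF hg hB hK0 hL hlam hs (ic a) c1 c2 c3 c4 x0
    refine le_trans (le_of_eq ?_) (key.trans ?_)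
    · congr!
    have := mul_le_mul_of_nonneg_right c5 hMo
    unfold FCfg.rs at this
    calc _ = K₁ * ((F.D j).κ (ic a) / (F.D j).κ lam) ^ (n + 1 + 1) * (F.r j (ic a) / F.r j lam) ^ pk' (n + 1) * F.Go * F.Mo j lam := by ring
      _ ≤ _ := this
      _ = _ := by ring

end

end Claimed.Agent.R257.FR3
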