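import Mathlib

/-!
# ROW 257, package FR3, unit PROF (U8 + U9 of report 847; H `frame.tex` l.1381-1482, l.1722-1745), file 1: PROFILE CALCULUS AT THE LEVEL OF DERIVATIVES      (architect helper94, for captain helper121)

Paper-free, Mathlib only.   `f` = a limiting profile (`FR2/ProfDbl.lean`: `D.f`), `lam = k/2`.   A parameter is a FULL-SLOPE point if `HasDerivAt f (-lam) s`, a ZERO-SLOPE point if `HasDerivAt f 0 s`.
`F3Prof lam f p q σ` = what `f:profiles`, `f:binary`, `f:midpoint` give on the parameter interval `(p, q)` with the seam `σ`:  `f` nonincreasing, `lam`-Lipschitz, a.e. slope `0` or `-lam`,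
and the MIDPOINT RULE FOR ALL PAIRS: the midpoint of two full-slope points is not a zero-slope point (only `l, a, (l+a)/2 ≠ σ`; the pair MAY lie on different sides of the seam: this is needed in BOTH cases, see the example in the docstring of `f3p_power`).
REMARK (simplification of the paper): every full-slope point is automatically a "density point" of the full-slope set because `f x - f y = lam |E ∩ [x,y]|` (FTC for Lipschitz functions); no Lebesgue density theorem, no Fubini, no "almost every pair".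
EXITS: `f3p_struct` (constant - full slope - constant), `f3p_power` ((f:power-end): `f_i (s_H) = 0`), `f3p_subpower` (end of `f:left-limit`: `f_i 0 = 0`).
LEAVES `L-257-F3P-*` (name in the docstring): prove IN PLACE, statements verbatim (defect: one line to helper94), auxiliary lemmas with prefix `f3p_` directly above your theorem; all other statements of this file are black boxes.
-/

set_option autoImplicit false

namespace Claimed.Agent.R257.FR3

open MeasureTheory Set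

noncomputable section

/-- the hypotheses on one profile -/
structure F3Prof (lam : ℝ) (f : ℝ → ℝ) (p q σ : ℝ) : Prop where
  lam_pos : 0 < lam
  anti : Antitone f
  lip : ∀ x y, x ≤ y → f x - f y ≤ lam * (y - x)
  bin : ∀ᵐ s, s ∈ Ioo p q → HasDerivAt f 0 s ∨ HasDerivAt f (-lam) s
  mid : ∀ l a, l < a → l ∈ Ioo p q → a ∈ Ioo p q → l ≠ σ → a ≠ σ → (l + a) / 2 ≠ σ →
    HasDerivAt f (-lam) l → HasDerivAt f (-lam) a → ¬ HasDerivAt f 0 ((l + a) / 2)

/-- the (measurable) full-slope set -/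
def f3E (lam : ℝ) (f : ℝ → ℝ) : Set ℝ := {s | deriv f s = -lam}

/-- `f` has full slope on `[c - δ, c + δ]` -/
def F3Full (lam : ℝ) (f : ℝ → ℝ) (c δ : ℝ) : Prop := f (c - δ) - f (c + δ) = lam * (2 * δ)

variable {lam : ℝ} {f : ℝ → ℝ} {p q σ : ℝ}

/-- L-257-F3P-E (`measurable_deriv`, `measurableSet_singleton`; `deriv f s = -lam ≠ 0` forces differentiability: `deriv_zero_of_not_differentiableAt`) -/
theorem f3p_E_meas (lam : ℝ) (f : ℝ → ℝ) : MeasurableSet (f3E lam f) := by
  exact (measurable_deriv f) (measurableSet_singleton (-lam))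

/-- L-257-F3P-E -/
theorem f3p_mem_E (hl : 0 < lam) (s : ℝ) : s ∈ f3E lam f ↔ HasDerivAt f (-lam) s := by
  constructor
  · intro hs
    have hs' : deriv f s = -lam := hs
    have hd : DifferentiableAt ℝ f s := by
      by_contra hd
      rw [deriv_zero_of_not_differentiableAt hd] at hs'
      linarith
    rw [← hs']
    exact hd.hasDerivAt
  · intro hs
    exact hs.deriv

/-- L-257-F3P-E: restriction of the interval -/
theorem F3Prof.mono (h : F3Prof lam f p q σ) {p' q' : ℝ} (hp : p ≤ p') (hq : q' ≤ q) : F3Prof lam f p' q' σ := by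
  have hsub : ∀ s, s ∈ Ioo p' q' → s ∈ Ioo p q := fun s hs => ⟨lt_of_le_of_lt hp hs.1, lt_of_lt_of_le hs.2 hq⟩
  refine ⟨h.lam_pos, h.anti, h.lip, ?_, ?_⟩
  · filter_upwards [h.bin] with s hs hm
    exact hs (hsub s hm)
  · intro l a hla hl ha
    exact h.mid l a hla (hsub l hl) (hsub a ha)

theorem f3p_ftc_lip (h : F3Prof lam f p q σ) : LipschitzWith lam.toNNReal f := by
  apply LipschitzWith.of_dist_le_mul
  intro x y
  rw [Real.coe_toNNReal _ h.lam_pos.le, Real.dist_eq, Real.dist_eq]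
  rcases le_total x y with hxy | hxy
  · rw [abs_of_nonneg (sub_nonneg.2 (h.anti hxy)), abs_of_nonpos (sub_nonpos.2 hxy)]
    have := h.lip x y hxy
    linarith
  · rw [abs_of_nonpos (sub_nonpos.2 (h.anti hxy)), abs_of_nonneg (sub_nonneg.2 hxy)]
    have := h.lip y x hxy
    linarith

/-- L-257-F3P-FTC, **`f x - f y = lam |E ∩ (x, y)|`**.   PLAN: `f` is Lipschitz (`LipschitzWith.of_dist_le_mul` from `anti`, `lip`), `LipschitzOnWith.absolutelyContinuousOnInterval`, `AbsolutelyContinuousOnInterval.integral_deriv_eq_sub`;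
a.e. on `(x, y)`: `deriv f = -lam * indicator (f3E lam f) 1` (`bin`, `HasDerivAt.deriv`; `lam ≠ 0`); `intervalIntegral.integral_of_le`, `integral_indicator`, `setIntegral_const`; `Ioc` versus `Ioo`: null set. -/
theorem f3p_ftc (h : F3Prof lam f p q σ) {x y : ℝ} (hx : p ≤ x) (hxy : x ≤ y) (hy : y ≤ q) :
    f x - f y = lam * (volume (f3E lam f ∩ Ioo x y)).toReal := by
  have hac : AbsolutelyContinuousOnInterval f x y := ((f3p_ftc_lip h).lipschitzOnWith).absolutelyContinuousOnInterval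
  have h1 := hac.integral_deriv_eq_sub
  have hl := h.lam_pos
  have h2 : ∫ s in x..y, deriv f s = ∫ s in Ioo x y, (f3E lam f).indicator (fun _ => -lam) s := by
    rw [intervalIntegral.integral_of_le hxy, integral_Ioc_eq_integral_Ioo]
    apply setIntegral_congr_ae measurableSet_Ioo
    filter_upwards [h.bin] with s hs hsm
    rcases hs ⟨lt_of_le_of_lt hx hsm.1, lt_of_lt_of_le hsm.2 hy⟩ with h0 | h0
    · rw [h0.deriv, indicator_of_notMem]
      intro hmem
      have : deriv f s = -lam := hmem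
      rw [h0.deriv] at this
      linarith
    · rw [h0.deriv, indicator_of_mem (show s ∈ f3E lam f from h0.deriv)]
  rw [h2, setIntegral_indicator (f3p_E_meas lam f), setIntegral_const, inter_comm] at h1
  simp only [smul_eq_mul, Measure.real] at h1
  linarith

/-- L-257-F3P-AFF: equality at the ends of an interval forces full slope inside (three applications of `lip`) -/
theorem f3p_aff_of_ends (h : F3Prof lam f p q σ) {x y : ℝ} (he : f x - f y = lam * (y - x)) {s t : ℝ} (hs : x ≤ s) (hst : s ≤ t) (ht : t ≤ y) :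
    f s - f t = lam * (t - s) := by
  have h1 := h.lip x s hs
  have h2 := h.lip s t hst
  have h3 := h.lip t y ht
  apply le_antisymm h2
  linarith

/-- L-257-F3P-AFF: full slope on an interval gives full-slope points inside (`HasDerivAt` of `s ↦ f x - lam (s - x)`, `HasDerivAt.congr_of_eventuallyEq`, `Ioo_mem_nhds`) -/
theorem f3p_deriv_of_aff {x y : ℝ} (he : ∀ s t, x ≤ s → s ≤ t → t ≤ y → f s - f t = lam * (t - s)) {s : ℝ} (hs : s ∈ Ioo x y) : HasDerivAt f (-lam) s := by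
  have h1 : HasDerivAt (fun t : ℝ => f s - lam * (t - s)) (-lam) s := by
    have := (((hasDerivAt_id s).sub_const s).const_mul lam).const_sub (f s)
    simpa using this
  apply h1.congr_of_eventuallyEq
  filter_upwards [Ioo_mem_nhds hs.1 hs.2] with t ht
  rcases le_total s t with hst | hst
  · have := he s t hs.1.le hst ht.2.le
    linarith
  · have := he t s ht.1.le hst hs.2.le
    linarith

/-- L-257-F3P-AFF: a function which is constant on an interval has zero-slope points inside -/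
theorem f3p_deriv_of_const {x y : ℝ} (he : ∀ s, x ≤ s → s ≤ y → f s = f x) {s : ℝ} (hs : s ∈ Ioo x y) : HasDerivAt f 0 s := by
  apply (hasDerivAt_const s (f x)).congr_of_eventuallyEq
  filter_upwards [Ioo_mem_nhds hs.1 hs.2] with t ht
  exact he t ht.1.le ht.2.le

/-- the complement of the full-slope set in an interval -/
theorem f3p_refl_diff (h : F3Prof lam f p q σ) {x δ θ : ℝ} (hδ : 0 < δ) (hx : p ≤ x - δ) (hy : x + δ ≤ q)
    (h1 : lam * (2 * δ - θ) ≤ f (x - δ) - f (x + δ)) : (volume (Ioo (x - δ) (x + δ) \ f3E lam f)).toReal ≤ θ := by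
  have hf := f3p_ftc h hx (by linarith : x - δ ≤ x + δ) hy
  have ha := measure_inter_add_sdiff (μ := volume) (Ioo (x - δ) (x + δ)) (f3p_E_meas lam f)
  have hfin : volume (Ioo (x - δ) (x + δ)) ≠ ⊤ := by simp
  have hb := congrArg ENNReal.toReal ha
  rw [ENNReal.toReal_add (ne_top_of_le_ne_top hfin (measure_mono inter_subset_left))
    (ne_top_of_le_ne_top hfin (measure_mono sdiff_subset)), Real.volume_Ioo, ENNReal.toReal_ofReal (by linarith), inter_comm] at hb
  rw [hf] at h1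
  have := le_of_mul_le_mul_left h1 h.lam_pos
  linarith

/-- L-257-F3P-REFL, **the reflection argument**: if the full-slope set fills the `δ`-intervals about `x ≤ y` up to the deficit `θ`, then no `b ≠ σ` with `|2b - x - y| + 2θ < 2δ` is a zero-slope point.
PLAN: `A₁ = E ∩ Ioo (x-δ) (x+δ)`, `A₂ = E ∩ Ioo (y-δ) (y+δ)`, `|A_i| ≥ 2δ - θ` (`f3p_ftc`).   The reflection `R s = 2b - s` preserves the measure (`Measure.IsNegInvariant`, `measurePreserving_sub_left volume (2*b)`), `R '' Ioo (x-δ) (x+δ) = Ioo (2b-x-δ) (2b-x+δ)`,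
its intersection with `Ioo (y-δ) (y+δ)` is an interval of length `2δ - |2b-x-y|`; so `|R⁻¹' A₁ ∩ A₂| ≥ 2δ - |2b-x-y| - 2θ > 0` (`measure_diff`-type inequalities, all sets measurable: `f3p_E_meas`).
A set of positive measure is not contained in the finite set `{b, σ, 2b - σ}` (`Set.Finite.measure_zero`): choose `a`; `l = 2b - a`; `l ≠ a`; `f3p_mem_E`; apply `h.mid l a` or `h.mid a l`. -/
theorem f3p_refl (h : F3Prof lam f p q σ) {x y δ θ b : ℝ} (hxy : x ≤ y) (hδ : 0 < δ) (hθ : 0 ≤ θ) (hx : p ≤ x - δ) (hy : y + δ ≤ q)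
    (h1 : lam * (2 * δ - θ) ≤ f (x - δ) - f (x + δ)) (h2 : lam * (2 * δ - θ) ≤ f (y - δ) - f (y + δ)) (hb : |2 * b - x - y| + 2 * θ < 2 * δ) (hbσ : b ≠ σ) :
    ¬ HasDerivAt f 0 b := by
  intro hz
  have d1 := f3p_refl_diff h hδ hx (by linarith) h1
  have d2 := f3p_refl_diff h hδ (by linarith) hy h2
  set E := f3E lam f with hE
  set J₁ := Ioo (x - δ) (x + δ) with hJ₁
  set J₂ := Ioo (y - δ) (y + δ) with hJ₂
  set R : ℝ → ℝ := fun s => 2 * b - s with hR
  have hmp : MeasurePreserving R volume volume := Measure.measurePreserving_sub_left volume (2 * b)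
  have hEm : MeasurableSet E := f3p_E_meas lam f
  -- the good set is finite
  have hS : (E ∩ J₂) ∩ R ⁻¹' (E ∩ J₁) ⊆ ({b, σ, 2 * b - σ} : Set ℝ) := by
    intro a ha
    by_contra hna
    simp only [mem_insert_iff, mem_singleton_iff, not_or] at hna
    obtain ⟨hab, haσ, haσ'⟩ := hna
    obtain ⟨⟨haE, haJ⟩, hlE, hlJ⟩ := ha
    have hl : HasDerivAt f (-lam) (2 * b - a) := (f3p_mem_E h.lam_pos _).1 hlE
    have ha' : HasDerivAt f (-lam) a := (f3p_mem_E h.lam_pos _).1 haE
    have hlJ' : 2 * b - a ∈ Ioo (x - δ) (x + δ) := hlJ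
    have haJ' : a ∈ Ioo (y - δ) (y + δ) := haJ
    have hlm : 2 * b - a ∈ Ioo p q := ⟨by linarith [hlJ'.1], by linarith [hlJ'.2]⟩
    have ham : a ∈ Ioo p q := ⟨by linarith [haJ'.1], by linarith [haJ'.2]⟩
    have hlσ : 2 * b - a ≠ σ := fun e => haσ' (by linarith)
    rcases lt_or_gt_of_ne hab with hlt | hlt
    · have e : (a + (2 * b - a)) / 2 = b := by ring
      exact h.mid a (2 * b - a) (by linarith) ham hlm haσ hlσ (by rw [e]; exact hbσ) ha' hl (by rw [e]; exact hz)
    · have e : ((2 * b - a) + a) / 2 = b := by ring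
      exact h.mid (2 * b - a) a (by linarith) hlm ham hlσ haσ (by rw [e]; exact hbσ) hl ha' (by rw [e]; exact hz)
  have hS0 : volume ((E ∩ J₂) ∩ R ⁻¹' (E ∩ J₁)) = 0 := by
    apply measure_mono_null hS
    exact (Set.Finite.measure_zero (by simp) volume)
  -- covering of the interval
  have hcov : J₂ ∩ R ⁻¹' J₁ ⊆ ((E ∩ J₂) ∩ R ⁻¹' (E ∩ J₁)) ∪ ((J₂ \ E) ∪ R ⁻¹' (J₁ \ E)) := by
    intro a ha
    by_cases h1 : a ∈ E
    · by_cases h2 : R a ∈ E
      · exact Or.inl ⟨⟨h1, ha.1⟩, h2, ha.2⟩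
      · exact Or.inr (Or.inr ⟨ha.2, h2⟩)
    · exact Or.inr (Or.inl ⟨ha.1, h1⟩)
  have hfin1 : volume (J₁ \ E) ≠ ⊤ := ne_top_of_le_ne_top (by simp [hJ₁]) (measure_mono sdiff_subset)
  have hfin2 : volume (J₂ \ E) ≠ ⊤ := ne_top_of_le_ne_top (by simp [hJ₂]) (measure_mono sdiff_subset)
  have hle : volume (J₂ ∩ R ⁻¹' J₁) ≤ volume (J₂ \ E) + volume (J₁ \ E) := by
    calc _ ≤ volume (((E ∩ J₂) ∩ R ⁻¹' (E ∩ J₁)) ∪ ((J₂ \ E) ∪ R ⁻¹' (J₁ \ E))) := measure_mono hcov
      _ ≤ volume ((E ∩ J₂) ∩ R ⁻¹' (E ∩ J₁)) + (volume (J₂ \ E) + volume (R ⁻¹' (J₁ \ E))) :=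
          (measure_union_le _ _).trans (add_le_add le_rfl (measure_union_le _ _))
      _ = volume (J₂ \ E) + volume (J₁ \ E) := by
          rw [hS0, zero_add, hmp.measure_preimage (measurableSet_Ioo.diff hEm).nullMeasurableSet]
  have hI : J₂ ∩ R ⁻¹' J₁ = Ioo (max (y - δ) (2 * b - (x + δ))) (min (y + δ) (2 * b - (x - δ))) := by
    rw [hJ₁, hJ₂, hR, Set.preimage_const_sub_Ioo, Ioo_inter_Ioo]
  rw [hI, Real.volume_Ioo] at hle
  have hle' := ENNReal.toReal_mono (ENNReal.add_ne_top.2 ⟨hfin2, hfin1⟩) hle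
  rw [ENNReal.toReal_add hfin2 hfin1] at hle'
  have hlen : 2 * δ - |2 * b - x - y| ≤ min (y + δ) (2 * b - (x - δ)) - max (y - δ) (2 * b - (x + δ)) := by
    rcases abs_cases (2 * b - x - y) with ⟨e, _⟩ | ⟨e, _⟩ <;> rw [e] <;>
    rcases min_cases (y + δ) (2 * b - (x - δ)) with ⟨e1, _⟩ | ⟨e1, _⟩ <;> rw [e1] <;>
    rcases max_cases (y - δ) (2 * b - (x + δ)) with ⟨e2, _⟩ | ⟨e2, _⟩ <;> rw [e2] <;> linarith
  rw [ENNReal.toReal_ofReal (by linarith)] at hle'
  linarith

/-- L-257-F3P-NZ: an interval without zero-slope points (except the seam) has full slope (`bin`: a.e. point of the interval lies in `E`; `f3p_ftc`; `Real.volume_Ioo`; the point `σ` is a null set) -/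
theorem f3p_full_of_nz (h : F3Prof lam f p q σ) {c δ : ℝ} (hδ : 0 < δ) (hc1 : p ≤ c - δ) (hc2 : c + δ ≤ q)
    (hz : ∀ b ∈ Ioo (c - δ) (c + δ), b ≠ σ → ¬ HasDerivAt f 0 b) : F3Full lam f c δ := by
  unfold F3Full
  rw [f3p_ftc h hc1 (by linarith) hc2]
  have hae : (f3E lam f ∩ Ioo (c - δ) (c + δ) : Set ℝ) =ᵐ[volume] Ioo (c - δ) (c + δ) := by
    have hσ : ∀ᵐ s : ℝ, s ≠ σ := by
      have : ({σ}ᶜ : Set ℝ) ∈ ae volume := compl_mem_ae_iff.2 (by simp)
      exact this
    filter_upwards [h.bin, hσ] with s hs hsσ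
    apply propext
    constructor
    · exact fun hm => hm.2
    · intro hm
      have hm' : s ∈ Ioo (c - δ) (c + δ) := hm
      refine ⟨?_, hm⟩
      rcases hs ⟨by linarith [hm'.1], by linarith [hm'.2]⟩ with h0 | h0
      · exact absurd h0 (hz s hm' hsσ)
      · exact (f3p_mem_E h.lam_pos s).2 h0
  rw [measure_congr hae, Real.volume_Ioo, ENNReal.toReal_ofReal (by linarith)]
  ring

/-- L-257-F3P-A, **every full-slope point is the centre of an interval of full slope**.   PLAN: from `HasDerivAt` (`hasDerivAt_iff_isLittleO`, or slopes) choose `δ₁ > 0` with `p ≤ x - δ₁`, `x + δ₁ ≤ q`, `f (x-δ₁) - f (x+δ₁) ≥ lam (2δ₁ - δ₁/5)`;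
`f3p_refl` with `y = x`, `θ = δ₁/5`: no zero-slope point `b ≠ σ` with `|b - x| < δ₁/2`; `f3p_full_of_nz` with `δ = δ₁/2`. -/
theorem f3p_full_of_deriv (h : F3Prof lam f p q σ) {x : ℝ} (hx : x ∈ Ioo p q) (hd : HasDerivAt f (-lam) x) :
    ∃ δ, 0 < δ ∧ p ≤ x - δ ∧ x + δ ≤ q ∧ F3Full lam f x δ := by
  have hl := h.lam_pos
  have ho := (hasDerivAt_iff_isLittleO.1 hd).def (c := lam / 10) (by positivity)
  obtain ⟨r, hr, hball⟩ := Metric.eventually_nhds_iff.1 ho
  set δ₁ := min (r / 2) (min (x - p) (q - x)) with hδ₁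
  have hδ₁0 : 0 < δ₁ := lt_min (by positivity) (lt_min (by linarith [hx.1]) (by linarith [hx.2]))
  have hδr : δ₁ < r := lt_of_le_of_lt (min_le_left _ _) (by linarith)
  have hδp : δ₁ ≤ x - p := (min_le_right _ _).trans (min_le_left _ _)
  have hδq : δ₁ ≤ q - x := (min_le_right _ _).trans (min_le_right _ _)
  have e1 := hball (y := x - δ₁) (by rw [Real.dist_eq]; simp [abs_of_pos hδ₁0, hδr])
  have e2 := hball (y := x + δ₁) (by rw [Real.dist_eq]; simp [abs_of_pos hδ₁0, hδr])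
  simp only [Real.norm_eq_abs, smul_eq_mul, sub_sub_cancel_left, add_sub_cancel_left, abs_neg, abs_of_pos hδ₁0] at e1 e2
  have e1' := (abs_le.1 e1).1
  have e2' := (abs_le.1 e2).2
  have hlow : lam * (2 * δ₁ - δ₁ / 5) ≤ f (x - δ₁) - f (x + δ₁) := by nlinarith
  refine ⟨δ₁ / 2, by positivity, by linarith, by linarith, ?_⟩
  apply f3p_full_of_nz h (by positivity) (by linarith) (by linarith)
  intro b hb hbσ
  apply f3p_refl h (le_refl x) hδ₁0 (by positivity : 0 ≤ δ₁ / 5) (by linarith) (by linarith) hlow hlow _ hbσ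
  have : |2 * b - x - x| < δ₁ := by
    rw [abs_lt]; constructor <;> linarith [hb.1, hb.2]
  linarith

/-- L-257-F3P-B: smaller radius (`f3p_aff_of_ends`) -/
theorem f3p_full_mono (h : F3Prof lam f p q σ) {c δ δ' : ℝ} (hδ' : 0 ≤ δ') (hle : δ' ≤ δ) (hF : F3Full lam f c δ) : F3Full lam f c δ' := by
  unfold F3Full at hF ⊢
  have := f3p_aff_of_ends h (x := c - δ) (y := c + δ) (by rw [hF]; ring) (s := c - δ') (t := c + δ') (by linarith) (by linarith) (by linarith)
  rw [this]; ring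

/-- L-257-F3P-B, **the midpoint of two centres of radius `δ` is a centre of radius `δ`** (`f3p_refl` with `θ = 0`; `f3p_full_of_nz`) -/
theorem f3p_full_mid (h : F3Prof lam f p q σ) {x y δ : ℝ} (hxy : x ≤ y) (hδ : 0 < δ) (hx : p ≤ x - δ) (hy : y + δ ≤ q)
    (h1 : F3Full lam f x δ) (h2 : F3Full lam f y δ) : F3Full lam f ((x + y) / 2) δ := by
  apply f3p_full_of_nz h hδ (by linarith) (by linarith)
  intro b hb hbσ
  unfold F3Full at h1 h2
  apply f3p_refl h hxy hδ le_rfl hx hy (by rw [h1]; simp) (by rw [h2]; simp) _ hbσ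
  have : |2 * b - x - y| < 2 * δ := by
    rw [abs_lt]; constructor <;> linarith [hb.1, hb.2]
  linarith

theorem f3p_full_chain_aux (h : F3Prof lam f p q σ) {δ : ℝ} (hδ : 0 < δ) (n : ℕ) : ∀ x y : ℝ, x ≤ y → y - x ≤ 2 ^ n * δ → p ≤ x - δ → y + δ ≤ q →
    F3Full lam f x δ → F3Full lam f y δ → f x - f y = lam * (y - x) := by
  induction n with
  | zero =>
    intro x y hxy hd hx hy h1 h2
    unfold F3Full at h1
    exact f3p_aff_of_ends h (x := x - δ) (y := x + δ) (by rw [h1]; ring) (by linarith) hxy (by simp at hd; linarith)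
  | succ n ih =>
    intro x y hxy hd hx hy h1 h2
    have hm := f3p_full_mid h hxy hδ hx hy h1 h2
    rw [pow_succ] at hd
    have a1 := ih x ((x + y) / 2) (by linarith) (by linarith) hx (by linarith) h1 hm
    have a2 := ih ((x + y) / 2) y (by linarith) (by linarith) (by linarith) hy hm h2
    linarith

/-- L-257-F3P-C: full slope between two centres of the same radius.   PLAN: induction on `n` with `y - x ≤ 2 ^ n * δ`; `n = 0`: `f3p_aff_of_ends` in the interval about `x`; step: `f3p_full_mid`, add the two halves.   `n` exists: `pow_unbounded_of_one_lt` / `exists_nat_gt`. -/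
theorem f3p_full_chain (h : F3Prof lam f p q σ) {x y δ : ℝ} (hxy : x ≤ y) (hδ : 0 < δ) (hx : p ≤ x - δ) (hy : y + δ ≤ q)
    (h1 : F3Full lam f x δ) (h2 : F3Full lam f y δ) : f x - f y = lam * (y - x) := by
  obtain ⟨n, hn⟩ := pow_unbounded_of_one_lt ((y - x) / δ) (one_lt_two : (1:ℝ) < 2)
  refine f3p_full_chain_aux h hδ n x y hxy ?_ hx hy h1 h2
  rw [div_lt_iff₀ hδ] at hn
  exact hn.le

/-- **full slope between two full-slope points** (`f:midpoint`: "the full-slope set is an interval") -/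
theorem f3p_interval (h : F3Prof lam f p q σ) {x y : ℝ} (hxy : x ≤ y) (hx : x ∈ Ioo p q) (hy : y ∈ Ioo p q)
    (h1 : HasDerivAt f (-lam) x) (h2 : HasDerivAt f (-lam) y) : f x - f y = lam * (y - x) := by
  obtain ⟨δ₁, a1, a2, _, a4⟩ := f3p_full_of_deriv h hx h1
  obtain ⟨δ₂, b1, _, b3, b4⟩ := f3p_full_of_deriv h hy h2
  have hm : 0 < min δ₁ δ₂ := lt_min a1 b1
  refine f3p_full_chain h hxy hm ?_ ?_ (f3p_full_mono h hm.le (min_le_left _ _) a4) (f3p_full_mono h hm.le (min_le_right _ _) b4)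
  · linarith [min_le_left δ₁ δ₂]
  · linarith [min_le_right δ₁ δ₂]

/-- no full-slope point inside: constant -/
theorem f3p_struct_const (h : F3Prof lam f p q σ) {x y : ℝ} (hx : p ≤ x) (hxy : x ≤ y) (hy : y ≤ q)
    (hno : ∀ s ∈ Ioo x y, ¬ HasDerivAt f (-lam) s) : f x = f y := by
  have h1 := f3p_ftc h hx hxy hy
  have h2 : f3E lam f ∩ Ioo x y = ∅ := by
    apply eq_empty_of_forall_notMem
    intro s hs
    exact hno s hs.2 ((f3p_mem_E h.lam_pos s).1 hs.1)
  rw [h2] at h1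
  simp at h1
  linarith

/-- L-257-F3P-STR, **the structure of a profile**: constant, then full slope, then constant.
PLAN: `E₀ = {s ∈ Ioo p q | HasDerivAt f (-lam) s}`.   If `E₀ = ∅`: `f3p_ftc` gives `f p = f q` (`f3p_mem_E`: `f3E ∩ Ioo p q = ∅`), `anti`: constant; `α = β = p`.
Otherwise `α = sInf E₀`, `β = sSup E₀` (bounded: `⊆ Ioo p q`).   Full slope on `[α, β]`: for `α < s ≤ t < β` choose `x ∈ E₀`, `x < s` (`exists_lt_of_csInf_lt`) and `y ∈ E₀`, `t < y`; `f3p_interval`, `f3p_aff_of_ends`;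
the closed interval by continuity of `f` (Lipschitz) or by `lip` and a limiting argument (`le_of_forall_pos_le_add`).   Constant on `[p, α]`: `f3E ∩ Ioo p α = ∅` (a point of it would be a point of `E₀` below `sInf`), `f3p_ftc`, `anti`; the same on `[β, q]`. -/
theorem f3p_struct (h : F3Prof lam f p q σ) (hpq : p ≤ q) : ∃ α β, p ≤ α ∧ α ≤ β ∧ β ≤ q ∧ (∀ s, p ≤ s → s ≤ α → f s = f p) ∧
    (∀ s t, α ≤ s → s ≤ t → t ≤ β → f s - f t = lam * (t - s)) ∧ (∀ s, β ≤ s → s ≤ q → f s = f q) := by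
  set E₀ : Set ℝ := {s | s ∈ Ioo p q ∧ HasDerivAt f (-lam) s} with hE₀
  rcases eq_empty_or_nonempty E₀ with hemp | hne
  · refine ⟨p, p, le_rfl, le_rfl, hpq, ?_, ?_, ?_⟩
    · intro s h1 h2; rw [le_antisymm h2 h1]
    · intro s t h1 h2 h3
      have e1 : t = p := le_antisymm h3 (h1.trans h2)
      have e2 : s = p := le_antisymm (h2.trans h3) h1
      rw [e1, e2]; simp
    · intro s h1 h2
      apply f3p_struct_const h h1 h2 le_rfl
      intro u hu hd
      have : u ∈ E₀ := ⟨⟨lt_of_le_of_lt h1 hu.1, hu.2⟩, hd⟩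
      rw [hemp] at this
      exact this
  · have hbb : BddBelow E₀ := ⟨p, fun s hs => hs.1.1.le⟩
    have hba : BddAbove E₀ := ⟨q, fun s hs => hs.1.2.le⟩
    obtain ⟨s₀, hs₀⟩ := hne
    have hα : p ≤ sInf E₀ := le_csInf ⟨s₀, hs₀⟩ (fun s hs => hs.1.1.le)
    have hβ : sSup E₀ ≤ q := csSup_le ⟨s₀, hs₀⟩ (fun s hs => hs.1.2.le)
    have hαβ : sInf E₀ ≤ sSup E₀ := (csInf_le hbb hs₀).trans (le_csSup hba hs₀)
    refine ⟨sInf E₀, sSup E₀, hα, hαβ, hβ, ?_, ?_, ?_⟩
    · intro s h1 h2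
      symm
      apply f3p_struct_const h le_rfl h1 (h2.trans (hαβ.trans hβ))
      intro u hu hd
      have : u ∈ E₀ := ⟨⟨hu.1, lt_of_lt_of_le hu.2 (h2.trans (hαβ.trans hβ))⟩, hd⟩
      have := csInf_le hbb this
      linarith [hu.2]
    · intro s t h1 h2 h3
      rw [f3p_ftc h (hα.trans h1) h2 (h3.trans hβ)]
      have hsub : Ioo s t ⊆ f3E lam f := by
        intro u hu
        obtain ⟨x, hxE, hxu⟩ := exists_lt_of_csInf_lt ⟨s₀, hs₀⟩ (lt_of_le_of_lt h1 hu.1)
        obtain ⟨y, hyE, hyu⟩ := exists_lt_of_lt_csSup ⟨s₀, hs₀⟩ (lt_of_lt_of_le hu.2 h3)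
        have hi := f3p_interval h (hxu.le.trans hyu.le) hxE.1 hyE.1 hxE.2 hyE.2
        exact (f3p_mem_E h.lam_pos u).2 (f3p_deriv_of_aff (fun a b ha hab hb => f3p_aff_of_ends h hi ha hab hb) ⟨hxu, hyu⟩)
      rw [inter_eq_self_of_subset_right hsub, Real.volume_Ioo, ENNReal.toReal_ofReal (by linarith)]
    · intro s h1 h2
      apply f3p_struct_const h (hα.trans (hαβ.trans h1)) h2 le_rfl
      intro u hu hd
      have : u ∈ E₀ := ⟨⟨lt_of_le_of_lt (hα.trans (hαβ.trans h1)) hu.1, hu.2⟩, hd⟩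
      have := le_csSup hba this
      linarith [hu.1]

/-- L-257-F3P-POW, **(f:power-end)**: `f_i (s_H) = 0` for every field.   `hX` = the cross-field halving rule.
PLAN: `f3p_struct` for every `i`: `α i ≤ β i` in `[0,1]`, `lam (β i - α i) = f i 0 - f i 1 = lam sH`.   If `sH = 0`: `h0`.   Otherwise `α i < β i`; every `a ∈ Ioo (α i) (β i)` is a full-slope point of `f i` (`f3p_deriv_of_aff`);
every point of `Ioo 0 (α j)` is a zero-slope point of `f j` (`f3p_deriv_of_const`); so by `hX` every `a ∈ Ioo (α i) (β i)`, `a ≠ σ`, `a ≠ 2σ`, has `α j ≤ a / 2`; let `a ↓ α i`: `α j ≤ α i / 2` for `i ≠ j`.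
Two different fields (`hm`): `α i ≤ α j / 2 ≤ α i / 4`, so `α i = 0`, `β i = sH`, `f i sH = f i 1 = 0`.
(WHY the midpoint rule is needed across the seam: `sH = σ = 1/2`, full-slope set `(0, 0.4) ∪ (0.5, 0.6)` for all fields satisfies the halving rule, the binary rule and the midpoint rule on each side of the seam.) -/
theorem f3p_power {m : ℕ} (hm : 2 ≤ m) (sH : ℝ) (F : Fin m → ℝ → ℝ) (h : ∀ i, F3Prof lam (F i) 0 1 σ) (h0 : ∀ i, F i 0 = lam * sH) (h1 : ∀ i, F i 1 = 0)
    (hX : ∀ i j, i ≠ j → ∀ a ∈ Ioo (0 : ℝ) 1, a ≠ σ → a / 2 ≠ σ → HasDerivAt (F i) (-lam) a → ¬ HasDerivAt (F j) 0 (a / 2)) :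
    ∀ i, F i sH = 0 := by
  have hl : 0 < lam := (h ⟨0, by omega⟩).lam_pos
  choose α β hα hαβ hβ hc1 hfull hc2 using fun i => f3p_struct (h i) zero_le_one
  have hsH : ∀ i, sH = β i - α i := by
    intro i
    have e1 := hc1 i (α i) (hα i) le_rfl
    have e2 := hc2 i (β i) le_rfl (hβ i)
    have e3 := hfull i (α i) (β i) le_rfl (hαβ i) le_rfl
    rw [e1, e2, h0, h1, sub_zero] at e3
    exact mul_left_cancel₀ hl.ne' e3
  by_cases hs0 : sH = 0
  · intro i; rw [hs0, h0, hs0, mul_zero]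
  have hlt : ∀ i, α i < β i := by
    intro i
    rcases (hαβ i).lt_or_eq with h' | h'
    · exact h'
    · exact absurd (by rw [hsH i, h']; simp) hs0
  have hkey : ∀ i j, i ≠ j → α j ≤ α i / 2 := by
    intro i j hij
    by_contra hcon
    rw [not_le] at hcon
    have huv : α i < min (β i) (2 * α j) := lt_min (hlt i) (by linarith)
    obtain ⟨a, ha, hna⟩ := ((Ioo_infinite huv).sdiff (Set.toFinite ({σ, 2 * σ} : Set ℝ))).nonempty
    simp only [mem_insert_iff, mem_singleton_iff, not_or] at hna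
    have ha1 : a < β i := lt_of_lt_of_le ha.2 (min_le_left _ _)
    have ha2 : a < 2 * α j := lt_of_lt_of_le ha.2 (min_le_right _ _)
    have ha0 : 0 < a := lt_of_le_of_lt (hα i) ha.1
    refine hX i j hij a ⟨ha0, lt_of_lt_of_le ha1 (hβ i)⟩ hna.1 (fun e => hna.2 (by linarith)) ?_ ?_
    · exact f3p_deriv_of_aff (hfull i) ⟨ha.1, ha1⟩
    · exact f3p_deriv_of_const (x := 0) (y := α j) (fun s hs1 hs2 => hc1 j s hs1 hs2) ⟨by linarith, by linarith⟩
  intro i
  obtain ⟨j, hj⟩ : ∃ j : Fin m, i ≠ j := by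
    by_cases hi : i.1 = 0
    · exact ⟨⟨1, by omega⟩, fun e => by rw [e] at hi; simp at hi⟩
    · exact ⟨⟨0, by omega⟩, fun e => by rw [e] at hi; simp at hi⟩
  have k1 := hkey i j hj
  have k2 := hkey j i hj.symm
  have hαi : α i = 0 := le_antisymm (by linarith) (hα i)
  have : sH = β i := by rw [hsH i, hαi, sub_zero]
  rw [this, hc2 i (β i) le_rfl (hβ i), h1]

/-- L-257-F3P-SUB1: the sum `T = ∑ d_i` of the defects tends to `0` at `-∞`: `T (s - n C₅) ≤ θ^n T s`, `θ = c' m / q' < 1`.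
PLAN: `T` is nondecreasing (`hmono`) and `≥ 0` on `s ≤ 0`; sum `hL` over `i`: `q' T s ≤ c' m T (s + C₅)`; induction on `n`. -/
theorem f3p_defect_small {m : ℕ} (d : Fin m → ℝ → ℝ) (hmono : ∀ i, Monotone (d i)) (hd : ∀ i s, s ≤ 0 → 0 ≤ d i s) {q' c' C₅ s₁ : ℝ} (hc' : 0 ≤ c') (hq : c' * m < q')
    (hL : ∀ s, s < s₁ → ∀ i, q' * d i s ≤ c' * ∑ j, d j (s + C₅)) : ∀ ε, 0 < ε → ∃ s, s ≤ 0 ∧ ∀ i, d i s ≤ ε := by
  intro ε hε
  set T : ℝ → ℝ := fun s => ∑ j, d j s with hT
  have hTm : Monotone T := fun x y hxy => Finset.sum_le_sum fun j _ => hmono j hxy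
  have hT0 : ∀ s, s ≤ 0 → 0 ≤ T s := fun s hs => Finset.sum_nonneg fun j _ => hd j s hs
  have hcm : 0 ≤ c' * m := by positivity
  have hq0 : 0 < q' := lt_of_le_of_lt hcm hq
  set θ : ℝ := c' * m / q' with hθ
  have hθ0 : 0 ≤ θ := by positivity
  have hθ1 : θ < 1 := by rw [hθ, div_lt_one hq0]; exact hq
  have hstep : ∀ s, s < s₁ → T s ≤ θ * T (s + |C₅|) := by
    intro s hs
    have e1 : q' * T s ≤ c' * m * T (s + C₅) := by
      calc q' * T s = ∑ i : Fin m, q' * d i s := by rw [hT]; simp only [Finset.mul_sum]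
        _ ≤ ∑ _i : Fin m, c' * T (s + C₅) := Finset.sum_le_sum fun i _ => hL s hs i
        _ = c' * m * T (s + C₅) := by simp; ring
    have e2 : c' * m * T (s + C₅) ≤ c' * m * T (s + |C₅|) :=
      mul_le_mul_of_nonneg_left (hTm (by linarith [le_abs_self C₅])) hcm
    rw [hθ, div_mul_eq_mul_div, le_div_iff₀ hq0]
    linarith
  set s₂ : ℝ := min (s₁ - 1) 0 with hs₂
  have hs₂1 : s₂ < s₁ := lt_of_le_of_lt (min_le_left _ _) (by linarith)
  have hs₂0 : s₂ ≤ 0 := min_le_right _ _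
  have hC : 0 ≤ |C₅| := abs_nonneg _
  have hiter : ∀ n : ℕ, T (s₂ - n * |C₅|) ≤ θ ^ n * T s₂ := by
    intro n
    induction n with
    | zero => simp
    | succ n ih =>
      have hn : (0:ℝ) ≤ (n + 1 : ℕ) * |C₅| := by positivity
      have e1 := hstep (s₂ - (n + 1 : ℕ) * |C₅|) (by linarith)
      have e2 : s₂ - (n + 1 : ℕ) * |C₅| + |C₅| = s₂ - n * |C₅| := by push_cast; ring
      rw [e2] at e1
      calc _ ≤ θ * T (s₂ - n * |C₅|) := e1
        _ ≤ θ * (θ ^ n * T s₂) := mul_le_mul_of_nonneg_left ih hθ0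
        _ = θ ^ (n + 1) * T s₂ := by ring
  have hu0 : 0 ≤ T s₂ := hT0 s₂ hs₂0
  obtain ⟨n, hn⟩ := exists_pow_lt_of_lt_one (show 0 < ε / (T s₂ + 1) by positivity) hθ1
  have hn' : θ ^ n * T s₂ ≤ ε := by
    rw [lt_div_iff₀ (by positivity)] at hn
    have : 0 ≤ θ ^ n := by positivity
    nlinarith
  have hsn : s₂ - n * |C₅| ≤ 0 := by
    have : (0:ℝ) ≤ n * |C₅| := by positivity
    linarith
  refine ⟨s₂ - n * |C₅|, hsn, fun i => ?_⟩
  calc d i (s₂ - n * |C₅|) ≤ T (s₂ - n * |C₅|) :=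
        Finset.single_le_sum (f := fun j => d j (s₂ - n * |C₅|)) (fun j _ => hd j _ hsn) (Finset.mem_univ i)
    _ ≤ θ ^ n * T s₂ := hiter n
    _ ≤ ε := hn'

/-- L-257-F3P-SUB2, **end of `f:left-limit`**: `f_i 0 = 0`, including the case `e_i = 0`.   `d_i s = f_i s + lam s`.
PLAN: `d_i` is monotone (`lip`), so `f3p_defect_small` applies.   Fix `i`, suppose `F i 0 > 0` (`≥ 0` by `anti`, `he`, `0 ≤ e i`).   For `p < 0`: `f3p_struct` on `(p, e i)`: `α_p ≤ β_p` in `[p, e i]`; `F i = F i (e i) = 0` on `[β_p, e i]`, so `0 < β_p`;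
`F i s = lam (β_p - s)` on `[α_p, β_p]`; `F i s = lam (β_p - α_p)` on `[p, α_p]`; `α_p < β_p` (otherwise `F i 0 = 0`); so `F i > 0` on `[p, β_p)` and `F i β_p = 0`: hence `β_p =: β` does not depend on `p` (compare two values of `p`).
`hd` at `s = p`: `0 ≤ lam (β - α_p) + lam p`, so `α_p ≤ p + β`.   For `s ≤ 0` take `p = s - β < 0`: `α_p ≤ s ≤ β`, so `d_i s = lam (β - s) + lam s = lam β`.   Contradiction with `f3p_defect_small` for `ε = lam β / 2`. -/
theorem f3p_subpower {m : ℕ} (e : Fin m → ℝ) (F : Fin m → ℝ → ℝ) (he0 : ∀ i, 0 ≤ e i) (h : ∀ i p, p < e i → F3Prof lam (F i) p (e i) 0) (he : ∀ i, F i (e i) = 0)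
    (hd : ∀ i s, s ≤ 0 → 0 ≤ F i s + lam * s) {q' c' C₅ s₁ : ℝ} (hc' : 0 ≤ c') (hq : c' * m < q')
    (hL : ∀ s, s < s₁ → ∀ i, q' * (F i s + lam * s) ≤ c' * ∑ j, (F j (s + C₅) + lam * (s + C₅))) : ∀ i, F i 0 = 0 := by
  intro i
  have hP : ∀ j, F3Prof lam (F j) (e j - 1) (e j) 0 := fun j => h j (e j - 1) (by linarith)
  have hl : 0 < lam := (hP i).lam_pos
  have hmono : ∀ j, Monotone fun s => F j s + lam * s := by
    intro j x y hxy
    have := (hP j).lip x y hxy
    simp only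
    linarith
  have hsmall := f3p_defect_small (fun j s => F j s + lam * s) hmono hd hc' hq hL
  by_contra hne
  have hge : 0 ≤ F i 0 := by
    have := (hP i).anti (he0 i)
    rw [he] at this
    exact this
  have hc : 0 < F i 0 := lt_of_le_of_ne hge (Ne.symm hne)
  have hconst : ∀ s, s ≤ 0 → F i s + lam * s = F i 0 := by
    intro s hs
    set c := F i 0 with hcdef
    set p := s - c / lam - 1 with hp
    have hlp : lam * p = lam * s - c - lam := by
      rw [hp]; field_simp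
    have hcl : 0 < c / lam := by positivity
    have hp0 : p < 0 := by rw [hp]; linarith
    have hpe : p < e i := lt_of_lt_of_le hp0 (he0 i)
    obtain ⟨α, β, hα, hαβ, hβ, k1, k2, k3⟩ := f3p_struct (h i p hpe) hpe.le
    have hβ0 : 0 < β := by
      by_contra hcon
      rw [not_lt] at hcon
      have := k3 0 hcon (he0 i)
      rw [he] at this
      exact hne this
    have hFβ : F i β = 0 := by rw [k3 β le_rfl hβ, he]
    have hdp := hd i p hp0.le
    have hα0 : α ≤ 0 := by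
      by_contra hcon
      rw [not_le] at hcon
      have := k1 0 hp0.le hcon.le
      rw [← this, hlp] at hdp
      nlinarith
    have e1 := k2 0 β hα0 hβ0.le le_rfl
    rw [hFβ] at e1
    have e2 := k2 α β le_rfl hαβ le_rfl
    rw [hFβ, k1 α hα le_rfl] at e2
    have hαs : α ≤ s := by
      have : lam * α ≤ lam * (s - 1) := by nlinarith
      have := le_of_mul_le_mul_left this hl
      linarith
    have e3 := k2 s β hαs (hs.trans hβ0.le) le_rfl
    rw [hFβ] at e3
    linarith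
  obtain ⟨s, hs, hs'⟩ := hsmall (F i 0 / 2) (by positivity)
  have := hs' i
  rw [hconst s hs] at this
  linarith

end

end Claimed.Agent.R257.FR3
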