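import Claimed.Agent.R257.FR2.ProfGlue
import Claimed.Agent.R257.FR3.ProfA

/-!
# ROW 257, package FR3, unit PROF, file 2: FROM TESTS ON THE TREES TO THE FORCED PROFILES      (architect helper94, for captain helper121)

Paper-free.   `D : PDbl` = the doubly indexed family of sampled profiles of one field (`FR2/ProfDbl.lean`: grid `N`, configuration `n`, nodes `D.s N n i`, values `D.ρ N n i = log_Λ r`), `D.f` the limiting profile.
**`Blk D x0 x r ε`** = "eventually in `N`, eventually in `n`, the values at ALL the nodes within `r` of `x0` are affine of slope `-x` up to `ε`".   THIS IS THE ONLY FORM IN WHICH THE PROFILE ENTERS THE GEOMETRIC UNITS OF FR3: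
each geometric unit proves a statement `¬ (Blk … ∧ Blk … ∧ …)` (for windows `r = V u`, tolerances `ε = e0 u`, `u` small; `e0, V, u0` may depend on everything that is fixed: slopes AND base points).
* `F3Tests lam D p q σ` : the tests (B) = `f:binary` and (M) = `f:midpoint` (one field);   `F3Cross lam D D' σ` : the test (X) = cross-field halving (power case).
* `f3p_blk` (= `pd_block`): a differentiability point of `D.f` with slope `-x` produces `Blk D x0 x (V u) (ε u)` for all small `u`, for ALL `ε, V`.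
* `f3p_prof_of_tests : F3Tests → F3Prof` ;  EXITS `f3p_power_top`, `f3p_subpower_top`, `f3p_ratio_small` ("the recomputed transition ratio is `Λ^{o(1)}`"), `f3p_L_transfer` (the inequality (L) from the trees).
LEAVES `L-257-F3Q-*`: prove IN PLACE, statements verbatim (defect: one line to helper94).
-/

set_option autoImplicit false

namespace Claimed.Agent.R257.FR3

open Filter Topology Set
open Claimed.Agent.R255 Claimed.Agent.R257.FR2

noncomputable section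

/-- the trees have slope `-x` on the window of radius `r` about `x0`, up to `ε` -/
def Blk (D : PDbl) (x0 x r ε : ℝ) : Prop :=
  ∀ᶠ N in uf, ∀ᶠ n in uf, ∀ i j, i ≤ D.ℓ N → j ≤ D.ℓ N → |D.s N n i - x0| ≤ r → |D.s N n j - x0| ≤ r →
    |D.ρ N n j - D.ρ N n i + x * (D.s N n j - D.s N n i)| ≤ ε

/-- the tests (B), (M) for one field on the parameter interval `(p, q)` with the seam `σ` -/
structure F3Tests (lam : ℝ) (D : PDbl) (p q σ : ℝ) : Prop where
  /-- (B) `f:binary`: no intermediate slope -/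
  bin : ∀ x, 0 < x → x < lam → ∀ l ∈ Ioo p q, l ≠ σ → ∃ e0 V u0 : ℝ, 0 < e0 ∧ 0 < V ∧ 0 < u0 ∧ ∀ u, 0 < u → u < u0 → ¬ Blk D l x (V * u) (e0 * u)
  /-- (M) `f:midpoint`: full slope at `l` and at `a`, zero slope at the midpoint -/
  mid : ∀ l a, l < a → l ∈ Ioo p q → a ∈ Ioo p q → l ≠ σ → a ≠ σ → (l + a) / 2 ≠ σ → ∃ e0 V s0 : ℝ, 0 < e0 ∧ 0 < V ∧ 0 < s0 ∧ ∀ s, 0 < s → s < s0 →
    ¬ (Blk D l lam (V * s) (e0 * s) ∧ Blk D a lam (V * s) (e0 * s) ∧ Blk D ((l + a) / 2) 0 (V * s) (e0 * s))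

/-- the test (X): full slope at `a` in the field `D`, zero slope at `a / 2` in the field `D'` -/
def F3Cross (lam : ℝ) (D D' : PDbl) (σ : ℝ) : Prop :=
  ∀ a ∈ Ioo (0 : ℝ) 1, a ≠ σ → a / 2 ≠ σ → ∃ e0 V s0 : ℝ, 0 < e0 ∧ 0 < V ∧ 0 < s0 ∧ ∀ s, 0 < s → s < s0 →
    ¬ (Blk D a lam (V * s) (e0 * s) ∧ Blk D' (a / 2) 0 (V * s) (e0 * s))

variable {lam : ℝ} {D : PDbl}

theorem f3p_blk (h : D.Ok lam) {x0 x : ℝ} (hd : HasDerivAt D.f (-x) x0) {ε V : ℝ} (hε : 0 < ε) (hV : 0 < V) :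
    ∃ u0, 0 < u0 ∧ ∀ u, 0 < u → u ≤ u0 → Blk D x0 x (V * u) (ε * u) :=
  PDbl.pd_block h hd hε hV

/-- L-257-F3Q-DER: the derivative of a nonincreasing `lam`-Lipschitz function lies in `[-lam, 0]` (difference quotients: `HasDerivAt.tendsto_slope` / `hasDerivAt_iff_tendsto_slope`, `le_of_tendsto`, `ge_of_tendsto` on `𝓝[>] s`) -/
theorem f3p_deriv_range {f : ℝ → ℝ} (ha : Antitone f) (hl : ∀ x y, x ≤ y → f x - f y ≤ lam * (y - x)) {s d : ℝ} (hd : HasDerivAt f d s) : -lam ≤ d ∧ d ≤ 0 := by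
  have ht := (hasDerivAt_iff_tendsto_slope.1 hd).mono_left (nhdsGT_le_nhdsNE s)
  constructor
  · apply ge_of_tendsto ht
    filter_upwards [self_mem_nhdsWithin] with t ht'
    have hst : s < t := ht'
    rw [slope_def_field, le_div_iff₀ (by linarith)]
    have := hl s t hst.le
    linarith
  · apply le_of_tendsto ht
    filter_upwards [self_mem_nhdsWithin] with t ht'
    have hst : s < t := ht'
    rw [slope_def_field]
    apply div_nonpos_of_nonpos_of_nonneg _ (by linarith)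
    have := ha hst.le
    linarith

/-- L-257-F3Q-PROF, **the tests give the hypotheses of the profile calculus**.
PLAN: `anti`, `lip`: `PDbl.pd_anti`, `PDbl.pd_lip`.   `bin`: `(PDbl.pd_lipschitz h).ae_differentiableAt` and `s ≠ σ` a.e. (`Set.Finite.measure_zero`, `compl_mem_ae_iff`); at such `s ∈ Ioo p q` put `d = deriv D.f s`, `f3p_deriv_range`;
if `d ≠ 0`, `d ≠ -lam`: `x = -d ∈ (0, lam)`, `ht.bin` gives `e0 V u0`, `f3p_blk` gives `u1`; `u = min u0 u1 / 2`: contradiction.   `mid`: `ht.mid` gives `e0 V s0`; `f3p_blk` three times (`-0 = 0`: `neg_zero`); `s = min s0 (min ..) / 2`. -/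
theorem f3p_prof_of_tests (h : D.Ok lam) (hl : 0 < lam) {p q σ : ℝ} (ht : F3Tests lam D p q σ) : F3Prof lam D.f p q σ := by
  refine ⟨hl, fun x y hxy => PDbl.pd_anti h hxy, fun x y hxy => PDbl.pd_lip h hxy, ?_, ?_⟩
  · have hσ : ∀ᵐ s : ℝ, s ≠ σ := by
      have : ({σ}ᶜ : Set ℝ) ∈ MeasureTheory.ae MeasureTheory.volume := MeasureTheory.compl_mem_ae_iff.2 (by simp)
      exact this
    filter_upwards [(PDbl.pd_lipschitz h).ae_differentiableAt, hσ] with s hs hsσ hm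
    have hd := hs.hasDerivAt
    obtain ⟨r1, r2⟩ := f3p_deriv_range (fun x y hxy => PDbl.pd_anti h hxy) (fun x y hxy => PDbl.pd_lip h hxy) hd
    by_cases h0 : deriv D.f s = 0
    · left; rw [h0] at hd; exact hd
    by_cases h1 : deriv D.f s = -lam
    · right; rw [h1] at hd; exact hd
    exfalso
    have hx0 : 0 < -deriv D.f s := by
      have := lt_of_le_of_ne r2 h0
      linarith
    have hx1 : -deriv D.f s < lam := by
      have := lt_of_le_of_ne r1 (Ne.symm h1)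
      linarith
    obtain ⟨e0, V, u0, he0, hV, hu0, hno⟩ := ht.bin _ hx0 hx1 s hm hsσ
    obtain ⟨u1, hu1, hyes⟩ := f3p_blk h (x0 := s) (x := -deriv D.f s) (by rw [neg_neg]; exact hd) he0 hV
    have hm0 : 0 < min u0 u1 := lt_min hu0 hu1
    exact hno (min u0 u1 / 2) (by positivity) (by linarith [min_le_left u0 u1]) (hyes _ (by positivity) (by linarith [min_le_right u0 u1]))
  · intro l a hla hlm ham hlσ haσ hmσ hdl hda hdm
    obtain ⟨e0, V, s0, he0, hV, hs0, hno⟩ := ht.mid l a hla hlm ham hlσ haσ hmσ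
    obtain ⟨u1, hu1, y1⟩ := f3p_blk h hdl he0 hV
    obtain ⟨u2, hu2, y2⟩ := f3p_blk h hda he0 hV
    obtain ⟨u3, hu3, y3⟩ := f3p_blk h (x := 0) (by rw [neg_zero]; exact hdm) he0 hV
    have hm0 : 0 < min s0 (min u1 (min u2 u3)) := lt_min hs0 (lt_min hu1 (lt_min hu2 hu3))
    have b0 : min s0 (min u1 (min u2 u3)) ≤ s0 := min_le_left _ _
    have b1 : min s0 (min u1 (min u2 u3)) ≤ u1 := (min_le_right _ _).trans (min_le_left _ _)
    have b2 : min s0 (min u1 (min u2 u3)) ≤ u2 := (min_le_right _ _).trans ((min_le_right _ _).trans (min_le_left _ _))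
    have b3 : min s0 (min u1 (min u2 u3)) ≤ u3 := (min_le_right _ _).trans ((min_le_right _ _).trans (min_le_right _ _))
    exact hno (min s0 (min u1 (min u2 u3)) / 2) (by positivity) (by linarith)
      ⟨y1 _ (by positivity) (by linarith), y2 _ (by positivity) (by linarith), y3 _ (by positivity) (by linarith)⟩

/-- L-257-F3Q-TOP, **the power case**: `f_i (s_H) = 0` (`f3p_power`, `f3p_prof_of_tests`; `hX`: `f3p_blk` twice) -/
theorem f3p_power_top {m : ℕ} (hm : 2 ≤ m) (hl : 0 < lam) (𝔇 : Fin m → PDbl) (h : ∀ i, (𝔇 i).Ok lam) (σ sH : ℝ) (ht : ∀ i, F3Tests lam (𝔇 i) 0 1 σ)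
    (hX : ∀ i j, i ≠ j → F3Cross lam (𝔇 i) (𝔇 j) σ) (h0 : ∀ i, (𝔇 i).f 0 = lam * sH) (h1 : ∀ i, (𝔇 i).f 1 = 0) : ∀ i, (𝔇 i).f sH = 0 := by
  refine f3p_power hm sH (fun i => (𝔇 i).f) (fun i => f3p_prof_of_tests (h i) hl (ht i)) h0 h1 ?_
  intro i j hij a ha haσ ha2 hda hdz
  obtain ⟨e0, V, s0, he0, hV, hs0, hno⟩ := hX i j hij a ha haσ ha2
  obtain ⟨u1, hu1, y1⟩ := f3p_blk (h i) hda he0 hV
  obtain ⟨u2, hu2, y2⟩ := f3p_blk (h j) (x := 0) (by rw [neg_zero]; exact hdz) he0 hV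
  have hm0 : 0 < min s0 (min u1 u2) := lt_min hs0 (lt_min hu1 hu2)
  have b0 : min s0 (min u1 u2) ≤ s0 := min_le_left _ _
  have b1 : min s0 (min u1 u2) ≤ u1 := (min_le_right _ _).trans (min_le_left _ _)
  have b2 : min s0 (min u1 u2) ≤ u2 := (min_le_right _ _).trans (min_le_right _ _)
  exact hno (min s0 (min u1 u2) / 2) (by positivity) (by linarith) ⟨y1 _ (by positivity) (by linarith), y2 _ (by positivity) (by linarith)⟩

/-- L-257-F3Q-TOP, **the subpower case**: `f_i 0 = 0` (`f3p_subpower`, `f3p_prof_of_tests`) -/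
theorem f3p_subpower_top {m : ℕ} (hl : 0 < lam) (𝔇 : Fin m → PDbl) (h : ∀ i, (𝔇 i).Ok lam) (e : Fin m → ℝ) (he0 : ∀ i, 0 ≤ e i) (ht : ∀ i p, p < e i → F3Tests lam (𝔇 i) p (e i) 0)
    (he : ∀ i, (𝔇 i).f (e i) = 0) (hd : ∀ i s, s ≤ 0 → 0 ≤ (𝔇 i).f s + lam * s) {q' c' C₅ s₁ : ℝ} (hc' : 0 ≤ c') (hq : c' * m < q')
    (hL : ∀ s, s < s₁ → ∀ i, q' * ((𝔇 i).f s + lam * s) ≤ c' * ∑ j, ((𝔇 j).f (s + C₅) + lam * (s + C₅))) : ∀ i, (𝔇 i).f 0 = 0 := by
  exact f3p_subpower e (fun i => (𝔇 i).f) he0 (fun i p hp => f3p_prof_of_tests (h i) hl (ht i p hp)) he hd hc' hq hL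

/-- L-257-F3Q-RATIO, **"the recomputed transition ratio is `Λ^{o(1)}`"**: where the profile vanishes, the values at the nearby nodes are small (`PDbl.pd_unif` on `[x0 - 1, x0 + 1]` with `tol / 2`; `PSeq.pl_abs_le (PDbl.pd_ok h)`: `|f (node) - f x0| ≤ lam |node - x0|`) -/
theorem f3p_ratio_small (h : D.Ok lam) {x0 : ℝ} (h0 : D.f x0 = 0) {tol : ℝ} (htol : 0 < tol) :
    ∃ r, 0 < r ∧ ∀ᶠ N in uf, ∀ᶠ n in uf, ∀ i, i ≤ D.ℓ N → |D.s N n i - x0| ≤ r → |D.ρ N n i| ≤ tol := by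
  have hl0 := h.lam_nonneg
  have hl1 : 0 < 2 * (lam + 1) := by linarith
  refine ⟨min 1 (tol / (2 * (lam + 1))), lt_min one_pos (by positivity), ?_⟩
  filter_upwards [PDbl.pd_unif h (x0 - 1) (x0 + 1) (tol / 2) (by positivity)] with N hN
  filter_upwards [hN] with n hn
  intro i hi hr
  have hr1 : |D.s N n i - x0| ≤ 1 := hr.trans (min_le_left _ _)
  have hr2 : |D.s N n i - x0| ≤ tol / (2 * (lam + 1)) := hr.trans (min_le_right _ _)
  have a1 := hn i hi (by linarith [(abs_le.1 hr1).1]) (by linarith [(abs_le.1 hr1).2])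
  have a2 : |D.f (D.s N n i) - D.f x0| ≤ lam * |D.s N n i - x0| := PSeq.pl_abs_le (PDbl.pd_ok h) _ _
  rw [h0, sub_zero] at a2
  have a3 : lam * |D.s N n i - x0| ≤ tol / 2 := by
    rw [le_div_iff₀ hl1] at hr2
    have := abs_nonneg (D.s N n i - x0)
    nlinarith
  have a4 : |D.ρ N n i| ≤ |D.ρ N n i - D.f (D.s N n i)| + |D.f (D.s N n i)| := by
    have := abs_add_le (D.ρ N n i - D.f (D.s N n i)) (D.f (D.s N n i))
    simpa using this
  linarith

/-- L-257-F3Q-L, **transfer of the inequality (L)**: if for every `ε` the trees contain (eventually) nodes within `ε` of `x` (field `i`) and of `y` (all fields) whose values satisfy the inequality up to `ε`, then the profiles satisfy it.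
PLAN: `PDbl.pd_unif` for the `m + 1` families on compact windows about `x`, `y`; `PSeq.pl_abs_le`; finitely many eventual statements (`Filter.eventually_all`), `(hε.and …).exists` twice (`uf_neBot`); then `le_of_forall_pos_le_add` with the total error `≤ C ε`, `C = (|q'| + c' m)(2 + 2 lam) + 1`-type. -/
theorem f3p_L_transfer {m : ℕ} (𝔇 : Fin m → PDbl) (h : ∀ i, (𝔇 i).Ok lam) (i : Fin m) {q' c' x y : ℝ} (hq' : 0 ≤ q') (hc' : 0 ≤ c')
    (hg : ∀ ε, 0 < ε → ∀ᶠ N in uf, ∀ᶠ n in uf, ∃ (a : ℕ) (b : Fin m → ℕ), a ≤ (𝔇 i).ℓ N ∧ |(𝔇 i).s N n a - x| ≤ ε ∧ (∀ j, b j ≤ (𝔇 j).ℓ N ∧ |(𝔇 j).s N n (b j) - y| ≤ ε) ∧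
      q' * ((𝔇 i).ρ N n a + lam * (𝔇 i).s N n a) ≤ c' * ∑ j, ((𝔇 j).ρ N n (b j) + lam * (𝔇 j).s N n (b j)) + ε) :
    q' * ((𝔇 i).f x + lam * x) ≤ c' * ∑ j, ((𝔇 j).f y + lam * y) := by
  have := uf_neBot
  have hl0 : 0 ≤ lam := (h i).lam_nonneg
  apply le_of_forall_pos_le_add
  intro δ hδ
  set K : ℝ := (q' + c' * m) * (1 + 2 * lam) + 1 with hK
  have hK0 : 0 < K := by positivity
  set ε : ℝ := min 1 (δ / K) with hε
  have hε0 : 0 < ε := lt_min one_pos (by positivity)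
  have hε1 : ε ≤ 1 := min_le_left _ _
  have hεK : K * ε ≤ δ := by
    have : ε ≤ δ / K := min_le_right _ _
    rw [le_div_iff₀ hK0] at this
    linarith
  have hu : ∀ᶠ N in uf, ∀ᶠ n in uf, ∀ j : Fin m, ∀ k, k ≤ (𝔇 j).ℓ N → y - 1 ≤ (𝔇 j).s N n k → (𝔇 j).s N n k ≤ y + 1 →
      |(𝔇 j).ρ N n k - (𝔇 j).f ((𝔇 j).s N n k)| ≤ ε := by
    have h1 : ∀ᶠ N in uf, ∀ j : Fin m, ∀ᶠ n in uf, ∀ k, k ≤ (𝔇 j).ℓ N → y - 1 ≤ (𝔇 j).s N n k → (𝔇 j).s N n k ≤ y + 1 →
        |(𝔇 j).ρ N n k - (𝔇 j).f ((𝔇 j).s N n k)| ≤ ε :=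
      eventually_all.2 fun j => PDbl.pd_unif (h j) (y - 1) (y + 1) ε hε0
    filter_upwards [h1] with N hN
    exact eventually_all.2 hN
  obtain ⟨N, hN1, hN2, hN3⟩ := ((hg ε hε0).and ((PDbl.pd_unif (h i) (x - 1) (x + 1) ε hε0).and hu)).exists
  obtain ⟨n, ⟨a, b, ha, hax, hb, hin⟩, hn2, hn3⟩ := (hN1.and (hN2.and hN3)).exists
  have hax' := abs_le.1 hax
  have a1 := abs_le.1 (hn2 a ha (by linarith [hax'.1]) (by linarith [hax'.2]))
  have a2 : |(𝔇 i).f x - (𝔇 i).f ((𝔇 i).s N n a)| ≤ lam * |x - (𝔇 i).s N n a| := PSeq.pl_abs_le (PDbl.pd_ok (h i)) _ _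
  rw [abs_sub_comm x] at a2
  have a3 : lam * |(𝔇 i).s N n a - x| ≤ lam * ε := mul_le_mul_of_nonneg_left hax hl0
  have a2' := abs_le.1 a2
  have a4 : lam * x ≤ lam * (𝔇 i).s N n a + lam * ε := by
    have : lam * (x - (𝔇 i).s N n a) ≤ lam * ε := mul_le_mul_of_nonneg_left (by linarith [hax'.1]) hl0
    linarith
  have L1 : q' * ((𝔇 i).f x + lam * x) ≤ q' * ((𝔇 i).ρ N n a + lam * (𝔇 i).s N n a) + q' * ((1 + 2 * lam) * ε) := by
    rw [← mul_add]
    apply mul_le_mul_of_nonneg_left _ hq'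
    linarith [a1.1, a2'.2]
  have R1 : ∀ j, (𝔇 j).ρ N n (b j) + lam * (𝔇 j).s N n (b j) ≤ ((𝔇 j).f y + lam * y) + (1 + 2 * lam) * ε := by
    intro j
    obtain ⟨hbj, hby⟩ := hb j
    have hby' := abs_le.1 hby
    have b1 := abs_le.1 (hn3 j (b j) hbj (by linarith [hby'.1]) (by linarith [hby'.2]))
    have b2 : |(𝔇 j).f ((𝔇 j).s N n (b j)) - (𝔇 j).f y| ≤ lam * |(𝔇 j).s N n (b j) - y| := PSeq.pl_abs_le (PDbl.pd_ok (h j)) _ _
    have b3 : lam * |(𝔇 j).s N n (b j) - y| ≤ lam * ε := mul_le_mul_of_nonneg_left hby hl0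
    have b2' := abs_le.1 b2
    have b4 : lam * ((𝔇 j).s N n (b j) - y) ≤ lam * ε := mul_le_mul_of_nonneg_left hby'.2 hl0
    linarith [b1.2, b2'.2]
  have R2 : c' * ∑ j, ((𝔇 j).ρ N n (b j) + lam * (𝔇 j).s N n (b j)) ≤ c' * ∑ j, ((𝔇 j).f y + lam * y) + c' * m * ((1 + 2 * lam) * ε) := by
    have : ∑ j, ((𝔇 j).ρ N n (b j) + lam * (𝔇 j).s N n (b j)) ≤ ∑ j, ((𝔇 j).f y + lam * y) + m * ((1 + 2 * lam) * ε) := by
      calc _ ≤ ∑ j : Fin m, (((𝔇 j).f y + lam * y) + (1 + 2 * lam) * ε) := Finset.sum_le_sum fun j _ => R1 j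
        _ = _ := by rw [Finset.sum_add_distrib]; simp
    have := mul_le_mul_of_nonneg_left this hc'
    linarith
  have : K * ε = q' * ((1 + 2 * lam) * ε) + c' * m * ((1 + 2 * lam) * ε) + ε := by rw [hK]; ring
  linarith

end

end Claimed.Agent.R257.FR3
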