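import Claimed.Agent.R257.FR3.TopDefs
import Claimed.Agent.R257.FR3.ProfB

/-!
# ROW 257, package FR3, unit TOP, file 2: NO TOWER EXISTS      (architect helper41)

Paper-free glue (filters along the fixed ultrafilter `uf`, `FR2/Prof*.lean`, `FR3/ProfB.lean`).   EXITS: `ft_power`, `ft_subpower` (a tower + the grid-level tests give `False`), `ft_frame`.
LOGIC.  `T.pd j : PDbl` = the sampled profiles of the field `j`; `ft_pd_ok`: they satisfy `PDbl.Ok (k/2)` (`tpf_at`); `ft_blk`: `Blk` = "eventually `Aff`"; `ft_tests`, `ft_cross`: the grid-level tests give `F3Tests`, `F3Cross`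
(pick `N`, then the `m0` of the class `cN N`, then `n`); endpoints `ft_pow_f0`, `ft_pow_f1`, `ft_sub_top`, `ft_sub_d`, `ft_sub_L`; `f3p_power_top` / `f3p_subpower_top`: the profiles vanish at the seam; `f3p_ratio_small` + `GTestF`: contradiction.
LEAVES `L-257-FT-*` (name in the docstring): prove IN PLACE, statements verbatim (defect: one line to helper41), auxiliary lemmas with prefix `ft_` directly above your theorem; all other statements are black boxes.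
-/

set_option autoImplicit false

namespace Claimed.Agent.R257.FR3

open Filter Topology Set
open scoped BigOperators
open Claimed.Agent.R255 Claimed.Agent.R257 Claimed.Agent.R257.FR2 Claimed.Agent.R257.Tree

noncomputable section

variable {k : ℕ}

/-! ## 1. one configuration -/

/-- L-257-FT-MONO: the quality is monotone.   PLAN: all fields but `Λ_ge`, `K_G`, `Go_Λ`, `Rm_ge`, `η_le` are copied; `pow_le_pow_right₀` with `1 ≤ K` (`two_le_K`), `1 ≤ Go` (`ϖ1_Go` and `(h.sys j).one_le_ϖ1`),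
`1 ≤ X = Λ^cx` (`one_le_pow₀`, `Λ_ge`); `η ≥ 0`: `(h.sys j).η_nonneg`. -/
theorem FCfg.Ok.mono {F : FCfg k} {m m' : ℕ} (h : F.Ok m) (hm : m' ≤ m) : F.Ok m' := by
  have hK1 : 1 ≤ F.K := by linarith [h.two_le_K]
  have hGo1 : 1 ≤ F.Go := ((h.sys 0).one_le_ϖ1).trans (h.ϖ1_Go 0)
  have hm0 : (0 : ℝ) ≤ m := Nat.cast_nonneg m
  have hΛ1 : 1 ≤ F.Λ := by linarith [h.Λ_ge]
  have hX1 : 1 ≤ F.X := one_le_pow₀ hΛ1
  have hmm : (m' : ℝ) ≤ m := by exact_mod_cast hm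
  exact
    { h with
      Λ_ge := by linarith [h.Λ_ge]
      K_G := fun j => (pow_le_pow_right₀ hK1 hm).trans (h.K_G j)
      Go_Λ := (pow_le_pow_right₀ hGo1 hm).trans h.Go_Λ
      Rm_ge := (pow_le_pow_right₀ hX1 hm).trans h.Rm_ge
      η_le := fun j => (mul_le_mul_of_nonneg_left (pow_le_pow_right₀ hX1 hm) (h.sys j).η_nonneg).trans (h.η_le j) }

/-- L-257-FT-KL: `K^m ≤ Λ`.   PLAN: `G ℓ ≤ G 0` (induction with `Good.G_step`, `1 ≤ 2 (1 + 2 Cc)` from `cls.one_le_Cc`, `one_le_G`); `G 0 ≤ G 0 ^ (2 P)` (`Real.self_le_rpow_of_one_le`, `2 P ≥ 1` from `cls.P_gt`);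
`ϖ1 = Cp * G 0 ^ (2P) * ϖ` (unfold `FCfg.tp`, `TDat.tp`) with `1 ≤ Cp` (`(h.sys j).one_le_Γ2`: `Γ2 = Cp`), `1 ≤ ϖ` (`good.one_le_ϖ`); so `K^m ≤ G ℓ ≤ Go ≤ Go^m ≤ Λ` (`1 ≤ Go`, `1 ≤ m`: `le_self_pow₀`). -/
theorem ft_K_le {F : FCfg k} {m : ℕ} (h : F.Ok m) (hm : 1 ≤ m) : F.K ^ m ≤ F.Λ := by
  have hg := h.good 0
  have hCc := h.cls.one_le_Cc
  have hGi : ∀ i, i ≤ F.c.ℓ → (F.D 0).G i ≤ (F.D 0).G 0 := by
    intro i
    induction i with
    | zero => intro _; exact le_rfl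
    | succ i ih =>
      intro hi
      have h1 := hg.G_step i hi
      have h2 := hg.one_le_G (i + 1) hi
      have h3 : (F.D 0).G (i + 1) ≤ 2 * (1 + 2 * F.c.Cc) * (F.D 0).G (i + 1) := by nlinarith
      exact (h3.trans h1).trans (ih (by omega))
  have hG0 : 1 ≤ (F.D 0).G 0 := hg.one_le_G 0 (Nat.zero_le _)
  have hP : 1 ≤ 2 * F.c.P := by
    have := h.cls.P_gt
    have hk0 : (0 : ℝ) ≤ k := Nat.cast_nonneg k
    linarith
  have h1 : (F.D 0).G 0 ≤ (F.D 0).G 0 ^ (2 * F.c.P) := Real.self_le_rpow_of_one_le hG0 hP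
  have hCp : 1 ≤ F.Cp := (h.sys 0).one_le_Γ2
  have hϖ : 1 ≤ (F.D 0).ϖ := hg.one_le_ϖ
  have h2 : (F.D 0).G 0 ^ (2 * F.c.P) ≤ (F.tp 0).ϖ1 := by
    show (F.D 0).G 0 ^ (2 * F.c.P) ≤ F.Cp * (F.D 0).G 0 ^ (2 * F.c.P) * (F.D 0).ϖ
    have hp : 0 ≤ (F.D 0).G 0 ^ (2 * F.c.P) := Real.rpow_nonneg (by linarith) _
    have h3 : (F.D 0).G 0 ^ (2 * F.c.P) ≤ F.Cp * (F.D 0).G 0 ^ (2 * F.c.P) := le_mul_of_one_le_left hp hCp
    exact h3.trans (le_mul_of_one_le_right (by positivity) hϖ)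
  have hGo1 : 1 ≤ F.Go := ((h.sys 0).one_le_ϖ1).trans (h.ϖ1_Go 0)
  calc F.K ^ m ≤ (F.D 0).G F.c.ℓ := h.K_G 0
    _ ≤ (F.D 0).G 0 := hGi _ le_rfl
    _ ≤ (F.D 0).G 0 ^ (2 * F.c.P) := h1
    _ ≤ (F.tp 0).ϖ1 := h2
    _ ≤ F.Go := h.ϖ1_Go 0
    _ ≤ F.Go ^ m := le_self_pow₀ hGo1 (by omega)
    _ ≤ F.Λ := h.Go_Λ

/-- L-257-FT-KL: the error of the sampled profile.   PLAN: `1 < Λ`; `2 K^{k+1} ≤ K^{k+2}`; `logb Λ (K^{k+2}) = (k+2) logb Λ K`, `m * logb Λ K = logb Λ (K^m) ≤ logb Λ Λ = 1` (`ft_K_le`, `Real.logb_le_logb_of_le`). -/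
theorem ft_eps_le {F : FCfg k} {m : ℕ} (h : F.Ok m) (hm : 1 ≤ m) : 0 ≤ Real.logb F.Λ (2 * F.K ^ (k + 1)) ∧ Real.logb F.Λ (2 * F.K ^ (k + 1)) ≤ ((k : ℝ) + 2) / m := by
  have hm0 : (0 : ℝ) < m := by exact_mod_cast hm
  have hΛ1 : 1 < F.Λ := by linarith [h.Λ_ge]
  have hK2 := h.two_le_K
  have hK0 : 0 < F.K := by linarith
  have hK1 : 1 ≤ F.K := by linarith
  have hKp : 1 ≤ F.K ^ (k + 1) := one_le_pow₀ hK1
  refine ⟨Real.logb_nonneg hΛ1 (by linarith), ?_⟩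
  have h1 : 2 * F.K ^ (k + 1) ≤ F.K ^ (k + 2) := by
    rw [pow_succ F.K (k + 1), mul_comm]
    exact mul_le_mul_of_nonneg_left hK2 (by positivity)
  have h2 : Real.logb F.Λ (2 * F.K ^ (k + 1)) ≤ Real.logb F.Λ (F.K ^ (k + 2)) :=
    Real.logb_le_logb_of_le hΛ1 (by positivity) h1
  have h3 : (m : ℝ) * Real.logb F.Λ F.K ≤ 1 := by
    rw [← Real.logb_pow, ← Real.logb_self_eq_one hΛ1]
    exact Real.logb_le_logb_of_le hΛ1 (by positivity) (ft_K_le h hm)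
  rw [Real.logb_pow] at h2
  refine h2.trans ?_
  rw [le_div_iff₀ hm0]
  push_cast
  have hk0 : (0 : ℝ) ≤ k := Nat.cast_nonneg k
  nlinarith

/-! ## 2. the sampled profiles of a tower -/

variable {T : Tower k}

theorem ft_at_aux (hk : 1 ≤ k) {F : FCfg k} (h : F.Ok 1) (j : Fin (k + 1)) (D : PDbl) (N n : ℕ) (hℓ : D.ℓ N = F.c.ℓ)
    (hs : ∀ i, D.s N n i = F.s j i) (hρ : ∀ i, D.ρ N n i = F.ρ j i)
    (hε : D.ε N n = F.c.ℓ * Real.logb F.Λ (2 * F.K ^ (k + 1)))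
    (hmesh : ∀ i, i < F.c.ℓ → F.s j i - F.s j (i + 1) ≤ D.μ N) : D.At ((k : ℝ) / 2) N n := by
  have hk0 : (0 : ℝ) < k := by exact_mod_cast hk
  have hΛ : 1 < F.Λ := by
    have := h.Λ_ge
    push_cast at this
    linarith
  have hK2 := h.two_le_K
  have hK1 : 1 ≤ F.K := by linarith
  have hK0 : 0 < F.K := by linarith
  have hCp1 : 1 ≤ F.Cp := (h.sys j).one_le_Γ2
  have hCpK := h.Cp_le
  have hκ : ∀ i, 0 < (F.D j).κ i := fun i => lt_of_lt_of_le one_pos ((h.good j).one_le_κ i)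
  have hY : (Finset.univ : Finset (F.D j).sys.Y).Nonempty := by
    obtain ⟨q⟩ := h.ne
    exact ⟨F.e j q, Finset.mem_univ _⟩
  have hKp : F.K ≤ F.K ^ (k + 1) := le_self_pow₀ hK1 (Nat.succ_ne_zero k)
  refine TSys.tpf_at (𝔖 := (F.D j).sys) (p := F.tp j) (h.sys j) (h.frozen j) hY
    (lt_of_lt_of_le one_pos (h.one_le_A j)) (h.D_pos j) (Λ := F.Λ) (Cg := F.Cp) (kk := (k : ℝ)) (E := 2 * F.K ^ (k + 1))
    (κref := F.κr j) hΛ (by linarith) (κ := (F.D j).κ) hκ (h.κr_pos j) ?_ ?_ ?_ ?_ D N n hℓ hs hρ hε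
    (fun i _ => (h.good j).κ_anti i) ?_
  · intro i _
    rw [Real.rpow_natCast]
    exact le_rfl
  · linarith
  · have h1 : Real.sqrt F.Cp ≤ F.Cp := by
      rw [Real.sqrt_le_left (by linarith)]
      nlinarith
    linarith
  · have hq : 1 / ((F.tp j).q - 2) = (k : ℝ) / 4 := by
      show 1 / (qk k - 2) = (k : ℝ) / 4
      unfold qk
      field_simp
      ring
    rw [hq]
    have h1 : (F.tp j).Γ2 * F.K ^ 2 ≤ F.K ^ 3 := by
      show F.Cp * F.K ^ 2 ≤ F.K ^ 3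
      have : F.Cp * F.K ^ 2 ≤ F.K * F.K ^ 2 := mul_le_mul_of_nonneg_right hCpK (by positivity)
      calc F.Cp * F.K ^ 2 ≤ F.K * F.K ^ 2 := this
        _ = F.K ^ 3 := by ring
    have h0 : 0 ≤ (F.tp j).Γ2 * F.K ^ 2 := by
      show 0 ≤ F.Cp * F.K ^ 2
      positivity
    have h2 : ((F.tp j).Γ2 * F.K ^ 2) ^ ((k : ℝ) / 4) ≤ (F.K ^ 3) ^ ((k : ℝ) / 4) :=
      Real.rpow_le_rpow h0 h1 (by positivity)
    have h3 : (F.K ^ 3) ^ ((k : ℝ) / 4) ≤ F.K ^ (k + 1) := by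
      rw [← Real.rpow_natCast F.K 3, ← Real.rpow_mul hK0.le, ← Real.rpow_natCast F.K (k + 1)]
      refine Real.rpow_le_rpow_of_exponent_le hK1 ?_
      push_cast
      linarith
    linarith
  · intro i hi
    have h1 := hmesh i hi
    have h2 : F.s j i - F.s j (i + 1) = Real.logb F.Λ ((F.D j).κ i / (F.D j).κ (i + 1)) := by
      unfold FCfg.s
      rw [Real.logb_div (hκ _).ne' (h.κr_pos j).ne', Real.logb_div (hκ _).ne' (h.κr_pos j).ne',
        Real.logb_div (hκ _).ne' (hκ _).ne']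
      ring
    rw [h2, Real.logb_le_iff_le_rpow hΛ (div_pos (hκ _) (hκ _)), div_le_iff₀ (hκ _)] at h1
    exact h1

/-- L-257-FT-AT: the requirements of `PDbl.At` on one configuration.
PLAN: `filter_upwards [hT.ok N 1, hT.mesh N]`; `TSys.tpf_at` with `𝔖 = (F.D j).sys`, `p = F.tp j` (`p.q = qk k`, `p.Γ i = Cp * (κ i / κ (i+1))^k`, `p.Γ2 = Cp` by `rfl`), `hF = h.frozen j`, `Yf = univ` (nonempty: `h.ne`, `F.e j`), `Cg = Cp`, `kk = k`
(`Real.rpow_natCast`), `E = 2 K^{k+1}`, `κ = (F.D j).κ`, `κref = F.κr j`;  `hE1`: `√Cp ≤ Cp ≤ K ≤ K^{k+1}`;  `hE2`: `q - 2 = 4/k`, `(Cp K²)^{k/4} ≤ (K³)^{k/4} ≤ K^{k+1}` (`Real.rpow_le_rpow_of_exponent_le`, `Real.rpow_natCast`);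
`hℓ`, `hε`: `congrArg TCls.ℓ (hT.cls N n)`;  `hmesh`: from `s i - s (i+1) = logb Λ (κ i / κ (i+1)) ≤ μ N` (`Real.logb_div`, `Real.logb_le_iff_le_rpow`). -/
theorem ft_pd_at (hk : 1 ≤ k) (hT : T.Base) (j : Fin (k + 1)) (N : ℕ) : ∀ᶠ n in uf, (T.pd j).At ((k : ℝ) / 2) N n := by
  filter_upwards [hT.ok N 1, hT.mesh N] with n h hmesh
  have hℓ : ((T.F N n).c).ℓ = (T.cN N).ℓ := congrArg TCls.ℓ (hT.cls N n)
  refine ft_at_aux hk h j (T.pd j) N n hℓ.symm (fun _ => rfl) (fun _ => rfl) ?_ ?_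
  · show ((T.cN N).ℓ : ℝ) * _ = _
    rw [hℓ]
  · intro i hi
    rw [hℓ] at hi
    exact hmesh j i hi

/-- L-257-FT-PDOK.   PLAN: `ev`: `ft_pd_at`; `ε_lim`: squeeze (`tendsto_order.2` or `Metric.tendsto_nhds`): for `δ > 0` take `m` with `ℓ (k+2)/m < δ`, `hT.ok N m`, `ft_eps_le`; `μ_nonneg`, `μ_lim`: `hT`. -/
theorem ft_pd_ok (hk : 1 ≤ k) (hT : T.Base) (j : Fin (k + 1)) (htop : ∃ C : ℝ, ∀ᶠ N in uf, ∀ᶠ n in uf, |(T.F N n).s j 0| ≤ C) : (T.pd j).Ok ((k : ℝ) / 2) := by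
  refine ⟨by positivity, Eventually.of_forall fun N => ft_pd_at hk hT j N, Eventually.of_forall fun N => ?_,
    Eventually.of_forall fun N => (hT.μ_pos N).le, hT.μ_lim, htop⟩
  rw [Metric.tendsto_nhds]
  intro δ hδ
  obtain ⟨m, hm⟩ := exists_nat_gt (((T.cN N).ℓ : ℝ) * ((k : ℝ) + 2) / δ)
  filter_upwards [hT.ok N (m + 1)] with n hn
  obtain ⟨h0, h1⟩ := ft_eps_le hn (by omega)
  rw [Real.dist_eq, sub_zero]
  show |((T.cN N).ℓ : ℝ) * Real.logb (T.F N n).Λ (2 * (T.F N n).K ^ (k + 1))| < δ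
  rw [abs_of_nonneg (by positivity)]
  have hm1 : (0 : ℝ) < ((m + 1 : ℕ) : ℝ) := by positivity
  calc ((T.cN N).ℓ : ℝ) * Real.logb (T.F N n).Λ (2 * (T.F N n).K ^ (k + 1))
      ≤ ((T.cN N).ℓ : ℝ) * (((k : ℝ) + 2) / ((m + 1 : ℕ) : ℝ)) := mul_le_mul_of_nonneg_left h1 (Nat.cast_nonneg _)
    _ < δ := by
      rw [← mul_div_assoc, div_lt_iff₀ hm1]
      rw [div_lt_iff₀ hδ] at hm
      push_cast
      nlinarith

/-- L-257-FT-BLK: `Blk` = "eventually `Aff`" (`hT.cls`: `(T.F N n).c.ℓ = (T.cN N).ℓ`). -/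
theorem ft_blk (hT : T.Base) (j : Fin (k + 1)) (x0 x r ε : ℝ) : Blk (T.pd j) x0 x r ε ↔ ∀ᶠ N in uf, ∀ᶠ n in uf, (T.F N n).Aff j x0 x r ε := by
  unfold Blk
  have h : ∀ N n, (∀ i j', i ≤ (T.pd j).ℓ N → j' ≤ (T.pd j).ℓ N → |(T.pd j).s N n i - x0| ≤ r → |(T.pd j).s N n j' - x0| ≤ r →
      |(T.pd j).ρ N n j' - (T.pd j).ρ N n i + x * ((T.pd j).s N n j' - (T.pd j).s N n i)| ≤ ε) ↔ (T.F N n).Aff j x0 x r ε := by
    intro N n
    unfold FCfg.Aff
    have hℓ : (T.F N n).c.ℓ = (T.cN N).ℓ := congrArg TCls.ℓ (hT.cls N n)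
    rw [hℓ]
    exact Iff.rfl
  simp only [h]

/-- the windows of the field `j` inside `(p, q)` are eventually covered, the seam tends to `σ` -/
structure Tower.Rng (T : Tower k) (j : Fin (k + 1)) (p q σ : ℝ) : Prop where
  bot : ∀ a, p < a → ∀ᶠ N in uf, ∀ᶠ n in uf, (T.F N n).s j (T.cN N).ℓ ≤ a
  top : ∀ b, b < q → ∀ᶠ N in uf, ∀ᶠ n in uf, b ≤ (T.F N n).s j 0
  seam : ∀ δ, 0 < δ → ∀ᶠ N in uf, ∀ᶠ n in uf, |(T.F N n).s j (T.cN N).tr - σ| ≤ δ

/-- L-257-FT-MESH: eventually the grid is fine on a compact window of `(p, q)`.   PLAN: `hT.μ_lim` (`μ N ≤ μ0` eventually: `(tendsto_order.1 hT.μ_lim).2 μ0 hμ`), `hR.bot a`, `hR.top b`, `hT.mesh N`, `hT.cls`. -/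
theorem ft_mesh (hT : T.Base) {j : Fin (k + 1)} {p q σ : ℝ} (hR : T.Rng j p q σ) {μ0 a b : ℝ} (hμ : 0 < μ0) (ha : p < a) (hb : b < q) :
    ∀ᶠ N in uf, ∀ᶠ n in uf, (T.F N n).Mesh j μ0 a b := by
  have h1 : ∀ᶠ N in uf, T.μ N < μ0 := (tendsto_order.1 hT.μ_lim).2 μ0 hμ
  filter_upwards [h1, hR.bot a ha, hR.top b hb] with N hN1 hN2 hN3
  filter_upwards [hN2, hN3, hT.mesh N] with n hn2 hn3 hn4
  have hℓ : ((T.F N n).c).ℓ = (T.cN N).ℓ := congrArg TCls.ℓ (hT.cls N n)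
  refine ⟨fun i hi => ?_, ?_, hn3⟩
  · rw [hℓ] at hi
    exact (hn4 j i hi).trans hN1.le
  · rw [hℓ]
    exact hn2

/-- L-257-FT-MESH: eventually the seam is outside a window which does not contain `σ`.   PLAN: `hR.seam ((|σ - x0| - r) / 2)`, triangle inequality, `hT.cls`. -/
theorem ft_off (hT : T.Base) {j : Fin (k + 1)} {p q σ : ℝ} (hR : T.Rng j p q σ) {x0 r : ℝ} (hr : r < |σ - x0|) :
    ∀ᶠ N in uf, ∀ᶠ n in uf, (T.F N n).Off j x0 r := by
  have hδ : 0 < (|σ - x0| - r) / 2 := by linarith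
  filter_upwards [hR.seam _ hδ] with N hN
  filter_upwards [hN] with n hn
  have htr : ((T.F N n).c).tr = (T.cN N).tr := congrArg TCls.tr (hT.cls N n)
  unfold FCfg.Off
  rw [htr]
  have h1 : |σ - x0| ≤ |(T.F N n).s j (T.cN N).tr - σ| + |(T.F N n).s j (T.cN N).tr - x0| := by
    have := abs_sub_le σ ((T.F N n).s j (T.cN N).tr) x0
    rwa [abs_sub_comm σ ((T.F N n).s j (T.cN N).tr)] at this
  linarith

/-- L-257-FT-TESTS, **the tests (B), (M) for the profiles of a tower**.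
PLAN (`bin`; `mid` is the same with three windows): `hB T.o x l` gives `e0 V u0`; put `d = min (min (l - p) (q - l)) |σ - l| / 2`, `u0' = min u0 (d / V)`.   For `u < u0'`: `μ0`; assume `Blk`; `ft_blk`.
`have := uf_neBot`.   `(hAff.and ((ft_mesh ..).and (ft_off ..))).exists` gives `N`; `m0` from the class `T.cN N`, `T.cx N`, `hT.ord N`; then `((hN1.and (hN2.and hN3)).and (hT.ok N m0)).exists` gives `n`; apply the test to `T.F N n` (`hT.cls`, `hT.cxs`). -/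
theorem ft_tests (hT : T.Base) (hB : GTestB k) (hM : GTestM k) {j : Fin (k + 1)} {p q σ : ℝ} (hR : T.Rng j p q σ) : F3Tests ((k : ℝ) / 2) (T.pd j) p q σ := by
  have := uf_neBot
  constructor
  · intro x hx0 hx1 l hl hlσ
    obtain ⟨e0, V, u0, he0, hV, hu0, H⟩ := hB T.o hT.room x l hx0 hx1
    have hσ : 0 < |σ - l| := abs_pos.2 (sub_ne_zero.2 (Ne.symm hlσ))
    have hlp : 0 < l - p := by linarith [hl.1]
    have hql : 0 < q - l := by linarith [hl.2]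
    obtain ⟨d, hd0, hd1, hd2, hd3⟩ : ∃ d : ℝ, 0 < d ∧ d < l - p ∧ d < q - l ∧ d < |σ - l| := by
      refine ⟨min (min (l - p) (q - l)) |σ - l| / 2, by positivity, ?_, ?_, ?_⟩
      · have h1 : min (min (l - p) (q - l)) |σ - l| ≤ l - p := (min_le_left _ _).trans (min_le_left _ _)
        have h2 : 0 < min (min (l - p) (q - l)) |σ - l| := by positivity
        linarith
      · have h1 : min (min (l - p) (q - l)) |σ - l| ≤ q - l := (min_le_left _ _).trans (min_le_right _ _)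
        have h2 : 0 < min (min (l - p) (q - l)) |σ - l| := by positivity
        linarith
      · have h1 : min (min (l - p) (q - l)) |σ - l| ≤ |σ - l| := min_le_right _ _
        have h2 : 0 < min (min (l - p) (q - l)) |σ - l| := by positivity
        linarith
    refine ⟨e0, V, min u0 (d / V), he0, hV, lt_min hu0 (div_pos hd0 hV), fun u hu huu hBlk => ?_⟩
    have hVu : V * u < d := by
      have := lt_of_lt_of_le huu (min_le_right _ _)
      rw [lt_div_iff₀ hV] at this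
      linarith
    obtain ⟨μ0, hμ0, H2⟩ := H u hu (lt_of_lt_of_le huu (min_le_left _ _))
    have hAff := (ft_blk hT j l x (V * u) (e0 * u)).1 hBlk
    have hMesh := ft_mesh hT hR hμ0 (a := l - V * u) (b := l + V * u) (by linarith) (by linarith)
    have hOff := ft_off hT hR (x0 := l) (r := V * u) (by linarith)
    obtain ⟨N, hN1, hN2, hN3⟩ := (hAff.and (hMesh.and hOff)).exists
    obtain ⟨m0, H3⟩ := H2 (T.cN N) (T.cx N) (hT.ord N)
    obtain ⟨n, ⟨hn1, hn2, hn3⟩, hn4⟩ := ((hN1.and (hN2.and hN3)).and (hT.ok N m0)).exists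
    exact H3 (T.F N n) (hT.cls N n) (hT.cxs N n) hn4 j hn2 hn3 hn1
  · intro l a hla hl ha hlσ haσ hmσ
    obtain ⟨e0, V, s0, he0, hV, hs0, H⟩ := hM T.o hT.room l a hla
    have hσ1 : 0 < |σ - l| := abs_pos.2 (sub_ne_zero.2 (Ne.symm hlσ))
    have hσ2 : 0 < |σ - a| := abs_pos.2 (sub_ne_zero.2 (Ne.symm haσ))
    have hσ3 : 0 < |σ - (l + a) / 2| := abs_pos.2 (sub_ne_zero.2 (Ne.symm hmσ))
    have hlp : 0 < l - p := by linarith [hl.1]
    have hqa : 0 < q - a := by linarith [ha.2]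
    obtain ⟨d, hd0, hd1, hd2, hd3, hd4, hd5⟩ : ∃ d : ℝ, 0 < d ∧ d < l - p ∧ d < q - a ∧ d < |σ - l| ∧ d < |σ - a| ∧
        d < |σ - (l + a) / 2| := by
      have h2 : 0 < min (min (l - p) (q - a)) (min (min |σ - l| |σ - a|) |σ - (l + a) / 2|) := by positivity
      refine ⟨min (min (l - p) (q - a)) (min (min |σ - l| |σ - a|) |σ - (l + a) / 2|) / 2, by positivity, ?_, ?_, ?_, ?_, ?_⟩
      · have h1 : min (min (l - p) (q - a)) (min (min |σ - l| |σ - a|) |σ - (l + a) / 2|) ≤ l - p :=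
          (min_le_left _ _).trans (min_le_left _ _)
        linarith
      · have h1 : min (min (l - p) (q - a)) (min (min |σ - l| |σ - a|) |σ - (l + a) / 2|) ≤ q - a :=
          (min_le_left _ _).trans (min_le_right _ _)
        linarith
      · have h1 : min (min (l - p) (q - a)) (min (min |σ - l| |σ - a|) |σ - (l + a) / 2|) ≤ |σ - l| :=
          (min_le_right _ _).trans ((min_le_left _ _).trans (min_le_left _ _))
        linarith
      · have h1 : min (min (l - p) (q - a)) (min (min |σ - l| |σ - a|) |σ - (l + a) / 2|) ≤ |σ - a| :=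
          (min_le_right _ _).trans ((min_le_left _ _).trans (min_le_right _ _))
        linarith
      · have h1 : min (min (l - p) (q - a)) (min (min |σ - l| |σ - a|) |σ - (l + a) / 2|) ≤ |σ - (l + a) / 2| :=
          (min_le_right _ _).trans (min_le_right _ _)
        linarith
    refine ⟨e0, V, min s0 (d / V), he0, hV, lt_min hs0 (div_pos hd0 hV), fun s hs hss hBlk => ?_⟩
    have hVs : V * s < d := by
      have := lt_of_lt_of_le hss (min_le_right _ _)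
      rw [lt_div_iff₀ hV] at this
      linarith
    obtain ⟨μ0, hμ0, H2⟩ := H s hs (lt_of_lt_of_le hss (min_le_left _ _))
    have hA1 := (ft_blk hT j l _ (V * s) (e0 * s)).1 hBlk.1
    have hA2 := (ft_blk hT j a _ (V * s) (e0 * s)).1 hBlk.2.1
    have hA3 := (ft_blk hT j ((l + a) / 2) _ (V * s) (e0 * s)).1 hBlk.2.2
    have hMesh := ft_mesh hT hR hμ0 (a := l - V * s) (b := a + V * s) (by linarith) (by linarith)
    have hO1 := ft_off hT hR (x0 := l) (r := V * s) (by linarith)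
    have hO2 := ft_off hT hR (x0 := a) (r := V * s) (by linarith)
    have hO3 := ft_off hT hR (x0 := (l + a) / 2) (r := V * s) (by linarith)
    obtain ⟨N, hN1, hN2, hN3, hN4, hN5, hN6, hN7⟩ :=
      (hA1.and (hA2.and (hA3.and (hMesh.and (hO1.and (hO2.and hO3)))))).exists
    obtain ⟨m0, H3⟩ := H2 (T.cN N) (T.cx N) (hT.ord N)
    obtain ⟨n, ⟨hn1, hn2, hn3, hn4, hn5, hn6, hn7⟩, hn8⟩ :=
      ((hN1.and (hN2.and (hN3.and (hN4.and (hN5.and (hN6.and hN7)))))).and (hT.ok N m0)).exists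
    exact H3 (T.F N n) (hT.cls N n) (hT.cxs N n) hn8 j hn4 hn5 hn6 hn7 ⟨hn1, hn2, hn3⟩

/-! ## 3. the power case -/

theorem ft_pow_top_aux {sH : ℝ} (hT : T.PowOk sH) (j : Fin (k + 1)) : ∀ N, ∀ᶠ n in uf, (T.F N n).s j 0 = 1 := by
  intro N
  filter_upwards [hT.pow N, hT.ok N 0] with n hp hok
  have hΛ : 1 < (T.F N n).Λ := by
    have := hok.Λ_ge
    push_cast at this
    linarith
  unfold FCfg.s
  rw [hp.leaf j, hp.κr_one j, div_one]
  exact Real.logb_self_eq_one hΛ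

/-- L-257-FT-POWRNG.   PLAN: `bot`: `hT.bot`; `top`: `s j 0 = logb Λ (Λ / 1) = 1` (`hT.pow`, `Pow.leaf`, `Pow.κr_one`, `Real.logb_self_eq_one`, `1 < Λ` from `hT.ok N 0`); `seam`: `hT.seam N j` (`Metric.tendsto_nhds`). -/
theorem ft_pow_rng {sH : ℝ} (hT : T.PowOk sH) (j : Fin (k + 1)) : T.Rng j 0 1 sH := by
  refine ⟨fun a ha => ?_, fun b hb => ?_, fun δ hδ => ?_⟩
  · exact (hT.bot a ha).mono fun N hN => hN.mono fun n hn => hn j
  · refine Eventually.of_forall fun N => ?_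
    exact (ft_pow_top_aux hT j N).mono fun n hn => by rw [hn]; exact hb.le
  · refine Eventually.of_forall fun N => ?_
    exact (Metric.tendsto_nhds.1 (hT.seam N j) δ hδ).mono fun n hn => by
      rw [Real.dist_eq] at hn
      exact hn.le

/-- L-257-FT-POWRNG -/
theorem ft_pow_top {sH : ℝ} (hT : T.PowOk sH) (j : Fin (k + 1)) : ∀ N, ∀ᶠ n in uf, (T.F N n).s j 0 = 1 := by
  exact ft_pow_top_aux hT j

/-- L-257-FT-CROSS, the test (X) for the profiles of a tower of the power case (as `ft_tests`; the grids of BOTH fields reach below `μ0`: `ft_mesh` with `a = μ0`, `p = 0`). -/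
theorem ft_cross {sH : ℝ} (hT : T.PowOk sH) (hX : GTestX k) {j j' : Fin (k + 1)} (hjj : j ≠ j') : F3Cross ((k : ℝ) / 2) (T.pd j) (T.pd j') sH := by
  intro a ha haσ haσ2
  obtain ⟨e0, V, s0, he0, hV, hs0, htest⟩ := hX T.o hT.room a ha.1 ha.2
  obtain ⟨d, hd⟩ : ∃ d, d = min (1 - a) (min |sH - a| |sH - a / 2|) := ⟨_, rfl⟩
  have hd0 : 0 < d := by
    rw [hd]
    exact lt_min (by linarith [ha.2]) (lt_min (abs_pos.2 (sub_ne_zero.2 (Ne.symm haσ)))
      (abs_pos.2 (sub_ne_zero.2 (Ne.symm haσ2))))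
  have hd1 : d ≤ 1 - a := by rw [hd]; exact min_le_left _ _
  have hd2 : d ≤ |sH - a| := by rw [hd]; exact (min_le_right _ _).trans (min_le_left _ _)
  have hd3 : d ≤ |sH - a / 2| := by rw [hd]; exact (min_le_right _ _).trans (min_le_right _ _)
  refine ⟨e0, V, min s0 (d / V), he0, hV, lt_min hs0 (by positivity), ?_⟩
  rintro s hs hss ⟨hB1, hB2⟩
  have hs1 : s < s0 := hss.trans_le (min_le_left _ _)
  have hVs : V * s < d := by
    have := hss.trans_le (min_le_right _ _)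
    rw [lt_div_iff₀ hV] at this
    linarith
  obtain ⟨μ0, hμ0, htest2⟩ := htest s hs hs1
  have hbase := hT.toBase
  rw [ft_blk hbase] at hB1 hB2
  have hR := ft_pow_rng hT j
  have hR' := ft_pow_rng hT j'
  have hb : a + V * s < 1 := by linarith
  have hM := ft_mesh hbase hR hμ0 hμ0 hb
  have hM' := ft_mesh hbase hR' hμ0 hμ0 hb
  have hO := ft_off hbase hR (x0 := a) (r := V * s) (by linarith)
  have hO' := ft_off hbase hR' (x0 := a / 2) (r := V * s) (by linarith)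
  have := uf_neBot
  obtain ⟨N, hN⟩ := (hB1.and (hB2.and (hM.and (hM'.and (hO.and hO'))))).exists
  obtain ⟨m0, hm0⟩ := htest2 (T.cN N) (T.cx N) (hbase.ord N)
  obtain ⟨n, hn⟩ := (hN.1.and (hN.2.1.and (hN.2.2.1.and (hN.2.2.2.1.and (hN.2.2.2.2.1.and
    (hN.2.2.2.2.2.and ((hbase.ok N m0).and (hT.pow N)))))))).exists
  exact hm0 (T.F N n) (hbase.cls N n) (hbase.cxs N n) hn.2.2.2.2.2.2.1 hn.2.2.2.2.2.2.2 j j' hjj hn.2.2.1 hn.2.2.2.1
    hn.2.2.2.2.1 hn.2.2.2.2.2.1 ⟨hn.1, hn.2.1⟩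

theorem ft_one_lt_Λ {F : FCfg k} {m : ℕ} (h : F.Ok m) : 1 < F.Λ := by
  have h1 := h.Λ_ge
  have h2 : (0 : ℝ) ≤ m := Nat.cast_nonneg m
  linarith

theorem ft_logK {F : FCfg k} {m : ℕ} (h : F.Ok m) (hm : 1 ≤ m) :
    0 ≤ Real.logb F.Λ F.K ∧ Real.logb F.Λ F.K ≤ 1 / m := by
  have hΛ : 1 < F.Λ := ft_one_lt_Λ h
  have hK1 : 1 ≤ F.K := by linarith [h.two_le_K]
  have hK0 : 0 < F.K := by linarith
  refine ⟨Real.logb_nonneg hΛ hK1, ?_⟩
  have h1 := ft_K_le h hm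
  have h2 : Real.logb F.Λ (F.K ^ m) ≤ Real.logb F.Λ F.Λ := Real.logb_le_logb_of_le hΛ (by positivity) h1
  rw [Real.logb_pow, Real.logb_self_eq_one hΛ] at h2
  have hm0 : (0 : ℝ) < m := by exact_mod_cast hm
  rw [le_div_iff₀ hm0]
  linarith

/-- logarithms of quantities between `1` and a fixed power of the loss tend to `0` -/
theorem ft_log_small (hT : T.Base) (N c : ℕ) (g : ℕ → ℝ) (hg : ∀ᶠ n in uf, 1 ≤ g n ∧ g n ≤ (T.F N n).K ^ c) :
    Tendsto (fun n => Real.logb (T.F N n).Λ (g n)) uf (𝓝 0) := by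
  rw [Metric.tendsto_nhds]
  intro δ hδ
  obtain ⟨m, hm⟩ := exists_nat_gt ((c : ℝ) / δ)
  filter_upwards [hT.ok N (m + 1), hg] with n hn hgn
  obtain ⟨h0, h1⟩ := ft_logK hn (by omega)
  have hΛ : 1 < (T.F N n).Λ := ft_one_lt_Λ hn
  rw [Real.dist_eq, sub_zero, abs_of_nonneg (Real.logb_nonneg hΛ hgn.1)]
  have h2 : Real.logb (T.F N n).Λ (g n) ≤ Real.logb (T.F N n).Λ ((T.F N n).K ^ c) :=
    Real.logb_le_logb_of_le hΛ (by linarith [hgn.1]) hgn.2
  rw [Real.logb_pow] at h2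
  have hm1 : (0 : ℝ) < ((m + 1 : ℕ) : ℝ) := by positivity
  calc Real.logb (T.F N n).Λ (g n) ≤ (c : ℝ) * Real.logb (T.F N n).Λ (T.F N n).K := h2
    _ ≤ (c : ℝ) * (1 / ((m + 1 : ℕ) : ℝ)) := mul_le_mul_of_nonneg_left h1 (Nat.cast_nonneg _)
    _ < δ := by
      rw [mul_one_div, div_lt_iff₀ hm1]
      rw [div_lt_iff₀ hδ] at hm
      push_cast
      nlinarith

theorem ft_univ_ne {F : FCfg k} {m : ℕ} (h : F.Ok m) (j : Fin (k + 1)) :
    (Finset.univ : Finset (F.D j).sys.Y).Nonempty := by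
  obtain ⟨q⟩ := h.ne
  exact ⟨F.e j q, Finset.mem_univ _⟩

theorem ft_κ_pos {F : FCfg k} {m : ℕ} (h : F.Ok m) (j : Fin (k + 1)) (i : ℕ) : 0 < (F.D j).κ i :=
  lt_of_lt_of_le one_pos ((h.good j).one_le_κ i)

/-- the root bound of one configuration -/
theorem ft_root_aux {F : FCfg k} {m : ℕ} (h : F.Ok m) (j : Fin (k + 1)) (i : ℕ) (hi : i ≤ F.c.ℓ) :
    Real.logb F.Λ (F.A j) - Real.logb F.Λ (2 * F.K * Real.sqrt (F.Cp * (F.tp j).ϖ0)) -
      (k : ℝ) / 2 * Real.logb F.Λ ((F.D j).κ i) ≤ F.ρ j i := by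
  have hCp1 : 1 ≤ F.Cp := (h.sys j).one_le_Γ2
  exact TSys.tpf_log_root (𝔖 := (F.D j).sys) (p := F.tp j) (h.sys j) (h.frozen j) (ft_univ_ne h j)
    (lt_of_lt_of_le one_pos (h.one_le_A j)) (ft_one_lt_Λ h) (Cr := F.Cp) (kk := (k : ℝ)) (by linarith)
    (κ := (F.D j).κ) (ft_κ_pos h j) i hi (by rw [Real.rpow_natCast]; exact le_rfl)

theorem ft_root_err {F : FCfg k} {m : ℕ} (h : F.Ok m) (j : Fin (k + 1)) :
    1 ≤ 2 * F.K * Real.sqrt (F.Cp * (F.tp j).ϖ0) ∧ 2 * F.K * Real.sqrt (F.Cp * (F.tp j).ϖ0) ≤ F.K ^ 3 := by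
  have hCp1 : 1 ≤ F.Cp := (h.sys j).one_le_Γ2
  have hϖ1 : 1 ≤ (F.tp j).ϖ0 := (h.sys j).one_le_ϖ0
  have hK2 := h.two_le_K
  have h1 : 1 ≤ Real.sqrt (F.Cp * (F.tp j).ϖ0) := by
    rw [Real.one_le_sqrt]
    nlinarith
  have h2 : Real.sqrt (F.Cp * (F.tp j).ϖ0) ≤ F.K := by
    rw [Real.sqrt_le_left (by linarith)]
    have := mul_le_mul h.Cp_le (h.ϖ0_le j) (by linarith) (by linarith)
    nlinarith
  constructor
  · nlinarith
  · have h3 : 2 * F.K * Real.sqrt (F.Cp * (F.tp j).ϖ0) ≤ 2 * F.K * F.K :=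
      mul_le_mul_of_nonneg_left h2 (by linarith)
    have h4 : 2 * F.K * F.K ≤ F.K ^ 3 := by nlinarith [mul_nonneg (by linarith : (0 : ℝ) ≤ F.K) (by linarith : (0 : ℝ) ≤ F.K)]
    linarith

theorem ft_root_lim (hT : T.Base) (j : Fin (k + 1)) (N : ℕ) :
    Tendsto (fun n => Real.logb (T.F N n).Λ (2 * (T.F N n).K * Real.sqrt ((T.F N n).Cp * ((T.F N n).tp j).ϖ0))) uf (𝓝 0) :=
  ft_log_small hT N 3 _ ((hT.ok N 0).mono fun _ hn => ft_root_err hn j)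

/-- L-257-FT-POWEND: `f_j(1) = 0` (`PDbl.pd_top`, `ft_pow_top`). -/
theorem ft_pow_f1 {sH : ℝ} (hT : T.PowOk sH) (j : Fin (k + 1)) (hok : (T.pd j).Ok ((k : ℝ) / 2)) : (T.pd j).f 1 = 0 := by
  refine PDbl.pd_top hok fun δ hδ => Eventually.of_forall fun N => (ft_pow_top hT j N).mono fun n hn => ?_
  show (T.F N n).s j 0 ≤ 1 + δ
  rw [hn]
  linarith

/-- the sampling bound of one configuration of the power case -/
theorem ft_sample_aux {F : FCfg k} {m : ℕ} (hk : 1 ≤ k) (h : F.Ok m) (hP : F.Pow) (j : Fin (k + 1)) (i : ℕ) (hi : i ≤ F.c.ℓ) :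
    F.ρ j i ≤ Real.logb F.Λ (F.A j) + Real.logb F.Λ (F.K * F.Cp ^ F.c.ℓ * F.K ^ 4 * F.K) / (qk k - 2) := by
  have hk0 : (0 : ℝ) < k := by exact_mod_cast hk
  have hCp1 : 1 ≤ F.Cp := (h.sys j).one_le_Γ2
  have hK2 := h.two_le_K
  have hK0 : 0 < F.K := by linarith
  have hΛ := ft_one_lt_Λ h
  have hb : (F.D j).sys.D ≤ F.K * (Fintype.card (F.D j).sys.Y * F.A j ^ (F.tp j).q) := by
    have h1 := h.bal j
    rw [Fintype.card_congr (F.e j)] at h1
    exact h1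
  have h1 := TSys.tpf_log_sample (𝔖 := (F.D j).sys) (p := F.tp j) (h.sys j) (h.frozen j) (ft_univ_ne h j)
    (lt_of_lt_of_le one_pos (h.one_le_A j)) F.K F.K (hP.samp j) hb hΛ i hi
  refine h1.trans ?_
  have hq : 0 < qk k - 2 := by
    unfold qk
    have : 2 * ((k : ℝ) + 2) / (k : ℝ) - 2 = 4 / k := by field_simp; ring
    rw [this]
    positivity
  have h2 : Real.logb F.Λ (F.K * (F.tp j).Γ2 ^ ((F.D j).sys.ℓ - i) * F.K ^ 4 * F.K) ≤
      Real.logb F.Λ (F.K * F.Cp ^ F.c.ℓ * F.K ^ 4 * F.K) := by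
    have h3 : (F.tp j).Γ2 ^ ((F.D j).sys.ℓ - i) ≤ F.Cp ^ F.c.ℓ := by
      show F.Cp ^ (F.c.ℓ - i) ≤ F.Cp ^ F.c.ℓ
      exact pow_le_pow_right₀ hCp1 (Nat.sub_le _ _)
    have h4 : 0 < (F.tp j).Γ2 ^ ((F.D j).sys.ℓ - i) := by
      show 0 < F.Cp ^ (F.c.ℓ - i)
      positivity
    refine Real.logb_le_logb_of_le hΛ (by positivity) ?_
    gcongr
  have h5 : Real.logb F.Λ (F.K * (F.tp j).Γ2 ^ ((F.D j).sys.ℓ - i) * F.K ^ 4 * F.K) / ((F.tp j).q - 2) ≤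
      Real.logb F.Λ (F.K * F.Cp ^ F.c.ℓ * F.K ^ 4 * F.K) / (qk k - 2) :=
    div_le_div_of_nonneg_right h2 hq.le
  linarith

theorem ft_sample_err {F : FCfg k} {m : ℕ} (h : F.Ok m) (j : Fin (k + 1)) :
    1 ≤ F.K * F.Cp ^ F.c.ℓ * F.K ^ 4 * F.K ∧ F.K * F.Cp ^ F.c.ℓ * F.K ^ 4 * F.K ≤ F.K ^ (F.c.ℓ + 6) := by
  have hCp1 : 1 ≤ F.Cp := (h.sys j).one_le_Γ2
  have hK2 := h.two_le_K
  have hK1 : 1 ≤ F.K := by linarith
  have hK0 : 0 < F.K := by linarith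
  have h1 : 1 ≤ F.Cp ^ F.c.ℓ := one_le_pow₀ hCp1
  have h2 : F.Cp ^ F.c.ℓ ≤ F.K ^ F.c.ℓ := pow_le_pow_left₀ (by linarith) h.Cp_le _
  have h3 : 1 ≤ F.K ^ 4 := one_le_pow₀ hK1
  constructor
  · have a1 : 1 ≤ F.K * F.Cp ^ F.c.ℓ := by nlinarith
    have a2 : 1 ≤ F.K * F.Cp ^ F.c.ℓ * F.K ^ 4 := by nlinarith
    nlinarith
  · calc F.K * F.Cp ^ F.c.ℓ * F.K ^ 4 * F.K ≤ F.K * F.K ^ F.c.ℓ * F.K ^ 4 * F.K := by gcongr
      _ = F.K ^ (F.c.ℓ + 6) := by ring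

/-- L-257-FT-POWEND: `f_j(0) = lim log_h A_j`.
PLAN: for `0 < x < 1`: LOWER bound `k/2 sH - k/2 x ≤ f x` by `PDbl.pd_ge_of_nodes` with `a N n = logb Λ A - logb Λ (2 K √(Cp ϖ0))`, `c = -k/2` (`TSys.tpf_log_root`, `Γr i = Cp κ_i^k`, `κr = 1`; the second term tends to `0`: it is `≤ 3/m`-type by `ft_K_le`);
UPPER bound `f x ≤ k/2 sH` by `PDbl.pd_le_of_nodes` with `c = 0`, `a N n = logb Λ A + logb Λ (K * Cp^ℓ * K^4 * K) / (q - 2)` (`TSys.tpf_log_sample` with `Γs = K` (`Pow.samp`), `Kb = K` (`Ok.bal`, `Fintype.card_congr (F.e j)`)).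
Then `x → 0+`: continuity of `f` (`PDbl.pd_lipschitz`), `le_of_tendsto` / `ge_of_tendsto` on `𝓝[>] 0`. -/
theorem ft_pow_f0 (hk : 1 ≤ k) {sH : ℝ} (hT : T.PowOk sH) (j : Fin (k + 1)) (hok : (T.pd j).Ok ((k : ℝ) / 2)) : (T.pd j).f 0 = (k : ℝ) / 2 * sH := by
  have hk0 : (0 : ℝ) < k := by exact_mod_cast hk
  have hrange : ∀ x : ℝ, 0 < x → x < 1 → ∀ᶠ N in uf, ∀ᶠ n in uf,
      (T.pd j).s N n ((T.pd j).ℓ N) ≤ x ∧ x ≤ (T.pd j).s N n 0 := by
    intro x hx0 hx1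
    filter_upwards [hT.bot x hx0] with N hN
    filter_upwards [hN, ft_pow_top hT j N] with n hn hn1
    refine ⟨hn j, ?_⟩
    show x ≤ (T.F N n).s j 0
    rw [hn1]
    exact hx1.le
  have hs : ∀ N, ∀ᶠ n in uf, ∀ i, (T.F N n).s j i = Real.logb (T.F N n).Λ (((T.F N n).D j).κ i) := by
    intro N
    filter_upwards [hT.pow N] with n hP
    intro i
    unfold FCfg.s
    rw [hP.κr_one j, div_one]
  -- lower bound
  have hlow : ∀ x : ℝ, 0 < x → x < 1 → (k : ℝ) / 2 * sH - (k : ℝ) / 2 * x ≤ (T.pd j).f x := by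
    intro x hx0 hx1
    have key := PDbl.pd_ge_of_nodes hok
      (fun N n => Real.logb (T.F N n).Λ ((T.F N n).A j) -
        Real.logb (T.F N n).Λ (2 * (T.F N n).K * Real.sqrt ((T.F N n).Cp * ((T.F N n).tp j).ϖ0)))
      ((k : ℝ) / 2 * sH) (-((k : ℝ) / 2))
      (Eventually.of_forall fun N => by simpa using (hT.thr N j).sub (ft_root_lim hT.toBase j N)) (x := x) ?_ (hrange x hx0 hx1)
    · linarith
    · refine Eventually.of_forall fun N => ?_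
      filter_upwards [hT.ok N 1, hs N] with n h hsn
      intro i hi
      have hℓ : ((T.F N n).c).ℓ = (T.cN N).ℓ := congrArg TCls.ℓ (hT.cls N n)
      have h1 := ft_root_aux h j i (by rw [hℓ]; exact hi)
      show Real.logb (T.F N n).Λ ((T.F N n).A j) -
        Real.logb (T.F N n).Λ (2 * (T.F N n).K * Real.sqrt ((T.F N n).Cp * ((T.F N n).tp j).ϖ0)) +
        -((k : ℝ) / 2) * (T.F N n).s j i ≤ (T.F N n).ρ j i
      rw [hsn i]
      linarith
  -- upper bound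
  have hup : ∀ x : ℝ, 0 < x → x < 1 → (T.pd j).f x ≤ (k : ℝ) / 2 * sH := by
    intro x hx0 hx1
    have key := PDbl.pd_le_of_nodes hok
      (fun N n => Real.logb (T.F N n).Λ ((T.F N n).A j) +
        Real.logb (T.F N n).Λ ((T.F N n).K * (T.F N n).Cp ^ (T.F N n).c.ℓ * (T.F N n).K ^ 4 * (T.F N n).K) / (qk k - 2))
      ((k : ℝ) / 2 * sH) 0
      (Eventually.of_forall fun N => ?_) (x := x) ?_ (hrange x hx0 hx1)
    · linarith
    · have h1 : Tendsto (fun n => Real.logb (T.F N n).Λ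
          ((T.F N n).K * (T.F N n).Cp ^ (T.F N n).c.ℓ * (T.F N n).K ^ 4 * (T.F N n).K)) uf (𝓝 0) := by
        refine ft_log_small hT.toBase N ((T.cN N).ℓ + 6) _ ((hT.ok N 0).mono fun n hn => ?_)
        have hℓ : ((T.F N n).c).ℓ = (T.cN N).ℓ := congrArg TCls.ℓ (hT.cls N n)
        have := ft_sample_err hn j
        rwa [hℓ] at this ⊢
      simpa using (hT.thr N j).add (h1.div_const (qk k - 2))
    · refine Eventually.of_forall fun N => ?_
      filter_upwards [hT.ok N 1, hT.pow N] with n h hP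
      intro i hi
      have hℓ : ((T.F N n).c).ℓ = (T.cN N).ℓ := congrArg TCls.ℓ (hT.cls N n)
      have h1 := ft_sample_aux hk h hP j i (by rw [hℓ]; exact hi)
      show (T.F N n).ρ j i ≤ _
      linarith
  apply le_antisymm
  · apply le_of_forall_pos_le_add
    intro ε hε
    obtain ⟨x, hx0, hx1, hx2⟩ : ∃ x : ℝ, 0 < x ∧ x < 1 ∧ (k : ℝ) / 2 * x ≤ ε := by
      refine ⟨min (1 / 2) (ε / ((k : ℝ) / 2)), lt_min (by norm_num) (by positivity),
        lt_of_le_of_lt (min_le_left _ _) (by norm_num), ?_⟩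
      have := min_le_right (1 / 2) (ε / ((k : ℝ) / 2))
      rw [le_div_iff₀ (by positivity)] at this
      linarith
    have h1 := PDbl.pd_lip hok hx0.le
    have h2 := hup x hx0 hx1
    linarith
  · apply le_of_forall_pos_le_add
    intro ε hε
    obtain ⟨x, hx0, hx1, hx2⟩ : ∃ x : ℝ, 0 < x ∧ x < 1 ∧ (k : ℝ) / 2 * x ≤ ε := by
      refine ⟨min (1 / 2) (ε / ((k : ℝ) / 2)), lt_min (by norm_num) (by positivity),
        lt_of_le_of_lt (min_le_left _ _) (by norm_num), ?_⟩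
      have := min_le_right (1 / 2) (ε / ((k : ℝ) / 2))
      rw [le_div_iff₀ (by positivity)] at this
      linarith
    have h1 := PDbl.pd_anti hok hx0.le
    have h2 := hlow x hx0 hx1
    linarith

/-! ## 4. the subpower case -/

/-- L-257-FT-SUBRNG.   PLAN: `bot`: `hT.bot`; `top`: `hT.top N j` (eventually `b ≤ s j 0` since `b < e j`); `seam`: `s j tr = logb Λ (κr / κr) = 0` (`Sub.seam`, `div_self`, `Real.logb_one`). -/
theorem ft_sub_rng {e : Fin (k + 1) → ℝ} {C1 C3 : ℝ} (hT : T.SubOk e C1 C3) (j : Fin (k + 1)) (p : ℝ) : T.Rng j p (e j) 0 := by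
  refine ⟨fun a _ => ?_, fun b hb => ?_, fun δ hδ => ?_⟩
  · exact (hT.bot a).mono fun N hN => hN.mono fun n hn => hn j
  · refine Eventually.of_forall fun N => ?_
    exact ((tendsto_order.1 (hT.top N j)).1 b hb).mono fun n hn => hn.le
  · refine Eventually.of_forall fun N => ?_
    filter_upwards [hT.sub N 0, hT.ok N 0] with n hs hok
    have htr : (T.cN N).tr = (T.F N n).c.tr := (congrArg TCls.tr (hT.cls N n)).symm
    rw [htr]
    unfold FCfg.s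
    rw [hs.seam j, div_self (hok.κr_pos j).ne', Real.logb_one, sub_zero, abs_zero]
    exact hδ.le

/-- L-257-FT-SUBEND: `f_j(e_j) = 0` (`PDbl.pd_top`, `hT.top`). -/
theorem ft_sub_top {e : Fin (k + 1) → ℝ} {C1 C3 : ℝ} (hT : T.SubOk e C1 C3) (j : Fin (k + 1)) (hok : (T.pd j).Ok ((k : ℝ) / 2)) : (T.pd j).f (e j) = 0 := by
  refine PDbl.pd_top hok fun δ hδ => Eventually.of_forall fun N => ?_
  exact (hT.top N j).eventually (eventually_le_nhds (by linarith : e j < e j + δ))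

/-- L-257-FT-SUBEND: `d_j(s) = f_j(s) + k s / 2 ≥ 0` for `s ≤ 0` (indeed for all `s ≤ e_j`).
PLAN: `PDbl.pd_ge_of_nodes` with `c = -k/2`, `a0 = 0`, `a N n = - logb Λ (2 K √(Cp ϖ0)) - logb Λ K / 2`: `TSys.tpf_log_root` and `logb Λ A - k/2 logb Λ κ_i ≥ - k/2 s_i - logb Λ K / 2` because `κr^k ≤ K A²` (`Sub.le_thr`).   The range condition at `x = s ≤ 0`: `s j ℓ ≤ s` eventually (`hT.bot`), and `s ≤ 0 = s j tr ≤ s j 0` ALWAYS (`Sub.seam`, `κ tr ≤ κ 0`: `TDat.κ_le` in `Tree/Ok.lean` or induction with `Good.κ_anti`; `Real.logb_nonneg`). -/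
theorem ft_sub_d (hk : 1 ≤ k) {e : Fin (k + 1) → ℝ} {C1 C3 : ℝ} (hT : T.SubOk e C1 C3) (j : Fin (k + 1)) (hok : (T.pd j).Ok ((k : ℝ) / 2)) (s : ℝ) (hs : s ≤ 0) : 0 ≤ (T.pd j).f s + (k : ℝ) / 2 * s := by
  have hKlim : ∀ N, Tendsto (fun n => Real.logb (T.F N n).Λ (T.F N n).K) uf (𝓝 0) := fun N =>
    ft_log_small hT.toBase N 1 _ ((hT.ok N 0).mono fun _ hn => ⟨by linarith [hn.two_le_K], by rw [pow_one]⟩)
  have key := PDbl.pd_ge_of_nodes hok
    (fun N n => - Real.logb (T.F N n).Λ (2 * (T.F N n).K * Real.sqrt ((T.F N n).Cp * ((T.F N n).tp j).ϖ0)) - Real.logb (T.F N n).Λ (T.F N n).K / 2) 0 (-((k : ℝ) / 2))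
    (Eventually.of_forall fun N => by simpa using (ft_root_lim hT.toBase j N).neg.sub ((hKlim N).div_const 2)) (x := s) ?_ ?_
  · linarith
  · refine Eventually.of_forall fun N => ?_
    filter_upwards [hT.ok N 1, hT.sub N 0] with n h hsub
    intro i hi
    have hℓ : ((T.F N n).c).ℓ = (T.cN N).ℓ := congrArg TCls.ℓ (hT.cls N n)
    have h1 := ft_root_aux h j i (by rw [hℓ]; exact hi)
    have hκr := h.κr_pos j
    have hA : 0 < (T.F N n).A j := lt_of_lt_of_le one_pos (h.one_le_A j)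
    have hK0 : 0 < (T.F N n).K := by linarith [h.two_le_K]
    have h2 : (k : ℝ) * Real.logb (T.F N n).Λ ((T.F N n).κr j) ≤ Real.logb (T.F N n).Λ (T.F N n).K + 2 * Real.logb (T.F N n).Λ ((T.F N n).A j) := by
      have := Real.logb_le_logb_of_le (ft_one_lt_Λ h) (by positivity) (hsub.le_thr j)
      rw [Real.logb_mul hK0.ne' (by positivity), Real.logb_pow, Real.logb_pow] at this
      exact_mod_cast this
    have h3 : (T.F N n).s j i = Real.logb (T.F N n).Λ (((T.F N n).D j).κ i) - Real.logb (T.F N n).Λ ((T.F N n).κr j) := by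
      unfold FCfg.s
      rw [Real.logb_div (ft_κ_pos h j i).ne' hκr.ne']
    show - Real.logb (T.F N n).Λ (2 * (T.F N n).K * Real.sqrt ((T.F N n).Cp * ((T.F N n).tp j).ϖ0)) - Real.logb (T.F N n).Λ (T.F N n).K / 2 +
      -((k : ℝ) / 2) * (T.F N n).s j i ≤ (T.F N n).ρ j i
    rw [h3]
    nlinarith
  · filter_upwards [hT.bot s] with N hN
    filter_upwards [hN, hT.ok N 1, hT.sub N 0] with n hn h hsub
    refine ⟨hn j, hs.trans ?_⟩
    show 0 ≤ (T.F N n).s j 0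
    unfold FCfg.s
    refine Real.logb_nonneg (ft_one_lt_Λ h) ?_
    rw [one_le_div (h.κr_pos j), ← hsub.seam j]
    exact antitone_nat_of_succ_le (h.good j).κ_anti (Nat.zero_le _)

/-- L-257-FT-SUBL: the inequality (L) for the profiles (`f3p_L_transfer`; `hg` from `GTestL` as in `ft_tests`: `ft_mesh` for all `j` (`Filter.eventually_all`), `hT.sub N m0`, `hT.ok N m0`).
The window `[s - 1, s + C5 + 1]` must lie below `e j`: shrink `s1` to `min s1 (-(C5 + 1) - 1)` (`0 ≤ e j`). -/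
theorem ft_sub_L (hk : 1 ≤ k) {e : Fin (k + 1) → ℝ} {C1 C3 : ℝ} (hT : T.SubOk e C1 C3) (hok : ∀ j, (T.pd j).Ok ((k : ℝ) / 2)) (hL : GTestL k) : ∃ C5 s1 : ℝ, ∀ s, s < s1 → ∀ i,
    qk k * ((T.pd i).f s + (k : ℝ) / 2 * s) ≤ 2 / (k : ℝ) * ∑ j, ((T.pd j).f (s + C5) + (k : ℝ) / 2 * (s + C5)) := by
  have hk0 : (0 : ℝ) < k := by exact_mod_cast hk
  obtain ⟨C5, s1, H⟩ := hL T.o hT.room C1 C3
  refine ⟨C5, min s1 (-(C5 + 1)), fun s hs i => ?_⟩
  have hs1 : s < s1 := lt_of_lt_of_le hs (min_le_left _ _)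
  have hs2 : s < -(C5 + 1) := lt_of_lt_of_le hs (min_le_right _ _)
  refine f3p_L_transfer T.pd hok i (q' := qk k) (c' := 2 / (k : ℝ)) (x := s) (y := s + C5)
    (by unfold qk; positivity) (by positivity) fun ε hε => ?_
  obtain ⟨μ0, hμ0, H2⟩ := H s hs1 ε hε
  have hM : ∀ j, ∀ᶠ N in uf, ∀ᶠ n in uf, (T.F N n).Mesh j μ0 (s - 1) (s + C5 + 1) := fun j =>
    ft_mesh hT.toBase (ft_sub_rng hT j (s - 2)) hμ0 (by linarith) (by linarith [hT.e_nonneg j])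
  filter_upwards [Filter.eventually_all.2 hM] with N hN
  obtain ⟨m0, H3⟩ := H2 (T.cN N) (T.cx N) (hT.ord N)
  filter_upwards [Filter.eventually_all.2 hN, hT.ok N m0, hT.sub N m0] with n hn hok' hsub
  have hℓ : ((T.F N n).c).ℓ = (T.cN N).ℓ := congrArg TCls.ℓ (hT.cls N n)
  obtain ⟨a, b, ha, ha2, hb, hineq⟩ := H3 (T.F N n) (hT.cls N n) (hT.cxs N n) hok' hsub hn i
  rw [hℓ] at ha
  refine ⟨a, b, ha, ha2, fun j => ?_, hineq⟩
  have := hb j
  rw [hℓ] at this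
  exact this

/-! ## 5. the contradiction -/

/-- L-257-FT-END: if all the profiles vanish at the seam, the final incidence test is violated.
PLAN: `c1` from `hT.exc`, `tol` from `hF T.o c1`; for every `j`: `f3p_ratio_small (hok j) (h0 j) htol` gives `r_j`; `(hR j).seam r_j`; `Filter.eventually_all` over `j`;  pick `N`, `m0`, `n`;  `|ρ j0 tr| ≤ tol < ρ j0 tr`. -/
theorem ft_end (hT : T.Base) (hF : GTestF k) {p q : Fin (k + 1) → ℝ} {σ : ℝ} (hR : ∀ j, T.Rng j (p j) (q j) σ) (hok : ∀ j, (T.pd j).Ok ((k : ℝ) / 2))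
    (h0 : ∀ j, (T.pd j).f σ = 0) : False := by
  obtain ⟨c1, hc1, hexc⟩ := hT.exc
  obtain ⟨tol, htol, htest⟩ := hF T.o hT.room c1 hc1
  choose r hr hsmall using fun j => f3p_ratio_small (hok j) (h0 j) htol
  have h1 : ∀ᶠ N in uf, ∀ᶠ n in uf, ∀ j, ∀ i, i ≤ (T.pd j).ℓ N → |(T.pd j).s N n i - σ| ≤ r j → |(T.pd j).ρ N n i| ≤ tol :=
    (eventually_all.2 hsmall).mono fun N h => eventually_all.2 h
  have h2 : ∀ᶠ N in uf, ∀ᶠ n in uf, ∀ j, |(T.F N n).s j (T.cN N).tr - σ| ≤ r j :=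
    (eventually_all.2 fun j => (hR j).seam (r j) (hr j)).mono fun N h => eventually_all.2 h
  have := uf_neBot
  obtain ⟨N, hN1, hN2⟩ := (h1.and h2).exists
  obtain ⟨m0, hm0⟩ := htest (T.cN N) (T.cx N) (hT.ord N)
  obtain ⟨n, hn1, hn2, hn3, hn4⟩ := (hN1.and (hN2.and ((hT.ok N m0).and (hexc N)))).exists
  have h3 := hm0 (T.F N n) (hT.cls N n) (hT.cxs N n) hn3 hn4
  have htr : (T.F N n).c.tr = (T.cN N).tr := congrArg TCls.tr (hT.cls N n)
  have hℓ : (T.F N n).c.ℓ = (T.cN N).ℓ := congrArg TCls.ℓ (hT.cls N n)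
  have htl : (T.cN N).tr ≤ (T.cN N).ℓ := by
    rw [← htr, ← hℓ]; exact hn3.cls.tr_le
  have h4 : |(T.F N n).ρ (T.F N n).j0 (T.cN N).tr| ≤ tol := hn1 (T.F N n).j0 (T.cN N).tr htl (hn2 _)
  rw [htr] at h3
  linarith [le_abs_self ((T.F N n).ρ (T.F N n).j0 (T.cN N).tr)]

/-- **no tower of the power case** -/
theorem ft_power (hk : 1 ≤ k) {sH : ℝ} (hT : T.PowOk sH) (hB : GTestB k) (hM : GTestM k) (hX : GTestX k) (hF : GTestF k) : False := by
  have hl : (0 : ℝ) < (k : ℝ) / 2 := by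
    have : (0 : ℝ) < k := by exact_mod_cast hk
    positivity
  have hok : ∀ j, (T.pd j).Ok ((k : ℝ) / 2) := fun j =>
    ft_pd_ok hk hT.toBase j ⟨1, Eventually.of_forall fun N => (ft_pow_top hT j N).mono fun n hn => by rw [hn]; simp⟩
  have h0 := f3p_power_top (m := k + 1) (by omega) hl T.pd hok sH sH (fun j => ft_tests hT.toBase hB hM (ft_pow_rng hT j))
    (fun i j hij => ft_cross hT hX hij) (fun j => ft_pow_f0 hk hT j (hok j)) (fun j => ft_pow_f1 hT j (hok j))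
  exact ft_end hT.toBase hF (fun j => ft_pow_rng hT j) hok h0

/-- **no tower of the subpower case** -/
theorem ft_subpower (hk : 1 ≤ k) {e : Fin (k + 1) → ℝ} {C1 C3 : ℝ} (hT : T.SubOk e C1 C3) (hB : GTestB k) (hM : GTestM k) (hL : GTestL k) (hF : GTestF k) : False := by
  have hk0 : (0 : ℝ) < k := by exact_mod_cast hk
  have hl : (0 : ℝ) < (k : ℝ) / 2 := by positivity
  have hok : ∀ j, (T.pd j).Ok ((k : ℝ) / 2) := fun j =>
    ft_pd_ok hk hT.toBase j ⟨|e j| + 1, Eventually.of_forall fun N => by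
      have h1 := (hT.top N j).abs
      exact (h1.eventually (eventually_le_nhds (by linarith : |e j| < |e j| + 1)))⟩
  obtain ⟨C5, s1, hL'⟩ := ft_sub_L hk hT hok hL
  have h0 := f3p_subpower_top (m := k + 1) hl T.pd hok e hT.e_nonneg (fun j p _ => ft_tests hT.toBase hB hM (ft_sub_rng hT j p))
    (fun j => ft_sub_top hT j (hok j)) (fun j s hs => ft_sub_d hk hT j (hok j) s hs) (q' := qk k) (c' := 2 / (k : ℝ)) (C₅ := C5) (s₁ := s1) (by positivity)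
    (by
      unfold qk
      push_cast
      rw [div_mul_eq_mul_div, div_lt_div_iff_of_pos_right hk0]
      linarith) hL'
  exact ft_end hT.toBase hF (p := fun j => e j - 1) (fun j => ft_sub_rng hT j (e j - 1)) hok h0

/-- **TOP**: `f:frame` from the grid-level tests and the existence of a tower for a failing statement -/
theorem ft_frame (hk : 1 ≤ k) (hB : GTestB k) (hM : GTestM k) (hX : GTestX k) (hL : GTestL k) (hF : GTestF k)
    (hT : ¬ FrameStmt k → ∃ T : Tower k, (∃ sH, T.PowOk sH) ∨ ∃ e C1 C3, T.SubOk e C1 C3) : FrameStmt k := by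
  by_contra hne
  obtain ⟨T, ⟨sH, h⟩ | ⟨e, C1, C3, h⟩⟩ := hT hne
  · exact ft_power hk h hB hM hX hF
  · exact ft_subpower hk h hB hM hL hF

end

end Claimed.Agent.R257.FR3
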