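import Claimed.Agent.R257.FR3.BinAdC
import Claimed.Agent.R257.FR3.Top

/-!
# ROW 257, package FR3, unit BIN, adapter file D: NUMERICS OF ONE BLOCK      (architect helper121)

`k = n + 1`, `T = Λ^{τ u}` = the unit of all the losses, `L = Λ^u`, `d0 = 1 - 2x/k`.    Choices:  `K₁ = T` (loss of the block package), `ε = T⁻²`, `Ko = T³`, `t = T⁴`, `δ = 2/T`, `Ks = T⁴`, sampled exponent error `(3n+9) τ`, `t_inf = T`.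
* `BndSm F j g u τ eB L0`   the smallness package (all the losses of a configuration of high quality are `≤ T`), produced in file E from ONE inequality `Cb · Go^Nb ≤ T`
* `bnd_hc4`, `bnd_hc5`      the numerical side conditions of `bnb_sam` at a count node (slightly ABOVE `a/m`)
* `bnd_ho4`, `bnd_ho5`, `bnd_ho6`   the same at an occupancy node (slightly BELOW `a/m`)
* `bnd_core`                glue: `bnb_sam` + `bna_ok` + `BnCfg.Ok.mono_K` contradict `bn_main`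
LEAVES `L-F3-J*`: prove in place, statements verbatim (defect: one line to helper121), auxiliary lemmas directly above with prefix `bnd_`.
-/

set_option autoImplicit false

namespace Claimed.Agent.R257

open scoped BigOperators
open Classical Matrix
open Claimed.Agent.R255 Claimed.Agent.R255.FLaw

/-- LEAF `L-F3-J1`  the loss `K` of `BnCfg.Ok` may be enlarged (it occurs only in `dom`, `strip`; `h.ν0`, `rd_M_nonneg`, `Real.rpow_nonneg` with `0 < L⁻¹ ≤ r`). -/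
theorem BnCfg.Ok.mono_K {n : ℕ} {𝒳 𝒯 𝒲 : Type} [Fintype 𝒳] [Fintype 𝒯] {F : BnCfg n 𝒳 𝒯 𝒲} {L M K K' A d0 γ e : ℝ} {m : ℕ}
    (h : F.Ok L M K A d0 γ e m) (hL : 0 < L) (hK : K ≤ K') : F.Ok L M K' A d0 γ e m := by
  refine { dir0 := h.dir0, hdir := h.hdir, ν0 := h.ν0, ν1 := h.ν1, dom := ?_, strip := ?_, cnt := h.cnt, occ := h.occ, inf := h.inf }
  · intro x θ
    refine (h.dom x θ).trans ?_
    have h1 := h.ν0 (F.grp x) θ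
    have h2 := rd_M_nonneg F.P x
    gcongr
  · intro g w hw r hr hr1
    refine (h.strip g w hw r hr hr1).trans ?_
    have h0 : 0 ≤ r := (inv_pos.2 hL).le.trans hr
    have := Real.rpow_nonneg h0 γ
    gcongr

end Claimed.Agent.R257

namespace Claimed.Agent.R257.FR3

open scoped BigOperators
open Classical Matrix
open Claimed.Agent.R255 Claimed.Agent.R255.FLaw Claimed.Agent.R257 Claimed.Agent.R257.FR2 Claimed.Agent.R257.Tree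

noncomputable section

variable {n : ℕ} {F : FCfg (n + 1)} {j : Fin (n + 1 + 1)} {lam : ℕ} {m' : ℕ}

theorem bnd_Λ (hF : F.Ok m') : 1 < F.Λ := by
  have := hF.Λ_ge
  have h0 : (0 : ℝ) ≤ m' := Nat.cast_nonneg _
  linarith

/-- the logarithm of the polynomial bound of the occupancy sizes (`bnb_Mo_le`) -/
def FCfg.Bo (F : FCfg (n + 1)) : ℝ := Real.log (F.K * (4 * F.X) ^ ((F.c.ℓ : ℝ) * (((n + 3 : ℕ) : ℝ) + qk (n + 1))))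

/-- **the smallness package**: `T = Λ^{τ u}` dominates all the losses -/
structure BndSm (F : FCfg (n + 1)) (j : Fin (n + 1 + 1)) (g : GPar) (u τ eB L0 : ℝ) : Prop where
  T4 : 4 ≤ F.Λ ^ (τ * u)
  Tn : (n : ℝ) + 2 ≤ F.Λ ^ (τ * u)
  Go : F.Go ≤ F.Λ ^ (τ * u)
  G : ∀ i, i ≤ F.c.ℓ → (F.D j).G i ≤ F.Λ ^ (τ * u)
  ϖ0 : (F.tp j).ϖ0 ≤ F.Λ ^ (τ * u)
  k1 : g.Γc ^ F.c.ℓ ≤ (F.Λ ^ (τ * u)) ^ 2
  k3 : g.Kc ≤ (F.Λ ^ (τ * u)) ^ 3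
  k4 : g.Γc ^ F.c.ℓ * g.Γw ≤ (F.Λ ^ (τ * u)) ^ 2
  k5 : g.m * F.K * F.K ≤ (F.Λ ^ (τ * u)) ^ 2
  k6 : g.m * F.Go ≤ (F.Λ ^ (τ * u)) ^ 3
  mo : (F.Λ ^ (τ * u))⁻¹ ≤ (4 * F.K ^ 2 * F.Cp * (F.tp j).ϖ0) ^ (-(qk (n + 1) / 2))
  cc : 4 * F.c.Cc + 2 ≤ F.Λ ^ u
  L0 : L0 ≤ F.Λ ^ u
  ks : (F.Λ ^ (τ * u)) ^ 4 ≤ (F.Λ ^ u) ^ eB
  Bo : 0 ≤ F.Bo
  err1 : 2 * (2 / F.Λ ^ (τ * u)) * F.Bo + Real.log (2 * 2 ^ (2 * n + 4)) ≤ (eB - (3 * (n : ℝ) + 9) * τ) * Real.log (F.Λ ^ u)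
  err2 : Real.log (2 * (F.Λ ^ (τ * u)) ^ 4 * F.Λ ^ (τ * u)) + Real.log 2 +
    2 * ((2 * (2 / F.Λ ^ (τ * u)) + 2 / F.Λ ^ (τ * u)) * (F.Bo + (4 * ((n : ℝ) + 2) + 1) * Real.log (F.Λ ^ u)) + 1) ≤ eB * Real.log (F.Λ ^ u)

/-! ## the count nodes -/

/-- LEAF `L-F3-J2`  (`bnb_ratio`: `rs = Λ^Δ`; `(Λ^u)^(a/m) = Λ^(u a/m)` (`Real.rpow_mul`); `G + (n+1) Y ≤ T Y + (n+1) T Y = (n+2) T Y ≤ T² Y = Λ^(2τu + u a/m) ≤ Λ^Δ`, with `Y = Λ^(u a/m) ≥ 1`, `T ≥ 1`.) -/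
theorem bnd_hc4 (hF : F.Ok m') {u τ : ℝ} {a m i : ℕ} (hu : 0 < u)
    (hs1 : (a : ℝ) / m * u + 2 * τ * u ≤ F.s j i - F.s j lam)
    (hT1 : (n : ℝ) + 2 ≤ F.Λ ^ (τ * u)) (hT2 : (F.D j).G lam ≤ F.Λ ^ (τ * u)) :
    (F.D j).G lam + ((n : ℝ) + 1) * (F.Λ ^ u) ^ ((a : ℝ) / m) ≤ F.rs j lam i := by
  have hΛ := bnd_Λ hF
  have hΛ0 : 0 < F.Λ := by linarith
  have hrs : F.rs j lam i = F.Λ ^ (F.s j i - F.s j lam) := (bnb_ratio (j := j) (lam := lam) hF i).1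
  rw [hrs, ← Real.rpow_mul hΛ0.le]
  have ham : (0 : ℝ) ≤ (a : ℝ) / m := by positivity
  have hY : 1 ≤ F.Λ ^ (u * ((a : ℝ) / m)) := Real.one_le_rpow hΛ.le (by positivity)
  have hle : F.Λ ^ (τ * u) * F.Λ ^ (τ * u) * F.Λ ^ (u * ((a : ℝ) / m)) ≤ F.Λ ^ (F.s j i - F.s j lam) := by
    rw [← Real.rpow_add hΛ0, ← Real.rpow_add hΛ0]
    apply Real.rpow_le_rpow_of_exponent_le hΛ.le
    linarith
  refine le_trans ?_ hle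
  have hn : (0 : ℝ) ≤ n := Nat.cast_nonneg _
  generalize F.Λ ^ (τ * u) = T at *
  generalize F.Λ ^ (u * ((a : ℝ) / m)) = Y at *
  generalize (F.D j).G lam = G at *
  have hT : 1 ≤ T := by linarith
  have h1 : G ≤ T * Y := by nlinarith
  have h2 : ((n : ℝ) + 1) * Y ≤ ((n : ℝ) + 1) * (T * Y) := by
    apply mul_le_mul_of_nonneg_left _ (by positivity)
    nlinarith
  have h3 : ((n : ℝ) + 2) * (T * Y) ≤ T * (T * Y) := mul_le_mul_of_nonneg_right hT1 (by positivity)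
  nlinarith

/-- LEAF `L-F3-J3`  (`bnb_ratio`; everything is a power of `Λ`: exponent of the left side `≤ 2τu + (n+2)Δ + p'(-xΔ + e0 u) = 2τu + (n+2) d0 Δ + p' e0 u`  since `p' x = (n+2)(1 - d0)` (`pk'`, `field_simp`);
`Δ ≤ (a/m)u + 3τu`, `0 ≤ d0 ≤ 1`, `p' e0 u ≤ τ u`: total `≤ (n+2) d0 (a/m) u + (3n+9) τ u`.   `Real.rpow_le_rpow_of_exponent_le`, `Real.rpow_add`, `Real.rpow_mul`, `Real.rpow_natCast`.) -/
theorem bnd_hc5 (hF : F.Ok m') {x u τ e0 μ d0 : ℝ} {a m i : ℕ} (hu : 0 < u) (hτ0 : 0 < τ) (hd : d0 = 1 - 2 * x / ((n : ℝ) + 1)) (hd0 : 0 ≤ d0) (hd1 : d0 ≤ 1)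
    (hμ : μ ≤ τ * u) (hs2 : F.s j i - F.s j lam ≤ (a : ℝ) / m * u + 2 * τ * u + μ)
    (hρ : F.ρ j i - F.ρ j lam ≤ -x * (F.s j i - F.s j lam) + e0 * u) (he0 : pk' (n + 1) * e0 ≤ τ) (hT3 : F.Go ≤ F.Λ ^ (τ * u)) :
    F.Λ ^ (τ * u) * F.rs j lam i ^ (n + 1 + 1) * (F.r j i / F.r j lam) ^ pk' (n + 1) * F.Go ≤
      (F.Λ ^ u) ^ (((n + 2 : ℕ) : ℝ) * d0 * ((a : ℝ) / m) + (3 * (n : ℝ) + 9) * τ) := by
  have hΛ := bnd_Λ hF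
  have hΛ0 : 0 < F.Λ := by linarith
  obtain ⟨h1, h2⟩ := bnb_ratio (j := j) (lam := lam) hF i
  have hrs : F.rs j lam i = F.Λ ^ (F.s j i - F.s j lam) := h1
  rw [hrs, h2, ← Real.rpow_mul hΛ0.le, ← Real.rpow_mul hΛ0.le, ← Real.rpow_natCast, ← Real.rpow_mul hΛ0.le]
  have hn : (0 : ℝ) ≤ n := Nat.cast_nonneg _
  have hp : 0 < pk' (n + 1) := by
    unfold pk'
    push_cast
    positivity
  have hpx : pk' (n + 1) * x = ((n : ℝ) + 2) * (1 - d0) := by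
    rw [hd]
    unfold pk'
    push_cast
    field_simp
    ring
  have hpos : 0 ≤ F.Λ ^ (τ * u) * F.Λ ^ ((F.s j i - F.s j lam) * ((n + 1 + 1 : ℕ) : ℝ)) * F.Λ ^ ((F.ρ j i - F.ρ j lam) * pk' (n + 1)) := by
    positivity
  refine (mul_le_mul_of_nonneg_left hT3 hpos).trans ?_
  rw [← Real.rpow_add hΛ0, ← Real.rpow_add hΛ0, ← Real.rpow_add hΛ0]
  apply Real.rpow_le_rpow_of_exponent_le hΛ.le
  push_cast
  generalize F.s j i - F.s j lam = Δ at *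
  generalize F.ρ j i - F.ρ j lam = R at *
  generalize pk' (n + 1) = p at *
  generalize (a : ℝ) / m = q at *
  have hτu : 0 < τ * u := mul_pos hτ0 hu
  -- R p ≤ (-x Δ + e0 u) p = -(n+2)(1-d0) Δ + p e0 u
  have e1 : R * p ≤ (-x * Δ + e0 * u) * p := mul_le_mul_of_nonneg_right hρ hp.le
  have e2 : (-x * Δ + e0 * u) * p = -(((n : ℝ) + 2) * (1 - d0)) * Δ + (p * e0) * u := by
    rw [← hpx]; ring
  have e3 : (p * e0) * u ≤ τ * u := mul_le_mul_of_nonneg_right he0 hu.le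
  have e4 : Δ ≤ q * u + 3 * (τ * u) := by linarith
  have e5 : ((n : ℝ) + 2) * d0 * Δ ≤ ((n : ℝ) + 2) * d0 * (q * u + 3 * (τ * u)) :=
    mul_le_mul_of_nonneg_left e4 (by positivity)
  have e6 : ((n : ℝ) + 2) * d0 * (3 * (τ * u)) ≤ ((n : ℝ) + 2) * 1 * (3 * (τ * u)) := by
    apply mul_le_mul_of_nonneg_right _ (by positivity)
    exact mul_le_mul_of_nonneg_left hd1 (by positivity)
  nlinarith

/-! ## the occupancy nodes -/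

/-- LEAF `L-F3-J4`  (`bnb_ratio`: `rs = Λ^Δ ≤ Λ^(u a/m) = (Λ^u)^(a/m)`; square: `← Real.rpow_natCast`, `← Real.rpow_mul`.) -/
theorem bnd_ho2 (hF : F.Ok m') {u : ℝ} {a m i : ℕ} (hs2 : F.s j i - F.s j lam ≤ (a : ℝ) / m * u) :
    F.rs j lam i ≤ (F.Λ ^ u) ^ ((a : ℝ) / m) ∧ F.rs j lam i ^ 2 ≤ (F.Λ ^ u) ^ (2 * ((a : ℝ) / m)) := by
  have hΛ := bnd_Λ hF
  have hΛ0 : 0 < F.Λ := by linarith
  have h1 : F.rs j lam i = F.Λ ^ (F.s j i - F.s j lam) := (bnb_ratio hF i).1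
  constructor
  · rw [h1, ← Real.rpow_mul hΛ0.le]
    exact Real.rpow_le_rpow_of_exponent_le hΛ.le (by linarith)
  · rw [h1, ← Real.rpow_natCast, ← Real.rpow_mul hΛ0.le, ← Real.rpow_mul hΛ0.le]
    refine Real.rpow_le_rpow_of_exponent_le hΛ.le ?_
    push_cast
    linarith

/-- LEAF `L-F3-J4`  (`rs = Λ^Δ ≤ L²`, `rs² ≤ L⁴`, `L = Λ^u ≥ 1`: `L² + (4Cc+1) L⁴ ≤ (4Cc+2) L⁴ ≤ L⁵ = Λ^(5u)`; `hF.cls.one_le_Cc`.) -/
theorem bnd_ho4 (hF : F.Ok m') {u : ℝ} {i : ℕ} (hu : 0 < u) (hs2 : F.s j i - F.s j lam ≤ 2 * u) (hcc : 4 * F.c.Cc + 2 ≤ F.Λ ^ u) :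
    F.rs j lam i + (4 * F.c.Cc + 1) * F.rs j lam i ^ 2 ≤ F.Λ ^ (5 * u) := by
  have hΛ := bnd_Λ hF
  have hΛ0 : 0 < F.Λ := by linarith
  have h1 : F.rs j lam i = F.Λ ^ (F.s j i - F.s j lam) := (bnb_ratio hF i).1
  have hCc := hF.cls.one_le_Cc
  obtain ⟨L, hL⟩ : ∃ L : ℝ, L = F.Λ ^ u := ⟨_, rfl⟩
  have hL1 : 1 ≤ L := by rw [hL]; exact Real.one_le_rpow hΛ.le hu.le
  have h0 : 0 ≤ F.rs j lam i := by rw [h1]; exact Real.rpow_nonneg hΛ0.le _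
  have h2 : F.rs j lam i ≤ L ^ 2 := by
    rw [h1, hL, ← Real.rpow_natCast, ← Real.rpow_mul hΛ0.le]
    refine Real.rpow_le_rpow_of_exponent_le hΛ.le ?_
    push_cast
    linarith
  have h3 : F.rs j lam i ^ 2 ≤ L ^ 4 := by
    calc F.rs j lam i ^ 2 ≤ (L ^ 2) ^ 2 := pow_le_pow_left₀ h0 h2 2
      _ = L ^ 4 := by ring
  have h5 : F.Λ ^ (5 * u) = L ^ 5 := by
    rw [hL, ← Real.rpow_natCast, ← Real.rpow_mul hΛ0.le]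
    congr 1
    push_cast
    ring
  rw [h5]
  rw [← hL] at hcc
  have h6 : L ^ 2 ≤ L ^ 4 := pow_le_pow_right₀ hL1 (by norm_num)
  calc F.rs j lam i + (4 * F.c.Cc + 1) * F.rs j lam i ^ 2 ≤ L ^ 4 + (4 * F.c.Cc + 1) * L ^ 4 :=
        add_le_add (h2.trans h6) (mul_le_mul_of_nonneg_left h3 (by linarith))
    _ = (4 * F.c.Cc + 2) * L ^ 4 := by ring
    _ ≤ L * L ^ 4 := mul_le_mul_of_nonneg_right hcc (by positivity)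
    _ = L ^ 5 := by ring

/-- `0 < M_i` -/
theorem bnd_Mo_pos (hF : F.Ok m') (i : ℕ) : 0 < F.Mo j i :=
  mul_pos ((hF.sys j).vol_pos i) (Real.rpow_pos_of_pos (div_pos ((hF.frozen j).r_pos i) (zero_lt_one.trans_le (hF.one_le_A j))) _)

/-- LEAF `L-F3-J5`  **the occupancy size at a node slightly below `a/m`.**   (`bnb_Mo_ratio`: exponent `(n+3)Δ + q(ρ_i - ρ_lam) ≥ (n+3)Δ - q x Δ - q e0 u = (n+3) d0 Δ - q e0 u` since `q x = (n+3)(1 - d0)` (`qk`, `field_simp`);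
`Δ ≥ (a/m)u - μ`, `(n+3) μ ≤ τ u`, `0 ≤ d0 ≤ 1`, `q e0 u ≤ τ u`.   `0 ≤ F.Mo j lam`.) -/
theorem bnd_Mo_low (hF : F.Ok m') {x u τ e0 μ d0 : ℝ} {a m i : ℕ} (hu : 0 < u) (hd : d0 = 1 - 2 * x / ((n : ℝ) + 1)) (hd0 : 0 ≤ d0) (hd1 : d0 ≤ 1)
    (hμ0 : 0 ≤ μ) (hμ : ((n : ℝ) + 3) * μ ≤ τ * u) (hs1 : (a : ℝ) / m * u - μ ≤ F.s j i - F.s j lam)
    (hρ : -x * (F.s j i - F.s j lam) - e0 * u ≤ F.ρ j i - F.ρ j lam) (he0 : qk (n + 1) * e0 ≤ τ) :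
    F.Mo j lam * F.Λ ^ (((n + 3 : ℕ) : ℝ) * d0 * ((a : ℝ) / m) * u - 2 * τ * u) ≤ F.Mo j i := by
  have hΛ := bnd_Λ hF
  have hΛ0 : 0 < F.Λ := by linarith
  rw [bnb_Mo_ratio (lam := lam) hF i]
  refine mul_le_mul_of_nonneg_left ?_ (bnd_Mo_pos hF lam).le
  refine Real.rpow_le_rpow_of_exponent_le hΛ.le ?_
  have hn : (0 : ℝ) ≤ n := Nat.cast_nonneg n
  have hq : 0 < qk (n + 1) := by
    unfold qk
    push_cast
    positivity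
  have hqx : qk (n + 1) * x = ((n : ℝ) + 3) * (1 - d0) := by
    rw [hd]
    unfold qk
    push_cast
    field_simp
    ring
  set Δ := F.s j i - F.s j lam
  have h1 : qk (n + 1) * (-x * Δ - e0 * u) ≤ qk (n + 1) * (F.ρ j i - F.ρ j lam) := mul_le_mul_of_nonneg_left hρ hq.le
  have h2 : qk (n + 1) * (-x * Δ - e0 * u) = -(((n : ℝ) + 3) * (1 - d0)) * Δ - (qk (n + 1) * e0) * u := by
    rw [← hqx]
    ring
  have h3 : (qk (n + 1) * e0) * u ≤ τ * u := mul_le_mul_of_nonneg_right he0 hu.le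
  have h4 : ((n : ℝ) + 3) * d0 * ((a : ℝ) / m * u - μ) ≤ ((n : ℝ) + 3) * d0 * Δ := mul_le_mul_of_nonneg_left hs1 (by positivity)
  have h5 : ((n : ℝ) + 3) * d0 * μ ≤ ((n : ℝ) + 3) * μ := by
    have : ((n : ℝ) + 3) * d0 * μ = d0 * (((n : ℝ) + 3) * μ) := by ring
    rw [this]
    exact mul_le_of_le_one_left (by positivity) hd1
  push_cast
  nlinarith

/-- LEAF `L-F3-J6`  (logarithm of `hlow`: `Real.log_le_log`, `Real.log_mul`, `Real.log_div`, `Real.log_rpow`, `Real.log_pow`; `log (T³ T⁴) = 7 τ u log Λ`; `9 τ ≤ (3n+9) τ`; `log Λ > 0`.) -/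
theorem bnd_ho5 (hF : F.Ok m') {u τ d0 : ℝ} {a m i : ℕ} (hτ0 : 0 < τ) (hu : 0 < u)
    (hlow : F.Mo j lam * F.Λ ^ (((n + 3 : ℕ) : ℝ) * d0 * ((a : ℝ) / m) * u - 2 * τ * u) ≤ F.Mo j i) :
    Real.log (F.Mo j lam) + (((n + 3 : ℕ) : ℝ) * d0 * ((a : ℝ) / m) - (3 * (n : ℝ) + 9) * τ) * Real.log (F.Λ ^ u) ≤
      Real.log (F.Mo j i / ((F.Λ ^ (τ * u)) ^ 3 * (F.Λ ^ (τ * u)) ^ 4)) := by
  have hΛ := bnd_Λ hF
  have hΛ0 : 0 < F.Λ := by linarith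
  have hl : 0 < Real.log F.Λ := Real.log_pos hΛ
  have hT : 0 < F.Λ ^ (τ * u) := Real.rpow_pos_of_pos hΛ0 _
  have hp := Real.rpow_pos_of_pos hΛ0 (((n + 3 : ℕ) : ℝ) * d0 * ((a : ℝ) / m) * u - 2 * τ * u)
  have h1 := Real.log_le_log (mul_pos (bnd_Mo_pos hF lam) hp) hlow
  rw [Real.log_mul (bnd_Mo_pos hF lam).ne' hp.ne', Real.log_rpow hΛ0] at h1
  rw [Real.log_div (bnd_Mo_pos hF i).ne' (by positivity), Real.log_mul (by positivity) (by positivity), Real.log_pow, Real.log_pow,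
    Real.log_rpow hΛ0, Real.log_rpow hΛ0]
  have hn : (0 : ℝ) ≤ n := Nat.cast_nonneg n
  have h2 : 0 ≤ (n : ℝ) * τ * u * Real.log F.Λ := by positivity
  push_cast at h1 ⊢
  nlinarith

/-- LEAF `L-F3-J6`  (`bnb_Mo_ge hF lam hlam` and `hmo`: `T⁻¹ ≤ M_lam`; `a/m ≥ 1`, `(n+3) d0 ≥ 10 τ`: `M_i ≥ T⁻¹ Λ^(10τu - 2τu) = T⁷`.) -/
theorem bnd_ho6 (hF : F.Ok m') (hlam : lam ≤ F.c.ℓ) {u τ d0 : ℝ} {a m i : ℕ} (hτ0 : 0 < τ) (hu : 0 < u) (hm : 0 < m) (ha : m ≤ a) (hd0 : 0 ≤ d0) (hτ : 10 * τ ≤ ((n : ℝ) + 3) * d0)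
    (hmo : (F.Λ ^ (τ * u))⁻¹ ≤ (4 * F.K ^ 2 * F.Cp * (F.tp j).ϖ0) ^ (-(qk (n + 1) / 2)))
    (hlow : F.Mo j lam * F.Λ ^ (((n + 3 : ℕ) : ℝ) * d0 * ((a : ℝ) / m) * u - 2 * τ * u) ≤ F.Mo j i) :
    1 ≤ F.Mo j i / ((F.Λ ^ (τ * u)) ^ 3 * (F.Λ ^ (τ * u)) ^ 4) := by
  have hΛ := bnd_Λ hF
  have hΛ0 : 0 < F.Λ := by linarith
  have hT : 0 < F.Λ ^ (τ * u) := Real.rpow_pos_of_pos hΛ0 _
  have h1 : (F.Λ ^ (τ * u))⁻¹ ≤ F.Mo j lam := hmo.trans (bnb_Mo_ge hF lam hlam)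
  have hmr : (0 : ℝ) < m := by exact_mod_cast hm
  have ham : (1 : ℝ) ≤ (a : ℝ) / m := by
    rw [le_div_iff₀ hmr, one_mul]
    exact_mod_cast ha
  have hn : (0 : ℝ) ≤ n := Nat.cast_nonneg n
  have h2 : 8 * (τ * u) ≤ ((n + 3 : ℕ) : ℝ) * d0 * ((a : ℝ) / m) * u - 2 * τ * u := by
    push_cast
    have h3 : ((n : ℝ) + 3) * d0 * 1 ≤ ((n : ℝ) + 3) * d0 * ((a : ℝ) / m) := mul_le_mul_of_nonneg_left ham (by positivity)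
    have h4 : 10 * τ * u ≤ ((n : ℝ) + 3) * d0 * ((a : ℝ) / m) * u := mul_le_mul_of_nonneg_right (by linarith) hu.le
    linarith
  have h5 : (F.Λ ^ (τ * u)) ^ 8 ≤ F.Λ ^ (((n + 3 : ℕ) : ℝ) * d0 * ((a : ℝ) / m) * u - 2 * τ * u) := by
    rw [← Real.rpow_natCast, ← Real.rpow_mul hΛ0.le]
    refine Real.rpow_le_rpow_of_exponent_le hΛ.le ?_
    push_cast at h2 ⊢
    linarith
  rw [le_div_iff₀ (by positivity), one_mul]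
  refine le_trans ?_ hlow
  calc (F.Λ ^ (τ * u)) ^ 3 * (F.Λ ^ (τ * u)) ^ 4 = (F.Λ ^ (τ * u))⁻¹ * (F.Λ ^ (τ * u)) ^ 8 := by
        field_simp
    _ ≤ F.Mo j lam * F.Λ ^ (((n + 3 : ℕ) : ℝ) * d0 * ((a : ℝ) / m) * u - 2 * τ * u) :=
        mul_le_mul h1 h5 (by positivity) (bnd_Mo_pos hF lam).le

/-! ## the bounds of the logarithms -/

/-- LEAF `L-F3-J7`  (`bnb_Mo_le`, `Real.log_le_log`; `T³ T⁴ ≥ 1`: `div_le_self`.) -/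
theorem bnd_Bo (hF : F.Ok m') {T : ℝ} (hT : 1 ≤ T) (i : ℕ) (hi : i ≤ F.c.ℓ) : Real.log (F.Mo j i / (T ^ 3 * T ^ 4)) ≤ F.Bo := by
  have hT0 : 0 < T := by linarith
  unfold FCfg.Bo
  refine Real.log_le_log (div_pos (bnd_Mo_pos hF i) (by positivity)) ?_
  refine le_trans ?_ (bnb_Mo_le (j := j) hF i hi)
  refine div_le_self (bnd_Mo_pos hF i).le ?_
  have h3 := one_le_pow₀ hT (n := 3)
  have h4 := one_le_pow₀ hT (n := 4)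
  nlinarith

/-- LEAF `L-F3-J7`  (`Real.log_mul`, `Real.log_rpow`; `bnb_Mo_le hF lam hlam`; `(n+2) d0 (a/m) + e ≤ 4 (n+2) + 1`; `0 ≤ log L`.) -/
theorem bnd_Bn (hF : F.Ok m') (hlam : lam ≤ F.c.ℓ) {L d0 e : ℝ} {a m : ℕ} (hL : 1 ≤ L) (hm : 0 < m) (ha : a ≤ 4 * m) (hd0 : 0 ≤ d0) (hd1 : d0 ≤ 1) (he : e ≤ 1) :
    Real.log (F.Mo j lam * L ^ (((n + 2 : ℕ) : ℝ) * d0 * ((a : ℝ) / m) + e)) ≤ F.Bo + (4 * ((n : ℝ) + 2) + 1) * Real.log L := by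
  have hL0 : 0 < L := by linarith
  rw [Real.log_mul (bnd_Mo_pos hF lam).ne' (Real.rpow_pos_of_pos hL0 _).ne', Real.log_rpow hL0]
  have h1 : Real.log (F.Mo j lam) ≤ F.Bo := by
    unfold FCfg.Bo
    exact Real.log_le_log (bnd_Mo_pos hF lam) (bnb_Mo_le hF lam hlam)
  have hl : 0 ≤ Real.log L := Real.log_nonneg hL
  have hmr : (0 : ℝ) < m := by exact_mod_cast hm
  have ham : (a : ℝ) / m ≤ 4 := by
    rw [div_le_iff₀ hmr]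
    exact_mod_cast ha
  have ham0 : 0 ≤ (a : ℝ) / m := by positivity
  have hn : (0 : ℝ) ≤ n := Nat.cast_nonneg n
  have h2 : ((n + 2 : ℕ) : ℝ) * d0 * ((a : ℝ) / m) + e ≤ 4 * ((n : ℝ) + 2) + 1 := by
    push_cast
    have h3 : ((n : ℝ) + 2) * d0 ≤ (n : ℝ) + 2 := mul_le_of_le_one_right (by positivity) hd1
    have h4 : ((n : ℝ) + 2) * d0 * ((a : ℝ) / m) ≤ ((n : ℝ) + 2) * 4 := mul_le_mul h3 ham ham0 (by positivity)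
    linarith
  exact add_le_add h1 (mul_le_mul_of_nonneg_right h2 hl)

/-! ## the core -/

/-- **one block contradicts BIN** (glue) -/
theorem bnd_core (hF : F.Ok m') {g : GPar} (hg : (F.D j).geo.Ok g) {B : BlkDat F j lam} {u γ τ d0 eB L0 : ℝ} {m : ℕ}
    (hB : B.Ok u γ (F.Λ ^ (τ * u))) (hlam : lam ≤ F.c.ℓ) (hsm : BndSm F j g u τ eB L0) (hu : 0 < u) (hτ0 : 0 < τ) (hm : 0 < m) (hd0 : 0 ≤ d0) (hd1 : d0 ≤ 1)
    (hes : (3 * (n : ℝ) + 9) * τ ≤ eB) (hes1 : (3 * (n : ℝ) + 9) * τ ≤ 1)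
    (hbn : ∀ L : ℝ, L0 ≤ L → ∀ M : ℝ, 0 < M → ∀ (𝒳 𝒯 𝒲 : Type) [Fintype 𝒳] [Fintype 𝒯] (F' : BnCfg n 𝒳 𝒯 𝒲), ¬ F'.Ok L M (L ^ eB) (4 * F.c.Cc + 1) d0 γ eB m)
    (ic io : ℕ → ℕ)
    (hc : ∀ a : ℕ, m ≤ a → a ≤ 4 * m → ic a ≤ lam ∧ u / 2 ≤ F.s j (ic a) - F.s j lam ∧ F.s j (ic a) - F.s j lam ≤ 5 * u ∧
      (F.D j).G lam + ((n : ℝ) + 1) * (F.Λ ^ u) ^ ((a : ℝ) / m) ≤ F.rs j lam (ic a) ∧
      F.Λ ^ (τ * u) * F.rs j lam (ic a) ^ (n + 1 + 1) * (F.r j (ic a) / F.r j lam) ^ pk' (n + 1) * F.Go ≤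
        (F.Λ ^ u) ^ (((n + 2 : ℕ) : ℝ) * d0 * ((a : ℝ) / m) + (3 * (n : ℝ) + 9) * τ))
    (ho : ∀ a : ℕ, m ≤ a → a ≤ 2 * m → io a ≤ lam ∧ F.rs j lam (io a) ≤ (F.Λ ^ u) ^ ((a : ℝ) / m) ∧ F.rs j lam (io a) ^ 2 ≤ (F.Λ ^ u) ^ (2 * ((a : ℝ) / m)) ∧
      F.rs j lam (io a) + (4 * F.c.Cc + 1) * F.rs j lam (io a) ^ 2 ≤ F.Λ ^ (5 * u) ∧
      Real.log (F.Mo j lam) + (((n + 3 : ℕ) : ℝ) * d0 * ((a : ℝ) / m) - (3 * (n : ℝ) + 9) * τ) * Real.log (F.Λ ^ u) ≤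
        Real.log (F.Mo j (io a) / ((F.Λ ^ (τ * u)) ^ 3 * (F.Λ ^ (τ * u)) ^ 4)) ∧
      1 ≤ F.Mo j (io a) / ((F.Λ ^ (τ * u)) ^ 3 * (F.Λ ^ (τ * u)) ^ 4)) : False := by
  have hΛ := bnd_Λ hF
  have hΛ0 : 0 < F.Λ := by linarith
  obtain ⟨T, hT⟩ : ∃ T : ℝ, T = F.Λ ^ (τ * u) := ⟨_, rfl⟩
  have hsm' := hsm
  obtain ⟨T4, -, sGo, -, sϖ0, k1, k3, k4, k5, k6, -, -, sL0, ks, sBo, err1, err2⟩ := hsm'
  rw [← hT] at hB hc ho T4 sGo sϖ0 k1 k3 k4 k5 k6 ks err1 err2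
  have hT0 : 0 < T := by linarith
  have hT1 : 1 ≤ T := by linarith
  have hL1 : 1 < F.Λ ^ u := Real.one_lt_rpow hΛ hu
  -- the law
  have hcardY : 0 < Fintype.card (F.D j).Y := by
    obtain ⟨q⟩ := hF.ne
    exact Fintype.card_pos_iff.2 ⟨F.e j q⟩
  have hY : B.Y'.Nonempty := by
    by_contra hne
    rw [Finset.not_nonempty_iff_eq_empty] at hne
    have := hB.card
    rw [hne] at this
    simp at this
    omega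
  have hW : ∀ z ∈ B.Y', 0 < ∑ ω, B.J z ω := fun z hz => lt_of_lt_of_le (inv_pos.2 hT0) (hB.mass z hz)
  obtain ⟨P, hP⟩ := (F.D j).geo.tp_law_exists B.J hB.J_nonneg B.Y' hY hW
  have hsam := bnb_sam hF hg hB hT1 hP hlam (d0 := d0) (e := (3 * (n : ℝ) + 9) * τ) (ε := (T ^ 2)⁻¹) (Ko := T ^ 3) (t := T ^ 4) (Ks := T ^ 4) (δ := 2 / T) (m := m) ic io
    (by positivity) (by positivity) (by nlinarith [pow_le_pow_right₀ hT1 (show 1 ≤ 4 by norm_num), pow_one T])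
    (le_of_eq (by field_simp)) ?_ (le_of_eq (by field_simp)) ?_ ?_ k3 ?_ ?_ k6 hc ho
  · have hok := bna_ok hsam (by positivity) (by rw [div_le_iff₀ hT0]; linarith) hL1 (bnd_Mo_pos hF lam) (one_le_pow₀ hT1) (one_le_pow₀ (by norm_num))
      (e' := eB) (t := T) (Bo := F.Bo) (Bn := F.Bo + (4 * ((n : ℝ) + 2) + 1) * Real.log (F.Λ ^ u)) hes hT1
      (fun a h1 h2 => bnd_Bo hF hT1 (io a) ((ho a h1 h2).1.trans hlam)) err1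
      (add_nonneg sBo (mul_nonneg (by positivity) (Real.log_nonneg hL1.le)))
      (fun a _ h2 => bnd_Bn hF hlam hL1.le hm h2 hd0 hd1 hes1) err2
    exact hbn _ sL0 _ (bnd_Mo_pos hF lam) _ _ _ _ (hok.mono_K (by linarith) ks)
  · rw [inv_mul_le_iff₀ (by positivity)]
    have : T ^ 2 * (2 / T) = 2 * T := by field_simp
    rw [this]
    linarith
  · rw [div_inv_eq_mul]
    calc g.Γc ^ F.c.ℓ * T ≤ T ^ 2 * T := mul_le_mul_of_nonneg_right k1 hT0.le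
      _ = T ^ 3 := by ring
  · calc (F.tp j).ϖ0 ≤ T := sϖ0
      _ = T ^ 1 := (pow_one T).symm
      _ ≤ T ^ 3 := pow_le_pow_right₀ hT1 (by norm_num)
  · rw [div_inv_eq_mul]
    calc g.Γc ^ F.c.ℓ * g.Γw * T ≤ T ^ 2 * T := mul_le_mul_of_nonneg_right k4 hT0.le
      _ = T ^ 3 := by ring
  · calc g.m * F.K * (F.K * T) = g.m * F.K * F.K * T := by ring
      _ ≤ T ^ 2 * T := mul_le_mul_of_nonneg_right k5 hT0.le
      _ = T ^ 3 := by ring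

end

end Claimed.Agent.R257.FR3
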