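import Claimed.Agent.R257.FR3.BinAdD

/-!
# ROW 257, package FR3, unit BIN, adapter file E: SMALLNESS, NODES, AND THE EXIT `GBlk (n+1) → GTestB (n+1)`      (architect helper121)

* `bnd_sub`, `bnd_basic`, `bnd_le_T`   ONE inequality `Cb · Go^Nb ≤ T = Λ^{τ u}` (true for high quality) dominates all the losses:  `K ≤ G_i ≤ G_0 ≤ G_0^{2P} ≤ Go`
* `bnd_small`     glue: the smallness package `BndSm` for every configuration of quality `m0`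
* `bnd_block`     glue: the cap height `lam` and the nodes from the mesh, the slopes from `Aff`; `bnd_core`
* `bnd_gtestB`    **EXIT** (glue: order of the quantifiers)
LEAVES `L-F3-N*`: prove in place, statements verbatim (defect: one line to helper121), auxiliary lemmas directly above with prefix `bnd_`.
-/

set_option autoImplicit false

namespace Claimed.Agent.R257.FR3

open scoped BigOperators
open Classical Matrix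
open Claimed.Agent.R255 Claimed.Agent.R255.FLaw Claimed.Agent.R257 Claimed.Agent.R257.FR2 Claimed.Agent.R257.Tree

noncomputable section

variable {n : ℕ} {F : FCfg (n + 1)} {j : Fin (n + 1 + 1)} {lam : ℕ} {m' : ℕ}

/-! ## smallness -/

/-- constants and powers of a subpower quantity are subpowers (copy of `fl3_sub`, helper227) -/
theorem bnd_sub (C N γ : ℝ) (hN : 0 ≤ N) (hγ : 0 < γ) : ∃ m0 : ℕ, ∀ m : ℕ, m0 ≤ m → ∀ Λ x : ℝ, (m : ℝ) + 3 ≤ Λ → 1 ≤ x → x ^ m ≤ Λ → C * x ^ N ≤ Λ ^ γ := by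
  refine ⟨max ⌈2 * N / γ⌉₊ ⌈|C| ^ (2 / γ)⌉₊ + 1, ?_⟩
  intro m hm Λ x hΛ hx hxm
  have hm1 : 1 ≤ m := le_trans (Nat.le_add_left _ _) hm
  have hm0 : (0 : ℝ) < (m : ℝ) := by exact_mod_cast hm1
  have hmN : 2 * N / γ ≤ (m : ℝ) := by
    have h1 : ⌈2 * N / γ⌉₊ ≤ m := le_trans (le_trans (le_max_left _ _) (Nat.le_add_right _ _)) hm
    exact (Nat.le_ceil _).trans (by exact_mod_cast h1)
  have hmC : |C| ^ (2 / γ) ≤ (m : ℝ) := by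
    have h1 : ⌈|C| ^ (2 / γ)⌉₊ ≤ m := le_trans (le_trans (le_max_right _ _) (Nat.le_add_right _ _)) hm
    exact (Nat.le_ceil _).trans (by exact_mod_cast h1)
  have hΛ1 : 1 ≤ Λ := by linarith
  have hΛ0 : 0 < Λ := by linarith
  have hx0 : 0 ≤ x := by linarith
  have h1 : x ≤ Λ ^ ((m : ℝ)⁻¹) := by
    have e : x = (x ^ m) ^ ((m : ℝ)⁻¹) := (Real.pow_rpow_inv_natCast hx0 (by omega)).symm
    calc x = (x ^ m) ^ ((m : ℝ)⁻¹) := e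
      _ ≤ Λ ^ ((m : ℝ)⁻¹) := Real.rpow_le_rpow (by positivity) hxm (by positivity)
  have h2 : x ^ N ≤ Λ ^ (γ / 2) := by
    calc x ^ N ≤ (Λ ^ ((m : ℝ)⁻¹)) ^ N := Real.rpow_le_rpow hx0 h1 hN
      _ = Λ ^ ((m : ℝ)⁻¹ * N) := (Real.rpow_mul hΛ0.le _ _).symm
      _ ≤ Λ ^ (γ / 2) := by
          refine Real.rpow_le_rpow_of_exponent_le hΛ1 ?_
          rw [div_le_iff₀ hγ] at hmN
          rw [inv_mul_le_iff₀ hm0]
          linarith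
  have h3 : |C| ≤ Λ ^ (γ / 2) := by
    have e : |C| = (|C| ^ (2 / γ)) ^ (γ / 2) := by
      rw [← Real.rpow_mul (abs_nonneg _)]
      have : 2 / γ * (γ / 2) = 1 := by field_simp
      rw [this, Real.rpow_one]
    calc |C| = (|C| ^ (2 / γ)) ^ (γ / 2) := e
      _ ≤ Λ ^ (γ / 2) := Real.rpow_le_rpow (by positivity) (by linarith) (by positivity)
  have h4 : 0 ≤ x ^ N := Real.rpow_nonneg hx0 _
  calc C * x ^ N ≤ |C| * x ^ N := mul_le_mul_of_nonneg_right (le_abs_self _) h4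
    _ ≤ Λ ^ (γ / 2) * Λ ^ (γ / 2) := mul_le_mul h3 h2 h4 (by positivity)
    _ = Λ ^ γ := by
        rw [← Real.rpow_add hΛ0]
        congr 1
        ring

/-- LEAF `L-F3-N1`  **the acyclic order of the losses** (as in the proof of `ft_K_le`, `FR3/Top.lean`, for the field `j`: `ti_G_le`, `Real.self_le_rpow_of_one_le`, `ϖ1 = Cp G_0^{2P} ϖ`, `(hF.sys j).one_le_Γ2`, `one_le_ϖ`; `K ≤ K^m' ≤ G ℓ`: `le_self_pow₀`). -/
theorem bnd_basic (hF : F.Ok m') (hm : 1 ≤ m') :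
    1 ≤ F.Go ∧ F.K ≤ F.Go ∧ (∀ i, i ≤ F.c.ℓ → (F.D j).G i ≤ F.Go) ∧ 1 ≤ (F.D j).G 0 ∧ (F.D j).G 0 ^ (2 * F.c.P) ≤ F.Go := by
  have hg := hF.good j
  have hG0 : 1 ≤ (F.D j).G 0 := hg.one_le_G 0 (Nat.zero_le _)
  have hP : 1 ≤ 2 * F.c.P := by
    have := hF.cls.P_gt
    have hk0 : (0 : ℝ) ≤ ((n + 1 : ℕ) : ℝ) := Nat.cast_nonneg _
    linarith
  have h1 : (F.D j).G 0 ≤ (F.D j).G 0 ^ (2 * F.c.P) := Real.self_le_rpow_of_one_le hG0 hP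
  have hCp : 1 ≤ F.Cp := (hF.sys j).one_le_Γ2
  have hϖ : 1 ≤ (F.D j).ϖ := hg.one_le_ϖ
  have h2 : (F.D j).G 0 ^ (2 * F.c.P) ≤ (F.tp j).ϖ1 := by
    show (F.D j).G 0 ^ (2 * F.c.P) ≤ F.Cp * (F.D j).G 0 ^ (2 * F.c.P) * (F.D j).ϖ
    have hp : 0 ≤ (F.D j).G 0 ^ (2 * F.c.P) := Real.rpow_nonneg (by linarith) _
    have h3 : (F.D j).G 0 ^ (2 * F.c.P) ≤ F.Cp * (F.D j).G 0 ^ (2 * F.c.P) := le_mul_of_one_le_left hp hCp
    exact h3.trans (le_mul_of_one_le_right (by positivity) hϖ)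
  have hGo1 : 1 ≤ F.Go := ((hF.sys j).one_le_ϖ1).trans (hF.ϖ1_Go j)
  have h3 : (F.D j).G 0 ^ (2 * F.c.P) ≤ F.Go := h2.trans (hF.ϖ1_Go j)
  have hGi : ∀ i, i ≤ F.c.ℓ → (F.D j).G i ≤ F.Go := fun i hi =>
    ((ti_G_le hF.cls _ hg (Nat.zero_le i) hi).trans h1).trans h3
  have hK1 : 1 ≤ F.K := by linarith [hF.two_le_K]
  exact ⟨hGo1, ((le_self_pow₀ hK1 (by omega)).trans (hF.K_G j)).trans (hGi _ le_rfl), hGi, hG0, h3⟩

/-- LEAF `L-F3-N1`  (`C ≤ Cb`, `Go^N ≤ Go^Nb`: `Real.rpow_le_rpow_of_exponent_le`; `mul_le_mul`.) -/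
theorem bnd_le_T {Go Cb Nb T C N : ℝ} (h1 : 1 ≤ Go) (hS : Cb * Go ^ Nb ≤ T) (hC0 : 0 ≤ C) (hC : C ≤ Cb) (hN : N ≤ Nb) : C * Go ^ N ≤ T := by
  have h2 : Go ^ N ≤ Go ^ Nb := Real.rpow_le_rpow_of_exponent_le h1 hN
  have h3 : 0 ≤ Go ^ N := Real.rpow_nonneg (by linarith) _
  exact (mul_le_mul hC h2 h3 (hC0.trans hC)).trans hS

/-- LEAF `L-F3-N2`  (`gp`: `Kc = C' G_0^{2Q}`; `G_0^{2Q} = (G_0^{2P})^{Q/P} ≤ Go^{Q/P}` (`Real.rpow_mul`, `Real.rpow_le_rpow`; `0 < P < Q`: `hF.cls.P_gt`, `P_lt`); `T ≤ T³`.) -/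
theorem bnd_k3 (hF : F.Ok m') (hm : 1 ≤ m') {C' T : ℝ} (hC' : 1 ≤ C') (hT : 1 ≤ T) (h : C' * F.Go ^ (F.c.Q / F.c.P) ≤ T) : ((F.D j).gp C').Kc ≤ T ^ 3 := by
  obtain ⟨g1, gK, gG, gG0, gP⟩ := bnd_basic (j := j) hF hm
  have hP0 : 0 < F.c.P := by
    have := hF.cls.P_gt
    have h0 : (0 : ℝ) ≤ ((n + 1 : ℕ) : ℝ) := Nat.cast_nonneg _
    linarith
  have hQP : 0 ≤ F.c.Q / F.c.P := div_nonneg (hP0.le.trans hF.cls.P_lt.le) hP0.le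
  show C' * (F.D j).G 0 ^ (2 * F.c.Q) ≤ T ^ 3
  have e : (F.D j).G 0 ^ (2 * F.c.Q) = ((F.D j).G 0 ^ (2 * F.c.P)) ^ (F.c.Q / F.c.P) := by
    rw [← Real.rpow_mul (by linarith)]
    congr 1
    field_simp
  have h1 : (F.D j).G 0 ^ (2 * F.c.Q) ≤ F.Go ^ (F.c.Q / F.c.P) := by
    rw [e]
    exact Real.rpow_le_rpow (Real.rpow_nonneg (by linarith) _) gP hQP
  have h2 : C' * (F.D j).G 0 ^ (2 * F.c.Q) ≤ T := (mul_le_mul_of_nonneg_left h1 (by linarith)).trans h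
  exact h2.trans (le_self_pow₀ hT (by norm_num))

/-- LEAF `L-F3-N2`  (`gp`: `m = C' G_0^{k+1}`, `k + 1 = n + 2`; `G_0 ≤ Go`, `K ≤ Go` (`bnd_basic`); `Real.rpow_natCast`; `T ≤ T²`, `T ≤ T³`.) -/
theorem bnd_k56 (hF : F.Ok m') (hm : 1 ≤ m') {C' T : ℝ} (hC' : 1 ≤ C') (hT : 1 ≤ T) (h : C' * F.Go ^ ((n : ℝ) + 4) ≤ T) :
    ((F.D j).gp C').m * F.K * F.K ≤ T ^ 2 ∧ ((F.D j).gp C').m * F.Go ≤ T ^ 3 := by
  obtain ⟨g1, gK, gG, gG0, gP⟩ := bnd_basic (j := j) hF hm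
  have hC0 : 0 ≤ C' := by linarith
  have hK0 : 0 ≤ F.K := by linarith [hF.two_le_K]
  have hGo0 : 0 ≤ F.Go := by linarith
  have hG00 : 0 ≤ (F.D j).G 0 := by linarith
  have e : F.Go ^ ((n : ℝ) + 4) = F.Go ^ (n + 4) := by
    rw [← Real.rpow_natCast]
    push_cast
    rfl
  rw [e] at h
  have hp : (F.D j).G 0 ^ (n + 1 + 1) ≤ F.Go ^ (n + 1 + 1) := pow_le_pow_left₀ hG00 (gG 0 (Nat.zero_le _)) _
  have hp0 : 0 ≤ (F.D j).G 0 ^ (n + 1 + 1) := by positivity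
  constructor
  · show C' * (F.D j).G 0 ^ (n + 1 + 1) * F.K * F.K ≤ T ^ 2
    have h1 : C' * (F.D j).G 0 ^ (n + 1 + 1) * F.K * F.K ≤ C' * F.Go ^ (n + 1 + 1) * F.Go * F.Go := by
      gcongr
    have h2 : C' * F.Go ^ (n + 1 + 1) * F.Go * F.Go = C' * F.Go ^ (n + 4) := by ring
    rw [h2] at h1
    exact (h1.trans h).trans (le_self_pow₀ hT (by norm_num))
  · show C' * (F.D j).G 0 ^ (n + 1 + 1) * F.Go ≤ T ^ 3
    have h1 : C' * (F.D j).G 0 ^ (n + 1 + 1) * F.Go ≤ C' * F.Go ^ (n + 1 + 1) * F.Go := by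
      gcongr
    have h2 : C' * F.Go ^ (n + 1 + 1) * F.Go = C' * F.Go ^ (n + 3) := by ring
    have h3 : F.Go ^ (n + 3) ≤ F.Go ^ (n + 4) := pow_le_pow_right₀ g1 (by omega)
    rw [h2] at h1
    exact ((h1.trans (mul_le_mul_of_nonneg_left h3 hC0)).trans h).trans (le_self_pow₀ hT (by norm_num))

/-- LEAF `L-F3-N3`  (`Cp ≤ K`, `ϖ0 ≤ K`, `K ≤ Go`: `1 ≤ 4 K² Cp ϖ0 ≤ 4 Go⁴`; `q/2 ≤ 3` (`qk`, `k = n+1 ≥ 1`): `(4 K² Cp ϖ0)^{q/2} ≤ (4 Go⁴)³ = 64 Go^12 ≤ T`; `Real.rpow_neg`, `inv_anti₀`.   `0 < Cp`: `(hF.sys j).one_le_Γ2`; `1 ≤ ϖ0`: `(hF.sys j).one_le_ϖ0` or `Cp ϖ`.) -/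
theorem bnd_mo (hF : F.Ok m') (hm : 1 ≤ m') {T : ℝ} (h : 64 * F.Go ^ (12 : ℝ) ≤ T) :
    T⁻¹ ≤ (4 * F.K ^ 2 * F.Cp * (F.tp j).ϖ0) ^ (-(qk (n + 1) / 2)) := by
  obtain ⟨g1, gK, gG, gG0, gP⟩ := bnd_basic (j := j) hF hm
  have hK1 : 1 ≤ F.K := by linarith [hF.two_le_K]
  have hCp : 1 ≤ F.Cp := (hF.sys j).one_le_Γ2
  have hϖ : 1 ≤ (F.tp j).ϖ0 := (hF.sys j).one_le_ϖ0
  have hGo0 : 0 ≤ F.Go := by linarith
  obtain ⟨B, hB⟩ : ∃ B : ℝ, B = 4 * F.K ^ 2 * F.Cp * (F.tp j).ϖ0 := ⟨_, rfl⟩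
  rw [← hB]
  have hB1 : 1 ≤ B := by
    rw [hB]
    have h1 : 1 ≤ F.K ^ 2 := one_le_pow₀ hK1
    have h2 : 1 ≤ 4 * F.K ^ 2 := by linarith
    have h3 : 1 ≤ 4 * F.K ^ 2 * F.Cp := one_le_mul_of_one_le_of_one_le h2 hCp
    exact one_le_mul_of_one_le_of_one_le h3 hϖ
  have hB2 : B ≤ 4 * F.Go ^ 4 := by
    rw [hB]
    have h1 : 4 * F.K ^ 2 * F.Cp * (F.tp j).ϖ0 ≤ 4 * F.Go ^ 2 * F.Go * F.Go := by
      have a1 : F.Cp ≤ F.Go := hF.Cp_le.trans gK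
      have a2 : (F.tp j).ϖ0 ≤ F.Go := (hF.ϖ0_le j).trans gK
      have a3 : 0 ≤ F.K := by linarith
      have a4 : 0 ≤ F.Cp := by linarith
      have a5 : 0 ≤ (F.tp j).ϖ0 := by linarith
      gcongr
    calc _ ≤ 4 * F.Go ^ 2 * F.Go * F.Go := h1
      _ = 4 * F.Go ^ 4 := by ring
  have hq : qk (n + 1) / 2 ≤ 3 := by
    unfold qk
    have hn : (0 : ℝ) ≤ n := Nat.cast_nonneg n
    push_cast
    rw [div_div, div_le_iff₀ (by positivity)]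
    linarith
  have hB0 : 0 < B := by linarith
  have h3 : B ^ (qk (n + 1) / 2) ≤ T := by
    calc B ^ (qk (n + 1) / 2) ≤ B ^ (3 : ℝ) := Real.rpow_le_rpow_of_exponent_le hB1 hq
      _ = B ^ 3 := by
          rw [← Real.rpow_natCast]
          norm_num
      _ ≤ (4 * F.Go ^ 4) ^ 3 := pow_le_pow_left₀ hB0.le hB2 3
      _ = 64 * F.Go ^ (12 : ℝ) := by
          have : F.Go ^ (12 : ℝ) = F.Go ^ 12 := by
            rw [← Real.rpow_natCast]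
            norm_num
          rw [this]
          ring
      _ ≤ T := h
  rw [Real.rpow_neg hB0.le]
  exact inv_anti₀ (Real.rpow_pos_of_pos hB0 _) h3

/-- the constant of the bound `Bo ≤ Cl log Λ` -/
def bndCl (n ℓ cx : ℕ) : ℝ := 1 + (ℓ : ℝ) * (((n + 3 : ℕ) : ℝ) + qk (n + 1)) * ((cx : ℝ) + 2)

theorem bnd_Cl_pos (n ℓ cx : ℕ) : 0 < bndCl n ℓ cx := by
  have : 0 ≤ qk (n + 1) := by unfold qk; positivity
  unfold bndCl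
  positivity

/-- LEAF `L-F3-N4`  (`Bo = log K + ℓ (n+3+q) log (4X)` (`Real.log_mul`, `Real.log_rpow`); `0 ≤ log K ≤ log Λ` (`ft_K_le hF hm`, `le_self_pow₀`); `0 ≤ log (4X) = log 4 + cx log Λ ≤ (cx + 2) log Λ` since `4 ≤ Λ²` (`Λ ≥ 3`); `qk ≥ 0`.) -/
theorem bnd_Bo_le (hF : F.Ok m') (hm : 1 ≤ m') : 0 ≤ F.Bo ∧ F.Bo ≤ bndCl n F.c.ℓ F.cx * Real.log F.Λ := by
  have hΛ := bnd_Λ hF
  have hΛ0 : 0 < F.Λ := by linarith
  have hΛ3 : 3 ≤ F.Λ := by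
    have := hF.Λ_ge
    have h0 : (0 : ℝ) ≤ m' := Nat.cast_nonneg _
    linarith
  have hK1 : 1 ≤ F.K := by linarith [hF.two_le_K]
  have hK0 : 0 < F.K := by linarith
  have hq : 0 ≤ qk (n + 1) := by unfold qk; positivity
  have hX0 : 0 < F.X := by unfold FCfg.X; positivity
  have hL0 : 0 < Real.log F.Λ := Real.log_pos hΛ
  have hlK0 : 0 ≤ Real.log F.K := Real.log_nonneg hK1
  have hlK : Real.log F.K ≤ Real.log F.Λ := Real.log_le_log hK0 ((le_self_pow₀ hK1 (by omega)).trans (ft_K_le hF hm))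
  have hl4 : Real.log 4 ≤ 2 * Real.log F.Λ := by
    have : (4 : ℝ) ≤ F.Λ ^ 2 := by nlinarith
    calc Real.log 4 ≤ Real.log (F.Λ ^ 2) := Real.log_le_log (by norm_num) this
      _ = 2 * Real.log F.Λ := by rw [Real.log_pow]; norm_num
  have hl40 : 0 ≤ Real.log 4 := Real.log_nonneg (by norm_num)
  have hlX : Real.log (4 * F.X) = Real.log 4 + (F.cx : ℝ) * Real.log F.Λ := by
    rw [Real.log_mul (by norm_num) hX0.ne']
    unfold FCfg.X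
    rw [Real.log_pow]
  have e : F.Bo = Real.log F.K + ((F.c.ℓ : ℝ) * (((n + 3 : ℕ) : ℝ) + qk (n + 1))) * (Real.log 4 + (F.cx : ℝ) * Real.log F.Λ) := by
    unfold FCfg.Bo
    rw [Real.log_mul hK0.ne' (Real.rpow_pos_of_pos (by positivity) _).ne', Real.log_rpow (by positivity), hlX]
  have hE : 0 ≤ (F.c.ℓ : ℝ) * (((n + 3 : ℕ) : ℝ) + qk (n + 1)) := by positivity
  have hcx : 0 ≤ (F.cx : ℝ) * Real.log F.Λ := by positivity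
  rw [e]
  constructor
  · have : 0 ≤ ((F.c.ℓ : ℝ) * (((n + 3 : ℕ) : ℝ) + qk (n + 1))) * (Real.log 4 + (F.cx : ℝ) * Real.log F.Λ) :=
      mul_nonneg hE (by linarith)
    linarith
  · have h1 : ((F.c.ℓ : ℝ) * (((n + 3 : ℕ) : ℝ) + qk (n + 1))) * (Real.log 4 + (F.cx : ℝ) * Real.log F.Λ)
        ≤ ((F.c.ℓ : ℝ) * (((n + 3 : ℕ) : ℝ) + qk (n + 1))) * (((F.cx : ℝ) + 2) * Real.log F.Λ) :=
      mul_le_mul_of_nonneg_left (by linarith) hE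
    have h2 : bndCl n F.c.ℓ F.cx * Real.log F.Λ = Real.log F.Λ + ((F.c.ℓ : ℝ) * (((n + 3 : ℕ) : ℝ) + qk (n + 1))) * (((F.cx : ℝ) + 2) * Real.log F.Λ) := by
      unfold bndCl
      ring
    rw [h2]
    linarith

/-- LEAF `L-F3-N5`  pure real numbers.   (`log (Λ^u) = u log Λ`, `log T = τ u log Λ`;  `(4/T) Bo ≤ (4 Cl/T) log Λ ≤ (eB u/4) log Λ`;  `log (2^{2n+5}) ≤ log T ≤ (eB u/4) log Λ`;  `eB - (3n+9) τ ≥ eB/2`.) -/
theorem bnd_err1 (n : ℕ) {Λ u τ eB Bo Cl : ℝ} (hΛ : 1 < Λ) (hu : 0 < u) (hτ0 : 0 < τ) (heB : 0 < eB) (hτ : (6 * (n : ℝ) + 18) * τ ≤ eB) (hBo0 : 0 ≤ Bo) (hBo : Bo ≤ Cl * Real.log Λ)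
    (h1 : 16 * Cl / (eB * u) ≤ Λ ^ (τ * u)) (h2 : (2 : ℝ) ^ (2 * n + 5) ≤ Λ ^ (τ * u)) :
    2 * (2 / Λ ^ (τ * u)) * Bo + Real.log (2 * 2 ^ (2 * n + 4)) ≤ (eB - (3 * (n : ℝ) + 9) * τ) * Real.log (Λ ^ u) := by
  have hΛ0 : 0 < Λ := by linarith
  have hn : (0 : ℝ) ≤ n := Nat.cast_nonneg n
  have hL : 0 < Real.log Λ := Real.log_pos hΛ
  have hlT : Real.log (Λ ^ (τ * u)) = τ * u * Real.log Λ := Real.log_rpow hΛ0 _
  rw [Real.log_rpow hΛ0]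
  obtain ⟨T, hT⟩ : ∃ T : ℝ, T = Λ ^ (τ * u) := ⟨_, rfl⟩
  obtain ⟨Lg, hLg⟩ : ∃ Lg : ℝ, Lg = Real.log Λ := ⟨_, rfl⟩
  rw [← hT] at h1 h2 hlT ⊢
  rw [← hLg] at hL hlT hBo ⊢
  have hT0 : 0 < T := by rw [hT]; exact Real.rpow_pos_of_pos hΛ0 _
  have a1 : 2 * (2 / T) * Bo ≤ eB * u / 4 * Lg := by
    rw [div_le_iff₀ (by positivity)] at h1
    have e : 2 * (2 / T) * Bo = 4 * Bo / T := by ring
    rw [e, div_le_iff₀ hT0]
    have b1 : 4 * Bo ≤ 4 * Cl * Lg := by linarith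
    have b2 : 16 * Cl * Lg ≤ T * (eB * u) * Lg := mul_le_mul_of_nonneg_right h1 hL.le
    have e2 : eB * u / 4 * Lg * T = T * (eB * u) * Lg / 4 := by ring
    rw [e2]
    linarith
  have a2 : Real.log (2 * 2 ^ (2 * n + 4)) ≤ τ * u * Lg := by
    rw [← hlT]
    apply Real.log_le_log (by positivity)
    calc (2 : ℝ) * 2 ^ (2 * n + 4) = 2 ^ (2 * n + 5) := by ring
      _ ≤ T := h2
  have huL : 0 < u * Lg := mul_pos hu hL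
  have a3 : τ * (u * Lg) ≤ eB / 4 * (u * Lg) := by
    apply mul_le_mul_of_nonneg_right _ huL.le
    nlinarith
  have a4 : eB / 2 * (u * Lg) ≤ (eB - (3 * (n : ℝ) + 9) * τ) * (u * Lg) := by
    apply mul_le_mul_of_nonneg_right _ huL.le
    linarith
  have e3 : τ * u * Lg = τ * (u * Lg) := by ring
  have e4 : eB * u / 4 * Lg = eB / 4 * (u * Lg) := by ring
  have e5 : eB / 2 * (u * Lg) = eB / 4 * (u * Lg) + eB / 4 * (u * Lg) := by ring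
  rw [e3] at a2
  rw [e4] at a1
  linarith

/-- LEAF `L-F3-N6`  pure real numbers.   (`log (2 T⁴ T) + log 2 + 2 = 5 log T + 2 log 2 + 2 ≤ 6 log T` since `T ≥ 64`, `log 64 = 6 log 2`, `log 2 > 1/2` (`Real.log_two_gt_d9`);
`(12/T)(Bo + (4n+9) u log Λ) ≤ (12 (Cl + (4n+9) u)/T) log Λ ≤ τ u log Λ = log T`;  `7 τ ≤ eB`.) -/
theorem bnd_err2 (n : ℕ) {Λ u τ eB Bo Cl : ℝ} (hΛ : 1 < Λ) (hu : 0 < u) (hτ0 : 0 < τ) (hτ : 7 * τ ≤ eB) (hBo0 : 0 ≤ Bo) (hBo : Bo ≤ Cl * Real.log Λ)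
    (h1 : 12 * (Cl + (4 * (n : ℝ) + 9) * u) / (τ * u) ≤ Λ ^ (τ * u)) (h2 : 64 ≤ Λ ^ (τ * u)) :
    Real.log (2 * (Λ ^ (τ * u)) ^ 4 * Λ ^ (τ * u)) + Real.log 2 +
      2 * ((2 * (2 / Λ ^ (τ * u)) + 2 / Λ ^ (τ * u)) * (Bo + (4 * ((n : ℝ) + 2) + 1) * Real.log (Λ ^ u)) + 1) ≤ eB * Real.log (Λ ^ u) := by
  have hΛ0 : 0 < Λ := by linarith
  have hn : (0 : ℝ) ≤ n := Nat.cast_nonneg n
  have hL : 0 < Real.log Λ := Real.log_pos hΛ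
  have hlT : Real.log (Λ ^ (τ * u)) = τ * u * Real.log Λ := Real.log_rpow hΛ0 _
  rw [Real.log_rpow hΛ0]
  obtain ⟨T, hT⟩ : ∃ T : ℝ, T = Λ ^ (τ * u) := ⟨_, rfl⟩
  obtain ⟨Lg, hLg⟩ : ∃ Lg : ℝ, Lg = Real.log Λ := ⟨_, rfl⟩
  rw [← hT] at h1 h2 hlT ⊢
  rw [← hLg] at hL hlT hBo ⊢
  have hT0 : 0 < T := by linarith
  have e1 : Real.log (2 * T ^ 4 * T) = Real.log 2 + 5 * Real.log T := by
    rw [Real.log_mul (by positivity) hT0.ne', Real.log_mul (by norm_num) (by positivity), Real.log_pow]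
    push_cast
    ring
  have a1 : 6 * Real.log 2 ≤ Real.log T := by
    have : Real.log 64 = 6 * Real.log 2 := by
      rw [show (64 : ℝ) = 2 ^ 6 by norm_num, Real.log_pow]
      norm_num
    rw [← this]
    exact Real.log_le_log (by norm_num) h2
  have a2 := Real.log_two_gt_d9
  have a3 : (2 * (2 / T) + 2 / T) * (Bo + (4 * ((n : ℝ) + 2) + 1) * (u * Lg)) ≤ τ * u * Lg / 2 := by
    rw [div_le_iff₀ (by positivity)] at h1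
    have e : (2 * (2 / T) + 2 / T) * (Bo + (4 * ((n : ℝ) + 2) + 1) * (u * Lg)) = 6 * (Bo + (4 * (n : ℝ) + 9) * u * Lg) / T := by
      field_simp
      ring
    rw [e, div_le_iff₀ hT0]
    have b2 : 12 * (Cl + (4 * (n : ℝ) + 9) * u) * Lg ≤ T * (τ * u) * Lg := mul_le_mul_of_nonneg_right h1 hL.le
    have e2 : τ * u * Lg / 2 * T = T * (τ * u) * Lg / 2 := by ring
    have e3 : 12 * (Cl + (4 * (n : ℝ) + 9) * u) * Lg = 12 * (Cl * Lg) + 12 * ((4 * (n : ℝ) + 9) * u * Lg) := by ring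
    rw [e2]
    rw [e3] at b2
    linarith
  have huL : 0 < u * Lg := mul_pos hu hL
  have a4 : 7 * τ * (u * Lg) ≤ eB * (u * Lg) := mul_le_mul_of_nonneg_right hτ huL.le
  have e5 : 7 * τ * (u * Lg) = 7 * (τ * u * Lg) := by ring
  rw [e5] at a4
  rw [e1, hlT]
  rw [hlT] at a1
  linarith

/-- the constant of the single inequality -/
def bndCb (n ℓ cx : ℕ) (C' Cc u τ eB L0 : ℝ) : ℝ :=
  64 + ((n : ℝ) + 2) + C' ^ (ℓ + 1) + (4 * Cc + 2) + |L0| + 2 ^ (2 * n + 5) + 16 * bndCl n ℓ cx / (eB * u) + 12 * (bndCl n ℓ cx + (4 * (n : ℝ) + 9) * u) / (τ * u)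

/-- the exponent of the single inequality -/
def bndNb (n : ℕ) (P Q : ℝ) : ℝ := 12 + ((n : ℝ) + 4) + Q / P

/-- LEAF `L-F3-N7`  every summand of `bndCb` is nonnegative, so each is `≤ bndCb` (`positivity`; `bndCl ≥ 1`: `qk ≥ 0`; `C' ≤ C'^(ℓ+1)`, `C'^ℓ ≤ C'^(ℓ+1)`, `C'^ℓ C' = C'^(ℓ+1)`). -/
theorem bnd_Cb_ge (n ℓ cx : ℕ) {C' Cc u τ eB L0 : ℝ} (hC' : 1 ≤ C') (hCc : 1 ≤ Cc) (hu : 0 < u) (hτ0 : 0 < τ) (heB : 0 < eB) :
    64 ≤ bndCb n ℓ cx C' Cc u τ eB L0 ∧ (n : ℝ) + 2 ≤ bndCb n ℓ cx C' Cc u τ eB L0 ∧ C' ^ (ℓ + 1) ≤ bndCb n ℓ cx C' Cc u τ eB L0 ∧ 4 * Cc + 2 ≤ bndCb n ℓ cx C' Cc u τ eB L0 ∧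
      L0 ≤ bndCb n ℓ cx C' Cc u τ eB L0 ∧ 2 ^ (2 * n + 5) ≤ bndCb n ℓ cx C' Cc u τ eB L0 ∧ 16 * bndCl n ℓ cx / (eB * u) ≤ bndCb n ℓ cx C' Cc u τ eB L0 ∧
      12 * (bndCl n ℓ cx + (4 * (n : ℝ) + 9) * u) / (τ * u) ≤ bndCb n ℓ cx C' Cc u τ eB L0 := by
  have hCl := bnd_Cl_pos n ℓ cx
  have hn : (0 : ℝ) ≤ n := Nat.cast_nonneg n
  have s3 : 0 ≤ C' ^ (ℓ + 1) := by positivity
  have s5 : 0 ≤ |L0| := abs_nonneg _
  have s5' : L0 ≤ |L0| := le_abs_self _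
  have s6 : (0 : ℝ) ≤ 2 ^ (2 * n + 5) := by positivity
  have s7 : 0 ≤ 16 * bndCl n ℓ cx / (eB * u) := by positivity
  have s8 : 0 ≤ 12 * (bndCl n ℓ cx + (4 * (n : ℝ) + 9) * u) / (τ * u) := by positivity
  unfold bndCb
  refine ⟨?_, ?_, ?_, ?_, ?_, ?_, ?_, ?_⟩ <;> linarith

/-- **the smallness package from the single inequality** (glue) -/
theorem bnd_sm (hF : F.Ok m') (hm : 1 ≤ m') {C' u τ eB L0 : ℝ} (hC' : 1 ≤ C') (hu : 0 < u) (hτ0 : 0 < τ) (hτ1 : τ ≤ 1) (heB : 0 < eB) (hτ : (6 * (n : ℝ) + 18) * τ ≤ eB)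
    (hS : bndCb n F.c.ℓ F.cx C' F.c.Cc u τ eB L0 * F.Go ^ bndNb n F.c.P F.c.Q ≤ F.Λ ^ (τ * u)) : BndSm F j ((F.D j).gp C') u τ eB L0 := by
  have hΛ := bnd_Λ hF
  have hΛ0 : 0 < F.Λ := by linarith
  have hn0 : (0 : ℝ) ≤ n := Nat.cast_nonneg n
  obtain ⟨g1, gK, gG, gG0, gP⟩ := bnd_basic (j := j) hF hm
  obtain ⟨c1, c2, c3, c4, c5, c6, c7, c8⟩ := bnd_Cb_ge n F.c.ℓ F.cx (L0 := L0) hC' hF.cls.one_le_Cc hu hτ0 heB
  have hP0 : 0 < F.c.P := by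
    have := hF.cls.P_gt
    have h0 : (0 : ℝ) ≤ ((n + 1 : ℕ) : ℝ) := Nat.cast_nonneg _
    linarith
  have hQP : 0 ≤ F.c.Q / F.c.P := div_nonneg (hP0.le.trans hF.cls.P_lt.le) hP0.le
  obtain ⟨b0, b1⟩ := bnd_Bo_le hF hm
  have err1 := bnd_err1 n hΛ hu hτ0 heB hτ b0 b1
  have err2 := bnd_err2 n (eB := eB) hΛ hu hτ0 (by nlinarith) b0 b1
  have hTL : F.Λ ^ (τ * u) ≤ F.Λ ^ u := Real.rpow_le_rpow_of_exponent_le hΛ.le (by nlinarith)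
  have ks : (F.Λ ^ (τ * u)) ^ 4 ≤ (F.Λ ^ u) ^ eB := by
    rw [← Real.rpow_natCast, ← Real.rpow_mul hΛ0.le, ← Real.rpow_mul hΛ0.le]
    refine Real.rpow_le_rpow_of_exponent_le hΛ.le ?_
    push_cast
    have h4 : 4 * τ ≤ eB := by nlinarith
    nlinarith
  obtain ⟨T, hT⟩ : ∃ T : ℝ, T = F.Λ ^ (τ * u) := ⟨_, rfl⟩
  obtain ⟨Cb, hCb⟩ : ∃ Cb : ℝ, Cb = bndCb n F.c.ℓ F.cx C' F.c.Cc u τ eB L0 := ⟨_, rfl⟩
  obtain ⟨Nb, hNb⟩ : ∃ Nb : ℝ, Nb = bndNb n F.c.P F.c.Q := ⟨_, rfl⟩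
  rw [← hT] at hS err1 err2 hTL ks
  rw [← hCb] at hS c1 c2 c3 c4 c5 c6 c7 c8
  rw [← hNb] at hS
  have hNb' : Nb = 12 + ((n : ℝ) + 4) + F.c.Q / F.c.P := hNb
  have key : ∀ C N : ℝ, 0 ≤ C → C ≤ Cb → N ≤ Nb → C * F.Go ^ N ≤ T := fun C N h0 h1 h2 => bnd_le_T g1 hS h0 h1 h2
  have key0 : ∀ C : ℝ, 0 ≤ C → C ≤ Cb → C ≤ T := by
    intro C h0 h1
    have := key C 0 h0 h1 (by linarith)
    simpa using this
  have T64 : 64 ≤ T := key0 64 (by norm_num) c1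
  have T1 : 1 ≤ T := by linarith
  have hT2 : T ≤ T ^ 2 := by nlinarith
  have hGoT : F.Go ≤ T := by
    have := key 1 1 zero_le_one (by linarith) (by linarith)
    simpa using this
  have hC1 : C' ≤ C' ^ (F.c.ℓ + 1) := le_self_pow₀ hC' (by omega)
  have hC2 : C' ^ F.c.ℓ ≤ C' ^ (F.c.ℓ + 1) := pow_le_pow_right₀ hC' (by omega)
  have hC0 : 0 ≤ C' := by linarith
  obtain ⟨k5, k6⟩ := bnd_k56 (j := j) hF hm hC' T1 (key C' ((n : ℝ) + 4) hC0 (hC1.trans c3) (by linarith))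
  have hCc := hF.cls.one_le_Cc
  exact
    { T4 := by rw [← hT]; linarith
      Tn := by rw [← hT]; exact key0 _ (by linarith) c2
      Go := by rw [← hT]; exact hGoT
      G := fun i hi => by rw [← hT]; exact (gG i hi).trans hGoT
      ϖ0 := by rw [← hT]; exact ((hF.ϖ0_le j).trans gK).trans hGoT
      k1 := by rw [← hT]; exact (key0 _ (by positivity) (hC2.trans c3)).trans hT2
      k3 := by rw [← hT]; exact bnd_k3 hF hm hC' T1 (key C' _ hC0 (hC1.trans c3) (by linarith))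
      k4 := by
        rw [← hT]
        show C' ^ F.c.ℓ * C' ≤ T ^ 2
        rw [← pow_succ]
        exact (key0 _ (by positivity) c3).trans hT2
      k5 := by rw [← hT]; exact k5
      k6 := by rw [← hT]; exact k6
      mo := by rw [← hT]; exact bnd_mo hF hm (key 64 12 (by norm_num) c1 (by linarith))
      cc := (key0 _ (by linarith) c4).trans hTL
      L0 := by
        rcases le_total 0 L0 with h | h
        · exact (key0 _ h c5).trans hTL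
        · linarith
      ks := by rw [← hT]; exact ks
      Bo := b0
      err1 := by rw [← hT]; exact err1 (key0 _ (by have := bnd_Cl_pos n F.c.ℓ F.cx; positivity) c7) (key0 _ (by positivity) c6)
      err2 := by rw [← hT]; exact err2 (key0 _ (by have := bnd_Cl_pos n F.c.ℓ F.cx; positivity) c8) T64 }

end

end Claimed.Agent.R257.FR3
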