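import Claimed.Agent.R257.FR3.BinAdE

/-!
# ROW 257, package FR3, unit BIN, adapter file F: NODES AND THE EXIT `GBlk k → GTestB k`      (architect + prover helper227, design helper121; prefix `bnf_`)

GLUE ONLY.
* `bnf_node`, `bnf_anti`, `bnf_le_of_lt`   a node just below a target (discrete intermediate value), the nodes `s j i` decrease in `i`
* `bnf_block`     ONE configuration: the cap height `lam` = node just below `l`; count nodes `ic a` with `Δ ∈ [(a/m)u + 2τu, (a/m)u + 2τu + μ0]`, occupancy nodes `io a` with `Δ ∈ [(a/m)u - μ0, (a/m)u]`; slopes from `Aff`; the block package at `lam`; `bnd_core`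
* `bnf_gtestB`    order of the quantifiers: `d0 = 1 - 2x/(n+1)`; `γ` from `GBlk`; `(eB, m, L0)` from `bn_main`; `τ = min (1/(3n+9)) (min (eB/(6n+18)) ((n+3) d0/10))`; `e := τ` in `GBlk` gives `e1, V1`;
                  `e0 = min e1 (τ/(q + p' + 1))`, `V = V1 + 7`, `u0 = 1`, `μ0 = min μ1 (τ u/(n+3))`, `m0 = max (max m1 m2) 1` (`m2` from `bnd_sub`: the single inequality of `bnd_sm`)
* `bnf_main`      **EXIT**  `GBlk k → GTestB k`  (`k = 0` is vacuous)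
-/

set_option autoImplicit false

namespace Claimed.Agent.R257.FR3

open scoped BigOperators
open Classical Matrix
open Claimed.Agent.R255 Claimed.Agent.R255.FLaw Claimed.Agent.R257 Claimed.Agent.R257.FR2 Claimed.Agent.R257.Tree

noncomputable section

/-- a node just below a target -/
theorem bnf_node (f : ℕ → ℝ) (ℓ : ℕ) (μ t : ℝ) (hμ : 0 ≤ μ) (hstep : ∀ i, i < ℓ → f i - f (i + 1) ≤ μ) (h0 : t ≤ f 0) (hl : f ℓ ≤ t) :
    ∃ a, a ≤ ℓ ∧ f a ≤ t ∧ t ≤ f a + μ := by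
  have hex : ∃ a, f a ≤ t := ⟨ℓ, hl⟩
  refine ⟨Nat.find hex, Nat.find_min' hex hl, Nat.find_spec hex, ?_⟩
  rcases Nat.eq_zero_or_pos (Nat.find hex) with h | h
  · rw [h]
    linarith
  · obtain ⟨a', ha'⟩ : ∃ a', Nat.find hex = a' + 1 := ⟨Nat.find hex - 1, by omega⟩
    have h1 : ¬ f a' ≤ t := Nat.find_min hex (by omega)
    have h2 : a' < ℓ := by
      have := Nat.find_min' hex hl
      omega
    have h3 := hstep a' h2
    rw [ha']
    linarith [not_le.1 h1]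

variable {n : ℕ} {F : FCfg (n + 1)} {j : Fin (n + 1 + 1)} {m' : ℕ}

/-- the nodes decrease -/
theorem bnf_anti (hF : F.Ok m') {i i' : ℕ} (h : i ≤ i') : F.s j i' ≤ F.s j i := by
  have hΛ := bnd_Λ hF
  have hκ := (F.D j).κ_le (hF.good j) h
  have hκr := hF.κr_pos j
  have h1 : 0 < (F.D j).κ i' := ft_κ_pos hF j i'
  unfold FCfg.s
  exact Real.logb_le_logb_of_le hΛ (div_pos h1 hκr) (div_le_div_of_nonneg_right hκ hκr.le)

theorem bnf_le_of_lt (hF : F.Ok m') {i lam : ℕ} (h : F.s j lam < F.s j i) : i ≤ lam := by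
  by_contra hcon
  rw [not_le] at hcon
  have := bnf_anti (j := j) hF hcon.le
  linarith

set_option maxHeartbeats 1000000 in
/-- **one configuration** -/
theorem bnf_block (hF : F.Ok m') {g : GPar} (hg : (F.D j).geo.Ok g) {x l u γ τ d0 eB L0 e0 e1 V1 μ0 μ1 : ℝ} {m : ℕ}
    (hu : 0 < u) (hτ0 : 0 < τ) (hm : 0 < m) (hd : d0 = 1 - 2 * x / ((n : ℝ) + 1)) (hd0 : 0 ≤ d0) (hd1 : d0 ≤ 1)
    (hes : (3 * (n : ℝ) + 9) * τ ≤ eB) (hes1 : (3 * (n : ℝ) + 9) * τ ≤ 1) (hτd : 10 * τ ≤ ((n : ℝ) + 3) * d0)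
    (he01 : e0 ≤ e1) (heq : qk (n + 1) * e0 ≤ τ) (hep : pk' (n + 1) * e0 ≤ τ) (hV1 : 0 < V1)
    (hμ0 : 0 < μ0) (hμ1 : μ0 ≤ μ1) (hμτ : ((n : ℝ) + 3) * μ0 ≤ τ * u)
    (hsm : BndSm F j g u τ eB L0)
    (hbn : ∀ L : ℝ, L0 ≤ L → ∀ M : ℝ, 0 < M → ∀ (𝒳 𝒯 𝒲 : Type) [Fintype 𝒳] [Fintype 𝒯] (F' : BnCfg n 𝒳 𝒯 𝒲), ¬ F'.Ok L M (L ^ eB) (4 * F.c.Cc + 1) d0 γ eB m)
    (hblk : ∀ lam : ℕ, lam ≤ F.c.ℓ → F.Mesh j μ1 (F.s j lam) (F.s j lam + V1 * u) → F.Off j (F.s j lam) (V1 * u) →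
      (∀ i, i ≤ lam → F.s j i - F.s j lam ≤ u → x * (F.s j i - F.s j lam) - e1 * u ≤ F.ρ j lam - F.ρ j i) →
      ∃ B : BlkDat F j lam, B.Ok u γ (F.Λ ^ (τ * u)))
    (hmesh : F.Mesh j μ0 (l - (V1 + 7) * u) (l + (V1 + 7) * u)) (hoff : F.Off j l ((V1 + 7) * u))
    (haff : F.Aff j l x ((V1 + 7) * u) (e0 * u)) : False := by
  obtain ⟨hst, hbot, htop⟩ := hmesh
  have hn0 : (0 : ℝ) ≤ n := Nat.cast_nonneg n
  have hVu : (V1 + 7) * u = V1 * u + 7 * u := by ring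
  rw [hVu] at hbot htop hoff haff
  have hW : 0 < V1 * u := mul_pos hV1 hu
  have h9τ : 9 * τ ≤ 1 := by
    have : 0 ≤ (n : ℝ) * τ := mul_nonneg hn0 hτ0.le
    linarith
  have hτu : 9 * (τ * u) ≤ u := by
    have := mul_le_mul_of_nonneg_right h9τ hu.le
    linarith
  have hτu0 : 0 < τ * u := mul_pos hτ0 hu
  have hμu : 3 * μ0 ≤ τ * u := by
    have : 0 ≤ (n : ℝ) * μ0 := mul_nonneg hn0 hμ0.le
    linarith
  have hmr : (0 : ℝ) < m := by exact_mod_cast hm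
  -- the cap height
  obtain ⟨lam, hlam, hl1, hl2⟩ := bnf_node (F.s j) F.c.ℓ μ0 l hμ0.le hst (by linarith) (by linarith)
  have hwin : ∀ i, i ≤ lam → F.s j i - F.s j lam ≤ 5 * u → |F.s j i - l| ≤ V1 * u + 7 * u := by
    intro i hi h5
    have := bnf_anti (j := j) hF hi
    rw [abs_le]
    constructor <;> linarith
  have hslope : ∀ i, i ≤ lam → F.s j i - F.s j lam ≤ 5 * u → |F.ρ j i - F.ρ j lam + x * (F.s j i - F.s j lam)| ≤ e0 * u := by
    intro i hi h5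
    exact haff lam i hlam (hi.trans hlam) (hwin lam le_rfl (by linarith)) (hwin i hi h5)
  -- the block package
  have hoff' : F.Off j (F.s j lam) (V1 * u) := by
    unfold FCfg.Off at hoff ⊢
    have h1 := abs_sub_le (F.s j F.c.tr) (F.s j lam) l
    have h2 : |F.s j lam - l| ≤ μ0 := by
      rw [abs_le]
      constructor <;> linarith
    linarith
  have he01u : e0 * u ≤ e1 * u := mul_le_mul_of_nonneg_right he01 hu.le
  obtain ⟨B, hB⟩ := hblk lam hlam ⟨fun i hi => (hst i hi).trans hμ1, bnf_anti hF hlam, by linarith⟩ hoff' (by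
    intro i hi hΔ
    have := (abs_le.1 (hslope i hi (by linarith))).2
    linarith)
  -- the nodes
  have hcex : ∀ a : ℕ, ∃ i, m ≤ a → a ≤ 4 * m → (i ≤ F.c.ℓ ∧ F.s j i ≤ F.s j lam + (a : ℝ) / m * u + 2 * τ * u + μ0 ∧
      F.s j lam + (a : ℝ) / m * u + 2 * τ * u + μ0 ≤ F.s j i + μ0) := by
    intro a
    by_cases h : m ≤ a ∧ a ≤ 4 * m
    · have hr4 : (a : ℝ) / m ≤ 4 := by
        rw [div_le_iff₀ hmr]
        exact_mod_cast h.2
      have hr0 : 0 ≤ (a : ℝ) / m := by positivity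
      have h4u : (a : ℝ) / m * u ≤ 4 * u := mul_le_mul_of_nonneg_right hr4 hu.le
      have h0u : 0 ≤ (a : ℝ) / m * u := mul_nonneg hr0 hu.le
      have e2 : 2 * τ * u = 2 * (τ * u) := by ring
      obtain ⟨i, hi⟩ := bnf_node (F.s j) F.c.ℓ μ0 (F.s j lam + (a : ℝ) / m * u + 2 * τ * u + μ0) hμ0.le hst (by linarith) (by linarith)
      exact ⟨i, fun _ _ => hi⟩
    · exact ⟨0, fun h1 h2 => absurd ⟨h1, h2⟩ h⟩
  choose ic hic using hcex
  have hoex : ∀ a : ℕ, ∃ i, m ≤ a → a ≤ 2 * m → (i ≤ F.c.ℓ ∧ F.s j i ≤ F.s j lam + (a : ℝ) / m * u ∧ F.s j lam + (a : ℝ) / m * u ≤ F.s j i + μ0) := by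
    intro a
    by_cases h : m ≤ a ∧ a ≤ 2 * m
    · have hr4 : (a : ℝ) / m ≤ 2 := by
        rw [div_le_iff₀ hmr]
        exact_mod_cast h.2
      have hr0 : 0 ≤ (a : ℝ) / m := by positivity
      have h4u : (a : ℝ) / m * u ≤ 2 * u := mul_le_mul_of_nonneg_right hr4 hu.le
      have h0u : 0 ≤ (a : ℝ) / m * u := mul_nonneg hr0 hu.le
      obtain ⟨i, hi⟩ := bnf_node (F.s j) F.c.ℓ μ0 (F.s j lam + (a : ℝ) / m * u) hμ0.le hst (by linarith) (by linarith)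
      exact ⟨i, fun _ _ => hi⟩
    · exact ⟨0, fun h1 h2 => absurd ⟨h1, h2⟩ h⟩
  choose io hio using hoex
  refine bnd_core hF hg hB hlam hsm hu hτ0 hm hd0 hd1 hes hes1 hbn ic io ?_ ?_
  · intro a h1 h2
    obtain ⟨-, hi1, hi2⟩ := hic a h1 h2
    have hr1 : 1 ≤ (a : ℝ) / m := by
      rw [le_div_iff₀ hmr, one_mul]
      exact_mod_cast h1
    have hr4 : (a : ℝ) / m ≤ 4 := by
      rw [div_le_iff₀ hmr]
      exact_mod_cast h2
    have h4u : (a : ℝ) / m * u ≤ 4 * u := mul_le_mul_of_nonneg_right hr4 hu.le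
    have h1u : u ≤ (a : ℝ) / m * u := by
      have := mul_le_mul_of_nonneg_right hr1 hu.le
      linarith
    have e2 : 2 * τ * u = 2 * (τ * u) := by ring
    have hle : ic a ≤ lam := bnf_le_of_lt (j := j) hF (by linarith)
    have h5 : F.s j (ic a) - F.s j lam ≤ 5 * u := by linarith
    have hsl := abs_le.1 (hslope (ic a) hle h5)
    refine ⟨hle, by linarith, h5, bnd_hc4 hF hu (by linarith) hsm.Tn (hsm.G lam hlam), ?_⟩
    exact bnd_hc5 (x := x) (e0 := e0) (μ := μ0) hF hu hτ0 hd hd0 hd1 (by linarith) (by linarith) (by linarith [hsl.2]) hep hsm.Go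
  · intro a h1 h2
    obtain ⟨-, hi1, hi2⟩ := hio a h1 h2
    have hr1 : 1 ≤ (a : ℝ) / m := by
      rw [le_div_iff₀ hmr, one_mul]
      exact_mod_cast h1
    have hr4 : (a : ℝ) / m ≤ 2 := by
      rw [div_le_iff₀ hmr]
      exact_mod_cast h2
    have h4u : (a : ℝ) / m * u ≤ 2 * u := mul_le_mul_of_nonneg_right hr4 hu.le
    have h1u : u ≤ (a : ℝ) / m * u := by
      have := mul_le_mul_of_nonneg_right hr1 hu.le
      linarith
    have hle : io a ≤ lam := bnf_le_of_lt (j := j) hF (by linarith)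
    have h5 : F.s j (io a) - F.s j lam ≤ 5 * u := by linarith
    have hsl := abs_le.1 (hslope (io a) hle h5)
    have hs2 : F.s j (io a) - F.s j lam ≤ (a : ℝ) / m * u := by linarith
    have hlow := bnd_Mo_low (x := x) (e0 := e0) (μ := μ0) (τ := τ) (a := a) (m := m) (lam := lam) hF hu hd hd0 hd1 hμ0.le hμτ (by linarith) (by linarith [hsl.1]) heq
    exact ⟨hle, (bnd_ho2 hF hs2).1, (bnd_ho2 hF hs2).2, bnd_ho4 hF hu (by linarith) hsm.cc, bnd_ho5 hF hτ0 hu hlow,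
      bnd_ho6 hF hlam hτ0 hu hm h1 hd0 hτd hsm.mo hlow⟩

set_option maxHeartbeats 1000000 in
/-- the grid-level test (B) from the block package, `k = n + 1` -/
theorem bnf_gtestB (hG : GBlk (n + 1)) : GTestB (n + 1) := by
  intro o hr x l hx hx2
  obtain ⟨γ, hγ, hG⟩ := hG o hr x hx
  have hn0 : (0 : ℝ) ≤ n := Nat.cast_nonneg n
  have hn1 : (0 : ℝ) < (n : ℝ) + 1 := by linarith
  have hx2' : 2 * x < (n : ℝ) + 1 := by
    push_cast at hx2
    linarith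
  obtain ⟨d0, hd⟩ : ∃ d0 : ℝ, d0 = 1 - 2 * x / ((n : ℝ) + 1) := ⟨_, rfl⟩
  have hq1 : 2 * x / ((n : ℝ) + 1) < 1 := by rwa [div_lt_one hn1]
  have hq0 : 0 < 2 * x / ((n : ℝ) + 1) := by positivity
  have hd0 : 0 < d0 := by rw [hd]; linarith
  have hd1 : d0 < 1 := by rw [hd]; linarith
  obtain ⟨eB, heB, m, hm, L0, hL0, hbn⟩ := bn_main n d0 γ (max 1 (4 * o.Cc + 1)) hd0 hd1 hγ (le_max_left _ _)
  obtain ⟨τ, hτdef⟩ : ∃ τ : ℝ, τ = min (1 / (3 * (n : ℝ) + 9)) (min (eB / (6 * (n : ℝ) + 18)) (((n : ℝ) + 3) * d0 / 10)) := ⟨_, rfl⟩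
  have h39 : (0 : ℝ) < 3 * (n : ℝ) + 9 := by linarith
  have h618 : (0 : ℝ) < 6 * (n : ℝ) + 18 := by linarith
  have hτ0 : 0 < τ := by
    rw [hτdef]
    exact lt_min (by positivity) (lt_min (by positivity) (by positivity))
  have hτa : (3 * (n : ℝ) + 9) * τ ≤ 1 := by
    have : τ ≤ 1 / (3 * (n : ℝ) + 9) := by rw [hτdef]; exact min_le_left _ _
    rw [le_div_iff₀ h39] at this
    linarith
  have hτb : (6 * (n : ℝ) + 18) * τ ≤ eB := by
    have : τ ≤ eB / (6 * (n : ℝ) + 18) := by rw [hτdef]; exact (min_le_right _ _).trans (min_le_left _ _)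
    rw [le_div_iff₀ h618] at this
    linarith
  have hτc : 10 * τ ≤ ((n : ℝ) + 3) * d0 := by
    have : τ ≤ ((n : ℝ) + 3) * d0 / 10 := by rw [hτdef]; exact (min_le_right _ _).trans (min_le_right _ _)
    linarith
  have hτ1 : τ ≤ 1 := by
    have : 0 ≤ (n : ℝ) * τ := mul_nonneg hn0 hτ0.le
    linarith
  have hes : (3 * (n : ℝ) + 9) * τ ≤ eB := by
    have : 0 ≤ (3 * (n : ℝ) + 9) * τ := by positivity
    linarith
  obtain ⟨e1, V1, he1, hV1, hG⟩ := hG τ hτ0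
  have hqk : 0 < qk (n + 1) := by
    unfold qk
    push_cast
    positivity
  have hpk : 0 < pk' (n + 1) := by
    unfold pk'
    push_cast
    positivity
  have hqp : 0 < qk (n + 1) + pk' (n + 1) + 1 := by linarith
  obtain ⟨e0, he0def⟩ : ∃ e0 : ℝ, e0 = min e1 (τ / (qk (n + 1) + pk' (n + 1) + 1)) := ⟨_, rfl⟩
  have he0 : 0 < e0 := by
    rw [he0def]
    exact lt_min he1 (by positivity)
  have he01 : e0 ≤ e1 := by rw [he0def]; exact min_le_left _ _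
  have he0τ : e0 * (qk (n + 1) + pk' (n + 1) + 1) ≤ τ := by
    have : e0 ≤ τ / (qk (n + 1) + pk' (n + 1) + 1) := by rw [he0def]; exact min_le_right _ _
    rwa [le_div_iff₀ hqp] at this
  have heq : qk (n + 1) * e0 ≤ τ := by
    have h1 : 0 ≤ pk' (n + 1) * e0 := by positivity
    nlinarith
  have hep : pk' (n + 1) * e0 ≤ τ := by
    have h1 : 0 ≤ qk (n + 1) * e0 := by positivity
    nlinarith
  refine ⟨e0, V1 + 7, 1, he0, by linarith, one_pos, fun u hu _ => ?_⟩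
  obtain ⟨μ1, hμ1, hG⟩ := hG u hu
  have hn3 : (0 : ℝ) < (n : ℝ) + 3 := by linarith
  refine ⟨min μ1 (τ * u / ((n : ℝ) + 3)), lt_min hμ1 (by positivity), fun c cx hco => ?_⟩
  by_cases hc : c.Ok
  swap
  · exact ⟨0, fun F hFc _ h => absurd (hFc ▸ h.cls) hc⟩
  obtain ⟨C', hC', hgeo⟩ := ti_geo_ok hc
  obtain ⟨m1, hG⟩ := hG c cx hco
  have hP0 : 0 < c.P := by
    have := hc.P_gt
    have h0 : (0 : ℝ) ≤ ((n + 1 : ℕ) : ℝ) := Nat.cast_nonneg _
    linarith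
  have hQP : 0 ≤ c.Q / c.P := div_nonneg (hP0.le.trans hc.P_lt.le) hP0.le
  obtain ⟨m2, hS⟩ := bnd_sub (bndCb n c.ℓ cx C' c.Cc u τ eB L0) (bndNb n c.P c.Q) (τ * u) (by unfold bndNb; linarith) (by positivity)
  refine ⟨max (max m1 m2) 1, fun F hFc hFx hF j hmesh hoff haff => ?_⟩
  subst hFc
  subst hFx
  have hm1 : 1 ≤ max (max m1 m2) 1 := le_max_right _ _
  have hGo1 : 1 ≤ F.Go := (bnd_basic (j := j) hF hm1).1
  have hSS := hS _ ((le_max_right m1 m2).trans (le_max_left _ _)) F.Λ F.Go hF.Λ_ge hGo1 hF.Go_Λ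
  have hsm := bnd_sm (j := j) hF hm1 hC' hu hτ0 hτ1 heB hτb hSS
  have hCc : o.Cc = F.c.Cc := (congrArg TOrd.Cc hco).symm
  have hA : max 1 (4 * o.Cc + 1) = 4 * F.c.Cc + 1 := by
    rw [hCc]
    exact max_eq_right (by linarith [hc.one_le_Cc])
  rw [hA] at hbn
  have hμτ : ((n : ℝ) + 3) * min μ1 (τ * u / ((n : ℝ) + 3)) ≤ τ * u := by
    have : min μ1 (τ * u / ((n : ℝ) + 3)) ≤ τ * u / ((n : ℝ) + 3) := min_le_right _ _
    rw [le_div_iff₀ hn3] at this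
    linarith
  exact bnf_block hF (hgeo C' le_rfl (F.D j) (hF.good j)) hu hτ0 hm hd hd0.le hd1.le hes hτa hτc he01 heq hep hV1
    (lt_min hμ1 (by positivity)) (min_le_left _ _) hμτ hsm hbn
    (fun lam hlam h1 h2 h3 => hG F rfl rfl (hF.mono ((le_max_left m1 m2).trans (le_max_left _ _))) j lam hlam h1 h2 h3) hmesh hoff haff

/-- **EXIT OF THE ADAPTER OF BIN** -/
theorem bnf_main (k : ℕ) (hG : GBlk k) : GTestB k := by
  cases k with
  | zero =>
    intro o _ x l hx hx2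
    exfalso
    simp at hx2
    linarith
  | succ n => exact bnf_gtestB hG

end

end Claimed.Agent.R257.FR3
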