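import Claimed.Agent.R257.FR3.Redraw
import Claimed.Agent.R257.Proj.Main

/-!
# ROW 257, package FR3, unit BIN (`f:binary`, H frame.tex l.1257-1378), file 1: THE ABSTRACT CONFIGURATION      (architect helper121)

PAPER-FREE.   Plan: report 919 (BIN), report 847 (S2, X3).   EXIT OF THE UNIT: `bn_main` (file `BinMain.lean`): no configuration `BnCfg.Ok` with small losses.
DICTIONARY.  `k = n+1`, `d = k+1 = n+2`.  Everything is written in the NATIVE coordinates of the cap `τ_l`, base `L = Λ^u` (so the block is `[0,4]` in units of `u`).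
* `x : 𝒳`      = a pair (root point `Z`, cap `τ_l`);  `pos x ∈ ℝ^d` its native position, coordinate `0` = TIME;  `grp x` = (cap, macro box): cells never mix two groups.
* `θ : 𝒯`      = a fine direction;  `dir θ = (1, 2 × native velocity)`.      `P` = joint law of `(x, θ)`  (`θ` drawn from the path law at `Z` inside `τ_l`).
* `ν g`        = the reference direction law of the group `g` (surviving endpoint weights, `f:angular`): it dominates `P(θ | x)` and gives small mass to hyperplane strips.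
* `iso s x`    = the isotropic cell of side `s` (`Q_v`, `s = L^v`);    `tub s s' (x,θ)` = the cell of width `s`, length `s'`, tilted by `θ` (`T_{l+w}` clipped: `s = L^w`, `s' = L^t`).
* `N s = H(x | iso s)`,  `I s s' = H(x | tub s s', θ)`,  `io s = I(x ; θ | iso s)`   (natural logarithm).
HYPOTHESES (`Ok`): `cnt` = `f:inflation` × occupancy deletion (UNIFORM count);  `occ` = `f:occupancy-law` + slope;  `inf` = `f:conditioning`;  `dom`, `strip` = `f:angular`.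
-/

set_option autoImplicit false

namespace Claimed.Agent.R257

open scoped BigOperators
open Classical Matrix
open Claimed.Agent.R255 Claimed.Agent.R255.FLaw

/-- isotropic label at the scale `s` -/
noncomputable def bnIso {d : ℕ} (s : ℝ) (x : Fin d → ℝ) : Fin d → ℤ := fun l => ⌊x l / s⌋

/-- label of the projection along `v` (`v 0 = 1`) at the scale `s` -/
noncomputable def bnTub {n : ℕ} (s : ℝ) (x v : Fin (n + 2) → ℝ) : Fin (n + 2) → ℤ := fun l => ⌊(x l - x 0 * v l) / s⌋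

/-- the data of BIN -/
structure BnCfg (n : ℕ) (𝒳 𝒯 𝒲 : Type) [Fintype 𝒳] [Fintype 𝒯] where
  P : FLaw (𝒳 × 𝒯)
  pos : 𝒳 → Fin (n + 2) → ℝ
  grp : 𝒳 → 𝒲
  dir : 𝒯 → Fin (n + 2) → ℝ
  ν : 𝒲 → 𝒯 → ℝ

namespace BnCfg

variable {n : ℕ} {𝒳 𝒯 𝒲 : Type} [Fintype 𝒳] [Fintype 𝒯] (F : BnCfg n 𝒳 𝒯 𝒲)

/-- isotropic cell -/
noncomputable def iso (s : ℝ) (x : 𝒳) : 𝒲 × (Fin (n + 2) → ℤ) := (F.grp x, bnIso s (F.pos x))

/-- tilted cell of width `s` and length `s'` -/
noncomputable def tub (s s' : ℝ) (y : 𝒳 × 𝒯) : 𝒲 × (Fin (n + 2) → ℤ) × ℤ :=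
  (F.grp y.1, bnTub s (F.pos y.1) (F.dir y.2), ⌊F.pos y.1 0 / s'⌋)

/-- `H(x | iso s)` -/
noncomputable def N (s : ℝ) : ℝ := F.P.entC Prod.fst (fun y => F.iso s y.1)

/-- `H(x | tub s s', θ)` -/
noncomputable def I (s s' : ℝ) : ℝ := F.P.entC Prod.fst (pair (F.tub s s') Prod.snd)

/-- `I(x ; θ | iso s)` -/
noncomputable def io (s : ℝ) : ℝ := F.P.miC Prod.fst Prod.snd (fun y => F.iso s y.1)

/-- the basic (scale free) hypotheses: directions, reference laws -/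
structure Base (K A γ ρ : ℝ) : Prop where
  dir0 : ∀ θ, F.dir θ 0 = 1
  hdir : ∀ θ l, |F.dir θ l| ≤ A
  ν0 : ∀ g θ, 0 ≤ F.ν g θ
  ν1 : ∀ g, ∑ θ, F.ν g θ ≤ 1
  dom : ∀ x θ, F.P.p (x, θ) ≤ K * F.ν (F.grp x) θ * rdM F.P x
  strip : ∀ (g : 𝒲) (w : Fin (n + 2) → ℝ), ∑ l, |w l| = 1 → ∀ r : ℝ, ρ ≤ r → r ≤ 1 → ∑ θ with |w ⬝ᵥ F.dir θ| ≤ r, F.ν g θ ≤ K * r ^ γ

/-- **the hypotheses of BIN**: base `L`, occupancy `M` of the unit cell, loss `K`, exponent error `e`, mesh `1/m`.   `v = j/m`. -/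
structure Ok (L M K A d0 γ e : ℝ) (m : ℕ) : Prop extends F.Base K A γ L⁻¹ where
  cnt : ∀ j : ℕ, m ≤ j → j ≤ 4 * m → ∀ x0 : 𝒳,
    (((Finset.univ.filter fun x => rdM F.P x ≠ 0 ∧ F.iso (L ^ ((j : ℝ) / m)) x = F.iso (L ^ ((j : ℝ) / m)) x0).card : ℕ) : ℝ) ≤
      M * L ^ (((n + 2 : ℕ) : ℝ) * d0 * ((j : ℝ) / m) + e)
  occ : ∀ j : ℕ, m ≤ j → j ≤ 2 * m →
    Real.log M + (((n + 3 : ℕ) : ℝ) * d0 * ((j : ℝ) / m) - e) * Real.log L ≤ F.I (L ^ ((j : ℝ) / m)) (L ^ (2 * ((j : ℝ) / m)))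
  inf : ∀ j : ℕ, m ≤ j → j ≤ 4 * m → F.io (L ^ ((j : ℝ) / m)) ≤ e * Real.log L

end BnCfg

/-- multiplicity: isotropic labels over the vector of the `d` coordinate labels -/
noncomputable def bnM1 (n : ℕ) (A : ℝ) : ℝ := (2 * ((n + 2 : ℕ) : ℝ) * A + 2) ^ (n + 2)

/-- multiplicity: the coordinate labels `i ≠ j` over the tube label in the direction `u j` -/
noncomputable def bnM2 (n : ℕ) (Lb : ℝ) : ℝ := (2 * Lb + 2) ^ (n + 1)

/-- multiplicity: isotropic labels at `s'` over a tilted cell `(s, s')`, `s ≤ s'`, and conversely -/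
noncomputable def bnM3 (n : ℕ) (A : ℝ) : ℝ := 2 * (2 * A + 4) ^ (n + 2)

end Claimed.Agent.R257
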