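import Claimed.Agent.R257.FR3.BinDefs

/-!
# ROW 257, package FR3, unit BIN, file 2: THE TWO ENTROPY INEQUALITIES (Shearer in a parent cell, chain rule for the time label)      (architect helper121)

PAPER-FREE.   `d = n+2`.   `R = rdLaw F.P (n+2)` = the point with `d` i.i.d. redraws.   A tuple of directions is GOOD if the sequential Gauss pivots (`bnSeq`) are all `≥ r0/A`; then it is a basis with dual basis of size `pjL A r0 d`.
-/

set_option autoImplicit false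

namespace Claimed.Agent.R257

open scoped BigOperators
open Classical Matrix
open Claimed.Agent.R255 Claimed.Agent.R255.FLaw

/-- sequential pivots: `bnSeq u j` = dual basis of `(u 0, …, u (j-1), e_j, …, e_{d-1})` -/
noncomputable def bnSeq {d : ℕ} (u : Fin d → Fin d → ℝ) : ℕ → Fin d → Fin d → ℝ
  | 0 => fun i => Pi.single i 1
  | j + 1 => if h : j < d then pjPiv (bnSeq u j) ⟨j, h⟩ (u ⟨j, h⟩) else bnSeq u j

/-- the pivots number `i < j` are good -/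
def bnGoodTo {d : ℕ} (τ : ℝ) (u : Fin d → Fin d → ℝ) (j : ℕ) : Prop := ∀ i : Fin d, i.val < j → τ ≤ |bnSeq u i.val i ⬝ᵥ u i|

/-- LEAF `L-F3-B1` (a)  `bnSeq u j` depends only on `u i`, `i < j`.   PLAN: induction on `j`. -/
theorem bn_seq_congr {d : ℕ} (u u' : Fin d → Fin d → ℝ) (j : ℕ) (h : ∀ i : Fin d, i.val < j → u i = u' i) : bnSeq u j = bnSeq u' j := by
  induction j with
  | zero => rfl
  | succ j ih =>
    have ih' := ih fun i hi => h i (by omega)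
    by_cases hj : j < d
    · simp only [bnSeq, dif_pos hj]
      rw [ih', h ⟨j, hj⟩ (Nat.lt_succ_self j)]
    · simp only [bnSeq, dif_neg hj]
      exact ih'

/-- LEAF `L-F3-B1` (b)  the partial dual bases.   PLAN: induction on `j` exactly as `pj_select_ind` (`R257/Proj/Select.lean`): `pj_dual_std`, `PjDual.piv` with `τ = r0/A`, `pj_L_succ`, `PjDual.mono`;
the new family is `Function.update (old family) ⟨j,_⟩ (u ⟨j,_⟩)` (funext, three cases). -/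
theorem bn_seq_dual {d : ℕ} {A r0 : ℝ} (hA : 1 ≤ A) (hr0 : 0 < r0) (hr1 : r0 ≤ 1) (u : Fin d → Fin d → ℝ) (hu : ∀ i l, |u i l| ≤ A)
    (j : ℕ) (hj : j ≤ d) (hg : bnGoodTo (r0 / A) u j) :
    PjDual d A (pjL A r0 j) (fun i => if i.val < j then u i else Pi.single i 1) (bnSeq u j) := by
  have hA0 : 0 < A := lt_of_lt_of_le one_pos hA
  induction j with
  | zero =>
    have e : (fun i : Fin d => if i.val < 0 then u i else (Pi.single i 1 : Fin d → ℝ)) = fun i => Pi.single i 1 := by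
      funext i
      simp
    rw [e, pj_L_zero]
    exact (pj_dual_std d).mono hA le_rfl
  | succ j ih =>
    have hjlt : j < d := by omega
    have D := ih (by omega) fun i hi => hg i (by omega)
    have hp : r0 / A ≤ |bnSeq u j ⟨j, hjlt⟩ ⬝ᵥ u ⟨j, hjlt⟩| := hg ⟨j, hjlt⟩ (Nat.lt_succ_self j)
    have D' := (D.piv hA0.le ⟨j, hjlt⟩ (u ⟨j, hjlt⟩) (hu _) (div_pos hr0 hA0) hp).mono le_rfl (pj_L_succ hA hr0 hr1 j)
    have e : (fun i : Fin d => if i.val < j + 1 then u i else (Pi.single i 1 : Fin d → ℝ))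
        = Function.update (fun i : Fin d => if i.val < j then u i else (Pi.single i 1 : Fin d → ℝ)) ⟨j, hjlt⟩ (u ⟨j, hjlt⟩) := by
      funext i
      by_cases hi : i = ⟨j, hjlt⟩
      · subst hi
        simp
      · rw [Function.update_of_ne hi]
        have hij : i.val ≠ j := fun h' => hi (Fin.ext h')
        have : i.val < j + 1 ↔ i.val < j := by omega
        simp only [this]
    have e2 : bnSeq u (j + 1) = pjPiv (bnSeq u j) ⟨j, hjlt⟩ (u ⟨j, hjlt⟩) := by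
      simp only [bnSeq, dif_pos hjlt]
    rw [e, e2]
    exact D'

theorem bn_mem_filter {α : Type} {s : Finset α} {p : α → Prop} {inst : DecidablePred p} {a : α}
    (h : a ∈ @Finset.filter α p inst s) : a ∈ s ∧ p a := Finset.mem_filter.1 h

theorem bn_good_congr {d : ℕ} (τ : ℝ) (u u' : Fin d → Fin d → ℝ) (j : ℕ) (h : ∀ i : Fin d, i.val < j → u i = u' i) :
    bnGoodTo τ u j ↔ bnGoodTo τ u' j := by
  unfold bnGoodTo
  refine forall_congr' fun i => imp_congr_right fun hi => ?_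
  rw [bn_seq_congr u u' i.val fun i' hi' => h i' (by omega), h i hi]

theorem bn_first_bad {d : ℕ} (τ : ℝ) (u : Fin d → Fin d → ℝ) (h : ¬ bnGoodTo τ u d) :
    ∃ j : Fin d, bnGoodTo τ u j.val ∧ |bnSeq u j.val j ⬝ᵥ u j| < τ := by
  by_contra hc
  push Not at hc
  apply h
  have : ∀ k : ℕ, bnGoodTo τ u k := by
    intro k
    induction k with
    | zero => intro i hi; exact absurd hi (Nat.not_lt_zero _)
    | succ k ih =>
      intro i hi
      by_cases hik : i.val < k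
      · exact ih i hik
      · have e : i.val = k := by omega
        exact hc i (e ▸ ih)
  exact this d

/-- strip bound of the reference law, homogeneous form -/
theorem BnCfg.Base.strip_hom {n : ℕ} {𝒳 𝒯 𝒲 : Type} [Fintype 𝒳] [Fintype 𝒯] {F : BnCfg n 𝒳 𝒯 𝒲} {K A γ ρ : ℝ} (hB : F.Base K A γ ρ)
    (g : 𝒲) (w : Fin (n + 2) → ℝ) (hw : 0 < ∑ l, |w l|) (r : ℝ) (hr : ρ ≤ r) (hr1 : r ≤ 1) :
    ∑ θ with |w ⬝ᵥ F.dir θ| ≤ r * ∑ l, |w l|, F.ν g θ ≤ K * r ^ γ := by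
  have h1 : ∑ l, |((∑ l, |w l|)⁻¹ • w) l| = 1 := by
    simp only [Pi.smul_apply, smul_eq_mul, abs_mul, abs_inv, abs_of_pos hw, ← Finset.mul_sum]
    exact inv_mul_cancel₀ hw.ne'
  have h2 := hB.strip g ((∑ l, |w l|)⁻¹ • w) h1 r hr hr1
  refine le_trans (le_of_eq ?_) h2
  refine Finset.sum_congr ?_ fun _ _ => rfl
  ext b
  simp only [Finset.mem_filter, Finset.mem_univ, true_and, smul_dotProduct, smul_eq_mul, abs_mul, abs_inv, abs_of_pos hw]
  rw [inv_mul_le_iff₀ hw, mul_comm]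

/-- LEAF `L-F3-B2`  **bad tuples are rare.**
PLAN.  `¬ bnGoodTo τ u d` ⟹ there is a first bad index `j`: `bnGoodTo τ u j ∧ |bnSeq u j j ⬝ᵥ u j| < τ` (`Nat.find` or strong induction); union bound over `j : Fin (n+2)` (`ent_pr_exists_le`).
For fixed `j` use `rd_expose` with `B x θ t = bnGoodTo τ (dir ∘ θ) j ∧ |bnSeq (dir ∘ θ) j j ⬝ᵥ dir t| < τ` (independent of `θ j`: `bn_seq_congr`).  If `bnGoodTo`: `c = bnSeq .. j j` has `1 ≤ ‖c‖₁ A` (`bn_seq_dual`, `PjDual.one_le` at the index `j`,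
where the basis vector is `e_j`), so `B ⊆ {|c·dir t| ≤ r0 ‖c‖₁}`; normalise `c` (as in `PjCfg.Ok.strip_hom`), `hB.strip` at `r = r0`, `hB.dom`: `∑_{t ∈ B} P.p (x,t) ≤ K (K r0^γ) rdM x`. -/
theorem bn_bad_pr {n : ℕ} {𝒳 𝒯 𝒲 : Type} [Fintype 𝒳] [Fintype 𝒯] (F : BnCfg n 𝒳 𝒯 𝒲) {K A γ ρ r0 : ℝ} (hB : F.Base K A γ ρ)
    (hK : 1 ≤ K) (hA : 1 ≤ A) (hρ : 0 < ρ) (hr0 : ρ ≤ r0) (hr1 : r0 ≤ 1) :
    (rdLaw F.P (n + 2)).pr (fun y => ¬ bnGoodTo (r0 / A) (fun j => F.dir (y.2 j)) (n + 2)) ≤ ((n + 2 : ℕ) : ℝ) * (K ^ 2 * r0 ^ γ) := by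
  have hK0 : 0 < K := lt_of_lt_of_le one_pos hK
  have hA0 : 0 < A := lt_of_lt_of_le one_pos hA
  have hr0' : 0 < r0 := hρ.trans_le hr0
  have hδ : 0 ≤ K ^ 2 * r0 ^ γ := by positivity
  have h1 : (rdLaw F.P (n + 2)).pr (fun y => ¬ bnGoodTo (r0 / A) (fun j => F.dir (y.2 j)) (n + 2)) ≤
      (rdLaw F.P (n + 2)).pr (fun y => ∃ j ∈ (Finset.univ : Finset (Fin (n + 2))),
        bnGoodTo (r0 / A) (fun i => F.dir (y.2 i)) j.val ∧
          |bnSeq (fun i => F.dir (y.2 i)) j.val j ⬝ᵥ F.dir (y.2 j)| < r0 / A) := by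
    refine ent_pr_mono _ fun y _ hy => ?_
    obtain ⟨j, hj⟩ := bn_first_bad _ _ hy
    exact ⟨j, Finset.mem_univ j, hj⟩
  refine h1.trans ((ent_pr_exists_le _ _ _).trans ?_)
  have h2 : ∀ j ∈ (Finset.univ : Finset (Fin (n + 2))), (rdLaw F.P (n + 2)).pr (fun y =>
        bnGoodTo (r0 / A) (fun i => F.dir (y.2 i)) j.val ∧
          |bnSeq (fun i => F.dir (y.2 i)) j.val j ⬝ᵥ F.dir (y.2 j)| < r0 / A) ≤ K ^ 2 * r0 ^ γ := by
    intro j _
    refine rd_expose F.P (n + 2) j (fun _ θ t => bnGoodTo (r0 / A) (fun i => F.dir (θ i)) j.val ∧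
      |bnSeq (fun i => F.dir (θ i)) j.val j ⬝ᵥ F.dir t| < r0 / A) ?_ _ ?_
    · intro x θ t' t
      have hc : ∀ i : Fin (n + 2), i.val < j.val → F.dir (Function.update θ j t' i) = F.dir (θ i) := by
        intro i hi
        rw [Function.update_of_ne (fun h => by rw [h] at hi; exact lt_irrefl _ hi)]
      rw [bn_good_congr _ _ _ _ hc, bn_seq_congr _ _ _ hc]
    · intro x θ
      have hM := rd_M_nonneg F.P x
      by_cases hg : bnGoodTo (r0 / A) (fun i => F.dir (θ i)) j.val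
      · have D := bn_seq_dual hA hr0' hr1 (fun i => F.dir (θ i)) (fun i l => hB.hdir _ l) j.val j.isLt.le hg
        set c := bnSeq (fun i => F.dir (θ i)) j.val j with hc
        have h3 : 1 ≤ (∑ l, |c l|) * A := D.one_le c j (by rw [hc, D.bi]; simp)
        have hpos : 0 < ∑ l, |c l| := by
          by_contra h
          have h4 : ∑ l, |c l| ≤ 0 := not_lt.1 h
          nlinarith
        have hrA : r0 / A ≤ r0 * ∑ l, |c l| := by
          rw [div_le_iff₀ hA0, mul_assoc]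
          nlinarith
        have h5 := hB.strip_hom (F.grp x) c hpos r0 hr0 hr1
        calc _ ≤ ∑ t with |c ⬝ᵥ F.dir t| ≤ r0 * ∑ l, |c l|, F.P.p (x, t) := by
              refine Finset.sum_le_sum_of_subset_of_nonneg ?_ fun t _ _ => F.P.nonneg _
              intro t ht
              have ht' := bn_mem_filter ht
              exact Finset.mem_filter.2 ⟨ht'.1, ht'.2.2.le.trans hrA⟩
          _ ≤ ∑ t with |c ⬝ᵥ F.dir t| ≤ r0 * ∑ l, |c l|, (K * rdM F.P x) * F.ν (F.grp x) t := by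
              refine Finset.sum_le_sum fun t _ => ?_
              have := hB.dom x t
              linarith
          _ = (K * rdM F.P x) * ∑ t with |c ⬝ᵥ F.dir t| ≤ r0 * ∑ l, |c l|, F.ν (F.grp x) t :=
              (Finset.mul_sum _ _ _).symm
          _ ≤ (K * rdM F.P x) * (K * r0 ^ γ) := mul_le_mul_of_nonneg_left h5 (by positivity)
          _ = K ^ 2 * r0 ^ γ * rdM F.P x := by ring
      · rw [Finset.sum_eq_zero]
        · positivity
        · intro t ht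
          exact absurd (bn_mem_filter ht).2.1 hg
  refine (Finset.sum_le_card_nsmul _ _ _ h2).trans ?_
  simp

theorem bnh_ent_le_nval {Ω α β : Type} [Fintype Ω] (P : FLaw Ω) (B : Ω → β) (Y : Ω → α) {N : ℝ}
    (h : P.NVal (fun _ => True) B Y N) : P.ent B ≤ P.ent Y + Real.log N := by
  have h1 := ent_le_pair_left P B Y
  rw [ent_pair_eq] at h1
  linarith [ent_entC_le_log_nval P B Y h]

theorem bnh_floor_mem {a b M s : ℝ} (hs : 0 < s) (h : |a - b| ≤ M * s) :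
    ⌊a / s⌋ ∈ Finset.Icc ⌊b / s - M⌋ ⌊b / s + M⌋ := by
  rw [Finset.mem_Icc]
  have h1 := abs_le.1 h
  constructor
  · apply Int.floor_le_floor
    rw [sub_le_iff_le_add, div_le_iff₀ hs, add_mul, div_mul_cancel₀ _ hs.ne']
    linarith
  · apply Int.floor_le_floor
    rw [div_le_iff₀ hs, add_mul, div_mul_cancel₀ _ hs.ne']
    linarith

theorem bnh_floor_card (p M : ℝ) (hM : 0 ≤ M) : ((Finset.Icc ⌊p - M⌋ ⌊p + M⌋).card : ℝ) ≤ 2 * M + 2 := by
  rw [Int.card_Icc]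
  have h1 : ⌊p - M⌋ ≤ ⌊p + M⌋ := Int.floor_le_floor (by linarith)
  have h2 : ((⌊p + M⌋ + 1 - ⌊p - M⌋).toNat : ℤ) = ⌊p + M⌋ + 1 - ⌊p - M⌋ := Int.toNat_of_nonneg (by omega)
  have h3 : (((⌊p + M⌋ + 1 - ⌊p - M⌋).toNat : ℕ) : ℝ) = ((⌊p + M⌋ + 1 - ⌊p - M⌋ : ℤ) : ℝ) := by
    exact_mod_cast congrArg (fun z : ℤ => (z : ℝ)) h2
  rw [h3]
  push_cast
  have h4 := Int.floor_le (p + M)
  have h5 := Int.lt_floor_add_one (p - M)
  linarith

/-- equal labels at the scale `s`: the numbers differ by at most `s` -/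
theorem bnh_floor_close {a b s : ℝ} (hs : 0 < s) (h : ⌊a / s⌋ = ⌊b / s⌋) : |a - b| ≤ s := by
  have h1 := Int.abs_sub_lt_one_of_floor_eq_floor h
  rw [← sub_div, abs_div, abs_of_pos hs, div_lt_one hs] at h1
  exact h1.le

theorem bnh_card_pi {d : ℕ} (S : Fin d → Finset ℤ) {N : ℝ} (hS : ∀ i, ((S i).card : ℝ) ≤ N) :
    ((Fintype.piFinset S).card : ℝ) ≤ N ^ d := by
  rw [Fintype.card_piFinset]
  push_cast
  refine (Finset.prod_le_prod (fun i _ => Nat.cast_nonneg _) fun i _ => hS i).trans (le_of_eq ?_)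
  rw [Finset.prod_const, Finset.card_univ, Fintype.card_fin]

theorem bnh_card_pi_but {d : ℕ} (S : Fin (d + 1) → Finset ℤ) (j : Fin (d + 1)) {N : ℝ} (hj : (S j).card = 1)
    (hS : ∀ i, i ≠ j → ((S i).card : ℝ) ≤ N) : ((Fintype.piFinset S).card : ℝ) ≤ N ^ d := by
  rw [Fintype.card_piFinset]
  push_cast
  rw [← Finset.mul_prod_erase _ _ (Finset.mem_univ j), hj, Nat.cast_one, one_mul]
  refine (Finset.prod_le_prod (fun i _ => Nat.cast_nonneg _) fun i hi => hS i (Finset.ne_of_mem_erase hi)).trans (le_of_eq ?_)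
  rw [Finset.prod_const, Finset.card_erase_of_mem (Finset.mem_univ j), Finset.card_univ, Fintype.card_fin]
  rfl

/-- LEAF `L-F3-B3`  **Han's inequality in a fixed basis** (any finite law, any position map `ξ`).
PLAN.  `X i ω = ⌊(c i ⬝ᵥ ξ ω)/s⌋`.   (1) `ek_han`: `(n+1) H(X) ≤ ∑_j H(X_{-j})`.   (2) `H(bnIso) ≤ H(X) + log bnM1`: `ent_le_pair_left`, `ent_pair_eq`, `ent_entC_le_log_nval`; NVal: equal `X` ⟹ `|c i·(ξ-ξ')| ≤ s` ⟹ `|ξ l - ξ' l| ≤ (n+2) s A`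
(`D.ball`) ⟹ `⌊ξ l/s⌋` in an `Icc` of `≤ 2(n+2)A+2` integers around `⌊ξ₀ l/s⌋`; `Fintype.piFinset`.   (3) `H(X_{-j}) ≤ H(bnTub s ξ (u j)) + log bnM2`: equal tube labels ⟹ `η = ξ - ξ 0 • u j` differ by `≤ s` in each coordinate,
`c i·ξ = c i·η` for `i ≠ j` (`D.bi`), `|c i·(η-η')| ≤ Lb s` (`D.coord_le`): `≤ 2Lb+2` values for each of the `n+1` coordinates `i ≠ j` (the `j`-th is `0`). -/
theorem bn_han_fixed {Ω : Type} [Fintype Ω] (P : FLaw Ω) (n : ℕ) {A Lb s : ℝ} (hA : 1 ≤ A) (hLb : 1 ≤ Lb) (hs : 0 < s)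
    {u c : Fin (n + 2) → Fin (n + 2) → ℝ} (D : PjDual (n + 2) A Lb u c) (hu0 : ∀ j, u j 0 = 1) (ξ : Ω → Fin (n + 2) → ℝ) :
    ((n + 1 : ℕ) : ℝ) * P.ent (fun ω => bnIso s (ξ ω)) ≤
      ∑ j, P.ent (fun ω => bnTub s (ξ ω) (u j)) + ((n + 1 : ℕ) : ℝ) * Real.log (bnM1 n A) + ((n + 2 : ℕ) : ℝ) * Real.log (bnM2 n Lb) := by
  have hA0 : 0 < A := lt_of_lt_of_le one_pos hA
  have hLb0 : 0 < Lb := lt_of_lt_of_le one_pos hLb
  set X : Fin (n + 2) → Ω → ℤ := fun i ω => ⌊(c i ⬝ᵥ ξ ω) / s⌋ with hX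
  have h1 := ek_han P (n + 1) X 0
  -- (2)
  have h2 : P.ent (fun ω => bnIso s (ξ ω)) ≤ P.ent (fun ω => fun j => X j ω) + Real.log (bnM1 n A) := by
    refine bnh_ent_le_nval P _ _ fun ω₀ => ?_
    refine ⟨Fintype.piFinset fun l => Finset.Icc ⌊ξ ω₀ l / s - ((n + 2 : ℕ) : ℝ) * A⌋ ⌊ξ ω₀ l / s + ((n + 2 : ℕ) : ℝ) * A⌋, ?_, ?_⟩
    · refine (bnh_card_pi _ fun l => bnh_floor_card _ _ (by positivity)).trans (le_of_eq ?_)
      unfold bnM1
      ring
    · intro ω _ _ hω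
      rw [Fintype.mem_piFinset]
      intro l
      refine bnh_floor_mem hs ?_
      have h3 : ∀ i, |c i ⬝ᵥ (ξ ω - ξ ω₀)| ≤ s := by
        intro i
        rw [dotProduct_sub]
        exact bnh_floor_close hs (congrFun hω i)
      have h4 := D.ball (ξ ω - ξ ω₀) s h3 l
      rw [Pi.sub_apply] at h4
      refine h4.trans (le_of_eq ?_)
      ring
  -- (3)
  have h3 : ∀ j, P.ent (fun ω => Function.update (fun i => X i ω) j 0) ≤
      P.ent (fun ω => bnTub s (ξ ω) (u j)) + Real.log (bnM2 n Lb) := by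
    intro j
    refine bnh_ent_le_nval P _ _ fun ω₀ => ?_
    refine ⟨Fintype.piFinset fun i => if i = j then {0} else
      Finset.Icc ⌊(c i ⬝ᵥ ξ ω₀) / s - Lb⌋ ⌊(c i ⬝ᵥ ξ ω₀) / s + Lb⌋, ?_, ?_⟩
    · unfold bnM2
      refine bnh_card_pi_but _ j (by simp) fun i hi => ?_
      rw [if_neg hi]
      exact bnh_floor_card _ _ hLb0.le
    · intro ω _ _ hω
      rw [Fintype.mem_piFinset]
      intro i
      by_cases hi : i = j
      · subst hi
        simp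
      · rw [if_neg hi, Function.update_of_ne hi]
        refine bnh_floor_mem hs ?_
        have h4 : ∀ l, |((ξ ω - ξ ω 0 • u j) - (ξ ω₀ - ξ ω₀ 0 • u j)) l| ≤ s := by
          intro l
          have := bnh_floor_close hs (congrFun hω l)
          simpa using this
        have h5 := D.coord_le i _ s hs.le h4
        have h6 : c i ⬝ᵥ ((ξ ω - ξ ω 0 • u j) - (ξ ω₀ - ξ ω₀ 0 • u j)) = c i ⬝ᵥ ξ ω - c i ⬝ᵥ ξ ω₀ := by
          simp only [dotProduct_sub, dotProduct_smul, D.bi, if_neg hi, smul_zero, sub_zero]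
        rwa [h6] at h5
  have h4 : ∑ j, P.ent (fun ω => Function.update (fun i => X i ω) j 0) ≤
      ∑ j, P.ent (fun ω => bnTub s (ξ ω) (u j)) + ((n + 2 : ℕ) : ℝ) * Real.log (bnM2 n Lb) := by
    refine (Finset.sum_le_sum fun j _ => h3 j).trans (le_of_eq ?_)
    rw [Finset.sum_add_distrib, Finset.sum_const, Finset.card_univ, Fintype.card_fin, nsmul_eq_mul]
  have h5 : ((n + 1 : ℕ) : ℝ) * P.ent (fun ω => bnIso s (ξ ω)) ≤
      ((n + 1 : ℕ) : ℝ) * (P.ent (fun ω => fun j => X j ω) + Real.log (bnM1 n A)) :=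
    mul_le_mul_of_nonneg_left h2 (Nat.cast_nonneg _)
  linarith

variable {n : ℕ} {𝒳 𝒯 𝒲 : Type} [Fintype 𝒳] [Fintype 𝒯]

/-- LEAF `L-F3-B4`  **Shearer on the redraw space.**   `𝒞 y = (iso s' y.1, y.2)`.
PLAN.  `ek_bad_cells` for `R = rdLaw F.P (n+2)`, `X = iso s ∘ fst`, `C = 𝒞`, `Bad = ¬ good tuple`, `N = (s'/s+2)^(n+2)`,
`g ω = (n+1)⁻¹ (∑_j (R.cfib 𝒞 ω).ent (tub_j) + (n+1) log bnM1 + (n+2) log bnM2)`; `R.ev g` by `ent_ev_sum`, `ent_entC_eq_avg`.   Good cell: on the support of `R.cfib 𝒞 ω` (`ent_cnd_supp`) the tuple `y.2` and the group are constant, so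
`ent (iso s ∘ fst) = ent (bnIso s ∘ pos ∘ fst)` and `ent (bnTub s (pos ·) (dir (ω.2 j))) ≤ ent (tub_j)` (`ent_congr_ker`, `ent_mono_ker`); `bn_han_fixed` with `D = bn_seq_dual .. (n+2)`.   `NVal`: `x l` in an interval of length `s'`: `≤ s'/s + 2` labels. -/
theorem bn_shearer_R (F : BnCfg n 𝒳 𝒯 𝒲) {K A γ ρ r0 s s' : ℝ} (hB : F.Base K A γ ρ) (hK : 1 ≤ K) (hA : 1 ≤ A) (hρ : 0 < ρ)
    (hr0 : ρ ≤ r0) (hr1 : r0 ≤ 1) (hs : 0 < s) (hss : s ≤ s') :
    ((n + 1 : ℕ) : ℝ) * (rdLaw F.P (n + 2)).entC (fun y => F.iso s y.1) (fun y => (F.iso s' y.1, y.2)) ≤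
      ∑ j, (rdLaw F.P (n + 2)).entC (fun y => F.tub s s' (y.1, y.2 j)) (fun y => (F.iso s' y.1, y.2)) +
        ((n + 1 : ℕ) : ℝ) * Real.log (bnM1 n A) + ((n + 2 : ℕ) : ℝ) * Real.log (bnM2 n (pjL A r0 (n + 2))) +
        ((n + 1 : ℕ) : ℝ) * (((n + 2 : ℕ) : ℝ) * (K ^ 2 * r0 ^ γ)) * Real.log ((s' / s + 2) ^ (n + 2)) := by
  have hK0 : 0 < K := lt_of_lt_of_le one_pos hK
  have hA0 : 0 < A := lt_of_lt_of_le one_pos hA
  have hr0' : 0 < r0 := hρ.trans_le hr0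
  have hs' : 0 < s' := hs.trans_le hss
  have hq : 0 < s' / s := div_pos hs' hs
  have hLb : 1 ≤ pjL A r0 (n + 2) := pj_L_one_le hA hr0' hr1 _
  have hn1 : (0 : ℝ) < ((n + 1 : ℕ) : ℝ) := Nat.cast_pos.2 (Nat.succ_pos n)
  have hM1 : 0 ≤ Real.log (bnM1 n A) := by
    refine Real.log_nonneg ?_
    unfold bnM1
    refine one_le_pow₀ ?_
    have : 0 ≤ 2 * ((n + 2 : ℕ) : ℝ) * A := by positivity
    linarith
  have hM2 : 0 ≤ Real.log (bnM2 n (pjL A r0 (n + 2))) := by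
    refine Real.log_nonneg ?_
    unfold bnM2
    refine one_le_pow₀ ?_
    linarith
  have hN : (1 : ℝ) ≤ (s' / s + 2) ^ (n + 2) := one_le_pow₀ (by linarith)
  set R := rdLaw F.P (n + 2) with hR
  set 𝒞 : 𝒳 × (Fin (n + 2) → 𝒯) → (𝒲 × (Fin (n + 2) → ℤ)) × (Fin (n + 2) → 𝒯) := fun y => (F.iso s' y.1, y.2) with h𝒞
  set E0 : ℝ := ((n + 1 : ℕ) : ℝ) * Real.log (bnM1 n A) + ((n + 2 : ℕ) : ℝ) * Real.log (bnM2 n (pjL A r0 (n + 2))) with hE0
  have hE00 : 0 ≤ E0 := by positivity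
  have key := ek_bad_cells R (fun y => F.iso s y.1) 𝒞 (fun y => ¬ bnGoodTo (r0 / A) (fun j => F.dir (y.2 j)) (n + 2))
    (fun ω => (((n + 1 : ℕ) : ℝ))⁻¹ * (∑ j, (R.cfib 𝒞 ω).ent (fun y => F.tub s s' (y.1, y.2 j)) + E0)) hN
    (fun ω => mul_nonneg (inv_nonneg.2 hn1.le) (add_nonneg (Finset.sum_nonneg fun j _ => ent_nonneg _ _) hE00)) ?_ ?_
  · rw [ent_ev_mul_left, ent_ev_add, ent_ev_sum, ent_ev_const] at key
    simp only [← ent_entC_eq_avg] at key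
    have hbad := bn_bad_pr F hB hK hA hρ hr0 hr1
    rw [← hR] at hbad
    have hlogN : 0 ≤ Real.log ((s' / s + 2) ^ (n + 2)) := Real.log_nonneg hN
    have h1 := mul_le_mul_of_nonneg_right hbad hlogN
    have h2 := mul_le_mul_of_nonneg_left (key.trans (add_le_add_right h1 _)) hn1.le
    rw [mul_add, ← mul_assoc, mul_inv_cancel₀ hn1.ne', one_mul] at h2
    rw [hE0] at h2
    linarith
  · intro ω hω hgood
    have hgood' : bnGoodTo (r0 / A) (fun j => F.dir (ω.2 j)) (n + 2) := not_not.1 hgood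
    have hpos : 0 < R.pr (fun y => 𝒞 y = 𝒞 ω) := ent_fib_pos R 𝒞 hω
    have hsupp : ∀ y, (R.cfib 𝒞 ω).p y ≠ 0 → 𝒞 y = 𝒞 ω := fun y hy => ((ent_cnd_supp R _ hpos).1 hy).1
    have hsupp2 : ∀ y, (R.cfib 𝒞 ω).p y ≠ 0 → y.2 = ω.2 := fun y hy =>
      (congrArg Prod.snd (hsupp y hy) : (𝒞 y).2 = (𝒞 ω).2)
    have hsupp1 : ∀ y, (R.cfib 𝒞 ω).p y ≠ 0 → F.grp y.1 = F.grp ω.1 := fun y hy =>
      (congrArg (fun z => z.1.1) (hsupp y hy) : (𝒞 y).1.1 = (𝒞 ω).1.1)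
    have D := bn_seq_dual hA hr0' hr1 (fun j => F.dir (ω.2 j)) (fun i l => hB.hdir _ l) (n + 2) le_rfl hgood'
    have e : (fun i : Fin (n + 2) => if i.val < n + 2 then F.dir (ω.2 i) else Pi.single i 1) = fun i => F.dir (ω.2 i) := by
      funext i; rw [if_pos i.isLt]
    rw [e] at D
    have h1 := bn_han_fixed (R.cfib 𝒞 ω) n hA hLb hs D (fun j => hB.dir0 _) (fun y => F.pos y.1)
    have h2 : (R.cfib 𝒞 ω).ent (fun y => F.iso s y.1) = (R.cfib 𝒞 ω).ent (fun y => bnIso s (F.pos y.1)) := by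
      refine ent_congr_ker _ _ _ fun y y' hy hy' => ?_
      constructor
      · intro h
        exact congrArg Prod.snd h
      · intro h
        exact Prod.ext ((hsupp1 y hy).trans (hsupp1 y' hy').symm) h
    have h3 : ∀ j, (R.cfib 𝒞 ω).ent (fun y => bnTub s (F.pos y.1) (F.dir (ω.2 j))) ≤
        (R.cfib 𝒞 ω).ent (fun y => F.tub s s' (y.1, y.2 j)) := by
      intro j
      refine ent_mono_ker _ _ _ fun y y' hy hy' h => ?_
      have h4 : bnTub s (F.pos y.1) (F.dir (y.2 j)) = bnTub s (F.pos y'.1) (F.dir (y'.2 j)) :=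
        congrArg (fun z => z.2.1) h
      rwa [hsupp2 y hy, hsupp2 y' hy'] at h4
    have h4 := Finset.sum_le_sum fun j (_ : j ∈ (Finset.univ : Finset (Fin (n + 2)))) => h3 j
    rw [h2, le_inv_mul_iff₀ hn1, hE0]
    linarith
  · intro ω₀
    refine ⟨(Fintype.piFinset fun l => Finset.Icc
        ⌊(((⌊F.pos ω₀.1 l / s'⌋ : ℤ) : ℝ) + 1 / 2) * s' / s - s' / s / 2⌋
        ⌊(((⌊F.pos ω₀.1 l / s'⌋ : ℤ) : ℝ) + 1 / 2) * s' / s + s' / s / 2⌋).image fun κ => (F.grp ω₀.1, κ), ?_, ?_⟩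
    · refine le_trans (Nat.cast_le.2 Finset.card_image_le) ?_
      refine (bnh_card_pi _ fun l => bnh_floor_card _ _ (by positivity)).trans (le_of_eq ?_)
      congr 1
      ring
    · intro y _ _ hy
      have hy1 : F.iso s' y.1 = F.iso s' ω₀.1 := congrArg Prod.fst hy
      rw [Finset.mem_image]
      refine ⟨bnIso s (F.pos y.1), ?_, ?_⟩
      · rw [Fintype.mem_piFinset]
        intro l
        refine bnh_floor_mem hs ?_
        have h5 : ⌊F.pos y.1 l / s'⌋ = ⌊F.pos ω₀.1 l / s'⌋ := congrFun (congrArg Prod.snd hy1) l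
        rw [← h5]
        have h6 := Int.floor_le (F.pos y.1 l / s')
        have h7 := Int.lt_floor_add_one (F.pos y.1 l / s')
        rw [le_div_iff₀ hs'] at h6
        rw [div_lt_iff₀ hs'] at h7
        have h8 : s' / s / 2 * s = s' / 2 := by field_simp
        rw [h8, abs_le]
        constructor <;> linarith
      · exact Prod.ext (congrArg Prod.fst hy1).symm rfl

/-- same cell ⟹ close -/
theorem bn_floor_close {s a b : ℝ} (hs : 0 < s) (h : ⌊a / s⌋ = ⌊b / s⌋) : |a - b| ≤ s := by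
  have h1 := Int.floor_le (a / s)
  have h2 := Int.lt_floor_add_one (a / s)
  have h3 := Int.floor_le (b / s)
  have h4 := Int.lt_floor_add_one (b / s)
  rw [h] at h1 h2
  have h5 : |a / s - b / s| ≤ 1 := by
    rw [abs_le]
    constructor <;> linarith
  rw [← sub_div, abs_div, abs_of_pos hs, div_le_one hs] at h5
  exact h5

/-- the labels of the points of a box -/
theorem bn_count_box {d : ℕ} {s R : ℝ} (hs : 0 < s) (hR : 0 ≤ R) (y₀ : Fin d → ℝ) :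
    ∃ S : Finset (Fin d → ℤ), (S.card : ℝ) ≤ (2 * R + 2) ^ d ∧
      ∀ y : Fin d → ℝ, (∀ l, |y l - y₀ l| ≤ R * s) → (fun l => ⌊y l / s⌋) ∈ S := by
  refine ⟨Fintype.piFinset fun l => Finset.Icc ⌊y₀ l / s - R⌋ ⌊y₀ l / s + R⌋, ?_, fun y hy => ?_⟩
  · rw [Fintype.card_piFinset]
    push_cast
    calc ∏ l, ((Finset.Icc ⌊y₀ l / s - R⌋ ⌊y₀ l / s + R⌋).card : ℝ) ≤ ∏ _l : Fin d, (2 * R + 2) := by
          refine Finset.prod_le_prod (fun l _ => Nat.cast_nonneg _) fun l _ => ?_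
          rw [Int.card_Icc]
          have hk : ⌊y₀ l / s - R⌋ ≤ ⌊y₀ l / s + R⌋ := Int.floor_le_floor (by linarith)
          have h0 : (0 : ℤ) ≤ ⌊y₀ l / s + R⌋ + 1 - ⌊y₀ l / s - R⌋ := by omega
          have e : (((⌊y₀ l / s + R⌋ + 1 - ⌊y₀ l / s - R⌋).toNat : ℕ) : ℝ)
              = ((⌊y₀ l / s + R⌋ + 1 - ⌊y₀ l / s - R⌋ : ℤ) : ℝ) := by
            have := Int.toNat_of_nonneg h0
            exact_mod_cast this
          rw [e]
          push_cast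
          have a1 := Int.floor_le (y₀ l / s + R)
          have a2 := Int.lt_floor_add_one (y₀ l / s - R)
          linarith
      _ = (2 * R + 2) ^ d := by rw [Finset.prod_const, Finset.card_univ, Fintype.card_fin]
  · rw [Fintype.mem_piFinset]
    intro l
    rw [Finset.mem_Icc]
    have h1 := abs_le.1 (hy l)
    have e : y l / s = y₀ l / s + (y l - y₀ l) / s := by
      rw [← add_div]
      congr 1
      ring
    have h2 : -R ≤ (y l - y₀ l) / s := by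
      rw [le_div_iff₀ hs]
      linarith [h1.1]
    have h3 : (y l - y₀ l) / s ≤ R := by
      rw [div_le_iff₀ hs]
      exact h1.2
    exact ⟨Int.floor_le_floor (by linarith), Int.floor_le_floor (by linarith)⟩

/-- a cell of the mesh `s` meets at most two cells of a coarser mesh -/
theorem bn_two {s s' : ℝ} (hs : 0 < s) (hss : s ≤ s') (k : ℤ) :
    ∃ S : Finset ℤ, S.card ≤ 2 ∧ ∀ a : ℝ, ⌊a / s⌋ = k → ⌊a / s'⌋ ∈ S := by
  have hs' : 0 < s' := hs.trans_le hss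
  refine ⟨{⌊(k : ℝ) * s / s'⌋, ⌊(k : ℝ) * s / s'⌋ + 1}, Finset.card_le_two, fun a ha => ?_⟩
  have h1 := Int.floor_le (a / s)
  have h2 := Int.lt_floor_add_one (a / s)
  rw [ha] at h1 h2
  rw [le_div_iff₀ hs] at h1
  rw [div_lt_iff₀ hs] at h2
  have h3 : (k : ℝ) * s / s' ≤ a / s' := div_le_div_of_nonneg_right h1 hs'.le
  have h4 : a / s' ≤ (k : ℝ) * s / s' + 1 := by
    rw [div_add_one hs'.ne']
    exact div_le_div_of_nonneg_right (by nlinarith) hs'.le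
  have h5 : ⌊(k : ℝ) * s / s'⌋ ≤ ⌊a / s'⌋ := Int.floor_le_floor h3
  have h6 : ⌊a / s'⌋ ≤ ⌊(k : ℝ) * s / s'⌋ + 1 := by
    have h7 : ⌊a / s'⌋ ≤ ⌊(k : ℝ) * s / s' + 1⌋ := Int.floor_le_floor h4
    rwa [Int.floor_add_one] at h7
  rw [Finset.mem_insert, Finset.mem_singleton]
  omega

theorem bn_two_vec {d : ℕ} {s s' : ℝ} (hs : 0 < s) (hss : s ≤ s') (κ : Fin d → ℤ) :
    ∃ S : Finset (Fin d → ℤ), (S.card : ℝ) ≤ 2 ^ d ∧
      ∀ y : Fin d → ℝ, (fun l => ⌊y l / s⌋) = κ → (fun l => ⌊y l / s'⌋) ∈ S := by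
  choose S hS hS2 using fun l => bn_two hs hss (κ l)
  refine ⟨Fintype.piFinset S, ?_, fun y hy => ?_⟩
  · rw [Fintype.card_piFinset]
    have h1 : ∏ l, (S l).card ≤ ∏ _l : Fin d, 2 := Finset.prod_le_prod (fun _ _ => Nat.zero_le _) fun l _ => hS l
    rw [Finset.prod_const, Finset.card_univ, Fintype.card_fin] at h1
    exact_mod_cast h1
  · rw [Fintype.mem_piFinset]
    intro l
    exact hS2 l (y l) (congrFun hy l)

/-- LEAF `L-F3-B5`  entropy of the tilted cell inside the parent: `H(tub s s' | iso s', θ) ≤ N s' - I s s' + log bnM3`.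
PLAN.  `ek_label` (`B = tub`, `X = fst`, `Y = pair (iso s') snd`): `= H(x | iso s', θ) - H(x | tub, iso s', θ)`.   First term `≤ N s'` (`ent_entC_pair_le`).   Second term `≥ I s s' - log bnM3`: `ek_label_nval` with `B = iso s' ∘ fst`,
`Y = pair tub snd` (then reorder the pairs by `ent_entC_congr`); NVal: in a tilted cell `x 0` varies by `≤ s'`, `x l - x 0 v l` by `≤ s ≤ s'`, so `x l` by `≤ (1+A) s'`: `≤ 2A+4` labels per coordinate. -/
theorem bn_tub_ent (F : BnCfg n 𝒳 𝒯 𝒲) {K A γ ρ s s' : ℝ} (hB : F.Base K A γ ρ) (hA : 1 ≤ A) (hs : 0 < s) (hss : s ≤ s') :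
    F.P.entC (F.tub s s') (pair (fun y => F.iso s' y.1) Prod.snd) ≤ F.N s' - F.I s s' + Real.log (bnM3 n A) := by
  have hs' : 0 < s' := hs.trans_le hss
  have hA0 : 0 ≤ A := by linarith
  have l1 := ek_label F.P Prod.fst (F.tub s s') (pair (fun y => F.iso s' y.1) Prod.snd) (fun ω ω' _ _ h1 h2 => by
    simp only [pair, Prod.mk.injEq] at h2
    rw [Prod.ext h1 h2.2])
  have l2 : F.P.entC Prod.fst (pair (fun y => F.iso s' y.1) Prod.snd) ≤ F.N s' := ent_entC_pair_le F.P _ _ _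
  have hN : F.P.NVal (fun _ => True) (fun y => F.iso s' y.1) (pair (F.tub s s') Prod.snd) (bnM3 n A) := by
    intro ω₀
    obtain ⟨S, hS, hS2⟩ := bn_count_box (d := n + 2) hs' (show 0 ≤ 1 + A by linarith) (F.pos ω₀.1)
    refine ⟨S.image fun f => (F.grp ω₀.1, f), ?_, fun ω _ _ hω => ?_⟩
    · have h1 : ((S.image fun f => (F.grp ω₀.1, f)).card : ℝ) ≤ S.card := by exact_mod_cast Finset.card_image_le
      refine h1.trans (hS.trans ?_)
      unfold bnM3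
      have e : 2 * (1 + A) + 2 = 2 * A + 4 := by ring
      rw [e]
      have : 0 ≤ (2 * A + 4) ^ (n + 2) := by positivity
      linarith
    · simp only [pair, BnCfg.tub, Prod.mk.injEq] at hω
      obtain ⟨⟨hg, ht, h0⟩, hθ⟩ := hω
      rw [Finset.mem_image]
      refine ⟨bnIso s' (F.pos ω.1), hS2 _ fun l => ?_, ?_⟩
      · have a0 := bn_floor_close hs' h0
        have a1 : |(F.pos ω.1 l - F.pos ω.1 0 * F.dir ω.2 l) - (F.pos ω₀.1 l - F.pos ω₀.1 0 * F.dir ω₀.2 l)| ≤ s :=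
          bn_floor_close hs (congrFun ht l)
        rw [hθ] at a1
        have a2 := hB.hdir ω₀.2 l
        have e : F.pos ω.1 l - F.pos ω₀.1 l
            = ((F.pos ω.1 l - F.pos ω.1 0 * F.dir ω₀.2 l) - (F.pos ω₀.1 l - F.pos ω₀.1 0 * F.dir ω₀.2 l))
              + (F.pos ω.1 0 - F.pos ω₀.1 0) * F.dir ω₀.2 l := by ring
        rw [e]
        calc |((F.pos ω.1 l - F.pos ω.1 0 * F.dir ω₀.2 l) - (F.pos ω₀.1 l - F.pos ω₀.1 0 * F.dir ω₀.2 l))
              + (F.pos ω.1 0 - F.pos ω₀.1 0) * F.dir ω₀.2 l|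
            ≤ |(F.pos ω.1 l - F.pos ω.1 0 * F.dir ω₀.2 l) - (F.pos ω₀.1 l - F.pos ω₀.1 0 * F.dir ω₀.2 l)|
              + |(F.pos ω.1 0 - F.pos ω₀.1 0) * F.dir ω₀.2 l| := abs_add_le _ _
          _ ≤ s + s' * A := by
              rw [abs_mul]
              exact add_le_add a1 (mul_le_mul a0 a2 (abs_nonneg _) hs'.le)
          _ ≤ (1 + A) * s' := by nlinarith
      · simp only [BnCfg.iso]
        rw [hg]
  have l3 := ek_label_nval F.P Prod.fst (fun y => F.iso s' y.1) (pair (F.tub s s') Prod.snd) (fun ω ω' _ _ h1 _ => by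
    show F.iso s' ω.1 = F.iso s' ω'.1
    rw [h1]) hN
  have l4 : F.P.entC Prod.fst (pair (fun y => F.iso s' y.1) (pair (F.tub s s') Prod.snd))
      = F.P.entC Prod.fst (pair (F.tub s s') (pair (fun y => F.iso s' y.1) Prod.snd)) := by
    refine ent_entC_congr _ _ _ _ _ (fun ω ω' _ _ => ?_) fun _ _ _ _ _ => Iff.rfl
    simp only [pair, Prod.mk.injEq]
    tauto
  have l5 : F.I s s' = F.P.entC Prod.fst (pair (F.tub s s') Prod.snd) := rfl
  linarith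

/-- LEAF `L-F3-B6`  entropy of the fine cell inside the parent, given all the redraws: `≥ N s' - N s - (n+2) io s'`.
PLAN.  On `R`: `H(iso s | iso s', θ⃗) = H(iso s | iso s') - I(iso s ; θ⃗ | iso s')` (`ent_miC_eq`), `I(iso s ; θ⃗ | ..) ≤ I(x ; θ⃗ | ..)` (`ent_miC_mono`, after `ent_miC_comm`) `≤ (n+2) io s'` (`rd_miC`).
`H_R(iso s | iso s') = H_P(..)` (`rd_map` at `j = 0` + `ent_map_entC`), `H(iso s | iso s') ≥ H(iso s) - H(iso s')` (`ent_le_pair_left`), `N s = H(x) - H(iso s)` (`entC`, `ent_congr_ker`: `pair fst (iso s ∘ fst)` has the kernel of `fst`). -/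
theorem bn_iso_ent (F : BnCfg n 𝒳 𝒯 𝒲) (s s' : ℝ) :
    F.N s' - F.N s - ((n + 2 : ℕ) : ℝ) * F.io s' ≤
      (rdLaw F.P (n + 2)).entC (fun y => F.iso s y.1) (fun y => (F.iso s' y.1, y.2)) := by
  obtain ⟨R, hR⟩ : ∃ R, R = rdLaw F.P (n + 2) := ⟨_, rfl⟩
  rw [← hR]
  -- the conditional information
  have m1 := ent_miC_eq R (fun y => F.iso s y.1) (fun y => y.2) (fun y => F.iso s' y.1)
  have m2 : R.entC (fun y => F.iso s y.1) (pair (fun y => y.2) (fun y => F.iso s' y.1))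
      = R.entC (fun y => F.iso s y.1) (fun y => (F.iso s' y.1, y.2)) := by
    refine ent_entC_congr _ _ _ _ _ (fun ω ω' _ _ => ?_) fun _ _ _ _ _ => Iff.rfl
    simp only [pair, Prod.mk.injEq]
    tauto
  have m3 : R.miC (fun y => F.iso s y.1) (fun y => y.2) (fun y => F.iso s' y.1)
      ≤ R.miC (fun y => y.1) (fun y => y.2) (fun y => F.iso s' y.1) := by
    rw [ent_miC_comm R (fun y => F.iso s y.1), ent_miC_comm R (fun y => y.1)]
    refine ent_miC_mono R _ _ _ _ fun ω ω' _ _ h1 _ => ?_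
    show F.iso s ω.1 = F.iso s ω'.1
    rw [h1]
  have m4 : R.miC (fun y => y.1) (fun y => y.2) (fun y => F.iso s' y.1) ≤ ((n + 2 : ℕ) : ℝ) * F.io s' := by
    rw [hR]
    exact rd_miC F.P (n + 2) (F.iso s')
  have m5 : R.entC (fun y => F.iso s y.1) (fun y => F.iso s' y.1)
      = F.P.entC (fun y => F.iso s y.1) (fun y => F.iso s' y.1) := by
    have h1 := ent_map_entC (rdLaw F.P (n + 2)) (fun y => (y.1, y.2 0)) (fun y : 𝒳 × 𝒯 => F.iso s y.1) (fun y => F.iso s' y.1)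
    rw [rd_map] at h1
    rw [hR]
    exact h1.symm
  have m6 : F.P.ent (fun y => F.iso s y.1) - F.P.ent (fun y => F.iso s' y.1)
      ≤ F.P.entC (fun y => F.iso s y.1) (fun y => F.iso s' y.1) := by
    unfold FLaw.entC
    have := ent_le_pair_left F.P (fun y => F.iso s y.1) (fun y => F.iso s' y.1)
    linarith
  have m7 : ∀ t : ℝ, F.N t = F.P.ent Prod.fst - F.P.ent (fun y => F.iso t y.1) := by
    intro t
    unfold BnCfg.N FLaw.entC
    rw [ent_pair_of_ker F.P Prod.fst (fun y => F.iso t y.1) fun ω ω' _ _ h1 => by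
      show F.iso t ω.1 = F.iso t ω'.1
      rw [h1]]
  rw [m7 s, m7 s']
  linarith

/-- the error of `bn_shearer` -/
noncomputable def bnErr (n : ℕ) (K A γ r0 q : ℝ) : ℝ :=
  ((n + 1 : ℕ) : ℝ) * Real.log (bnM1 n A) + ((n + 2 : ℕ) : ℝ) * Real.log (bnM2 n (pjL A r0 (n + 2))) + ((n + 2 : ℕ) : ℝ) * Real.log (bnM3 n A) +
    ((n + 1 : ℕ) : ℝ) * (((n + 2 : ℕ) : ℝ) * (K ^ 2 * r0 ^ γ)) * Real.log ((q + 2) ^ (n + 2))

/-- LEAF `L-F3-B7`  **SHEARER** (exit 1):  `(n+2) I(s,s') ≤ N(s') + (n+1) N(s) + errors`.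
PLAN.  `bn_iso_ent`, `bn_shearer_R`; each summand: `R.entC (tub_j) 𝒞 ≤ R.entC (tub_j) (pair (iso s') (θ_j))` (`ent_entC_anti`) `= F.P.entC (tub) (pair (iso s') snd)` (`rd_map j`, `ent_map_entC`) `≤ N s' - I s s' + log bnM3` (`bn_tub_ent`); `Finset.sum_const`; linear arithmetic. -/
theorem bn_shearer (F : BnCfg n 𝒳 𝒯 𝒲) {K A γ ρ r0 s s' : ℝ} (hB : F.Base K A γ ρ) (hK : 1 ≤ K) (hA : 1 ≤ A) (hρ : 0 < ρ)
    (hr0 : ρ ≤ r0) (hr1 : r0 ≤ 1) (hs : 0 < s) (hss : s ≤ s') :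
    ((n + 2 : ℕ) : ℝ) * F.I s s' ≤ F.N s' + ((n + 1 : ℕ) : ℝ) * F.N s + ((n + 1 : ℕ) : ℝ) * ((n + 2 : ℕ) : ℝ) * F.io s' + bnErr n K A γ r0 (s' / s) := by
  have h1 := bn_iso_ent F s s'
  have h2 := bn_shearer_R F hB hK hA hρ hr0 hr1 hs hss
  have h3 : ∀ j : Fin (n + 2), (rdLaw F.P (n + 2)).entC (fun y => F.tub s s' (y.1, y.2 j)) (fun y => (F.iso s' y.1, y.2))
      ≤ F.N s' - F.I s s' + Real.log (bnM3 n A) := by
    intro j
    have a1 : (rdLaw F.P (n + 2)).entC (fun y => F.tub s s' (y.1, y.2 j)) (fun y => (F.iso s' y.1, y.2))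
        ≤ (rdLaw F.P (n + 2)).entC (fun y => F.tub s s' (y.1, y.2 j)) (fun y => (F.iso s' y.1, y.2 j)) := by
      refine ent_entC_anti _ _ _ _ fun ω ω' _ _ hh => ?_
      simp only [Prod.mk.injEq] at hh ⊢
      exact ⟨hh.1, by rw [hh.2]⟩
    have a2 := ent_map_entC (rdLaw F.P (n + 2)) (fun y => (y.1, y.2 j)) (F.tub s s') (pair (fun y => F.iso s' y.1) Prod.snd)
    rw [rd_map] at a2
    have a3 := bn_tub_ent F hB hA hs hss
    have a4 : (rdLaw F.P (n + 2)).entC (fun y => F.tub s s' (y.1, y.2 j)) (fun y => (F.iso s' y.1, y.2 j))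
        = F.P.entC (F.tub s s') (pair (fun y => F.iso s' y.1) Prod.snd) := a2.symm
    linarith
  have h4 : ∑ j : Fin (n + 2), (rdLaw F.P (n + 2)).entC (fun y => F.tub s s' (y.1, y.2 j)) (fun y => (F.iso s' y.1, y.2))
      ≤ ((n + 2 : ℕ) : ℝ) * (F.N s' - F.I s s' + Real.log (bnM3 n A)) := by
    calc ∑ j : Fin (n + 2), (rdLaw F.P (n + 2)).entC (fun y => F.tub s s' (y.1, y.2 j)) (fun y => (F.iso s' y.1, y.2))
        ≤ ∑ _j : Fin (n + 2), (F.N s' - F.I s s' + Real.log (bnM3 n A)) := Finset.sum_le_sum fun j _ => h3 j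
      _ = ((n + 2 : ℕ) : ℝ) * (F.N s' - F.I s s' + Real.log (bnM3 n A)) := by
          rw [Finset.sum_const, Finset.card_univ, Fintype.card_fin, nsmul_eq_mul]
  have h5 : ((n + 1 : ℕ) : ℝ) * (F.N s' - F.N s - ((n + 2 : ℕ) : ℝ) * F.io s')
      ≤ ((n + 1 : ℕ) : ℝ) * (rdLaw F.P (n + 2)).entC (fun y => F.iso s y.1) (fun y => (F.iso s' y.1, y.2)) :=
    mul_le_mul_of_nonneg_left h1 (Nat.cast_nonneg _)
  unfold bnErr
  have e : ((n + 2 : ℕ) : ℝ) = ((n + 1 : ℕ) : ℝ) + 1 := by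
    push_cast
    ring
  rw [e] at h4 h5 h2 ⊢
  nlinarith

/-- LEAF `L-F3-B8`  **CHAIN** (exit 2), `s ≤ s' ≤ s''`:  `I(s,s'') ≤ I(s,s') + I(s',s'') - N(s') + io(s') + log(2^(n+2) bnM3)`.
PLAN.  `τ' y = ⌊pos y.1 0/s'⌋`.   (A) `ek_label` (`B = τ'`, `Y = pair (tub s s'') snd`): `I(s,s'') = H(τ' | tub s s'', θ) + H(x | τ', tub s s'', θ)`, and the last is `≤ I(s,s')` (`ent_entC_anti`: `(τ', tub s s'')` determines `tub s s'`).
(B) `H(τ' | tub s s'', θ) ≤ H(τ' | tub s' s'', θ) + (n+2) log 2`: `H(τ'|Y,θ) ≤ H(pair τ' Y' | Y, θ) = H(Y'|Y,θ) + H(τ'|Y',Y,θ)` (`ent_entC_mono`, `ent_entC_chain`), `Y' = tub s' s''` has `≤ 2^(n+2)` values over `Y = tub s s''` (`s ≤ s'`).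
(C) `ek_label`: `H(τ' | tub s' s'', θ) = I(s',s'') - H(x | τ', tub s' s'', θ)`, and `H(x | τ', tub s' s'', θ) ≥ H(x | iso s', τ', tub s' s'', θ) ≥ H(x | iso s', θ) - log bnM3` (`ek_label_nval`: over `(iso s', θ)` the label `(τ', tub s' s'')` has
`≤ 2 (2A+4)^(n+2)` values), `H(x | iso s', θ) = N s' - io s'` (`ent_miC_eq`). -/
theorem bn_chain (F : BnCfg n 𝒳 𝒯 𝒲) {K A γ ρ s s' s'' : ℝ} (hB : F.Base K A γ ρ) (hA : 1 ≤ A) (hs : 0 < s) (hss : s ≤ s') (hss' : s' ≤ s'') :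
    F.I s s'' ≤ F.I s s' + F.I s' s'' - F.N s' + F.io s' + Real.log (2 ^ (n + 2) * bnM3 n A) := by
  have hs' : 0 < s' := hs.trans_le hss
  have hs'' : 0 < s'' := hs'.trans_le hss'
  have hA0 : 0 ≤ A := by linarith
  obtain ⟨τ', hτ'⟩ : ∃ τ' : 𝒳 × 𝒯 → ℤ, τ' = fun y => ⌊F.pos y.1 0 / s'⌋ := ⟨_, rfl⟩
  have hfun : ∀ {β' γ' : Type} (Bf : 𝒳 × 𝒯 → β') (Yf : 𝒳 × 𝒯 → γ') (ω ω' : 𝒳 × 𝒯), F.P.p ω ≠ 0 → F.P.p ω' ≠ 0 →
      Prod.fst ω = Prod.fst ω' → pair Yf Prod.snd ω = pair Yf Prod.snd ω' → Bf ω = Bf ω' := by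
    intro β' γ' Bf Yf ω ω' _ _ h1 h2
    simp only [pair, Prod.mk.injEq] at h2
    rw [Prod.ext h1 h2.2]
  -- (A)
  have A1 := ek_label F.P Prod.fst τ' (pair (F.tub s s'') Prod.snd) (hfun τ' (F.tub s s''))
  have A2 : F.P.entC Prod.fst (pair τ' (pair (F.tub s s'') Prod.snd)) ≤ F.I s s' := by
    refine ent_entC_anti _ _ _ _ fun ω ω' _ _ hh => ?_
    simp only [pair, BnCfg.tub, Prod.mk.injEq, hτ'] at hh ⊢
    exact ⟨⟨hh.2.1.1, hh.2.1.2.1, hh.1⟩, hh.2.2⟩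
  -- (B)
  have B1 : F.P.entC τ' (pair (F.tub s s'') Prod.snd) ≤ F.P.entC (pair (F.tub s' s'') τ') (pair (F.tub s s'') Prod.snd) := by
    refine ent_entC_mono _ _ _ _ fun ω ω' _ _ hh _ => ?_
    simp only [pair, Prod.mk.injEq] at hh
    exact hh.2
  have B2 := ent_entC_chain F.P (F.tub s' s'') τ' (pair (F.tub s s'') Prod.snd)
  have B3 : F.P.entC τ' (pair (F.tub s' s'') (pair (F.tub s s'') Prod.snd)) ≤ F.P.entC τ' (pair (F.tub s' s'') Prod.snd) := by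
    refine ent_entC_anti _ _ _ _ fun ω ω' _ _ hh => ?_
    simp only [pair, Prod.mk.injEq] at hh ⊢
    exact ⟨hh.1, hh.2.2⟩
  have B4 : F.P.entC (F.tub s' s'') (pair (F.tub s s'') Prod.snd) ≤ Real.log (2 ^ (n + 2)) := by
    refine ent_entC_le_log_nval _ _ _ fun ω₀ => ?_
    obtain ⟨S, hS, hS2⟩ := bn_two_vec (d := n + 2) hs hss (bnTub s (F.pos ω₀.1) (F.dir ω₀.2))
    refine ⟨S.image fun f => (F.grp ω₀.1, f, ⌊F.pos ω₀.1 0 / s''⌋), ?_, fun ω _ _ hω => ?_⟩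
    · have h1 : ((S.image fun f => (F.grp ω₀.1, f, ⌊F.pos ω₀.1 0 / s''⌋)).card : ℝ) ≤ S.card := by
        exact_mod_cast Finset.card_image_le
      exact h1.trans hS
    · simp only [pair, BnCfg.tub, Prod.mk.injEq] at hω
      obtain ⟨⟨hg, ht, h0⟩, hθ⟩ := hω
      rw [Finset.mem_image]
      refine ⟨bnTub s' (F.pos ω.1) (F.dir ω.2), hS2 (fun l => F.pos ω.1 l - F.pos ω.1 0 * F.dir ω.2 l) ht, ?_⟩
      simp only [BnCfg.tub]
      rw [hg, h0]
  -- (C)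
  have C1 := ek_label F.P Prod.fst τ' (pair (F.tub s' s'') Prod.snd) (hfun τ' (F.tub s' s''))
  have hN : F.P.NVal (fun _ => True) (pair τ' (F.tub s' s'')) (pair Prod.snd (fun y => F.iso s' y.1)) (bnM3 n A) := by
    intro ω₀
    obtain ⟨S₁, hS₁, hS₁2⟩ := bn_count_box (d := n + 2) hs' (show 0 ≤ 1 + A by linarith)
      (fun l => F.pos ω₀.1 l - F.pos ω₀.1 0 * F.dir ω₀.2 l)
    obtain ⟨S₂, hS₂, hS₂2⟩ := bn_two hs' hss' ⌊F.pos ω₀.1 0 / s'⌋
    refine ⟨(S₁ ×ˢ S₂).image fun fk => (⌊F.pos ω₀.1 0 / s'⌋, F.grp ω₀.1, fk.1, fk.2), ?_, fun ω _ _ hω => ?_⟩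
    · have h1 : (((S₁ ×ˢ S₂).image fun fk => (⌊F.pos ω₀.1 0 / s'⌋, F.grp ω₀.1, fk.1, fk.2)).card : ℝ) ≤ (S₁ ×ˢ S₂).card := by
        exact_mod_cast Finset.card_image_le
      refine h1.trans ?_
      rw [Finset.card_product]
      push_cast
      unfold bnM3
      have e : 2 * (1 + A) + 2 = 2 * A + 4 := by ring
      rw [e] at hS₁
      have h2 : (S₂.card : ℝ) ≤ 2 := by exact_mod_cast hS₂
      calc (S₁.card : ℝ) * S₂.card ≤ (2 * A + 4) ^ (n + 2) * 2 := mul_le_mul hS₁ h2 (Nat.cast_nonneg _) (by positivity)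
        _ = 2 * (2 * A + 4) ^ (n + 2) := by ring
    · simp only [pair, BnCfg.iso, Prod.mk.injEq] at hω
      obtain ⟨hθ, hg, hi⟩ := hω
      have hcl : ∀ l, |F.pos ω.1 l - F.pos ω₀.1 l| ≤ s' := fun l => bn_floor_close hs' (congrFun hi l)
      have h00 : ⌊F.pos ω.1 0 / s'⌋ = ⌊F.pos ω₀.1 0 / s'⌋ := congrFun hi 0
      rw [Finset.mem_image]
      refine ⟨(bnTub s' (F.pos ω.1) (F.dir ω.2), ⌊F.pos ω.1 0 / s''⌋), Finset.mem_product.2 ⟨?_, hS₂2 _ h00⟩, ?_⟩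
      · refine hS₁2 (fun l => F.pos ω.1 l - F.pos ω.1 0 * F.dir ω.2 l) fun l => ?_
        rw [hθ]
        have a2 := hB.hdir ω₀.2 l
        have e : (F.pos ω.1 l - F.pos ω.1 0 * F.dir ω₀.2 l) - (F.pos ω₀.1 l - F.pos ω₀.1 0 * F.dir ω₀.2 l)
            = (F.pos ω.1 l - F.pos ω₀.1 l) + (-(F.pos ω.1 0 - F.pos ω₀.1 0)) * F.dir ω₀.2 l := by ring
        rw [e]
        calc |(F.pos ω.1 l - F.pos ω₀.1 l) + (-(F.pos ω.1 0 - F.pos ω₀.1 0)) * F.dir ω₀.2 l|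
            ≤ |F.pos ω.1 l - F.pos ω₀.1 l| + |(-(F.pos ω.1 0 - F.pos ω₀.1 0)) * F.dir ω₀.2 l| := abs_add_le _ _
          _ ≤ s' + s' * A := by
              rw [abs_mul, abs_neg]
              exact add_le_add (hcl l) (mul_le_mul (hcl 0) a2 (abs_nonneg _) hs'.le)
          _ = (1 + A) * s' := by ring
      · simp only [pair, BnCfg.tub, hτ']
        rw [hg, h00]
  have C2 := ek_label_nval F.P Prod.fst (pair τ' (F.tub s' s'')) (pair Prod.snd (fun y => F.iso s' y.1)) (fun ω ω' _ _ h1 h2 => by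
    simp only [pair, Prod.mk.injEq] at h2
    rw [Prod.ext h1 h2.1]) hN
  have C3 : F.P.entC Prod.fst (pair (pair τ' (F.tub s' s'')) (pair Prod.snd (fun y => F.iso s' y.1)))
      ≤ F.P.entC Prod.fst (pair τ' (pair (F.tub s' s'') Prod.snd)) := by
    refine ent_entC_anti _ _ _ _ fun ω ω' _ _ hh => ?_
    simp only [pair, Prod.mk.injEq] at hh ⊢
    exact ⟨hh.1.1, hh.1.2, hh.2.1⟩
  have C4 : F.io s' = F.N s' - F.P.entC Prod.fst (pair Prod.snd (fun y => F.iso s' y.1)) := ent_miC_eq F.P _ _ _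
  have e1 : F.I s s'' = F.P.entC Prod.fst (pair (F.tub s s'') Prod.snd) := rfl
  have e2 : F.I s' s'' = F.P.entC Prod.fst (pair (F.tub s' s'') Prod.snd) := rfl
  have e3 : Real.log (2 ^ (n + 2) * bnM3 n A) = Real.log (2 ^ (n + 2)) + Real.log (bnM3 n A) := by
    refine Real.log_mul (by positivity) ?_
    unfold bnM3
    positivity
  rw [e3]
  linarith

/-- LEAF `L-F3-B9`  **count bound ⟹ entropy bound**: `N s ≤ log C` if every isotropic cell has `≤ C` points of the support.   PLAN. `ent_entC_le_log_nval`; `P.p (x,θ) ≠ 0 → rdM P x ≠ 0`. -/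
theorem bn_N_le (F : BnCfg n 𝒳 𝒯 𝒲) (s C : ℝ)
    (h : ∀ x0 : 𝒳, (((Finset.univ.filter fun x => rdM F.P x ≠ 0 ∧ F.iso s x = F.iso s x0).card : ℕ) : ℝ) ≤ C) : F.N s ≤ Real.log C := by
  unfold BnCfg.N
  refine ent_entC_le_log_nval _ _ _ fun ω₀ =>
    ⟨Finset.univ.filter fun x => rdM F.P x ≠ 0 ∧ F.iso s x = F.iso s ω₀.1, h ω₀.1, fun ω hω _ hi => ?_⟩
  rw [Finset.mem_filter]
  exact ⟨Finset.mem_univ _, fun h0 => hω (rd_p_eq_zero F.P h0 ω.2), hi⟩

end Claimed.Agent.R257
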