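import Claimed.Agent.R257.FR3.BinSam

/-!
# ROW 257, package FR3, unit BIN, file 4: EXTRACTION OF A CONFIGURATION OF PROJ(d)      (architect helper121)

PAPER-FREE.   H frame.tex l.1333-1378 ("set extraction").   One good parent cell `q` of side `L^2`, rescaled to the unit cube; `ρ = L⁻¹`.
-/

set_option autoImplicit false

namespace Claimed.Agent.R257

open scoped BigOperators
open Classical Matrix
open Claimed.Agent.R255 Claimed.Agent.R255.FLaw Claimed.Agent.RW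

variable {n : ℕ} {𝒳 𝒯 𝒲 : Type} [Fintype 𝒳] [Fintype 𝒯]

/-- LEAF `L-F3-D0`  monotonicity of `PjCfg.Ok` in the loss.   PLAN: field by field (`inv_anti₀` for `mass`). -/
theorem PjCfg.Ok.mono {d : ℕ} {X T : Type} [Fintype X] [Fintype T] {G : PjCfg d X T} {ρ K K' A d0 γ : ℝ} (h : G.Ok ρ K A d0 γ) (hρ : 0 < ρ)
    (hK : 0 < K) (hKK : K ≤ K') : G.Ok ρ K' A d0 γ := by
  refine ⟨h.μ0, h.ν0, h.μ1, h.ν1, h.hpt, h.hdir, fun z r hr hr1 => ?_, fun w hw r hr hr1 => ?_, ?_, fun b r hr hr1 => ?_⟩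
  · exact (h.frost z r hr hr1).trans (mul_le_mul_of_nonneg_right hKK (Real.rpow_nonneg (hρ.le.trans hr) _))
  · exact (h.strip w hw r hr hr1).trans (mul_le_mul_of_nonneg_right hKK (Real.rpow_nonneg (hρ.le.trans hr) _))
  · exact (inv_anti₀ hK hKK).trans h.mass
  · obtain ⟨cov, h1, h2⟩ := h.tube b r hr hr1
    exact ⟨cov, h1.trans (mul_le_mul_of_nonneg_right hKK (Real.rpow_nonneg (hρ.le.trans hr) _)), h2⟩

/-- the mass of a set of points -/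
theorem bn_rdM_pr (P : FLaw (𝒳 × 𝒯)) (Q : 𝒳 → Prop) [DecidablePred Q] : ∑ x with Q x, rdM P x = P.pr (fun y => Q y.1) := by
  unfold rdM FLaw.pr
  rw [Fintype.sum_prod_type, Finset.sum_filter]
  refine Finset.sum_congr rfl fun x _ => ?_
  by_cases h : Q x <;> simp [h]

/-- `r = L^λ`, `λ ∈ [-1,0]` -/
theorem bn_lam {L r : ℝ} (hL : 1 < L) (hr : L⁻¹ ≤ r) (hr1 : r ≤ 1) :
    -1 ≤ Real.log r / Real.log L ∧ Real.log r / Real.log L ≤ 0 ∧ L ^ (Real.log r / Real.log L) = r := by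
  have hL0 : 0 < L := by linarith
  have hlog : 0 < Real.log L := Real.log_pos hL
  have hr0 : 0 < r := lt_of_lt_of_le (inv_pos.2 hL0) hr
  have h1 : -Real.log L ≤ Real.log r := by
    rw [← Real.log_inv]
    exact Real.log_le_log (inv_pos.2 hL0) hr
  have h2 : Real.log r ≤ 0 := Real.log_nonpos hr0.le hr1
  refine ⟨?_, div_nonpos_of_nonpos_of_nonneg h2 hlog.le, ?_⟩
  · rw [le_div_iff₀ hlog]
    linarith
  · rw [Real.rpow_def_of_pos hL0]
    have : Real.log L * (Real.log r / Real.log L) = Real.log r := by field_simp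
    rw [this, Real.exp_log hr0]

/-- the mesh scale above `r L^2` -/
theorem bn_mesh_up {L r : ℝ} {m : ℕ} (hL : 1 < L) (hm : 0 < m) (hr : L⁻¹ ≤ r) (hr1 : r ≤ 1) :
    ∃ j : ℕ, m ≤ j ∧ j ≤ 2 * m ∧ L ^ (2 : ℝ) * r ≤ L ^ ((j : ℝ) / m) ∧ L ^ ((j : ℝ) / m - 2) ≤ r * L ^ ((1 : ℝ) / m) := by
  obtain ⟨h1, h2, h3⟩ := bn_lam hL hr hr1
  set lam := Real.log r / Real.log L with hlam
  have hL0 : 0 < L := by linarith
  have hm' : (0 : ℝ) < m := by exact_mod_cast hm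
  have h0 : 0 ≤ (m : ℝ) * (2 + lam) := by nlinarith
  refine ⟨⌈(m : ℝ) * (2 + lam)⌉₊, ?_, ?_, ?_, ?_⟩
  · have : (m : ℝ) ≤ (⌈(m : ℝ) * (2 + lam)⌉₊ : ℝ) := le_trans (by nlinarith) (Nat.le_ceil _)
    exact_mod_cast this
  · refine Nat.ceil_le.2 ?_
    push_cast
    nlinarith
  · have e : L ^ (2 : ℝ) * r = L ^ (2 + lam) := by rw [Real.rpow_add hL0, h3]
    rw [e]
    refine Real.rpow_le_rpow_of_exponent_le hL.le ?_
    rw [le_div_iff₀ hm', mul_comm]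
    exact Nat.le_ceil _
  · have e : r * L ^ ((1 : ℝ) / m) = L ^ (lam + 1 / m) := by rw [Real.rpow_add hL0, h3]
    rw [e]
    refine Real.rpow_le_rpow_of_exponent_le hL.le ?_
    have := (Nat.ceil_lt_add_one h0).le
    have e2 : (⌈(m : ℝ) * (2 + lam)⌉₊ : ℝ) / m ≤ ((m : ℝ) * (2 + lam) + 1) / m := div_le_div_of_nonneg_right this hm'.le
    have e3 : ((m : ℝ) * (2 + lam) + 1) / m = 2 + lam + 1 / m := by field_simp
    linarith

/-- the mesh scale below `r L^2` -/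
theorem bn_mesh_down {L r : ℝ} {m : ℕ} (hL : 1 < L) (hm : 0 < m) (hr : L⁻¹ ≤ r) (hr1 : r ≤ 1) :
    ∃ j : ℕ, m ≤ j ∧ j ≤ 2 * m ∧ L ^ ((j : ℝ) / m) ≤ L ^ (2 : ℝ) * r ∧ L ^ (2 - (j : ℝ) / m) ≤ L ^ ((1 : ℝ) / m) * r⁻¹ := by
  obtain ⟨h1, h2, h3⟩ := bn_lam hL hr hr1
  set lam := Real.log r / Real.log L with hlam
  have hL0 : 0 < L := by linarith
  have hm' : (0 : ℝ) < m := by exact_mod_cast hm
  have h0 : 0 ≤ (m : ℝ) * (2 + lam) := by nlinarith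
  refine ⟨⌊(m : ℝ) * (2 + lam)⌋₊, ?_, ?_, ?_, ?_⟩
  · refine Nat.le_floor ?_
    nlinarith
  · have : (⌊(m : ℝ) * (2 + lam)⌋₊ : ℝ) ≤ ((2 * m : ℕ) : ℝ) := by
      refine (Nat.floor_le h0).trans ?_
      push_cast
      nlinarith
    exact_mod_cast this
  · have e : L ^ (2 : ℝ) * r = L ^ (2 + lam) := by rw [Real.rpow_add hL0, h3]
    rw [e]
    refine Real.rpow_le_rpow_of_exponent_le hL.le ?_
    rw [div_le_iff₀ hm', mul_comm (2 + lam)]
    exact Nat.floor_le h0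
  · have e : L ^ ((1 : ℝ) / m) * r⁻¹ = L ^ (1 / m - lam) := by rw [Real.rpow_sub hL0, h3]; rfl
    rw [e]
    refine Real.rpow_le_rpow_of_exponent_le hL.le ?_
    have := (Nat.lt_floor_add_one ((m : ℝ) * (2 + lam))).le
    have e2 : ((m : ℝ) * (2 + lam)) / m ≤ ((⌊(m : ℝ) * (2 + lam)⌋₊ : ℝ) + 1) / m := div_le_div_of_nonneg_right this hm'.le
    have e3 : ((m : ℝ) * (2 + lam)) / m = 2 + lam := by field_simp
    have e4 : ((⌊(m : ℝ) * (2 + lam)⌋₊ : ℝ) + 1) / m = (⌊(m : ℝ) * (2 + lam)⌋₊ : ℝ) / m + 1 / m := by ring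
    linarith

/-- the success event: Frostman at all the mesh scales and few tilted cells at all the mesh widths -/
def BnCfg.Suc (F : BnCfg n 𝒳 𝒯 𝒲) (L d0 a b : ℝ) (m : ℕ) (y : 𝒳 × 𝒯) : Prop :=
  (∀ j : ℕ, m ≤ j → j ≤ 2 * m → F.Fr L d0 ((j : ℝ) / m) a y.1) ∧
  ∀ j : ℕ, m ≤ j → j ≤ 2 * m → F.sur (L ^ ((j : ℝ) / m)) (L ^ (2 : ℝ)) y ≤ ((n + 1 : ℕ) : ℝ) * d0 * (2 - (j : ℝ) / m) * Real.log L + b

/-- the configuration of PROJ(d) attached to the parent cell of `x0` -/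
noncomputable def BnCfg.toPj (F : BnCfg n 𝒳 𝒯 𝒲) (L d0 a b : ℝ) (m : ℕ) (x0 : 𝒳) : PjCfg (n + 2) 𝒳 𝒯 where
  μ := fun x => if F.iso (L ^ (2 : ℝ)) x = F.iso (L ^ (2 : ℝ)) x0 ∧ (∀ j : ℕ, m ≤ j → j ≤ 2 * m → F.Fr L d0 ((j : ℝ) / m) a x) then
    rdM F.P x / F.P.pr (fun y => F.iso (L ^ (2 : ℝ)) y.1 = F.iso (L ^ (2 : ℝ)) x0) else 0
  ν := F.ν (F.grp x0)
  pt := fun x => if F.iso (L ^ (2 : ℝ)) x = F.iso (L ^ (2 : ℝ)) x0 then fun l => F.pos x l / L ^ (2 : ℝ) - (bnIso (L ^ (2 : ℝ)) (F.pos x0) l : ℝ) else 0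
  dir := F.dir
  S := Finset.univ.filter fun y => F.P.p y ≠ 0 ∧ F.iso (L ^ (2 : ℝ)) y.1 = F.iso (L ^ (2 : ℝ)) x0 ∧ F.Suc L d0 a b m y

/-- LEAF `L-F3-D1`  a good parent cell exists.   PLAN: `ent_pr_tower` on `C = iso (L^2) ∘ fst`: the average of `(cfib C ω).pr Suc` is `≥ 1/2`, so some `ω` of the support has it `≥ 1/2` (else `ent_ev_mono` gives `< 1/2`; or `ent_ev_le_of_bad`);
`ent_cfib_pr`. -/
theorem bn_parent (F : BnCfg n 𝒳 𝒯 𝒲) (L d0 a b : ℝ) (m : ℕ) (hS : 1 / 2 ≤ F.P.pr (F.Suc L d0 a b m)) :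
    ∃ x0 : 𝒳, 0 < F.P.pr (fun y => F.iso (L ^ (2 : ℝ)) y.1 = F.iso (L ^ (2 : ℝ)) x0) ∧
      1 / 2 * F.P.pr (fun y => F.iso (L ^ (2 : ℝ)) y.1 = F.iso (L ^ (2 : ℝ)) x0) ≤
        F.P.pr (fun y => F.Suc L d0 a b m y ∧ F.iso (L ^ (2 : ℝ)) y.1 = F.iso (L ^ (2 : ℝ)) x0) := by
  set C : 𝒳 × 𝒯 → 𝒲 × (Fin (n + 2) → ℤ) := fun y => F.iso (L ^ (2 : ℝ)) y.1 with hC
  have h1 := ent_pr_tower F.P C (F.Suc L d0 a b m)
  have hne : (Finset.univ.filter fun ω : 𝒳 × 𝒯 => F.P.p ω ≠ 0).Nonempty := by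
    by_contra h
    rw [Finset.not_nonempty_iff_eq_empty, Finset.filter_eq_empty_iff] at h
    have h2 : ∑ ω, F.P.p ω = 0 := Finset.sum_eq_zero fun ω hω => not_not.1 (h hω)
    rw [F.P.sum_one] at h2
    exact one_ne_zero h2
  have hs1 : ∑ ω ∈ Finset.univ.filter (fun ω : 𝒳 × 𝒯 => F.P.p ω ≠ 0), F.P.p ω * (1 / 2) = 1 / 2 := by
    rw [← Finset.sum_mul, Finset.sum_filter_ne_zero, F.P.sum_one, one_mul]
  have hs2 : ∑ ω ∈ Finset.univ.filter (fun ω : 𝒳 × 𝒯 => F.P.p ω ≠ 0), F.P.p ω * (F.P.cfib C ω).pr (F.Suc L d0 a b m)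
      = F.P.pr (F.Suc L d0 a b m) := by
    rw [h1]
    unfold FLaw.ev
    refine Finset.sum_subset (Finset.filter_subset _ _) fun ω _ hω => ?_
    have : F.P.p ω = 0 := by
      by_contra h
      exact hω (Finset.mem_filter.2 ⟨Finset.mem_univ _, h⟩)
    rw [this, zero_mul]
  obtain ⟨ω, hω, hle⟩ := Finset.exists_le_of_sum_le hne (hs1.le.trans (hS.trans hs2.ge))
  have hp : F.P.p ω ≠ 0 := (Finset.mem_filter.1 hω).2
  have hp0 : 0 < F.P.p ω := lt_of_le_of_ne (F.P.nonneg ω) (Ne.symm hp)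
  have hfib : 0 < F.P.fib C ω := ent_fib_pos F.P C hp
  have h2 : 1 / 2 ≤ (F.P.cfib C ω).pr (F.Suc L d0 a b m) := le_of_mul_le_mul_left hle hp0
  rw [ent_cfib_pr F.P C hfib, le_div_iff₀ hfib] at h2
  exact ⟨ω.1, hfib, h2⟩

/-- LEAF `L-F3-D2`  **Frostman.**
PLAN.  `r ∈ [L⁻¹,1]`; `j = ⌈m (2 + log r/log L)⌉₊ ∈ [m, 2m]`, `v = j/m`: `r L^2 ≤ L^v ≤ r L^2 L^(1/m)`.  Points with `μ ≠ 0` in the ball (`dist_pi_le_iff`): `pos x l ∈ [c_l - r L^2, c_l + r L^2]`, an interval of length `≤ 2 L^v`: `≤ 3` labels per coordinate, so they lie in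
`≤ 3^(n+2)` cells `iso (L^v)`;  in one cell (with a point `x` of `μ ≠ 0`): `∑ μ ≤ P(iso_v = · ∧ parent)/P(parent) ≤ L^(-(n+2) d0 (2-v)) e^(2a)` (`Fr` at `x`), and `L^(v-2) ≤ r L^(1/m)` (`Real.rpow_le_rpow_left_iff`, `Real.mul_rpow`). -/
theorem bn_ext_frost (F : BnCfg n 𝒳 𝒯 𝒲) {L d0 a b : ℝ} {m : ℕ} (hL : 1 < L) (hd0 : 0 ≤ d0) (hm : 0 < m) (x0 : 𝒳)
    (hx0 : 0 < F.P.pr (fun y => F.iso (L ^ (2 : ℝ)) y.1 = F.iso (L ^ (2 : ℝ)) x0)) :
    KfFrost (F.toPj L d0 a b m x0).μ (F.toPj L d0 a b m x0).pt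
      (3 ^ (n + 2) * Real.exp (2 * a) * L ^ (((n + 2 : ℕ) : ℝ) * d0 / m)) (((n + 2 : ℕ) : ℝ) * d0) L⁻¹ := by
  intro z r hr hr1
  have hL0 : 0 < L := by linarith
  have hr0 : 0 < r := lt_of_lt_of_le (inv_pos.2 hL0) hr
  obtain ⟨j, hj1, hj2, hj3, hj4⟩ := bn_mesh_up hL hm hr hr1
  set v : ℝ := (j : ℝ) / m with hv
  set s2 : ℝ := L ^ (2 : ℝ) with hs2
  set sv : ℝ := L ^ v with hsv
  have hs2pos : 0 < s2 := Real.rpow_pos_of_pos hL0 _
  have hsvpos : 0 < sv := Real.rpow_pos_of_pos hL0 _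
  set pP := F.P.pr (fun y => F.iso s2 y.1 = F.iso s2 x0) with hpP
  set G := F.toPj L d0 a b m x0 with hG
  set E : ℝ := ((n + 2 : ℕ) : ℝ) * d0 with hE
  have hE0 : 0 ≤ E := by positivity
  have hμ : ∀ x, G.μ x = if F.iso s2 x = F.iso s2 x0 ∧ (∀ j : ℕ, m ≤ j → j ≤ 2 * m → F.Fr L d0 ((j : ℝ) / m) a x) then
      rdM F.P x / pP else 0 := fun x => rfl
  have hμle : ∀ x, G.μ x ≤ rdM F.P x / pP := by
    intro x
    rw [hμ]
    split_ifs
    · exact le_rfl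
    · exact div_nonneg (rd_M_nonneg _ _) hx0.le
  have hcond : ∀ x, G.μ x ≠ 0 → F.iso s2 x = F.iso s2 x0 ∧ (∀ j : ℕ, m ≤ j → j ≤ 2 * m → F.Fr L d0 ((j : ℝ) / m) a x) := by
    intro x hx
    by_contra h
    exact hx (by rw [hμ, if_neg h])
  set k : Fin (n + 2) → ℤ := bnIso s2 (F.pos x0) with hk
  set bl : Fin (n + 2) → ℤ := fun l => ⌊(z l + k l - r) * (s2 / sv)⌋ with hbl
  set T : Finset (Fin (n + 2) → ℤ) := Fintype.piFinset fun l => Finset.Icc (bl l) (bl l + 2) with hT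
  have hTcard : T.card = 3 ^ (n + 2) := by
    rw [hT, Fintype.card_piFinset]
    have : ∀ l : Fin (n + 2), (Finset.Icc (bl l) (bl l + 2)).card = 3 := by
      intro l
      rw [Int.card_Icc]
      omega
    simp [this]
  set S' : Finset 𝒳 := Finset.univ.filter fun x => dist (G.pt x) z ≤ r ∧ G.μ x ≠ 0 with hS'
  have e1 : ∑ x with dist (G.pt x) z ≤ r, G.μ x = ∑ x ∈ S', G.μ x := by
    rw [hS', ← Finset.filter_filter, Finset.sum_filter_ne_zero]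
  have hσ : r * (s2 / sv) ≤ 1 := by
    rw [← mul_div_assoc, div_le_one hsvpos, mul_comm]
    exact hj3
  have hσ0 : 0 < s2 / sv := div_pos hs2pos hsvpos
  have hmaps : ∀ x ∈ S', bnIso sv (F.pos x) ∈ T := by
    intro x hx
    obtain ⟨-, hd, hne⟩ := Finset.mem_filter.1 hx
    have hc := (hcond x hne).1
    have hpt : ∀ l, G.pt x l = F.pos x l / s2 - (k l : ℝ) := by
      intro l
      have : G.pt x = fun l => F.pos x l / s2 - (k l : ℝ) := if_pos hc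
      rw [this]
    rw [hT, Fintype.mem_piFinset]
    intro l
    have hdl : |G.pt x l - z l| ≤ r := by
      have := (dist_pi_le_iff hr0.le).1 hd l
      rwa [Real.dist_eq] at this
    obtain ⟨d1, d2⟩ := abs_le.1 hdl
    have hq : F.pos x l / sv = (G.pt x l + k l) * (s2 / sv) := by
      rw [hpt]
      field_simp
      ring
    have f1 := Int.floor_le ((z l + k l - r) * (s2 / sv))
    have f2 := Int.lt_floor_add_one ((z l + k l - r) * (s2 / sv))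
    rw [Finset.mem_Icc]
    constructor
    · show bl l ≤ ⌊F.pos x l / sv⌋
      rw [Int.le_floor, hq]
      refine f1.trans (mul_le_mul_of_nonneg_right (by linarith) hσ0.le)
    · show ⌊F.pos x l / sv⌋ ≤ bl l + 2
      rw [Int.floor_le_iff, hq]
      push_cast
      have : (G.pt x l + k l) * (s2 / sv) ≤ (z l + k l - r) * (s2 / sv) + 2 * (r * (s2 / sv)) := by
        have := mul_le_mul_of_nonneg_right (show G.pt x l + k l ≤ z l + k l + r by linarith) hσ0.le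
        linarith
      have f2' : (z l + k l - r) * (s2 / sv) < (bl l : ℝ) + 1 := f2
      linarith
  have e2 : ∑ x ∈ S', G.μ x = ∑ t ∈ T, ∑ x ∈ S' with bnIso sv (F.pos x) = t, G.μ x :=
    (Finset.sum_fiberwise_of_maps_to hmaps _).symm
  have hcell : ∀ t ∈ T, ∑ x ∈ S' with bnIso sv (F.pos x) = t, G.μ x ≤ L ^ (-(E * (2 - v))) * Real.exp (2 * a) := by
    intro t _
    by_cases hne : (S'.filter fun x => bnIso sv (F.pos x) = t).Nonempty
    · obtain ⟨x₁, hx₁⟩ := hne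
      obtain ⟨hx₁S, hx₁t⟩ := Finset.mem_filter.1 hx₁
      obtain ⟨c1, c2⟩ := hcond x₁ (Finset.mem_filter.1 hx₁S).2.2
      have hFr := c2 j hj1 hj2
      unfold BnCfg.Fr at hFr
      rw [c1] at hFr
      have hsub : (S'.filter fun x => bnIso sv (F.pos x) = t) ⊆
          Finset.univ.filter fun x => F.iso sv x = F.iso sv x₁ ∧ F.iso s2 x = F.iso s2 x0 := by
        intro x hx
        obtain ⟨hxS, hxt⟩ := Finset.mem_filter.1 hx
        have c := (hcond x (Finset.mem_filter.1 hxS).2.2).1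
        refine Finset.mem_filter.2 ⟨Finset.mem_univ _, ?_, c⟩
        have g1 : F.grp x = F.grp x0 := congrArg Prod.fst c
        have g2 : F.grp x₁ = F.grp x0 := congrArg Prod.fst c1
        show (F.grp x, bnIso sv (F.pos x)) = (F.grp x₁, bnIso sv (F.pos x₁))
        rw [g1, g2, hxt, hx₁t]
      calc ∑ x ∈ S' with bnIso sv (F.pos x) = t, G.μ x ≤ ∑ x ∈ S' with bnIso sv (F.pos x) = t, rdM F.P x / pP :=
            Finset.sum_le_sum fun x _ => hμle x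
        _ ≤ ∑ x with F.iso sv x = F.iso sv x₁ ∧ F.iso s2 x = F.iso s2 x0, rdM F.P x / pP :=
            Finset.sum_le_sum_of_subset_of_nonneg hsub fun x _ _ => div_nonneg (rd_M_nonneg _ _) hx0.le
        _ = F.P.pr (fun y => F.iso sv y.1 = F.iso sv x₁ ∧ F.iso s2 y.1 = F.iso s2 x0) / pP := by
            rw [← Finset.sum_div, bn_rdM_pr F.P fun x => F.iso sv x = F.iso sv x₁ ∧ F.iso s2 x = F.iso s2 x0]
        _ ≤ L ^ (-(E * (2 - v))) * Real.exp (2 * a) := by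
            rw [div_le_iff₀ hx0]
            exact hFr
    · rw [Finset.not_nonempty_iff_eq_empty] at hne
      rw [hne, Finset.sum_empty]
      positivity
  have harith : L ^ (-(E * (2 - v))) ≤ L ^ (E / m) * r ^ E := by
    have a1 : L ^ (-(E * (2 - v))) = (L ^ (v - 2)) ^ E := by
      rw [← Real.rpow_mul hL0.le]
      congr 1
      ring
    have a2 : (r * L ^ ((1 : ℝ) / m)) ^ E = L ^ (E / m) * r ^ E := by
      rw [Real.mul_rpow hr0.le (Real.rpow_nonneg hL0.le _), ← Real.rpow_mul hL0.le, mul_comm]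
      congr 2
      ring
    rw [a1, ← a2]
    exact Real.rpow_le_rpow (Real.rpow_nonneg hL0.le _) hj4 hE0
  calc ∑ x with dist (G.pt x) z ≤ r, G.μ x = ∑ t ∈ T, ∑ x ∈ S' with bnIso sv (F.pos x) = t, G.μ x := e1.trans e2
    _ ≤ T.card • (L ^ (-(E * (2 - v))) * Real.exp (2 * a)) := Finset.sum_le_card_nsmul _ _ _ hcell
    _ = 3 ^ (n + 2) * (L ^ (-(E * (2 - v))) * Real.exp (2 * a)) := by
        rw [hTcard, nsmul_eq_mul]
        push_cast
        ring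
    _ ≤ 3 ^ (n + 2) * ((L ^ (E / m) * r ^ E) * Real.exp (2 * a)) := by
        refine mul_le_mul_of_nonneg_left (mul_le_mul_of_nonneg_right harith (Real.exp_pos _).le) (by positivity)
    _ = 3 ^ (n + 2) * Real.exp (2 * a) * L ^ (E / m) * r ^ E := by ring

/-- LEAF `L-F3-D3`  **tubes.**
PLAN.  `j = ⌊m (2 + log r/log L)⌋₊ ∈ [m, 2m]`, `w = j/m`, `s = L^w`: `r L^(-1/m) ≤ L^(w-2) ≤ r`.   `𝒯b` = the labels `F.tub s (L^2) (x, θ)` of the neighbours `x` of `θ`; each has `P(tub = t ∧ (iso_2,θ)) ≥ e^(-(c̄_w + b)) P(iso_2, θ)` (`Suc`, `surC`, support),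
so `|𝒯b| ≤ e^(c̄_w + b) = L^((n+1) d0 (2-w)) e^b ≤ e^b L^((n+1) d0/m) r^(-(n+1) d0)` (`ent_count`).   `cov` = image of `𝒯b` under `t ↦ fun l => t.2.1 l * s / L^2 - bnIso (L^2) (pos x0) l`; for a neighbour `x`, `t = pos x 0 / L^2`:
`pt x l - z l - t dir θ l = (pos x l - pos x 0 dir θ l - κ_l s)/L^2 ∈ [0, s/L^2] ⊆ [0, r]` (`Int.floor_le`, `Int.lt_floor_add_one`).   `((n+2 : ℕ) - 1 : ℝ) = n+1`. -/
theorem bn_ext_tube (F : BnCfg n 𝒳 𝒯 𝒲) {L d0 a b : ℝ} {m : ℕ} (hL : 1 < L) (hd0 : 0 ≤ d0) (hm : 0 < m) (x0 : 𝒳) (θ : 𝒯) (r : ℝ)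
    (hr : L⁻¹ ≤ r) (hr1 : r ≤ 1) :
    ∃ cov : Finset (Fin (n + 2) → ℝ), (cov.card : ℝ) ≤ Real.exp b * L ^ (((n + 1 : ℕ) : ℝ) * d0 / m) * r ^ (-((((n + 2 : ℕ) : ℝ) - 1) * d0)) ∧
      ∀ x, (x, θ) ∈ (F.toPj L d0 a b m x0).S → ∃ z ∈ cov, ∃ t : ℝ, ∀ l, |(F.toPj L d0 a b m x0).pt x l - z l - t * F.dir θ l| ≤ r := by
  have hL0 : 0 < L := by linarith
  have hr0 : 0 < r := lt_of_lt_of_le (inv_pos.2 hL0) hr
  obtain ⟨j, hj1, hj2, hj3, hj4⟩ := bn_mesh_down hL hm hr hr1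
  set w : ℝ := (j : ℝ) / m with hw
  set s2 : ℝ := L ^ (2 : ℝ) with hs2
  set s : ℝ := L ^ w with hs
  have hs2pos : 0 < s2 := Real.rpow_pos_of_pos hL0 _
  have hspos : 0 < s := Real.rpow_pos_of_pos hL0 _
  set G := F.toPj L d0 a b m x0 with hG
  set E : ℝ := ((n + 1 : ℕ) : ℝ) * d0 with hE
  have hE0 : 0 ≤ E := by positivity
  have hEe : (((n + 2 : ℕ) : ℝ) - 1) * d0 = E := by
    rw [hE]
    push_cast
    ring
  rw [hEe]
  have hmem : ∀ x, (x, θ) ∈ G.S → F.P.p (x, θ) ≠ 0 ∧ F.iso s2 x = F.iso s2 x0 ∧ F.Suc L d0 a b m (x, θ) :=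
    fun x hx => (Finset.mem_filter.1 hx).2
  set Nb : Finset 𝒳 := Finset.univ.filter fun x => (x, θ) ∈ G.S with hNb
  set Tb : Finset (𝒲 × (Fin (n + 2) → ℤ) × ℤ) := Nb.image fun x => F.tub s s2 (x, θ) with hTb
  set k : Fin (n + 2) → ℤ := bnIso s2 (F.pos x0) with hk
  set cov : Finset (Fin (n + 2) → ℝ) := Tb.image fun t => fun l => (t.2.1 l : ℝ) * s / s2 - (k l : ℝ) with hcov
  refine ⟨cov, ?_, fun x hx => ?_⟩
  · have hc1 : (cov.card : ℝ) ≤ (Tb.card : ℝ) := by exact_mod_cast Finset.card_image_le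
    refine hc1.trans ?_
    by_cases hne : Nb.Nonempty
    · obtain ⟨x₁, hx₁⟩ := hne
      set Y : 𝒳 × 𝒯 → (𝒲 × (Fin (n + 2) → ℤ)) × 𝒯 := pair (fun y => F.iso s2 y.1) Prod.snd with hY
      set cb : ℝ := E * (2 - w) * Real.log L + b with hcb
      have hYv : ∀ x ∈ Nb, Y (x, θ) = (F.iso s2 x0, θ) := by
        intro x hx
        have := (hmem x (Finset.mem_filter.1 hx).2).2.1
        show (F.iso s2 x, θ) = (F.iso s2 x0, θ)
        rw [this]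
      have hx : 0 < F.P.pr (fun ω => Y ω = (F.iso s2 x0, θ)) := by
        have := ent_fib_pos F.P Y (hmem x₁ (Finset.mem_filter.1 hx₁).2).1
        unfold FLaw.fib at this
        rwa [hYv x₁ hx₁] at this
      have hcount := ent_count F.P Y (F.tub s s2) (F.iso s2 x0, θ) Tb (c := Real.exp (-cb)) (Real.exp_pos _) hx (by
        intro t ht
        obtain ⟨x, hxN, rfl⟩ := Finset.mem_image.1 ht
        obtain ⟨hp, -, hSuc⟩ := hmem x (Finset.mem_filter.1 hxN).2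
        have hsur : F.P.surC (F.tub s s2) Y (x, θ) ≤ cb := hSuc.2 j hj1 hj2
        have h1 := ent_exp_neg_surC F.P (F.tub s s2) Y hp
        have h2 : Real.exp (-cb) ≤ F.P.fib (pair (F.tub s s2) Y) (x, θ) / F.P.fib Y (x, θ) := by
          rw [← h1]
          exact Real.exp_le_exp.2 (by linarith)
        have g1 : F.P.fib Y (x, θ) = F.P.pr (fun ω => Y ω = (F.iso s2 x0, θ)) := by
          unfold FLaw.fib
          rw [hYv x hxN]
        have g2 : F.P.fib (pair (F.tub s s2) Y) (x, θ)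
            = F.P.pr (fun ω => F.tub s s2 ω = F.tub s s2 (x, θ) ∧ Y ω = (F.iso s2 x0, θ)) := by
          rw [ent_fib_pair F.P (F.tub s s2) Y, hYv x hxN]
        rw [le_div_iff₀ (ent_fib_pos F.P Y hp), g1, g2] at h2
        exact h2)
      have e1 : 1 / Real.exp (-cb) = L ^ (E * (2 - w)) * Real.exp b := by
        rw [Real.exp_neg, one_div, inv_inv, hcb, Real.exp_add, Real.rpow_def_of_pos hL0]
        congr 2
        ring
      have e2 : L ^ (E * (2 - w)) ≤ L ^ (E / m) * r ^ (-E) := by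
        have a1 : L ^ (E * (2 - w)) = (L ^ (2 - w)) ^ E := by
          rw [← Real.rpow_mul hL0.le]
          congr 1
          ring
        have a2 : (L ^ ((1 : ℝ) / m) * r⁻¹) ^ E = L ^ (E / m) * r ^ (-E) := by
          rw [Real.mul_rpow (Real.rpow_nonneg hL0.le _) (inv_nonneg.2 hr0.le), ← Real.rpow_mul hL0.le, Real.inv_rpow hr0.le,
            Real.rpow_neg hr0.le]
          congr 2
          ring
        rw [a1, ← a2]
        exact Real.rpow_le_rpow (Real.rpow_nonneg hL0.le _) hj4 hE0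
      calc (Tb.card : ℝ) ≤ 1 / Real.exp (-cb) := hcount
        _ = L ^ (E * (2 - w)) * Real.exp b := e1
        _ ≤ (L ^ (E / m) * r ^ (-E)) * Real.exp b := mul_le_mul_of_nonneg_right e2 (Real.exp_pos _).le
        _ = Real.exp b * L ^ (E / m) * r ^ (-E) := by ring
    · rw [Finset.not_nonempty_iff_eq_empty] at hne
      have : Tb.card = 0 := by rw [hTb, hne]; simp
      rw [this]
      have q1 := Real.rpow_nonneg hL0.le (E / m)
      have q2 := Real.rpow_nonneg hr0.le (-E)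
      have q3 := (Real.exp_pos b).le
      push_cast
      positivity
  · have hxN : x ∈ Nb := Finset.mem_filter.2 ⟨Finset.mem_univ _, hx⟩
    obtain ⟨-, hc, -⟩ := hmem x hx
    refine ⟨_, Finset.mem_image_of_mem _ (Finset.mem_image_of_mem _ hxN), F.pos x 0 / s2, fun l => ?_⟩
    have hpt : G.pt x l = F.pos x l / s2 - (k l : ℝ) := by
      have : G.pt x = fun l => F.pos x l / s2 - (k l : ℝ) := if_pos hc
      rw [this]
    set u : ℝ := F.pos x l - F.pos x 0 * F.dir θ l with hu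
    have hκ : ((F.tub s s2 (x, θ)).2.1 l : ℝ) = ((⌊u / s⌋ : ℤ) : ℝ) := rfl
    have f1 := Int.floor_le (u / s)
    have f2 := Int.lt_floor_add_one (u / s)
    rw [le_div_iff₀ hspos] at f1
    rw [div_lt_iff₀ hspos] at f2
    have e : G.pt x l - (((F.tub s s2 (x, θ)).2.1 l : ℝ) * s / s2 - (k l : ℝ)) - F.pos x 0 / s2 * F.dir θ l
        = (u - ((⌊u / s⌋ : ℤ) : ℝ) * s) / s2 := by
      rw [hpt, hκ, hu]
      field_simp
      ring
    rw [e, abs_of_nonneg (div_nonneg (by linarith) hs2pos.le), div_le_iff₀ hs2pos]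
    calc u - ((⌊u / s⌋ : ℤ) : ℝ) * s ≤ s := by linarith
      _ ≤ s2 * r := hj3
      _ = r * s2 := mul_comm _ _

/-- LEAF `L-F3-D4`  **mass.**   PLAN.  On `S`: `μ x = rdM x / P(parent)` (`Suc` contains `Fr`), `ν θ ≥ P.p (x,θ)/(K rdM x)` (`hB.dom`; `rdM x > 0` on the support; `grp x = grp x0` from the parent label), so `μ x ν θ ≥ P.p (x,θ)/(K P(parent))`; sum over `S` `= P(Suc ∧ parent)/(K P(parent)) ≥ 1/(2K)`. -/
theorem bn_ext_mass (F : BnCfg n 𝒳 𝒯 𝒲) {L K A d0 γ ρ a b : ℝ} {m : ℕ} (hB : F.Base K A γ ρ) (hK : 1 ≤ K) (x0 : 𝒳)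
    (hx0 : 0 < F.P.pr (fun y => F.iso (L ^ (2 : ℝ)) y.1 = F.iso (L ^ (2 : ℝ)) x0))
    (hS : 1 / 2 * F.P.pr (fun y => F.iso (L ^ (2 : ℝ)) y.1 = F.iso (L ^ (2 : ℝ)) x0) ≤
      F.P.pr (fun y => F.Suc L d0 a b m y ∧ F.iso (L ^ (2 : ℝ)) y.1 = F.iso (L ^ (2 : ℝ)) x0)) :
    (2 * K)⁻¹ ≤ ∑ p ∈ (F.toPj L d0 a b m x0).S, (F.toPj L d0 a b m x0).μ p.1 * (F.toPj L d0 a b m x0).ν p.2 := by
  set pP := F.P.pr (fun y => F.iso (L ^ (2 : ℝ)) y.1 = F.iso (L ^ (2 : ℝ)) x0) with hpP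
  have hK0 : 0 < K := by linarith
  have hterm : ∀ p ∈ (F.toPj L d0 a b m x0).S, F.P.p p / (K * pP) ≤ (F.toPj L d0 a b m x0).μ p.1 * (F.toPj L d0 a b m x0).ν p.2 := by
    intro p hp
    obtain ⟨-, -, h2, h3⟩ := Finset.mem_filter.1 hp
    have hμ : (F.toPj L d0 a b m x0).μ p.1 = rdM F.P p.1 / pP := if_pos ⟨h2, h3.1⟩
    have hg : F.grp p.1 = F.grp x0 := congrArg Prod.fst h2
    have hν : (F.toPj L d0 a b m x0).ν p.2 = F.ν (F.grp p.1) p.2 := by rw [hg]; rfl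
    rw [hμ, hν, div_le_iff₀ (by positivity)]
    have hd := hB.dom p.1 p.2
    calc F.P.p p ≤ K * F.ν (F.grp p.1) p.2 * rdM F.P p.1 := hd
      _ = rdM F.P p.1 / pP * F.ν (F.grp p.1) p.2 * (K * pP) := by field_simp
  have hsum : ∑ p ∈ (F.toPj L d0 a b m x0).S, F.P.p p
      = F.P.pr (fun y => F.Suc L d0 a b m y ∧ F.iso (L ^ (2 : ℝ)) y.1 = F.iso (L ^ (2 : ℝ)) x0) := by
    unfold FLaw.pr
    show ∑ p ∈ Finset.univ.filter (fun y => F.P.p y ≠ 0 ∧ F.iso (L ^ (2 : ℝ)) y.1 = F.iso (L ^ (2 : ℝ)) x0 ∧ F.Suc L d0 a b m y), F.P.p p = _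
    rw [Finset.sum_filter]
    refine Finset.sum_congr rfl fun y _ => ?_
    by_cases h0 : F.P.p y = 0
    · simp [h0]
    · by_cases h1 : F.Suc L d0 a b m y ∧ F.iso (L ^ (2 : ℝ)) y.1 = F.iso (L ^ (2 : ℝ)) x0
      · rw [if_pos h1, if_pos ⟨h0, h1.2, h1.1⟩]
      · rw [if_neg h1, if_neg fun h => h1 ⟨h.2.2, h.2.1⟩]
  calc (2 * K)⁻¹ = (1 / 2 * pP) / (K * pP) := by field_simp
    _ ≤ (∑ p ∈ (F.toPj L d0 a b m x0).S, F.P.p p) / (K * pP) := by
        rw [hsum]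
        exact div_le_div_of_nonneg_right hS (by positivity)
    _ = ∑ p ∈ (F.toPj L d0 a b m x0).S, F.P.p p / (K * pP) := Finset.sum_div _ _ _
    _ ≤ _ := Finset.sum_le_sum hterm

/-- the loss of the extracted configuration -/
noncomputable def bnK' (n : ℕ) (L K d0 a b : ℝ) (m : ℕ) : ℝ :=
  2 * K + 3 ^ (n + 2) * Real.exp (2 * a) * L ^ (((n + 2 : ℕ) : ℝ) * d0 / m) + Real.exp b * L ^ (((n + 1 : ℕ) : ℝ) * d0 / m)

/-- LEAF `L-F3-D5`  **EXTRACTION** (exit of this file).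
PLAN.  `x0` from `bn_parent`; `G = F.toPj ..`.   Fields: `μ0, ν0, ν1`: clear; `μ1`: `∑ μ ≤ (∑_{x in the parent} rdM x)/P(parent) = 1`; `hpt`: `0 ≤ pos x l/L^2 - ⌊pos x0 l/L^2⌋ < 1` because the parent labels agree; `hdir`: `hB.hdir`;
`frost`: `bn_ext_frost` + constant `≤ bnK'`; `strip`: `hB.strip (grp x0)`, `K ≤ bnK'`; `mass`: `bn_ext_mass`, `bnK'⁻¹ ≤ (2K)⁻¹`; `tube`: `bn_ext_tube`, constant `≤ bnK'`.  (All three summands of `bnK'` are `≥ 0`.) -/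
theorem bn_extract (F : BnCfg n 𝒳 𝒯 𝒲) {L K A d0 γ a b : ℝ} {m : ℕ} (hB : F.Base K A γ L⁻¹) (hL : 1 < L) (hK : 1 ≤ K) (hA : 1 ≤ A)
    (hd0 : 0 ≤ d0) (hm : 0 < m) (hS : 1 / 2 ≤ F.P.pr (F.Suc L d0 a b m)) :
    ∃ G : PjCfg (n + 2) 𝒳 𝒯, G.Ok L⁻¹ (bnK' n L K d0 a b m) A d0 γ := by
  obtain ⟨x0, hx0, hS0⟩ := bn_parent F L d0 a b m hS
  have hL0 : 0 < L := by linarith
  set s2 : ℝ := L ^ (2 : ℝ) with hs2
  have hs2pos : 0 < s2 := Real.rpow_pos_of_pos hL0 _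
  set pP := F.P.pr (fun y => F.iso s2 y.1 = F.iso s2 x0) with hpP
  set G := F.toPj L d0 a b m x0 with hG
  set K1 : ℝ := 3 ^ (n + 2) * Real.exp (2 * a) * L ^ (((n + 2 : ℕ) : ℝ) * d0 / m) with hK1
  set K2 : ℝ := Real.exp b * L ^ (((n + 1 : ℕ) : ℝ) * d0 / m) with hK2
  have hK10 : 0 ≤ K1 := by
    have := Real.rpow_nonneg hL0.le (((n + 2 : ℕ) : ℝ) * d0 / m)
    have := (Real.exp_pos (2 * a)).le
    positivity
  have hK20 : 0 ≤ K2 := by
    have := Real.rpow_nonneg hL0.le (((n + 1 : ℕ) : ℝ) * d0 / m)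
    have := (Real.exp_pos b).le
    positivity
  have hK' : bnK' n L K d0 a b m = 2 * K + K1 + K2 := rfl
  have hμ : ∀ x, G.μ x = if F.iso s2 x = F.iso s2 x0 ∧ (∀ j : ℕ, m ≤ j → j ≤ 2 * m → F.Fr L d0 ((j : ℝ) / m) a x) then
      rdM F.P x / pP else 0 := fun x => rfl
  have hrpos : ∀ r : ℝ, L⁻¹ ≤ r → 0 ≤ r := fun r hr => (inv_pos.2 hL0).le.trans hr
  refine ⟨G, ⟨fun x => ?_, fun θ => hB.ν0 _ θ, ?_, hB.ν1 _, fun x l => ?_, hB.hdir, fun z r hr hr1 => ?_, fun w hw r hr hr1 => ?_, ?_,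
    fun θ r hr hr1 => ?_⟩⟩
  · rw [hμ]
    split_ifs
    · exact div_nonneg (rd_M_nonneg _ _) hx0.le
    · exact le_rfl
  · have h1 : ∀ x, G.μ x ≤ if F.iso s2 x = F.iso s2 x0 then rdM F.P x / pP else 0 := by
      intro x
      rw [hμ]
      by_cases c1 : F.iso s2 x = F.iso s2 x0
      · rw [if_pos c1]
        split_ifs
        · exact le_rfl
        · exact div_nonneg (rd_M_nonneg _ _) hx0.le
      · rw [if_neg c1, if_neg fun h => c1 h.1]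
    calc ∑ x, G.μ x ≤ ∑ x, if F.iso s2 x = F.iso s2 x0 then rdM F.P x / pP else 0 := Finset.sum_le_sum fun x _ => h1 x
      _ = (∑ x with F.iso s2 x = F.iso s2 x0, rdM F.P x) / pP := by rw [← Finset.sum_filter, Finset.sum_div]
      _ = 1 := by rw [bn_rdM_pr F.P fun x => F.iso s2 x = F.iso s2 x0]; exact div_self hx0.ne'
      _ ≤ 1 := le_rfl
  · by_cases c1 : F.iso s2 x = F.iso s2 x0
    · have hpt : G.pt x = fun l => F.pos x l / s2 - (bnIso s2 (F.pos x0) l : ℝ) := if_pos c1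
      have hlab : bnIso s2 (F.pos x) l = bnIso s2 (F.pos x0) l := congrFun (congrArg Prod.snd c1) l
      rw [hpt]
      show |F.pos x l / s2 - (bnIso s2 (F.pos x0) l : ℝ)| ≤ A
      rw [← hlab]
      have f1 := Int.floor_le (F.pos x l / s2)
      have f2 := Int.lt_floor_add_one (F.pos x l / s2)
      have e : (bnIso s2 (F.pos x) l : ℝ) = ((⌊F.pos x l / s2⌋ : ℤ) : ℝ) := rfl
      rw [e, abs_of_nonneg (by linarith)]
      linarith
    · have hpt : G.pt x = 0 := if_neg c1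
      rw [hpt]
      simp only [Pi.zero_apply, abs_zero]
      linarith
  · refine (bn_ext_frost F hL hd0 hm x0 hx0 z r hr hr1).trans (mul_le_mul_of_nonneg_right ?_ (Real.rpow_nonneg (hrpos r hr) _))
    rw [hK']
    linarith
  · refine (hB.strip (F.grp x0) w hw r hr hr1).trans (mul_le_mul_of_nonneg_right ?_ (Real.rpow_nonneg (hrpos r hr) _))
    rw [hK']
    linarith
  · refine le_trans (inv_anti₀ (by linarith) ?_) (bn_ext_mass F hB hK x0 hx0 hS0)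
    rw [hK']
    linarith
  · obtain ⟨cov, h1, h2⟩ := bn_ext_tube (a := a) (b := b) F hL hd0 hm x0 θ r hr hr1
    refine ⟨cov, h1.trans (mul_le_mul_of_nonneg_right ?_ (Real.rpow_nonneg (hrpos r hr) _)), h2⟩
    rw [hK']
    linarith

end Claimed.Agent.R257
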