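import Claimed.Agent.R257.FR3.BinExt

/-!
# ROW 257, package FR3, unit BIN, file 5: ASSEMBLY, NUMERICS, EXIT `bn_main`      (architect helper121)
-/

set_option autoImplicit false

namespace Claimed.Agent.R257

open scoped BigOperators
open Classical Matrix
open Claimed.Agent.R255 Claimed.Agent.R255.FLaw

variable {n : ℕ} {𝒳 𝒯 𝒲 : Type} [Fintype 𝒳] [Fintype 𝒯]

/-- LEAF `L-F3-E1`  **CORE**: with explicit auxiliary parameters `(r0, a, a1, b, p)`.   `ℓ = log L`, `Err = bnErr n K A γ r0 (L^2)`, `E1 = bnE1 ..`, `E3 = bnE3 ..`, `δF = (E1 + e ℓ + 1)/a + e^(-a)`.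
PLAN.  For `m ≤ j ≤ 2m`: `bn_lin j` (and `bn_lin (2m)` for `hN2`; `((2m : ℕ) : ℝ)/m = 2`), `bn_frost_typ j`: `P(¬Fr_j) ≤ δF`; `bn_lower_tail` (`w = j/m`) + `h2`: `P(sur < c̄_j - a1)^(n+2) ≤ p^(n+2)`, so `≤ p` (`pow_le_pow_iff_left₀`);
`bn_upper_tail` with `c = c̄_j ≤ (n+1) d0 ℓ`: `P(sur ≥ c̄_j + b) ≤ (E3 + a1 + (n+1) d0 ℓ p)/(a1 + b)`.   Union bound over the `m+1` values of `j` (`ent_pr_exists_le` on `Finset.Icc m (2m)`): `P(¬Suc) ≤ (m+1)(δF + δT) ≤ 1/2` (`h1`), `ent_pr_not`.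
`bn_extract`, `PjCfg.Ok.mono` with `h3`, contradiction with `hPJ`. -/
theorem bn_core (F : BnCfg n 𝒳 𝒯 𝒲) {L M K A d0 γ e η r0 a a1 b p : ℝ} {m : ℕ} (hF : F.Ok L M K A d0 γ e m) (hL : 1 < L) (hM : 0 < M)
    (hK : 1 ≤ K) (hA : 1 ≤ A) (hd0 : 0 ≤ d0) (he : 0 ≤ e) (hm : 0 < m) (hr0 : L⁻¹ ≤ r0) (hr1 : r0 ≤ 1) (ha : 0 < a) (ha1 : 0 ≤ a1) (hb : 0 < b)
    (hp : 0 ≤ p)
    (h1 : ((m : ℝ) + 1) * (((bnE1 n e (Real.log L) (bnErr n K A γ r0 (L ^ (2 : ℝ))) + e * Real.log L + 1) / a + Real.exp (-a)) +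
      (bnE3 n A e (Real.log L) (bnErr n K A γ r0 (L ^ (2 : ℝ))) + a1 + ((n + 1 : ℕ) : ℝ) * d0 * Real.log L * p) / (a1 + b)) ≤ 1 / 2)
    (h2 : ((n + 2 : ℕ) : ℝ) * (K ^ 2 * r0 ^ γ) + ((bnE1 n e (Real.log L) (bnErr n K A γ r0 (L ^ (2 : ℝ))) + e * Real.log L + 1) / a + Real.exp (-a)) +
      K ^ (n + 2) * bnM1 n A * bnM2 n (pjL A r0 (n + 2)) ^ 2 * Real.exp (2 * a - a1) ≤ p ^ (n + 2))
    (h3 : bnK' n L K d0 a b m ≤ L ^ η)
    (hPJ : ∀ G : PjCfg (n + 2) 𝒳 𝒯, ¬ G.Ok L⁻¹ (L ^ η) A d0 γ) : False := by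
  have hL0 : 0 < L := by linarith
  have hρ : 0 < L⁻¹ := inv_pos.2 hL0
  have hℓ : 0 < Real.log L := Real.log_pos hL
  have hm' : (0 : ℝ) < m := by exact_mod_cast hm
  have hB : F.Base K A γ L⁻¹ := hF.toBase
  set E1 := bnE1 n e (Real.log L) (bnErr n K A γ r0 (L ^ (2 : ℝ))) with hE1
  set E3 := bnE3 n A e (Real.log L) (bnErr n K A γ r0 (L ^ (2 : ℝ))) with hE3
  set δF := (E1 + e * Real.log L + 1) / a + Real.exp (-a) with hδF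
  set δT := (E3 + a1 + ((n + 1 : ℕ) : ℝ) * d0 * Real.log L * p) / (a1 + b) with hδT
  have hN2 : Real.log M + ((n + 2 : ℕ) : ℝ) * d0 * 2 * Real.log L - E1 ≤ F.N (L ^ (2 : ℝ)) := by
    have h := (bn_lin F hF hL hM hK hA hd0 he hm hr0 hr1 (2 * m) (by omega) le_rfl).1
    have e2 : ((2 * m : ℕ) : ℝ) / m = 2 := by
      push_cast
      field_simp
    rw [e2] at h
    exact h
  have hfr : ∀ j : ℕ, m ≤ j → j ≤ 2 * m → F.P.pr (fun y => ¬ F.Fr L d0 ((j : ℝ) / m) a y.1) ≤ δF :=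
    fun j hj hj2 => bn_frost_typ F hF hL hM hm ha hN2 j hj hj2
  have hw1 : ∀ j : ℕ, m ≤ j → 1 ≤ (j : ℝ) / m := by
    intro j hj
    rw [le_div_iff₀ hm', one_mul]
    exact_mod_cast hj
  have hw2 : ∀ j : ℕ, j ≤ 2 * m → (j : ℝ) / m ≤ 2 := by
    intro j hj
    rw [div_le_iff₀ hm']
    exact_mod_cast hj
  have hlow : ∀ j : ℕ, m ≤ j → j ≤ 2 * m →
      F.P.pr (fun y => F.sur (L ^ ((j : ℝ) / m)) (L ^ (2 : ℝ)) y < ((n + 1 : ℕ) : ℝ) * d0 * (2 - (j : ℝ) / m) * Real.log L - a1) ≤ p := by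
    intro j hj hj2
    have h := bn_lower_tail F (a := a) hB hL hK hA hd0 hρ hr0 hr1 (hw2 j hj2) ha1
    have h' := hfr j hj hj2
    refine (pow_le_pow_iff_left₀ (ent_pr_nonneg _ _) hp (by omega : n + 2 ≠ 0)).1 (h.trans (le_trans ?_ h2))
    linarith
  have hup : ∀ j : ℕ, m ≤ j → j ≤ 2 * m →
      F.P.pr (fun y => ((n + 1 : ℕ) : ℝ) * d0 * (2 - (j : ℝ) / m) * Real.log L + b ≤ F.sur (L ^ ((j : ℝ) / m)) (L ^ (2 : ℝ)) y) ≤ δT := by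
    intro j hj hj2
    have hn1 : (0 : ℝ) ≤ ((n + 1 : ℕ) : ℝ) := Nat.cast_nonneg _
    have hc : 0 ≤ ((n + 1 : ℕ) : ℝ) * d0 * (2 - (j : ℝ) / m) * Real.log L := by
      have := hw2 j hj2
      have h2w : 0 ≤ 2 - (j : ℝ) / m := by linarith
      positivity
    have h := bn_upper_tail F hc ha1 hb (bn_lin F hF hL hM hK hA hd0 he hm hr0 hr1 j hj hj2).2 (hlow j hj hj2)
    refine h.trans ?_
    rw [hδT]
    refine div_le_div_of_nonneg_right ?_ (by linarith)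
    have hcc : ((n + 1 : ℕ) : ℝ) * d0 * (2 - (j : ℝ) / m) * Real.log L ≤ ((n + 1 : ℕ) : ℝ) * d0 * Real.log L := by
      have := hw1 j hj
      have h0 : 0 ≤ ((n + 1 : ℕ) : ℝ) * d0 := by positivity
      have h3 : ((n + 1 : ℕ) : ℝ) * d0 * (2 - (j : ℝ) / m) ≤ ((n + 1 : ℕ) : ℝ) * d0 * 1 :=
        mul_le_mul_of_nonneg_left (by linarith) h0
      rw [mul_one] at h3
      exact mul_le_mul_of_nonneg_right h3 hℓ.le
    have := mul_le_mul_of_nonneg_right hcc hp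
    linarith
  have hnS : F.P.pr (fun y => ¬ F.Suc L d0 a b m y) ≤ 1 / 2 := by
    have hsub : F.P.pr (fun y => ¬ F.Suc L d0 a b m y) ≤
        F.P.pr (fun y => ∃ j ∈ Finset.Icc m (2 * m), (¬ F.Fr L d0 ((j : ℝ) / m) a y.1 ∨
          ((n + 1 : ℕ) : ℝ) * d0 * (2 - (j : ℝ) / m) * Real.log L + b ≤ F.sur (L ^ ((j : ℝ) / m)) (L ^ (2 : ℝ)) y)) := by
      refine ent_pr_mono _ fun y _ hy => ?_
      by_contra hcon
      push Not at hcon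
      refine hy ⟨fun j hj hj2 => ?_, fun j hj hj2 => ?_⟩
      · exact (hcon j (Finset.mem_Icc.2 ⟨hj, hj2⟩)).1
      · exact (hcon j (Finset.mem_Icc.2 ⟨hj, hj2⟩)).2.le
    refine hsub.trans ((ent_pr_exists_le _ _ _).trans ?_)
    have hterm : ∀ j ∈ Finset.Icc m (2 * m), F.P.pr (fun y => ¬ F.Fr L d0 ((j : ℝ) / m) a y.1 ∨
          ((n + 1 : ℕ) : ℝ) * d0 * (2 - (j : ℝ) / m) * Real.log L + b ≤ F.sur (L ^ ((j : ℝ) / m)) (L ^ (2 : ℝ)) y) ≤ δF + δT := by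
      intro j hj
      obtain ⟨hj1, hj2⟩ := Finset.mem_Icc.1 hj
      exact (ent_pr_or_le _ _ _).trans (add_le_add (hfr j hj1 hj2) (hup j hj1 hj2))
    refine (Finset.sum_le_sum hterm).trans ?_
    rw [Finset.sum_const, Nat.card_Icc, nsmul_eq_mul]
    have : ((2 * m + 1 - m : ℕ) : ℝ) = (m : ℝ) + 1 := by
      have : 2 * m + 1 - m = m + 1 := by omega
      rw [this]
      push_cast
      ring
    rw [this]
    exact h1
  have hS : 1 / 2 ≤ F.P.pr (F.Suc L d0 a b m) := by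
    have := ent_pr_not F.P (F.Suc L d0 a b m)
    linarith
  obtain ⟨G, hG⟩ := bn_extract F hB hL hK hA hd0 hm hS
  have hK' : 0 < bnK' n L K d0 a b m := by
    unfold bnK'
    have h1 : 0 ≤ 3 ^ (n + 2) * Real.exp (2 * a) * L ^ (((n + 2 : ℕ) : ℝ) * d0 / m) := by positivity
    have h2 : 0 ≤ Real.exp b * L ^ (((n + 1 : ℕ) : ℝ) * d0 / m) := by positivity
    linarith
  exact hPJ G (hG.mono hρ hK' h3)

/-- `log (2 Lb + 2)` for `Lb = pjL A (L^(-ε)) j`. -/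
theorem bn_e2_logLb {A L ε : ℝ} (hA : 1 ≤ A) (hL : 1 ≤ L) (hε : 0 ≤ ε) (j : ℕ) :
    Real.log (2 * pjL A (L ^ (-ε)) j + 2) ≤
      Real.log 4 + ((2 ^ j - 1 : ℕ) : ℝ) * (Real.log (2 * A ^ 2) + ε * Real.log L) := by
  have hL0 : 0 < L := by linarith
  have hr0 : 0 < L ^ (-ε) := Real.rpow_pos_of_pos hL0 _
  have hr1 : L ^ (-ε) ≤ 1 := Real.rpow_le_one_of_one_le_of_nonpos hL (by linarith)
  have hLb := pj_L_one_le hA hr0 hr1 j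
  have hQ := pj_q_two_le hA hr0 hr1
  have hQ0 : 0 < 2 * A ^ 2 / L ^ (-ε) := by linarith
  have h1 : Real.log (2 * pjL A (L ^ (-ε)) j + 2) ≤ Real.log (4 * pjL A (L ^ (-ε)) j) :=
    Real.log_le_log (by linarith) (by linarith)
  refine h1.trans (le_of_eq ?_)
  rw [Real.log_mul (by norm_num) (by linarith)]
  unfold pjL
  rw [Real.log_pow, Real.log_div (by positivity) hr0.ne', Real.log_rpow hL0]
  ring

set_option maxHeartbeats 1600000 in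
/-- LEAF `L-F3-E2`  **the geometric errors are `≤ tol log L`.**
PLAN.  `ε = tol/(8 (n+2)^2 2^(n+2))`, `r0 = L^(-ε)`, `e1 = min (γ ε/4) (tol/(4(n+2)))`.   `pjL A r0 (n+2) = (2A² L^ε)^(2^(n+2)-1)`, so `log (2 pjL + 2) ≤ log 4 + 2^(n+2) (log (2A²) + ε ℓ)`;
`K² r0^γ ≤ L^(2 e1 - γ ε) ≤ L^(-γ ε/2) → 0`, and `L^(-γε/2) log((L²+2)^(n+2)) → 0`.   All the remaining terms are constants; `ℓ → ∞`.   Use `Real.add_one_le_exp`/`Real.log_le_sub_one_of_pos`-type bounds or `Filter.Tendsto` (`tendsto_rpow_neg_atTop`,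
`Real.tendsto_log_atTop`, `isLittleO_log_rpow_atTop`) and extract `L1` by `Filter.Eventually` (`eventually_atTop`). -/
theorem bn_err_small (n : ℕ) (A γ tol : ℝ) (hA : 1 ≤ A) (hγ : 0 < γ) (htol : 0 < tol) :
    ∃ e1 : ℝ, 0 < e1 ∧ ∃ L1 : ℝ, 1 < L1 ∧ ∀ L : ℝ, L1 ≤ L → ∀ K : ℝ, 1 ≤ K → K ≤ L ^ e1 → ∃ r0 : ℝ, L⁻¹ ≤ r0 ∧ r0 ≤ 1 ∧
      bnErr n K A γ r0 (L ^ (2 : ℝ)) + Real.log (2 ^ (n + 2) * bnM3 n A) + Real.log (bnM3 n A) + 1 ≤ tol * Real.log L ∧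
      ((n + 2 : ℕ) : ℝ) * (K ^ 2 * r0 ^ γ) ≤ tol ∧
      K ^ (n + 2) * bnM1 n A * bnM2 n (pjL A r0 (n + 2)) ^ 2 ≤ L ^ tol := by
  -- parameters
  obtain ⟨d, hd⟩ : ∃ d : ℝ, d = ((n + 2 : ℕ) : ℝ) := ⟨_, rfl⟩
  obtain ⟨d1, hd1⟩ : ∃ d1 : ℝ, d1 = ((n + 1 : ℕ) : ℝ) := ⟨_, rfl⟩
  obtain ⟨N, hN⟩ : ∃ N : ℝ, N = ((2 ^ (n + 2) - 1 : ℕ) : ℝ) := ⟨_, rfl⟩
  have hd2 : 2 ≤ d := by rw [hd]; push_cast; linarith [(Nat.cast_nonneg n : (0 : ℝ) ≤ n)]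
  have hd11 : 1 ≤ d1 := by rw [hd1]; push_cast; linarith [(Nat.cast_nonneg n : (0 : ℝ) ≤ n)]
  have hdd : d1 ≤ d := by rw [hd, hd1]; push_cast; linarith
  have hN0 : 0 ≤ N := by rw [hN]; exact Nat.cast_nonneg _
  obtain ⟨ε, hεdef⟩ : ∃ ε : ℝ, ε = min 1 (tol / (8 * d ^ 2 * (N + 1))) := ⟨_, rfl⟩
  have hε0 : 0 < ε := by rw [hεdef]; exact lt_min one_pos (by positivity)
  have hε1 : ε ≤ 1 := by rw [hεdef]; exact min_le_left _ _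
  have hε2 : d ^ 2 * N * ε ≤ tol / 8 := by
    have h1 : ε ≤ tol / (8 * d ^ 2 * (N + 1)) := by rw [hεdef]; exact min_le_right _ _
    rw [le_div_iff₀ (by positivity)] at h1
    nlinarith [mul_nonneg (sq_nonneg d) hε0.le]
  obtain ⟨δ, hδdef⟩ : ∃ δ : ℝ, δ = γ * ε / 2 := ⟨_, rfl⟩
  have hδ : 0 < δ := by rw [hδdef]; positivity
  obtain ⟨e1, he1def⟩ : ∃ e1 : ℝ, e1 = min (γ * ε / 4) (tol / (4 * d)) := ⟨_, rfl⟩
  have he1 : 0 < e1 := by rw [he1def]; exact lt_min (by positivity) (by positivity)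
  have he1a : e1 ≤ γ * ε / 4 := by rw [he1def]; exact min_le_left _ _
  have he1b : d * e1 ≤ tol / 4 := by
    have h1 : e1 ≤ tol / (4 * d) := by rw [he1def]; exact min_le_right _ _
    rw [le_div_iff₀ (by positivity)] at h1
    linarith
  -- constants
  obtain ⟨C0, hC0⟩ : ∃ C0 : ℝ, C0 = d1 * Real.log (bnM1 n A) + d * Real.log (bnM3 n A) + Real.log (2 ^ (n + 2) * bnM3 n A) +
      Real.log (bnM3 n A) + 1 + d * (d1 * (Real.log 4 + N * Real.log (2 * A ^ 2))) := ⟨_, rfl⟩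
  obtain ⟨C2, hC2⟩ : ∃ C2 : ℝ, C2 = Real.log (bnM1 n A) + 2 * (d1 * (Real.log 4 + N * Real.log (2 * A ^ 2))) := ⟨_, rfl⟩
  obtain ⟨c3, hc3⟩ : ∃ c3 : ℝ, c3 = min (tol / (12 * d1 * d ^ 2)) (tol / d) := ⟨_, rfl⟩
  have hc30 : 0 < c3 := by rw [hc3]; exact lt_min (by positivity) (by positivity)
  have hc3a : 3 * d1 * d ^ 2 * c3 ≤ tol / 4 := by
    have h1 : c3 ≤ tol / (12 * d1 * d ^ 2) := by rw [hc3]; exact min_le_left _ _
    rw [le_div_iff₀ (by positivity)] at h1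
    linarith
  have hc3b : d * c3 ≤ tol := by
    have h1 : c3 ≤ tol / d := by rw [hc3]; exact min_le_right _ _
    rw [le_div_iff₀ (by positivity)] at h1
    linarith
  -- thresholds
  have ev1 : ∀ᶠ L : ℝ in Filter.atTop, max (4 * C0 / tol) (2 * C2 / tol) ≤ Real.log L :=
    Real.tendsto_log_atTop.eventually_ge_atTop _
  have ev2 : ∀ᶠ L : ℝ in Filter.atTop, L ^ (-δ) ≤ c3 :=
    (tendsto_rpow_neg_atTop hδ).eventually (Iic_mem_nhds hc30)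
  obtain ⟨a, ha⟩ := Filter.eventually_atTop.1 (ev1.and ev2)
  refine ⟨e1, he1, max a 3, lt_of_lt_of_le (by norm_num) (le_max_right _ _), fun L hL K hK hKL => ?_⟩
  have hL3 : 3 ≤ L := (le_max_right _ _).trans hL
  have hL1 : 1 ≤ L := by linarith
  have hL0 : 0 < L := by linarith
  obtain ⟨hev1, hev2⟩ := ha L ((le_max_left _ _).trans hL)
  obtain ⟨ℓ, hℓ⟩ : ∃ ℓ : ℝ, ℓ = Real.log L := ⟨_, rfl⟩
  rw [← hℓ] at hev1
  have hℓ0 : 0 < ℓ := by rw [hℓ]; exact Real.log_pos (by linarith)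
  have hC0ℓ : C0 ≤ tol / 4 * ℓ := by
    have h1 := (le_max_left _ _).trans hev1
    rw [div_le_iff₀ htol] at h1
    linarith
  have hC2ℓ : C2 ≤ tol / 2 * ℓ := by
    have h1 := (le_max_right _ _).trans hev1
    rw [div_le_iff₀ htol] at h1
    linarith
  have hr0 : 0 < L ^ (-ε) := Real.rpow_pos_of_pos hL0 _
  have hr1 : L ^ (-ε) ≤ 1 := Real.rpow_le_one_of_one_le_of_nonpos hL1 (by linarith)
  have hK0 : 0 < K := by linarith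
  -- `X = K² r0^γ`
  have hX0 : 0 ≤ K ^ 2 * (L ^ (-ε)) ^ γ := by positivity
  have hX : K ^ 2 * (L ^ (-ε)) ^ γ ≤ c3 := by
    refine le_trans ?_ hev2
    have h1 : K ^ 2 ≤ L ^ (2 * e1) := by
      have h2 : K ^ 2 ≤ (L ^ e1) ^ 2 := pow_le_pow_left₀ hK0.le hKL 2
      rwa [← Real.rpow_natCast (L ^ e1) 2, ← Real.rpow_mul hL0.le, mul_comm e1] at h2
    rw [← Real.rpow_mul hL0.le]
    calc K ^ 2 * L ^ (-ε * γ) ≤ L ^ (2 * e1) * L ^ (-ε * γ) :=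
          mul_le_mul_of_nonneg_right h1 (Real.rpow_nonneg hL0.le _)
      _ = L ^ (2 * e1 + -ε * γ) := (Real.rpow_add hL0 _ _).symm
      _ ≤ L ^ (-δ) := Real.rpow_le_rpow_of_exponent_le hL1 (by rw [hδdef]; linarith)
  have hlogLb := bn_e2_logLb hA hL1 hε0.le (n + 2)
  rw [← hN, ← hℓ] at hlogLb
  have hLb := pj_L_one_le hA hr0 hr1 (n + 2)
  have hM2 : Real.log (bnM2 n (pjL A (L ^ (-ε)) (n + 2))) = d1 * Real.log (2 * pjL A (L ^ (-ε)) (n + 2) + 2) := by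
    unfold bnM2
    rw [Real.log_pow, hd1]
  refine ⟨L ^ (-ε), ?_, hr1, ?_, ?_, ?_⟩
  · rw [← Real.rpow_neg_one]
    exact Real.rpow_le_rpow_of_exponent_le hL1 (by linarith)
  · -- (a)
    have hq : Real.log ((L ^ (2 : ℝ) + 2) ^ (n + 2)) ≤ d * (3 * ℓ) := by
      rw [Real.log_pow, ← hd]
      refine mul_le_mul_of_nonneg_left ?_ (by linarith)
      have h1 : L ^ (2 : ℝ) + 2 ≤ L ^ 3 := by
        rw [Real.rpow_two]
        nlinarith [sq_nonneg L]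
      have h2 := Real.log_le_log (by positivity) h1
      rwa [Real.log_pow, ← hℓ] at h2
    have hq0 : 0 ≤ Real.log ((L ^ (2 : ℝ) + 2) ^ (n + 2)) := by
      apply Real.log_nonneg
      apply one_le_pow₀
      have : 0 ≤ L ^ (2 : ℝ) := Real.rpow_nonneg hL0.le _
      linarith
    unfold bnErr
    rw [← hd, ← hd1, hM2, ← hℓ]
    have h3 : d1 * (d * (K ^ 2 * (L ^ (-ε)) ^ γ)) * Real.log ((L ^ (2 : ℝ) + 2) ^ (n + 2)) ≤
        d1 * (d * c3) * (d * (3 * ℓ)) := by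
      apply mul_le_mul _ hq hq0 (by positivity)
      exact mul_le_mul_of_nonneg_left (mul_le_mul_of_nonneg_left hX (by linarith)) (by linarith)
    have h4 : d * (d1 * Real.log (2 * pjL A (L ^ (-ε)) (n + 2) + 2)) ≤
        d * (d1 * (Real.log 4 + N * (Real.log (2 * A ^ 2) + ε * ℓ))) :=
      mul_le_mul_of_nonneg_left (mul_le_mul_of_nonneg_left hlogLb (by linarith)) (by linarith)
    have h5 : d * d1 * N * ε * ℓ ≤ tol / 8 * ℓ := by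
      refine mul_le_mul_of_nonneg_right ?_ hℓ0.le
      refine le_trans ?_ hε2
      have : d * d1 * N * ε ≤ d * d * N * ε := by gcongr
      calc d * d1 * N * ε ≤ d * d * N * ε := this
        _ = d ^ 2 * N * ε := by ring
    have h6 : d1 * (d * c3) * (d * (3 * ℓ)) ≤ tol / 4 * ℓ := by
      have : d1 * (d * c3) * (d * (3 * ℓ)) = 3 * d1 * d ^ 2 * c3 * ℓ := by ring
      rw [this]
      exact mul_le_mul_of_nonneg_right hc3a hℓ0.le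
    have h7 : 0 ≤ tol * ℓ := by positivity
    rw [hC0] at hC0ℓ
    linarith
  · -- (b)
    rw [← hd]
    exact (mul_le_mul_of_nonneg_left hX (by linarith)).trans hc3b
  · -- (c)
    have hM1 : 0 < bnM1 n A := by unfold bnM1; positivity
    have hM2p : 0 < bnM2 n (pjL A (L ^ (-ε)) (n + 2)) := by unfold bnM2; positivity
    rw [← Real.log_le_log_iff (by positivity) (Real.rpow_pos_of_pos hL0 _), Real.log_rpow hL0,
      Real.log_mul (by positivity) (by positivity), Real.log_mul (by positivity) hM1.ne', Real.log_pow, Real.log_pow,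
      hM2, ← hd, ← hℓ]
    have hlogK : Real.log K ≤ e1 * ℓ := by
      have := Real.log_le_log hK0 hKL
      rwa [Real.log_rpow hL0, ← hℓ] at this
    have h1 : d * Real.log K ≤ tol / 4 * ℓ :=
      (mul_le_mul_of_nonneg_left hlogK (by linarith)).trans (by
        rw [← mul_assoc]; exact mul_le_mul_of_nonneg_right he1b hℓ0.le)
    have h4 : d1 * Real.log (2 * pjL A (L ^ (-ε)) (n + 2) + 2) ≤
        d1 * (Real.log 4 + N * (Real.log (2 * A ^ 2) + ε * ℓ)) :=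
      mul_le_mul_of_nonneg_left hlogLb (by linarith)
    have h5 : d1 * N * ε * ℓ ≤ tol / 8 * ℓ := by
      refine mul_le_mul_of_nonneg_right ?_ hℓ0.le
      refine le_trans ?_ hε2
      have h8 : d1 ≤ d ^ 2 := by nlinarith
      have : d1 * N * ε ≤ d ^ 2 * N * ε := by gcongr
      exact this
    rw [hC2] at hC2ℓ
    have h7 : 0 ≤ tol * ℓ := by positivity
    push_cast
    linarith

theorem bn_e3_S1 {nR e ℓ tol Err g1 g2 : ℝ} (hn : 0 ≤ nR) (hℓ : 0 ≤ ℓ) (he : e ≤ tol) (htol : 0 ≤ tol) (hg1 : 0 ≤ g1)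
    (hg2 : 0 ≤ g2) (ha : Err + g1 + g2 + 1 ≤ tol * ℓ) :
    ((nR + 5) * e * ℓ + Err) + e * ℓ + 1 ≤ (nR + 8) * tol * ℓ := by
  have h1 : e * ℓ ≤ tol * ℓ := mul_le_mul_of_nonneg_right he hℓ
  have h2 : nR * (e * ℓ) ≤ nR * (tol * ℓ) := mul_le_mul_of_nonneg_left h1 hn
  have h3 : 0 ≤ tol * ℓ := mul_nonneg htol hℓ
  linarith

theorem bn_e3_S3 {nR e ℓ tol Err g1 g2 : ℝ} (hn : 0 ≤ nR) (hℓ : 0 ≤ ℓ) (he : e ≤ tol) (hg1 : 0 ≤ g1)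
    (hg2 : 0 ≤ g2) (ha : Err + g1 + g2 + 1 ≤ tol * ℓ) :
    (nR + 5) * e * ℓ + ((nR + 5) * e * ℓ + Err) + Err + g1 + g2 ≤ (2 * nR + 12) * tol * ℓ := by
  have h1 : e * ℓ ≤ tol * ℓ := mul_le_mul_of_nonneg_right he hℓ
  have h2 : nR * (e * ℓ) ≤ nR * (tol * ℓ) := mul_le_mul_of_nonneg_left h1 hn
  linarith

theorem bn_e3_div {S c ℓ α : ℝ} (hℓ : 0 < ℓ) (hα : 0 < α) (h : S ≤ c * ℓ) : S / (α * ℓ) ≤ c / α := by
  rw [div_le_div_iff₀ (by positivity) hα]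
  have := mul_le_mul_of_nonneg_right h hα.le
  linarith

theorem bn_e3_h1 {M ℓ α α1 β S1 S3 c1 c3 P x : ℝ} (hM : 1 ≤ M) (hℓ : 0 < ℓ) (hα : 0 < α) (hα1 : 0 ≤ α1) (hβ : 0 < β)
    (h1 : S1 ≤ c1 * ℓ) (h1' : c1 / α ≤ P / 16) (hx : M * x ≤ 1 / 4) (h3 : S3 ≤ c3 * ℓ) (hc3 : 0 ≤ c3)
    (h3' : M * (c3 / β) ≤ 3 / 32) (hP : M * P ≤ 1 / 128) :
    M * ((S1 / (α * ℓ) + x) + S3 / (α1 * ℓ + β * ℓ)) ≤ 1 / 2 := by
  have hA : S1 / (α * ℓ) ≤ P / 16 := (bn_e3_div hℓ hα h1).trans h1'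
  have hB : S3 / (α1 * ℓ + β * ℓ) ≤ c3 / β := by
    have hb0 : 0 < β * ℓ := by positivity
    have hb1 : β * ℓ ≤ α1 * ℓ + β * ℓ := by nlinarith
    calc S3 / (α1 * ℓ + β * ℓ) ≤ c3 * ℓ / (α1 * ℓ + β * ℓ) := div_le_div_of_nonneg_right h3 (by linarith)
      _ ≤ c3 * ℓ / (β * ℓ) := div_le_div_of_nonneg_left (by positivity) hb0 hb1
      _ = c3 / β := by field_simp
  have hM0 : 0 ≤ M := by linarith
  have e1 := mul_le_mul_of_nonneg_left hA hM0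
  have e2 := mul_le_mul_of_nonneg_left hB hM0
  have : M * ((S1 / (α * ℓ) + x) + S3 / (α1 * ℓ + β * ℓ)) =
      M * (S1 / (α * ℓ)) + M * x + M * (S3 / (α1 * ℓ + β * ℓ)) := by ring
  rw [this]
  linarith

theorem bn_e3_h2 {ℓ α S1 c1 P x t1 t3 : ℝ} (hℓ : 0 < ℓ) (hα : 0 < α) (h1 : S1 ≤ c1 * ℓ) (h1' : c1 / α ≤ P / 16)
    (hP : 0 ≤ P) (ht1 : t1 ≤ P / 4) (hx : x ≤ P / 4) (ht3 : t3 ≤ P / 4) : t1 + (S1 / (α * ℓ) + x) + t3 ≤ P := by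
  have hA : S1 / (α * ℓ) ≤ P / 16 := (bn_e3_div hℓ hα h1).trans h1'
  linarith

theorem bn_e3_exp {L : ℝ} (hL : 0 < L) (c : ℝ) : Real.exp (c * Real.log L) = L ^ c := by
  rw [Real.rpow_def_of_pos hL, mul_comm]

/-- the parameters. -/
theorem bn_e3_par (n : ℕ) {d0 η : ℝ} (hd0 : 0 ≤ d0) (hη : 0 < η) (hη1 : η ≤ 1) :
    ∃ m : ℕ, 0 < m ∧ ((n + 2 : ℕ) : ℝ) * d0 / m ≤ η / 4 ∧ ∃ α1 α p tol : ℝ, 0 < α1 ∧ α = α1 / 8 ∧ 0 < p ∧ 0 < tol ∧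
      α1 ≤ η / 4 ∧ tol ≤ α1 / 8 ∧ ((m : ℝ) + 1) * p ^ (n + 2) ≤ 1 / 128 ∧ ((n : ℝ) + 8) * tol / α ≤ p ^ (n + 2) / 16 ∧
      tol ≤ p ^ (n + 2) / 4 ∧
      ((m : ℝ) + 1) * (((2 * (n : ℝ) + 12) * tol + α1 + ((n + 1 : ℕ) : ℝ) * d0 * p) / (η / 4)) ≤ 3 / 32 := by
  obtain ⟨m, hm⟩ : ∃ m : ℕ, m = ⌈4 * (((n + 2 : ℕ) : ℝ) * d0) / η⌉₊ + 1 := ⟨_, rfl⟩
  have hm0 : 0 < m := by omega
  have hmR : (0 : ℝ) < m := by exact_mod_cast hm0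
  have hm1 : 4 * (((n + 2 : ℕ) : ℝ) * d0) / η ≤ m := by
    refine (Nat.le_ceil _).trans ?_
    rw [hm]
    push_cast
    linarith
  obtain ⟨M, hM⟩ : ∃ M : ℝ, M = (m : ℝ) + 1 := ⟨_, rfl⟩
  have hM1 : 1 ≤ M := by rw [hM]; linarith
  obtain ⟨D, hD⟩ : ∃ D : ℝ, D = ((n + 1 : ℕ) : ℝ) * d0 + 1 := ⟨_, rfl⟩
  have hD1 : 1 ≤ D := by rw [hD]; have : 0 ≤ ((n + 1 : ℕ) : ℝ) * d0 := by positivity
                         linarith
  obtain ⟨β, hβ⟩ : ∃ β : ℝ, β = η / 4 := ⟨_, rfl⟩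
  have hβ0 : 0 < β := by rw [hβ]; positivity
  have hβ1 : β ≤ 1 / 4 := by rw [hβ]; linarith
  obtain ⟨α1, hα1⟩ : ∃ α1 : ℝ, α1 = β / (32 * M) := ⟨_, rfl⟩
  have hα10 : 0 < α1 := by rw [hα1]; positivity
  have hα1M : M * α1 = β / 32 := by rw [hα1]; field_simp
  have hα1β : α1 ≤ β := by nlinarith
  obtain ⟨p, hp⟩ : ∃ p : ℝ, p = β / (32 * M * D) := ⟨_, rfl⟩
  have hp0 : 0 < p := by rw [hp]; positivity
  have hpM : M * D * p = β / 32 := by rw [hp]; field_simp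
  have hpM' : M * p ≤ 1 / 128 := by
    have : M * p ≤ M * D * p := by
      have : 0 ≤ M * p := by positivity
      nlinarith
    linarith
  have hp1 : p ≤ 1 := by nlinarith
  obtain ⟨P, hP⟩ : ∃ P : ℝ, P = p ^ (n + 2) := ⟨_, rfl⟩
  have hP0 : 0 < P := by rw [hP]; positivity
  have hPp : P ≤ p := by
    rw [hP]
    exact pow_le_of_le_one hp0.le hp1 (by omega)
  have hP1 : P ≤ 1 := hPp.trans hp1
  obtain ⟨nR, hnR⟩ : ∃ nR : ℝ, nR = (n : ℝ) := ⟨_, rfl⟩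
  have hn0 : 0 ≤ nR := by rw [hnR]; positivity
  obtain ⟨tol, htol⟩ : ∃ tol : ℝ, tol = min (α1 / 8) (α1 / 8 * P / (16 * (nR + 8))) := ⟨_, rfl⟩
  have htol0 : 0 < tol := by rw [htol]; exact lt_min (by positivity) (by positivity)
  have htola : tol ≤ α1 / 8 := by rw [htol]; exact min_le_left _ _
  have htolb : (nR + 8) * tol ≤ α1 / 8 * P / 16 := by
    have h1 : tol ≤ α1 / 8 * P / (16 * (nR + 8)) := by rw [htol]; exact min_le_right _ _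
    rw [le_div_iff₀ (by positivity)] at h1
    linarith
  refine ⟨m, hm0, ?_, α1, α1 / 8, p, tol, hα10, rfl, hp0, htol0, by rw [← hβ]; exact hα1β, htola, ?_, ?_, ?_, ?_⟩
  · rw [div_le_iff₀ hmR]
    rw [div_le_iff₀ hη] at hm1
    linarith
  · rw [← hM, ← hP]
    have : M * P ≤ M * p := mul_le_mul_of_nonneg_left hPp (by linarith)
    linarith
  · rw [← hnR, ← hP, div_le_iff₀ (by positivity)]
    linarith
  · rw [← hP]
    have h1 : 8 * tol ≤ (nR + 8) * tol := by nlinarith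
    have h2 : α1 / 8 * P ≤ 1 * P := by
      refine mul_le_mul_of_nonneg_right ?_ hP0.le
      linarith
    linarith
  · rw [← hM, ← hnR, ← hβ, ← mul_div_assoc, div_le_iff₀ hβ0]
    have h1 : (2 * nR + 12) * tol ≤ α1 := by
      have h2 : (2 * nR + 12) * tol ≤ 2 * ((nR + 8) * tol) := by nlinarith
      have h3 : α1 / 8 * P ≤ α1 / 8 * 1 := mul_le_mul_of_nonneg_left hP1 (by positivity)
      linarith
    have h4 : M * (((n + 1 : ℕ) : ℝ) * d0 * p) ≤ β / 32 := by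
      rw [← hpM, hD]
      have : 0 ≤ M * p := by positivity
      nlinarith
    have h5 : M * ((2 * nR + 12) * tol) ≤ M * α1 := mul_le_mul_of_nonneg_left h1 (by linarith)
    have : M * ((2 * nR + 12) * tol + α1 + ((n + 1 : ℕ) : ℝ) * d0 * p) =
        M * ((2 * nR + 12) * tol) + M * α1 + M * (((n + 1 : ℕ) : ℝ) * d0 * p) := by ring
    rw [this]
    linarith

/-- LEAF `L-F3-E3`  **choice of the parameters** (pure real arithmetic; `ℓ = log L`).   Given `η > 0`: mesh `m`, then tolerances.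
RECIPE (checked by hand).  WLOG `η ≤ 1` (work with `η' = min η 1`, `L^η' ≤ L^η`).  `m = ⌈4 (n+2) d0/η⌉₊ + 1`  (`(n+2) d0/m ≤ η/4`);  `β = η/4`, `b = β ℓ`;  `α1 = β/(32 (m+1))`, `a1 = α1 ℓ`;  `α = α1/8`, `a = α ℓ`;  `p = β/(32 (m+1) ((n+1) d0 + 1))`;
`tol = min (α1/8) (α p^(n+2)/(16 (n+8)))` (then also `tol ≤ p^(n+2)/4`, `tol ≤ η/4`, `(2n+12) tol ≤ α1`, because `p ≤ 1`, `α ≤ 1`);  `e0 = min e1(tol) tol` with `e1, L1` from `bn_err_small n A γ tol`.   With `e = e0`, `K = L^e0`: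
`E1 + eℓ + 1 ≤ (n+8) tol ℓ`, `E3 ≤ (2n+12) tol ℓ`;  `δF ≤ (n+8) tol/α + e^(-αℓ) ≤ p^(n+2)/16 + L^(-α)`;  third term of `h2` `≤ L^(tol + 2α - α1) ≤ L^(-α1/2)`;  `δT ≤ ((2n+12) tol + α1 + (n+1) d0 p)/β ≤ 3/(32(m+1))`;
`bnK' ≤ 2 L^(η/4) + 3^(n+2) L^(η/2) + L^(η/2) ≤ L^η` for `L` large.   `L0` = max of `L1` and the finitely many thresholds (`e^(-αℓ) = L^(-α)`, `L^(-α1/2)`, `(3^(n+2)+3) ≤ L^(η/2)`). -/
theorem bn_num (n : ℕ) (A d0 γ η : ℝ) (hA : 1 ≤ A) (hd0 : 0 ≤ d0) (hγ : 0 < γ) (hη : 0 < η) :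
    ∃ e0 : ℝ, 0 < e0 ∧ ∃ m : ℕ, 0 < m ∧ ∃ L0 : ℝ, 1 < L0 ∧ ∀ L : ℝ, L0 ≤ L → ∃ r0 a a1 b p : ℝ,
      L⁻¹ ≤ r0 ∧ r0 ≤ 1 ∧ 0 < a ∧ 0 ≤ a1 ∧ 0 < b ∧ 0 ≤ p ∧
      ((m : ℝ) + 1) * (((bnE1 n e0 (Real.log L) (bnErr n (L ^ e0) A γ r0 (L ^ (2 : ℝ))) + e0 * Real.log L + 1) / a + Real.exp (-a)) +
        (bnE3 n A e0 (Real.log L) (bnErr n (L ^ e0) A γ r0 (L ^ (2 : ℝ))) + a1 + ((n + 1 : ℕ) : ℝ) * d0 * Real.log L * p) / (a1 + b)) ≤ 1 / 2 ∧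
      ((n + 2 : ℕ) : ℝ) * ((L ^ e0) ^ 2 * r0 ^ γ) +
        ((bnE1 n e0 (Real.log L) (bnErr n (L ^ e0) A γ r0 (L ^ (2 : ℝ))) + e0 * Real.log L + 1) / a + Real.exp (-a)) +
        (L ^ e0) ^ (n + 2) * bnM1 n A * bnM2 n (pjL A r0 (n + 2)) ^ 2 * Real.exp (2 * a - a1) ≤ p ^ (n + 2) ∧
      bnK' n L (L ^ e0) d0 a b m ≤ L ^ η := by
  obtain ⟨η', hη'⟩ : ∃ η' : ℝ, η' = min η 1 := ⟨_, rfl⟩
  have hη'0 : 0 < η' := by rw [hη']; exact lt_min hη one_pos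
  have hη'1 : η' ≤ 1 := by rw [hη']; exact min_le_right _ _
  have hη'η : η' ≤ η := by rw [hη']; exact min_le_left _ _
  obtain ⟨m, hm0, hmd, α1, α, p, tol, hα10, hα, hp0, htol0, hα1η, htola, hMP, hc1, htolP, hc3⟩ :=
    bn_e3_par n hd0 hη'0 hη'1
  obtain ⟨e1, he1, L1, hL1, H⟩ := bn_err_small n A γ tol hA hγ htol0
  obtain ⟨e0, he0⟩ : ∃ e0 : ℝ, e0 = min e1 tol := ⟨_, rfl⟩
  have he00 : 0 < e0 := by rw [he0]; exact lt_min he1 htol0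
  have he0a : e0 ≤ e1 := by rw [he0]; exact min_le_left _ _
  have he0b : e0 ≤ tol := by rw [he0]; exact min_le_right _ _
  have hα0 : 0 < α := by rw [hα]; positivity
  obtain ⟨P, hP⟩ : ∃ P : ℝ, P = p ^ (n + 2) := ⟨_, rfl⟩
  rw [← hP] at hMP hc1 htolP
  have hP0 : 0 < P := by rw [hP]; positivity
  obtain ⟨M, hM⟩ : ∃ M : ℝ, M = (m : ℝ) + 1 := ⟨_, rfl⟩
  rw [← hM] at hMP hc3
  have hM1 : 1 ≤ M := by rw [hM]; have : (0 : ℝ) ≤ m := Nat.cast_nonneg m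
                         linarith
  -- thresholds
  have ev1 : ∀ᶠ L : ℝ in Filter.atTop, L ^ (-α) ≤ min (1 / (4 * M)) (P / 4) :=
    (tendsto_rpow_neg_atTop hα0).eventually (Iic_mem_nhds (lt_min (by positivity) (by positivity)))
  have ev2 : ∀ᶠ L : ℝ in Filter.atTop, L ^ (-(α1 / 2)) ≤ P / 4 :=
    (tendsto_rpow_neg_atTop (by positivity : 0 < α1 / 2)).eventually (Iic_mem_nhds (by positivity))
  have ev3 : ∀ᶠ L : ℝ in Filter.atTop, (3 : ℝ) ^ (n + 2) + 3 ≤ L ^ (η' / 2) :=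
    (tendsto_rpow_atTop (by positivity : 0 < η' / 2)).eventually_ge_atTop _
  obtain ⟨a0, ha0⟩ := Filter.eventually_atTop.1 (ev1.and (ev2.and ev3))
  refine ⟨e0, he00, m, hm0, max a0 L1, lt_of_lt_of_le hL1 (le_max_right _ _), fun L hL => ?_⟩
  obtain ⟨hv1, hv2, hv3⟩ := ha0 L ((le_max_left _ _).trans hL)
  have hLL1 : L1 ≤ L := (le_max_right _ _).trans hL
  have hL1' : 1 < L := lt_of_lt_of_le hL1 hLL1
  have hL0 : 0 < L := by linarith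
  obtain ⟨r0, hr0, hr1, hA', hB', hC'⟩ := H L hLL1 (L ^ e0) (Real.one_le_rpow hL1'.le he00.le)
    (Real.rpow_le_rpow_of_exponent_le hL1'.le he0a)
  obtain ⟨ℓ, hℓ⟩ : ∃ ℓ : ℝ, ℓ = Real.log L := ⟨_, rfl⟩
  have hℓ0 : 0 < ℓ := by rw [hℓ]; exact Real.log_pos hL1'
  obtain ⟨Err, hErr⟩ : ∃ Err : ℝ, Err = bnErr n (L ^ e0) A γ r0 (L ^ (2 : ℝ)) := ⟨_, rfl⟩
  rw [← hErr, ← hℓ] at hA'
  have hM3 : 1 ≤ bnM3 n A := by
    unfold bnM3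
    have : (1 : ℝ) ≤ (2 * A + 4) ^ (n + 2) := one_le_pow₀ (by linarith)
    linarith
  have hg2 : 0 ≤ Real.log (bnM3 n A) := Real.log_nonneg hM3
  have hg1 : 0 ≤ Real.log (2 ^ (n + 2) * bnM3 n A) := by
    apply Real.log_nonneg
    have : (1 : ℝ) ≤ 2 ^ (n + 2) := one_le_pow₀ (by norm_num)
    nlinarith
  have hn0 : (0 : ℝ) ≤ (n : ℝ) := Nat.cast_nonneg n
  have hS1 : bnE1 n e0 ℓ Err + e0 * ℓ + 1 ≤ ((n : ℝ) + 8) * tol * ℓ := by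
    have := bn_e3_S1 hn0 hℓ0.le he0b htol0.le hg1 hg2 hA'
    unfold bnE1
    push_cast
    exact this
  have hS3 : bnE3 n A e0 ℓ Err + α1 * ℓ + ((n + 1 : ℕ) : ℝ) * d0 * ℓ * p ≤
      ((2 * (n : ℝ) + 12) * tol + α1 + ((n + 1 : ℕ) : ℝ) * d0 * p) * ℓ := by
    have := bn_e3_S3 hn0 hℓ0.le he0b hg1 hg2 hA'
    unfold bnE3 bnE1
    push_cast at this ⊢
    linarith
  have hexp : Real.exp (-(α * ℓ)) = L ^ (-α) := by
    rw [← bn_e3_exp hL0, hℓ]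
    congr 1
    ring
  have hx1 : M * Real.exp (-(α * ℓ)) ≤ 1 / 4 := by
    rw [hexp]
    have h1 := hv1.trans (min_le_left _ _)
    rw [le_div_iff₀ (by positivity)] at h1
    linarith
  have hx2 : Real.exp (-(α * ℓ)) ≤ P / 4 := by
    rw [hexp]
    exact hv1.trans (min_le_right _ _)
  refine ⟨r0, α * ℓ, α1 * ℓ, η' / 4 * ℓ, p, hr0, hr1, by positivity, by positivity, by positivity, hp0.le, ?_, ?_, ?_⟩
  · rw [← hErr, ← hℓ, ← hM]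
    exact bn_e3_h1 hM1 hℓ0 hα0 hα10.le (by positivity) hS1 hc1 hx1 hS3 (by positivity) hc3 hMP
  · rw [← hErr, ← hℓ, ← hP]
    refine bn_e3_h2 hℓ0 hα0 hS1 hc1 hP0.le (hB'.trans htolP) hx2 ?_
    have e2 : Real.exp (2 * (α * ℓ) - α1 * ℓ) = L ^ (2 * α - α1) := by
      rw [← bn_e3_exp hL0, hℓ]
      congr 1
      ring
    rw [e2]
    calc (L ^ e0) ^ (n + 2) * bnM1 n A * bnM2 n (pjL A r0 (n + 2)) ^ 2 * L ^ (2 * α - α1)
        ≤ L ^ tol * L ^ (2 * α - α1) := mul_le_mul_of_nonneg_right hC' (Real.rpow_nonneg hL0.le _)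
      _ = L ^ (tol + (2 * α - α1)) := (Real.rpow_add hL0 _ _).symm
      _ ≤ L ^ (-(α1 / 2)) := Real.rpow_le_rpow_of_exponent_le hL1'.le (by rw [hα]; linarith)
      _ ≤ P / 4 := hv2
  · unfold bnK'
    have e1' : Real.exp (2 * (α * ℓ)) = L ^ (2 * α) := by
      rw [← bn_e3_exp hL0, hℓ]
      congr 1
      ring
    have e2' : Real.exp (η' / 4 * ℓ) = L ^ (η' / 4) := by
      rw [← bn_e3_exp hL0, hℓ]
    rw [e1', e2']
    obtain ⟨Y, hY⟩ : ∃ Y : ℝ, Y = L ^ (η' / 2) := ⟨_, rfl⟩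
    have hY0 : 0 < Y := by rw [hY]; exact Real.rpow_pos_of_pos hL0 _
    have t1 : L ^ e0 ≤ Y := by
      rw [hY]
      exact Real.rpow_le_rpow_of_exponent_le hL1'.le (by linarith)
    have t2 : L ^ (2 * α) * L ^ (((n + 2 : ℕ) : ℝ) * d0 / m) ≤ Y := by
      rw [hY, ← Real.rpow_add hL0]
      exact Real.rpow_le_rpow_of_exponent_le hL1'.le (by rw [hα]; linarith)
    have hmd' : ((n + 1 : ℕ) : ℝ) * d0 / m ≤ η' / 4 := by
      refine le_trans ?_ hmd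
      have hmR : (0 : ℝ) < m := by exact_mod_cast hm0
      apply div_le_div_of_nonneg_right _ hmR.le
      apply mul_le_mul_of_nonneg_right _ hd0
      push_cast
      linarith
    have t3 : L ^ (η' / 4) * L ^ (((n + 1 : ℕ) : ℝ) * d0 / m) ≤ Y := by
      rw [hY, ← Real.rpow_add hL0]
      exact Real.rpow_le_rpow_of_exponent_le hL1'.le (by linarith)
    have t4 : Y * Y = L ^ η' := by
      rw [hY, ← Real.rpow_add hL0]
      congr 1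
      ring
    have t5 : L ^ η' ≤ L ^ η := Real.rpow_le_rpow_of_exponent_le hL1'.le hη'η
    rw [← hY] at hv3
    have h3pos : (0 : ℝ) < 3 ^ (n + 2) := by positivity
    have t2' : 3 ^ (n + 2) * L ^ (2 * α) * L ^ (((n + 2 : ℕ) : ℝ) * d0 / m) ≤ 3 ^ (n + 2) * Y := by
      rw [mul_assoc]
      exact mul_le_mul_of_nonneg_left t2 h3pos.le
    have t6 : (3 ^ (n + 2) + 3) * Y ≤ Y * Y := mul_le_mul_of_nonneg_right hv3 hY0.le
    have t7 : (3 ^ (n + 2) + 3) * Y = 2 * Y + 3 ^ (n + 2) * Y + Y := by ring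
    linarith

/-- **BIN, abstract form** (`f:binary`): for `0 < d0 < 1` there is no configuration with small losses. -/
theorem bn_main (n : ℕ) (d0 γ A : ℝ) (hd0 : 0 < d0) (hd1 : d0 < 1) (hγ : 0 < γ) (hA : 1 ≤ A) :
    ∃ e0 : ℝ, 0 < e0 ∧ ∃ m : ℕ, 0 < m ∧ ∃ L0 : ℝ, 1 < L0 ∧ ∀ L : ℝ, L0 ≤ L → ∀ M : ℝ, 0 < M →
      ∀ (𝒳 𝒯 𝒲 : Type) [Fintype 𝒳] [Fintype 𝒯] (F : BnCfg n 𝒳 𝒯 𝒲), ¬ F.Ok L M (L ^ e0) A d0 γ e0 m := by
  obtain ⟨η, hη, ρ₁, hρ₁, H⟩ := pj_main n d0 γ A hd0 hd1 hγ hA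
  obtain ⟨e0, he0, m, hm, L0, hL0, N⟩ := bn_num n A d0 γ η hA hd0.le hγ hη
  refine ⟨e0, he0, m, hm, max L0 (ρ₁⁻¹ + 1), lt_of_lt_of_le hL0 (le_max_left _ _), fun L hL M hM 𝒳 𝒯 𝒲 _ _ F hF => ?_⟩
  have hL1 : 1 < L := lt_of_lt_of_le hL0 ((le_max_left _ _).trans hL)
  have hL00 : 0 < L := by linarith
  obtain ⟨r0, a, a1, b, p, hr0, hr1, ha, ha1, hb, hp, h1, h2, h3⟩ := N L ((le_max_left _ _).trans hL)
  have hK : 1 ≤ L ^ e0 := Real.one_le_rpow hL1.le he0.le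
  have hρ : L⁻¹ < ρ₁ := by
    have h4 : ρ₁⁻¹ < L := lt_of_lt_of_le (by linarith) ((le_max_right _ _).trans hL)
    exact inv_lt_of_inv_lt₀ hρ₁ h4
  refine bn_core F hF hL1 hM hK hA hd0.le he0.le hm hr0 hr1 ha ha1 hb hp h1 h2 h3 fun G hG => ?_
  have h5 := H L⁻¹ (inv_pos.2 hL00) hρ 𝒳 𝒯 G
  have h6 : L⁻¹ ^ (-η) = L ^ η := by
    rw [Real.inv_rpow hL00.le, Real.rpow_neg hL00.le, inv_inv]
  rw [h6] at h5
  exact h5 hG

end Claimed.Agent.R257
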