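import Claimed.Agent.R257.FR3.BinEnt

/-!
# ROW 257, package FR3, unit BIN, file 3: SATURATION (linear algebra) AND THE SAMPLED FORMS      (architect helper121)

PAPER-FREE.  Notation: `ℓ = log L`, `lM = log M`, `w = j/m ∈ [1,2]`, parent scale `L^2`.
* `bn_lin`         all entropies are determined: `N(L^w) ≥ lM + (n+2) d0 w ℓ - E1`,  `H(tub(L^w, L^2) | iso L^2, θ) ≤ (n+1) d0 (2-w) ℓ + E3`.
* `bn_frost_typ`   typical points: the cell `iso L^w` has conditional mass `≤ L^(-(n+2) d0 (2-w)) e^(2a)` in its parent.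
* `bn_lower_tail`  the tilted cells are not too heavy (Jensen for the i.i.d. redraws + COUNTING Loomis-Whitney `pj_lw` + Frostman).
* `bn_upper_tail`  hence (mean + Markov) the tilted cells are not too light: few of them.
-/

set_option autoImplicit false

namespace Claimed.Agent.R257

open scoped BigOperators
open Classical Matrix
open Claimed.Agent.R255 Claimed.Agent.R255.FLaw

variable {n : ℕ} {𝒳 𝒯 𝒲 : Type} [Fintype 𝒳] [Fintype 𝒯]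

/-- first error -/
noncomputable def bnE1 (n : ℕ) (e ℓ Err : ℝ) : ℝ := ((n + 5 : ℕ) : ℝ) * e * ℓ + Err

/-- final error of the mean of the surprise of the tilted cell -/
noncomputable def bnE3 (n : ℕ) (A e ℓ Err : ℝ) : ℝ :=
  ((n + 5 : ℕ) : ℝ) * e * ℓ + bnE1 n e ℓ Err + Err + Real.log (2 ^ (n + 2) * bnM3 n A) + Real.log (bnM3 n A)

/-- LEAF `L-F3-C0`  `bnErr` is nonnegative and monotone in the aspect ratio `q`.   PLAN: all logarithms are of numbers `≥ 1` (`pj_L_one_le`). -/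
theorem bn_err_mono (n : ℕ) {K A γ r0 q q' : ℝ} (hK : 1 ≤ K) (hA : 1 ≤ A) (hr0 : 0 < r0) (hr1 : r0 ≤ 1) (hq : 0 ≤ q) (hqq : q ≤ q') :
    0 ≤ bnErr n K A γ r0 q ∧ bnErr n K A γ r0 q ≤ bnErr n K A γ r0 q' := by
  have hL := pj_L_one_le hA hr0 hr1 (n + 2)
  have h1 : 0 ≤ Real.log (bnM1 n A) := by
    refine Real.log_nonneg ?_
    unfold bnM1
    refine one_le_pow₀ ?_
    have : 0 ≤ 2 * ((n + 2 : ℕ) : ℝ) * A := by positivity
    linarith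
  have h2 : 0 ≤ Real.log (bnM2 n (pjL A r0 (n + 2))) := by
    refine Real.log_nonneg ?_
    unfold bnM2
    exact one_le_pow₀ (by linarith)
  have h3 : 0 ≤ Real.log (bnM3 n A) := by
    refine Real.log_nonneg ?_
    unfold bnM3
    have : (1 : ℝ) ≤ (2 * A + 4) ^ (n + 2) := one_le_pow₀ (by linarith)
    linarith
  have h4 : 0 ≤ Real.log ((q + 2) ^ (n + 2)) := Real.log_nonneg (one_le_pow₀ (by linarith))
  have h5 : Real.log ((q + 2) ^ (n + 2)) ≤ Real.log ((q' + 2) ^ (n + 2)) :=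
    Real.log_le_log (by positivity) (pow_le_pow_left₀ (by linarith) (by linarith) _)
  have h6 : 0 ≤ ((n + 1 : ℕ) : ℝ) * (((n + 2 : ℕ) : ℝ) * (K ^ 2 * r0 ^ γ)) := by
    have := Real.rpow_nonneg hr0.le γ
    positivity
  unfold bnErr
  refine ⟨?_, ?_⟩
  · have a1 : 0 ≤ ((n + 1 : ℕ) : ℝ) * Real.log (bnM1 n A) := mul_nonneg (Nat.cast_nonneg _) h1
    have a2 : 0 ≤ ((n + 2 : ℕ) : ℝ) * Real.log (bnM2 n (pjL A r0 (n + 2))) := mul_nonneg (Nat.cast_nonneg _) h2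
    have a3 : 0 ≤ ((n + 2 : ℕ) : ℝ) * Real.log (bnM3 n A) := mul_nonneg (Nat.cast_nonneg _) h3
    have a4 := mul_nonneg h6 h4
    linarith
  · have := mul_le_mul_of_nonneg_left h5 h6
    linarith

/-- arithmetic of `bn_lin`, first claim -/
theorem bn_lin_a1 {a lM d0 v ℓ e Err Nj N2j Ijj io2j : ℝ} (ha : 1 ≤ a) (he : 0 ≤ e * ℓ) (hErr : 0 ≤ Err)
    (hsh : (a + 1) * Ijj ≤ N2j + a * Nj + a * (a + 1) * io2j + Err)
    (hocc : lM + ((a + 2) * d0 * v - e) * ℓ ≤ Ijj)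
    (hU : N2j ≤ lM + ((a + 1) * d0 * (2 * v) + e) * ℓ)
    (hio : io2j ≤ e * ℓ) :
    lM + (a + 1) * d0 * v * ℓ - ((a + 4) * e * ℓ + Err) ≤ Nj := by
  have h1 := mul_le_mul_of_nonneg_left hocc (by linarith : 0 ≤ a + 1)
  have h2 := mul_le_mul_of_nonneg_left hio (by nlinarith : 0 ≤ a * (a + 1))
  have h3 := mul_nonneg (by linarith : 0 ≤ a - 1) he
  have h4 := mul_nonneg (by linarith : 0 ≤ a - 1) hErr
  refine le_of_mul_le_mul_left ?_ (by linarith : 0 < a)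
  linarith

/-- arithmetic of `bn_lin`, second claim -/
theorem bn_lin_a2 {a lM d0 v ℓ e Err T N2 N2j Ij2 Ijj I2j io2 io2j lc l3 : ℝ} (ha : 1 ≤ a) (he : 0 ≤ e * ℓ) (hErr : 0 ≤ Err)
    (htub : T ≤ N2 - Ij2 + l3)
    (hch : Ijj ≤ Ij2 + I2j - N2 + io2 + lc)
    (hsh : (a + 1) * I2j ≤ N2j + a * N2 + a * (a + 1) * io2j + Err)
    (hocc : lM + ((a + 2) * d0 * v - e) * ℓ ≤ Ijj)
    (hU : N2j ≤ lM + ((a + 1) * d0 * (2 * v) + e) * ℓ)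
    (hU2 : N2 ≤ lM + ((a + 1) * d0 * 2 + e) * ℓ)
    (hio : io2j ≤ e * ℓ) (hio2 : io2 ≤ e * ℓ) :
    T ≤ a * d0 * (2 - v) * ℓ + ((a + 4) * e * ℓ + ((a + 4) * e * ℓ + Err) + Err + lc + l3) := by
  have h1 : I2j ≤ lM + d0 * ℓ * (2 * v + 2 * a) + (a + 1) * (e * ℓ) + Err := by
    have h2 := mul_le_mul_of_nonneg_left hio (by nlinarith : 0 ≤ a * (a + 1))
    have h3 := mul_le_mul_of_nonneg_left hU2 (by linarith : 0 ≤ a)
    have h4 := mul_nonneg (by linarith : 0 ≤ a) hErr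
    refine le_of_mul_le_mul_left ?_ (by linarith : 0 < a + 1)
    linarith
  have h5 := mul_nonneg (by linarith : 0 ≤ a) he
  linarith

/-- LEAF `L-F3-C1`  **SATURATION.**   `Err = bnErr n K A γ r0 (L^2)`.
PLAN (all computations are in the header of this leaf; `v_j = j/m`, `s_j = L^(j/m)`, `L^(2 (j/m)) = L^((2j : ℕ)/m)`, `L^2 = L^((2m : ℕ)/m)`; ratios `s'/s ≤ L^2`: `bn_err_mono`).
(0) `N(s_i) ≤ lM + ((n+2) d0 v_i + e) ℓ` for `m ≤ i ≤ 4m` (`bn_N_le`, `hF.cnt`, `Real.log_mul`, `Real.log_rpow`).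
(1) `bn_shearer` at `(s_j, s_{2j})`, `hF.occ j`, (0) at `2j`, `hF.inf (2j)`:  `(n+1) N(s_j) ≥ (n+1) lM + (n+1)(n+2) d0 v_j ℓ - ((n+3) + (n+1)(n+2)) e ℓ - Err`; divide: first claim (`((n+3)+(n+1)(n+2))/(n+1) ≤ n+5`, `Err/(n+1) ≤ Err`).
(2) `bn_shearer` at `(L^2, s_{2j})`: `(n+2) I(L^2, s_{2j}) ≤ N(s_{2j}) + (n+1) N(L^2) + (n+1)(n+2) e ℓ + Err`.     (3) `bn_chain` at `(s_j, L^2, s_{2j})`:  `I(s_j, L^2) ≥ I(s_j, s_{2j}) - I(L^2, s_{2j}) + N(L^2) - e ℓ - log(2^(n+2) bnM3)`.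
(4) insert (2), `hF.occ j`, (0) at `2j`, (1) at `j = 2m`:  `I(s_j, L^2) ≥ lM + ((n+1) d0 v_j + 2 d0) ℓ - ((n+4) e ℓ + E1 + Err + log(..))`.     (5) `bn_tub_ent` at `(s_j, L^2)` and (0) at `2m`: second claim. -/
theorem bn_lin (F : BnCfg n 𝒳 𝒯 𝒲) {L M K A d0 γ e r0 : ℝ} {m : ℕ} (hF : F.Ok L M K A d0 γ e m) (hL : 1 < L) (hM : 0 < M) (hK : 1 ≤ K)
    (hA : 1 ≤ A) (hd0 : 0 ≤ d0) (he : 0 ≤ e) (hm : 0 < m) (hr0 : L⁻¹ ≤ r0) (hr1 : r0 ≤ 1) (j : ℕ) (hj : m ≤ j) (hj2 : j ≤ 2 * m) :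
    Real.log M + ((n + 2 : ℕ) : ℝ) * d0 * ((j : ℝ) / m) * Real.log L - bnE1 n e (Real.log L) (bnErr n K A γ r0 (L ^ (2 : ℝ))) ≤ F.N (L ^ ((j : ℝ) / m)) ∧
    F.P.entC (F.tub (L ^ ((j : ℝ) / m)) (L ^ (2 : ℝ))) (pair (fun y => F.iso (L ^ (2 : ℝ)) y.1) Prod.snd) ≤
      ((n + 1 : ℕ) : ℝ) * d0 * (2 - (j : ℝ) / m) * Real.log L + bnE3 n A e (Real.log L) (bnErr n K A γ r0 (L ^ (2 : ℝ))) := by
  have hL0 : 0 < L := by linarith
  have hℓ : 0 < Real.log L := Real.log_pos hL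
  have hm0 : (0 : ℝ) < m := by exact_mod_cast hm
  have hB := hF.toBase
  have hρ : 0 < L⁻¹ := inv_pos.2 hL0
  have hr00 : 0 < r0 := hρ.trans_le hr0
  have hU : ∀ i : ℕ, m ≤ i → i ≤ 4 * m →
      F.N (L ^ ((i : ℝ) / m)) ≤ Real.log M + (((n + 2 : ℕ) : ℝ) * d0 * ((i : ℝ) / m) + e) * Real.log L := by
    intro i hi hi4
    have := bn_N_le F _ _ (hF.cnt i hi hi4)
    rwa [Real.log_mul hM.ne' (Real.rpow_pos_of_pos hL0 _).ne', Real.log_rpow hL0] at this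
  obtain ⟨v, hv⟩ : ∃ v : ℝ, v = (j : ℝ) / m := ⟨_, rfl⟩
  have hv1 : 1 ≤ v := by
    rw [hv, le_div_iff₀ hm0, one_mul]
    exact_mod_cast hj
  have hv2 : v ≤ 2 := by
    rw [hv, div_le_iff₀ hm0]
    exact_mod_cast hj2
  have c2j : (((2 * j : ℕ)) : ℝ) / m = 2 * v := by
    rw [hv]
    push_cast
    ring
  have c2m : (((2 * m : ℕ)) : ℝ) / m = 2 := by
    push_cast
    field_simp
  have U2j := hU (2 * j) (by omega) (by omega)
  have U2m := hU (2 * m) (by omega) (by omega)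
  have io2j := hF.inf (2 * j) (by omega) (by omega)
  have io2m := hF.inf (2 * m) (by omega) (by omega)
  have occ := hF.occ j hj hj2
  rw [c2j] at U2j io2j
  rw [c2m] at U2m io2m
  rw [← hv] at occ ⊢
  have p1 : 0 < L ^ v := Real.rpow_pos_of_pos hL0 _
  have p2 : 0 < L ^ (2 : ℝ) := Real.rpow_pos_of_pos hL0 _
  have m1 : L ^ v ≤ L ^ (2 * v) := Real.rpow_le_rpow_of_exponent_le hL.le (by linarith)
  have m2 : L ^ v ≤ L ^ (2 : ℝ) := Real.rpow_le_rpow_of_exponent_le hL.le hv2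
  have m3 : L ^ (2 : ℝ) ≤ L ^ (2 * v) := Real.rpow_le_rpow_of_exponent_le hL.le (by linarith)
  have hErr := (bn_err_mono n (γ := γ) hK hA hr00 hr1 p2.le le_rfl).1
  have q1 : bnErr n K A γ r0 (L ^ (2 * v) / L ^ v) ≤ bnErr n K A γ r0 (L ^ (2 : ℝ)) := by
    rw [← Real.rpow_sub hL0]
    exact (bn_err_mono n hK hA hr00 hr1 (Real.rpow_pos_of_pos hL0 _).le
      (Real.rpow_le_rpow_of_exponent_le hL.le (by linarith))).2
  have q2 : bnErr n K A γ r0 (L ^ (2 * v) / L ^ (2 : ℝ)) ≤ bnErr n K A γ r0 (L ^ (2 : ℝ)) := by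
    rw [← Real.rpow_sub hL0]
    exact (bn_err_mono n hK hA hr00 hr1 (Real.rpow_pos_of_pos hL0 _).le
      (Real.rpow_le_rpow_of_exponent_le hL.le (by linarith))).2
  have sh1 := bn_shearer F hB hK hA hρ hr0 hr1 p1 m1
  have sh2 := bn_shearer F hB hK hA hρ hr0 hr1 p2 m3
  have tb := bn_tub_ent F hB hA p1 m2
  have ch := bn_chain F hB hA p1 m2 m3
  have e2 : ((n + 2 : ℕ) : ℝ) = ((n + 1 : ℕ) : ℝ) + 1 := by
    push_cast
    ring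
  have e3 : ((n + 3 : ℕ) : ℝ) = ((n + 1 : ℕ) : ℝ) + 2 := by
    push_cast
    ring
  have e5 : ((n + 5 : ℕ) : ℝ) = ((n + 1 : ℕ) : ℝ) + 4 := by
    push_cast
    ring
  have ha : (1 : ℝ) ≤ ((n + 1 : ℕ) : ℝ) := by
    push_cast
    have : (0 : ℝ) ≤ n := Nat.cast_nonneg n
    linarith
  have heℓ : 0 ≤ e * Real.log L := mul_nonneg he hℓ.le
  unfold bnE3 bnE1
  rw [e2] at U2j U2m sh1 sh2 ⊢
  rw [e3] at occ
  rw [e5]
  exact ⟨bn_lin_a1 ha heℓ hErr (by linarith) occ U2j io2j,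
    bn_lin_a2 ha heℓ hErr tb ch (by linarith) occ U2j U2m io2j io2m⟩

/-- the cell `iso (L^v)` of `x` is not too heavy in its parent `iso (L^2)` -/
def BnCfg.Fr (F : BnCfg n 𝒳 𝒯 𝒲) (L d0 v a : ℝ) (x : 𝒳) : Prop :=
  F.P.pr (fun y => F.iso (L ^ v) y.1 = F.iso (L ^ v) x ∧ F.iso (L ^ (2 : ℝ)) y.1 = F.iso (L ^ (2 : ℝ)) x) ≤
    L ^ (-(((n + 2 : ℕ) : ℝ) * d0 * (2 - v))) * Real.exp (2 * a) * F.P.pr (fun y => F.iso (L ^ (2 : ℝ)) y.1 = F.iso (L ^ (2 : ℝ)) x)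

/-- the surprise of the tilted cell `(s, s2)` inside the parent `iso s2`, given the direction -/
noncomputable def BnCfg.sur (F : BnCfg n 𝒳 𝒯 𝒲) (s s2 : ℝ) (y : 𝒳 × 𝒯) : ℝ :=
  F.P.surC (F.tub s s2) (pair (fun y => F.iso s2 y.1) Prod.snd) y

/-- LEAF `L-F3-C2`  **typical Frostman bound.**   `C_v = M L^((n+2) d0 v + e)`.
PLAN.  `σ_v = surC fst (iso (L^v) ∘ fst)`.   (i) `ent_surC_tail` (NVal from `hF.cnt j`): `P(σ_v > log C_v + a) ≤ e^(-a)`.   (ii) `ek_saturated` at `v = 2` (`hF.cnt (2m)`, `η = E1 + e ℓ` by `hN2`): `P(σ_2 < log C_2 - a) ≤ (E1 + eℓ + 1)/a`.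
(iii) at a point of the support outside both events: `fib (pair iso_v iso_2) / fib iso_2 = [fib(x)/fib iso_2] / [fib(x)/fib (pair iso_v iso_2)] ≤ exp(-σ_2) exp(σ_v)` because `fib (pair iso_v iso_2) ≤ fib iso_v`
(`ent_fib_pair_le_left`), `fib (pair fst (iso ∘ fst)) = fib fst`; `log C_2 - log C_v = (n+2) d0 (2-v) ℓ`.   `ent_pr_or_le`. -/
theorem bn_frost_typ (F : BnCfg n 𝒳 𝒯 𝒲) {L M K A d0 γ e E1 a : ℝ} {m : ℕ} (hF : F.Ok L M K A d0 γ e m) (hL : 1 < L) (hM : 0 < M)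
    (hm : 0 < m) (ha : 0 < a)
    (hN2 : Real.log M + ((n + 2 : ℕ) : ℝ) * d0 * 2 * Real.log L - E1 ≤ F.N (L ^ (2 : ℝ))) (j : ℕ) (hj : m ≤ j) (hj2 : j ≤ 2 * m) :
    F.P.pr (fun y => ¬ F.Fr L d0 ((j : ℝ) / m) a y.1) ≤ (E1 + e * Real.log L + 1) / a + Real.exp (-a) := by
  have hL0 : 0 < L := by linarith
  have hm0 : (0 : ℝ) < m := by exact_mod_cast hm
  have c2m : (((2 * m : ℕ)) : ℝ) / m = 2 := by
    push_cast
    field_simp
  obtain ⟨v, hv⟩ : ∃ v : ℝ, v = (j : ℝ) / m := ⟨_, rfl⟩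
  have cntv := hF.cnt j hj (by omega)
  have cnt2 := hF.cnt (2 * m) (by omega) (by omega)
  rw [c2m] at cnt2
  rw [← hv] at cntv ⊢
  obtain ⟨Cv, hCv⟩ : ∃ C : ℝ, C = M * L ^ (((n + 2 : ℕ) : ℝ) * d0 * v + e) := ⟨_, rfl⟩
  obtain ⟨C2, hC2⟩ : ∃ C : ℝ, C = M * L ^ (((n + 2 : ℕ) : ℝ) * d0 * 2 + e) := ⟨_, rfl⟩
  rw [← hCv] at cntv
  rw [← hC2] at cnt2
  have hCv0 : 0 < Cv := by
    rw [hCv]
    exact mul_pos hM (Real.rpow_pos_of_pos hL0 _)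
  have hC20 : 0 < C2 := by
    rw [hC2]
    exact mul_pos hM (Real.rpow_pos_of_pos hL0 _)
  have lCv : Real.log Cv = Real.log M + (((n + 2 : ℕ) : ℝ) * d0 * v + e) * Real.log L := by
    rw [hCv, Real.log_mul hM.ne' (Real.rpow_pos_of_pos hL0 _).ne', Real.log_rpow hL0]
  have lC2 : Real.log C2 = Real.log M + (((n + 2 : ℕ) : ℝ) * d0 * 2 + e) * Real.log L := by
    rw [hC2, Real.log_mul hM.ne' (Real.rpow_pos_of_pos hL0 _).ne', Real.log_rpow hL0]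
  have nv : ∀ (s C : ℝ),
      (∀ x0 : 𝒳, (((Finset.univ.filter fun x => rdM F.P x ≠ 0 ∧ F.iso s x = F.iso s x0).card : ℕ) : ℝ) ≤ C) →
      F.P.NVal (fun _ => True) Prod.fst (fun y => F.iso s y.1) C := by
    intro s C h ω₀
    refine ⟨Finset.univ.filter fun x => rdM F.P x ≠ 0 ∧ F.iso s x = F.iso s ω₀.1, h ω₀.1, fun ω hω _ hi => ?_⟩
    rw [Finset.mem_filter]
    exact ⟨Finset.mem_univ _, fun h0 => hω (rd_p_eq_zero F.P h0 ω.2), hi⟩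
  have t1 := ent_surC_tail F.P Prod.fst (fun y => F.iso (L ^ v) y.1) hCv0 (nv _ _ cntv) a
  have t2 := ek_saturated F.P Prod.fst (fun y => F.iso (L ^ (2 : ℝ)) y.1) (η := E1 + e * Real.log L) hC20 (nv _ _ cnt2) (by
    rw [lC2]
    have : F.N (L ^ (2 : ℝ)) = F.P.entC Prod.fst (fun y => F.iso (L ^ (2 : ℝ)) y.1) := rfl
    rw [← this]
    linarith) ha
  refine le_trans (ent_pr_mono F.P (F := fun ω => (F.P.surC Prod.fst (fun y => F.iso (L ^ (2 : ℝ)) y.1) ω < Real.log C2 - a) ∨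
    (Real.log Cv + a < F.P.surC Prod.fst (fun y => F.iso (L ^ v) y.1) ω)) fun ω hω hn => ?_)
    ((ent_pr_or_le F.P _ _).trans (add_le_add t2 t1))
  by_contra hc
  rw [not_or, not_lt, not_lt] at hc
  obtain ⟨hc2, hcv⟩ := hc
  apply hn
  unfold BnCfg.Fr
  have f1 : ∀ s, F.P.fib (pair Prod.fst (fun y => F.iso s y.1)) ω = F.P.fib Prod.fst ω := fun s =>
    ent_pr_congr F.P fun ω' _ => by
      simp only [pair, Prod.mk.injEq]
      exact ⟨fun h => h.1, fun h => ⟨h, by rw [h]⟩⟩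
  rw [ent_surC_eq_sub _ _ _ hω, f1] at hc2 hcv
  have pv := ent_fib_pos F.P (fun y => F.iso (L ^ v) y.1) hω
  have p2 := ent_fib_pos F.P (fun y => F.iso (L ^ (2 : ℝ)) y.1) hω
  have g1 : F.P.pr (fun y => F.iso (L ^ v) y.1 = F.iso (L ^ v) ω.1 ∧ F.iso (L ^ (2 : ℝ)) y.1 = F.iso (L ^ (2 : ℝ)) ω.1)
      ≤ F.P.fib (fun y => F.iso (L ^ v) y.1) ω := ent_pr_mono F.P fun _ _ h => h.1
  refine g1.trans ?_
  have g2 : F.P.pr (fun y => F.iso (L ^ (2 : ℝ)) y.1 = F.iso (L ^ (2 : ℝ)) ω.1) = F.P.fib (fun y => F.iso (L ^ (2 : ℝ)) y.1) ω := rfl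
  rw [g2]
  have q1 : 0 < L ^ (-(((n + 2 : ℕ) : ℝ) * d0 * (2 - v))) := Real.rpow_pos_of_pos hL0 _
  have q2 : 0 < Real.exp (2 * a) := Real.exp_pos _
  refine (Real.log_le_log_iff pv (by positivity)).1 ?_
  rw [Real.log_mul (by positivity) p2.ne', Real.log_mul q1.ne' q2.ne', Real.log_rpow hL0, Real.log_exp]
  rw [lC2] at hc2
  rw [lCv] at hcv
  linarith

theorem bn_mem_filter_mk {α : Type} {s : Finset α} {p : α → Prop} {inst : DecidablePred p} {a : α}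
    (h1 : a ∈ s) (h2 : p a) : a ∈ @Finset.filter α p inst s := Finset.mem_filter.2 ⟨h1, h2⟩

/-- counting an image through the fibres of another map -/
theorem bn_card_fib {α β γ : Type} [DecidableEq β] [DecidableEq γ] (S : Finset α) (f : α → β) (g : α → γ) (U : Finset γ) {N : ℝ} (hN : 0 ≤ N)
    (hg : ∀ x ∈ S, g x ∈ U)
    (h : ∀ x₀ ∈ S, ∃ G : Finset β, (G.card : ℝ) ≤ N ∧ ∀ x ∈ S, g x = g x₀ → f x ∈ G) :
    ((S.image f).card : ℝ) ≤ N * U.card := by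
  have h1 : S.image f ⊆ U.biUnion fun t => (S.filter fun x => g x = t).image f := by
    intro y hy
    obtain ⟨x, hx, rfl⟩ := Finset.mem_image.1 hy
    exact Finset.mem_biUnion.2 ⟨g x, hg x hx, Finset.mem_image_of_mem _ (Finset.mem_filter.2 ⟨hx, rfl⟩)⟩
  have h2 : ∀ t ∈ U, ((((S.filter fun x => g x = t).image f).card : ℕ) : ℝ) ≤ N := by
    intro t _
    rcases (S.filter fun x => g x = t).eq_empty_or_nonempty with he | ⟨x₀, hx₀⟩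
    · rw [he]
      simpa using hN
    · obtain ⟨hx₀S, hx₀t⟩ := Finset.mem_filter.1 hx₀
      obtain ⟨G, hG, hG2⟩ := h x₀ hx₀S
      refine le_trans ?_ hG
      have : (S.filter fun x => g x = t).image f ⊆ G := by
        intro y hy
        obtain ⟨x, hx, rfl⟩ := Finset.mem_image.1 hy
        obtain ⟨hxS, hxt⟩ := Finset.mem_filter.1 hx
        exact hG2 x hxS (hxt.trans hx₀t.symm)
      exact_mod_cast Finset.card_le_card this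
  calc ((S.image f).card : ℝ) ≤ ((U.biUnion fun t => (S.filter fun x => g x = t).image f).card : ℝ) := by
        exact_mod_cast Finset.card_le_card h1
    _ ≤ ((∑ t ∈ U, ((S.filter fun x => g x = t).image f).card : ℕ) : ℝ) := by
        exact_mod_cast Finset.card_biUnion_le
    _ = ∑ t ∈ U, ((((S.filter fun x => g x = t).image f).card : ℕ) : ℝ) := by
        push_cast
        rfl
    _ ≤ ∑ _t ∈ U, N := Finset.sum_le_sum h2
    _ = N * U.card := by rw [Finset.sum_const, nsmul_eq_mul, mul_comm]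

/-- the probability of an event of the point -/
theorem bn_pr_fst (P : FLaw (𝒳 × 𝒯)) (E : 𝒳 → Prop) : P.pr (fun y => E y.1) = ∑ x with E x, rdM P x := by
  rw [Finset.sum_filter]
  unfold FLaw.pr rdM
  rw [Fintype.sum_prod_type]
  refine Finset.sum_congr rfl fun x _ => ?_
  by_cases h : E x
  · simp [h]
  · simp [h]

/-- `b^(k+1) ≤ Y^(k+2)` gives `b ≤ Y^((k+2)/(k+1))` -/
theorem bn_root {k : ℕ} {b Y : ℝ} (hb : 0 ≤ b) (hY : 0 ≤ Y) (h : b ^ (k + 1) ≤ Y ^ (k + 2)) :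
    b ≤ Y ^ ((((k + 2 : ℕ) : ℝ)) / ((k + 1 : ℕ) : ℝ)) := by
  have h1 : (Y ^ ((((k + 2 : ℕ) : ℝ)) / ((k + 1 : ℕ) : ℝ))) ^ (k + 1) = Y ^ (k + 2) := by
    rw [← Real.rpow_natCast, ← Real.rpow_mul hY, div_mul_cancel₀ _ (by positivity), Real.rpow_natCast]
  rw [← h1] at h
  exact (pow_le_pow_iff_left₀ hb (Real.rpow_nonneg hY _) (Nat.succ_ne_zero k)).1 h

/-- LEAF `L-F3-C3`  **one parent cell, one good tuple: counting Loomis-Whitney.**   `q` = a parent cell, `θ` = a good tuple with dual basis `c`; `𝒜` = a set of points of the parent which are `Fr`-good and whose tilted cells in all the `n+2`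
directions belong to sets `Tj j` of at most `T` labels.   Then the mass of `𝒜` is `≤ bnM1 (bnM2 T)^((n+2)/(n+1)) L^(-(n+2) d0 (2-w)) e^(2a) P(parent)`.
PLAN.  `B = 𝒜.image (fun x => fun i => ⌊(c i ⬝ᵥ pos x)/s⌋)`.  `|B.image (pjDrop j)| ≤ bnM2 |Tj j|` (as in `bn_han_fixed` (3)).  `pj_lw (n+1) B`: `|B|^(n+1) ≤ ∏_j |π_j B| ≤ (bnM2 T)^(n+2)` (if `B ≠ ∅`), so `|B| ≤ (bnM2 T)^((n+2)/(n+1))`
(`Real.rpow_natCast`, `Real.rpow_le_rpow_left_iff`/`Real.pow_le_iff_le_rpow`-style).  The points over one element of `B` lie in `≤ bnM1` cells `iso s` (as in `bn_han_fixed` (2)); the points of `𝒜` in one cell `(iso s, parent)` have total `rdM`-mass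
`≤ P(iso s = · ∧ parent) ≤ L^(..) e^(2a) P(parent)` by `Fr` at any point of `𝒜` in the cell (`rdM`-sum over a set of `x` = `P.pr` of the event). -/
theorem bn_lw_cell (F : BnCfg n 𝒳 𝒯 𝒲) {L A Lb d0 w a T : ℝ} (hL : 1 < L) (hA : 1 ≤ A) (hLb : 1 ≤ Lb) (hT : 0 ≤ T) (x0 : 𝒳) (θ : Fin (n + 2) → 𝒯)
    {c : Fin (n + 2) → Fin (n + 2) → ℝ} (D : PjDual (n + 2) A Lb (fun j => F.dir (θ j)) c) (𝒜 : Finset 𝒳)
    (Tj : Fin (n + 2) → Finset (𝒲 × (Fin (n + 2) → ℤ) × ℤ)) (hTj : ∀ j, ((Tj j).card : ℝ) ≤ T)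
    (h1 : ∀ x ∈ 𝒜, F.iso (L ^ (2 : ℝ)) x = F.iso (L ^ (2 : ℝ)) x0 ∧ F.Fr L d0 w a x)
    (h2 : ∀ x ∈ 𝒜, ∀ j, F.tub (L ^ w) (L ^ (2 : ℝ)) (x, θ j) ∈ Tj j) :
    ∑ x ∈ 𝒜, rdM F.P x ≤ bnM1 n A * (bnM2 n Lb * T) ^ ((((n + 2 : ℕ) : ℝ)) / ((n + 1 : ℕ) : ℝ)) *
      (L ^ (-(((n + 2 : ℕ) : ℝ) * d0 * (2 - w))) * Real.exp (2 * a)) * F.P.pr (fun y => F.iso (L ^ (2 : ℝ)) y.1 = F.iso (L ^ (2 : ℝ)) x0) := by
  have hL0 : 0 < L := by linarith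
  have hs0 : 0 < L ^ w := Real.rpow_pos_of_pos hL0 _
  have hA0 : 0 < A := lt_of_lt_of_le one_pos hA
  have hLb0 : 0 < Lb := lt_of_lt_of_le one_pos hLb
  have hM1 : 0 ≤ bnM1 n A := by
    unfold bnM1
    positivity
  have hM2 : 0 ≤ bnM2 n Lb := by
    unfold bnM2
    positivity
  have hbi : ∀ i j, c i ⬝ᵥ F.dir (θ j) = if i = j then 1 else 0 := D.bi
  obtain ⟨Φ, hΦ⟩ : ∃ Φ : ℝ, Φ = L ^ (-(((n + 2 : ℕ) : ℝ) * d0 * (2 - w))) * Real.exp (2 * a) := ⟨_, rfl⟩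
  have hΦ0 : 0 ≤ Φ := by
    rw [hΦ]
    exact mul_nonneg (Real.rpow_nonneg hL0.le _) (Real.exp_pos _).le
  obtain ⟨p0, hp0⟩ : ∃ p0 : ℝ, p0 = F.P.pr (fun y => F.iso (L ^ (2 : ℝ)) y.1 = F.iso (L ^ (2 : ℝ)) x0) := ⟨_, rfl⟩
  have hp00 : 0 ≤ p0 := by
    rw [hp0]
    exact ent_pr_nonneg _ _
  rw [← hΦ, ← hp0]
  obtain ⟨X, hX⟩ : ∃ X : 𝒳 → Fin (n + 2) → ℤ, X = fun x i => ⌊(c i ⬝ᵥ F.pos x) / L ^ w⌋ := ⟨_, rfl⟩
  obtain ⟨B, hB⟩ : ∃ B : Finset (Fin (n + 2) → ℤ), B = 𝒜.image X := ⟨_, rfl⟩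
  have st1 : ∀ j, ((B.image (pjDrop j)).card : ℝ) ≤ bnM2 n Lb * T := by
    intro j
    have e : B.image (pjDrop j) = 𝒜.image (fun x => pjDrop j (X x)) := by
      rw [hB, Finset.image_image]
      rfl
    rw [e]
    refine (bn_card_fib 𝒜 _ (fun x => F.tub (L ^ w) (L ^ (2 : ℝ)) (x, θ j)) (Tj j) hM2 (fun x hx => h2 x hx j)
      fun x₀ _ => ?_).trans (mul_le_mul_of_nonneg_left (hTj j) hM2)
    refine ⟨Fintype.piFinset fun i => if i = j then {0} else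
      Finset.Icc ⌊(c i ⬝ᵥ F.pos x₀) / L ^ w - Lb⌋ ⌊(c i ⬝ᵥ F.pos x₀) / L ^ w + Lb⌋, ?_, ?_⟩
    · unfold bnM2
      refine bnh_card_pi_but _ j (by simp) fun i hi => ?_
      rw [if_neg hi]
      exact bnh_floor_card _ _ hLb0.le
    · intro x _ hx
      rw [Fintype.mem_piFinset]
      intro i
      by_cases hi : i = j
      · subst hi
        simp [pjDrop]
      · rw [if_neg hi]
        unfold pjDrop
        rw [Function.update_of_ne hi, hX]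
        refine bnh_floor_mem hs0 ?_
        have hx' : bnTub (L ^ w) (F.pos x) (F.dir (θ j)) = bnTub (L ^ w) (F.pos x₀) (F.dir (θ j)) :=
          congrArg (fun t => t.2.1) hx
        have h4 : ∀ l, |((F.pos x - F.pos x 0 • F.dir (θ j)) - (F.pos x₀ - F.pos x₀ 0 • F.dir (θ j))) l| ≤ L ^ w := by
          intro l
          have := bnh_floor_close hs0 (congrFun hx' l)
          simpa using this
        have h5 := D.coord_le i _ (L ^ w) hs0.le h4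
        have h6 : c i ⬝ᵥ ((F.pos x - F.pos x 0 • F.dir (θ j)) - (F.pos x₀ - F.pos x₀ 0 • F.dir (θ j)))
            = c i ⬝ᵥ F.pos x - c i ⬝ᵥ F.pos x₀ := by
          simp only [dotProduct_sub, dotProduct_smul, hbi, if_neg hi, smul_zero, sub_zero]
        rwa [h6] at h5
  have hY : 0 ≤ bnM2 n Lb * T := mul_nonneg hM2 hT
  have st2 : (B.card : ℝ) ≤ (bnM2 n Lb * T) ^ ((((n + 2 : ℕ) : ℝ)) / ((n + 1 : ℕ) : ℝ)) := by
    refine bn_root (Nat.cast_nonneg _) hY ?_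
    rcases Nat.eq_zero_or_pos B.card with h0 | h0
    · rw [h0, Nat.cast_zero, zero_pow (Nat.succ_ne_zero n)]
      positivity
    · have l1 := pj_lw (n + 1) B
      have l2 : B.card ^ (n + 1) ≤ ∏ i, (B.image (pjDrop i)).card := by
        rw [pow_succ'] at l1
        exact Nat.le_of_mul_le_mul_left l1 h0
      have l3 : (B.card : ℝ) ^ (n + 1) ≤ ∏ i, ((B.image (pjDrop i)).card : ℝ) := by exact_mod_cast l2
      refine l3.trans ?_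
      calc ∏ i, ((B.image (pjDrop i)).card : ℝ) ≤ ∏ _i : Fin (n + 2), (bnM2 n Lb * T) :=
            Finset.prod_le_prod (fun _ _ => Nat.cast_nonneg _) fun i _ => st1 i
        _ = (bnM2 n Lb * T) ^ (n + 2) := by rw [Finset.prod_const, Finset.card_univ, Fintype.card_fin]
  have st3 : ((𝒜.image (F.iso (L ^ w))).card : ℝ) ≤ bnM1 n A * B.card := by
    refine bn_card_fib 𝒜 (F.iso (L ^ w)) X B hM1 (fun x hx => hB ▸ Finset.mem_image_of_mem _ hx) fun x₀ _ => ?_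
    refine ⟨(Fintype.piFinset fun l => Finset.Icc ⌊F.pos x₀ l / L ^ w - ((n + 2 : ℕ) : ℝ) * A⌋
      ⌊F.pos x₀ l / L ^ w + ((n + 2 : ℕ) : ℝ) * A⌋).image (fun κ => (F.grp x0, κ)), ?_, ?_⟩
    · refine le_trans (by exact_mod_cast Finset.card_image_le)
        ((bnh_card_pi _ fun l => bnh_floor_card _ _ (by positivity)).trans (le_of_eq ?_))
      unfold bnM1
      ring
    · intro x hx hxx
      refine Finset.mem_image.2 ⟨bnIso (L ^ w) (F.pos x), ?_, ?_⟩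
      · rw [Fintype.mem_piFinset]
        intro l
        refine bnh_floor_mem hs0 ?_
        have h3 : ∀ i, |c i ⬝ᵥ (F.pos x - F.pos x₀)| ≤ L ^ w := by
          intro i
          rw [dotProduct_sub]
          rw [hX] at hxx
          exact bnh_floor_close hs0 (congrFun hxx i)
        have h4 := D.ball (F.pos x - F.pos x₀) (L ^ w) h3 l
        rw [Pi.sub_apply] at h4
        refine h4.trans (le_of_eq ?_)
        ring
      · have h5 : F.grp x = F.grp x0 := congrArg Prod.fst (h1 x hx).1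
        exact Prod.ext h5.symm rfl
  have st4 : ∑ x ∈ 𝒜, rdM F.P x ≤ ((𝒜.image (F.iso (L ^ w))).card : ℝ) * (Φ * p0) := by
    rw [← Finset.sum_fiberwise_of_maps_to (g := F.iso (L ^ w)) (t := 𝒜.image (F.iso (L ^ w)))
      (fun x hx => Finset.mem_image_of_mem _ hx), ← nsmul_eq_mul]
    refine Finset.sum_le_card_nsmul _ _ _ fun κ hκ => ?_
    obtain ⟨x₁, hx₁, rfl⟩ := Finset.mem_image.1 hκ
    have fr := (h1 x₁ hx₁).2
    unfold BnCfg.Fr at fr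
    rw [(h1 x₁ hx₁).1, ← hΦ, ← hp0] at fr
    refine le_trans ?_ fr
    rw [bn_pr_fst F.P (fun x => F.iso (L ^ w) x = F.iso (L ^ w) x₁ ∧ F.iso (L ^ (2 : ℝ)) x = F.iso (L ^ (2 : ℝ)) x0)]
    refine Finset.sum_le_sum_of_subset_of_nonneg ?_ (fun x _ _ => rd_M_nonneg _ _)
    intro x hx
    obtain ⟨hxA, hxe⟩ := Finset.mem_filter.1 hx
    exact bn_mem_filter_mk (Finset.mem_univ _) ⟨hxe, (h1 x hxA).1⟩
  have hΦp : 0 ≤ Φ * p0 := mul_nonneg hΦ0 hp00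
  calc ∑ x ∈ 𝒜, rdM F.P x ≤ ((𝒜.image (F.iso (L ^ w))).card : ℝ) * (Φ * p0) := st4
    _ ≤ (bnM1 n A * (bnM2 n Lb * T) ^ ((((n + 2 : ℕ) : ℝ)) / ((n + 1 : ℕ) : ℝ))) * (Φ * p0) :=
        mul_le_mul_of_nonneg_right (st3.trans (mul_le_mul_of_nonneg_left st2 hM1)) hΦp
    _ = bnM1 n A * (bnM2 n Lb * T) ^ ((((n + 2 : ℕ) : ℝ)) / ((n + 1 : ℕ) : ℝ)) * Φ * p0 := by ring

/-- cellwise comparison of two weighted sums -/
theorem bn_cellwise {κ : Type} [DecidableEq κ] (Q : 𝒳 → κ) (f m : 𝒳 → ℝ) (h : κ → ℝ) {C : ℝ} (hh : ∀ q, 0 ≤ h q)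
    (H : ∀ x0, ∑ x with Q x = Q x0, f x ≤ C * ∑ x with Q x = Q x0, m x) :
    ∑ x, f x * h (Q x) ≤ C * ∑ x, m x * h (Q x) := by
  rw [← Finset.sum_fiberwise_of_maps_to (g := Q) (t := Finset.univ.image Q)
      (fun x _ => Finset.mem_image_of_mem _ (Finset.mem_univ x)) (f := fun x => f x * h (Q x)),
    ← Finset.sum_fiberwise_of_maps_to (g := Q) (t := Finset.univ.image Q)
      (fun x _ => Finset.mem_image_of_mem _ (Finset.mem_univ x)) (f := fun x => m x * h (Q x)), Finset.mul_sum]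
  refine Finset.sum_le_sum fun q hq => ?_
  obtain ⟨x0, -, rfl⟩ := Finset.mem_image.1 hq
  have e1 : ∀ f' : 𝒳 → ℝ, ∑ x with Q x = Q x0, f' x * h (Q x) = (∑ x with Q x = Q x0, f' x) * h (Q x0) := by
    intro f'
    rw [Finset.sum_mul]
    refine Finset.sum_congr rfl fun x hx => ?_
    rw [(Finset.mem_filter.1 hx).2]
  rw [e1, e1, ← mul_assoc]
  exact mul_le_mul_of_nonneg_right (H x0) (hh _)

/-- arithmetic of `bn_lower_tail` -/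
theorem bn_lt_arith (n : ℕ) {L M2 d0 w a a1 : ℝ} (hL : 0 < L) (hM2 : 1 ≤ M2) (ha1 : 0 ≤ a1) :
    (M2 * Real.exp (((n + 1 : ℕ) : ℝ) * d0 * (2 - w) * Real.log L - a1)) ^ ((((n + 2 : ℕ) : ℝ)) / ((n + 1 : ℕ) : ℝ)) *
      (L ^ (-(((n + 2 : ℕ) : ℝ) * d0 * (2 - w))) * Real.exp (2 * a)) ≤ M2 ^ 2 * Real.exp (2 * a - a1) := by
  have hn0 : (0 : ℝ) ≤ n := Nat.cast_nonneg n
  have hn1 : (0 : ℝ) < ((n + 1 : ℕ) : ℝ) := by positivity
  obtain ⟨q, hq⟩ : ∃ q : ℝ, q = (((n + 2 : ℕ) : ℝ)) / ((n + 1 : ℕ) : ℝ) := ⟨_, rfl⟩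
  have hq1 : 1 ≤ q := by
    rw [hq, le_div_iff₀ hn1]
    push_cast
    linarith
  have hq2 : q ≤ 2 := by
    rw [hq, div_le_iff₀ hn1]
    push_cast
    linarith
  have hqn : ((n + 1 : ℕ) : ℝ) * q = ((n + 2 : ℕ) : ℝ) := by
    rw [hq]
    field_simp
  rw [← hq, Real.mul_rpow (by linarith) (Real.exp_pos _).le, ← Real.exp_mul, Real.rpow_def_of_pos hL]
  have e1 : M2 ^ q ≤ M2 ^ 2 := by
    rw [← Real.rpow_two]
    exact Real.rpow_le_rpow_of_exponent_le hM2 hq2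
  have e2 : ((n + 1 : ℕ) : ℝ) * d0 * (2 - w) * Real.log L * q = ((n + 2 : ℕ) : ℝ) * d0 * (2 - w) * Real.log L := by
    rw [← hqn]
    ring
  have e3 : a1 * 1 ≤ a1 * q := mul_le_mul_of_nonneg_left hq1 ha1
  calc M2 ^ q * Real.exp ((((n + 1 : ℕ) : ℝ) * d0 * (2 - w) * Real.log L - a1) * q) *
        (Real.exp (Real.log L * -(((n + 2 : ℕ) : ℝ) * d0 * (2 - w))) * Real.exp (2 * a))
      = M2 ^ q * Real.exp ((((n + 1 : ℕ) : ℝ) * d0 * (2 - w) * Real.log L - a1) * q +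
          Real.log L * -(((n + 2 : ℕ) : ℝ) * d0 * (2 - w)) + 2 * a) := by
        rw [Real.exp_add, Real.exp_add]
        ring
    _ ≤ M2 ^ 2 * Real.exp (2 * a - a1) := by
        refine mul_le_mul e1 (Real.exp_le_exp.2 ?_) (Real.exp_pos _).le (by positivity)
        have e4 : (((n + 1 : ℕ) : ℝ) * d0 * (2 - w) * Real.log L - a1) * q
            = ((n + 1 : ℕ) : ℝ) * d0 * (2 - w) * Real.log L * q - a1 * q := by ring
        rw [e4, e2]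
        linarith

/-- one parent cell, one good tuple: the points whose `n+2` tilted cells are all heavy -/
theorem bn_lt_cell (F : BnCfg n 𝒳 𝒯 𝒲) {L K A d0 γ ρ r0 w a a1 : ℝ} (hB : F.Base K A γ ρ) (hL : 1 < L) (hA : 1 ≤ A)
    (hr0 : 0 < r0) (hr1 : r0 ≤ 1) (ha1 : 0 ≤ a1) (x0 : 𝒳) (θ : Fin (n + 2) → 𝒯)
    (𝒜 : Finset 𝒳)
    (hg : ∀ x ∈ 𝒜, bnGoodTo (r0 / A) (fun j => F.dir (θ j)) (n + 2))
    (h1 : ∀ x ∈ 𝒜, F.iso (L ^ (2 : ℝ)) x = F.iso (L ^ (2 : ℝ)) x0 ∧ F.Fr L d0 w a x)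
    (h2 : ∀ x ∈ 𝒜, ∀ j, F.P.p (x, θ j) ≠ 0 ∧
      F.sur (L ^ w) (L ^ (2 : ℝ)) (x, θ j) < ((n + 1 : ℕ) : ℝ) * d0 * (2 - w) * Real.log L - a1) :
    ∑ x ∈ 𝒜, rdM F.P x ≤ bnM1 n A * bnM2 n (pjL A r0 (n + 2)) ^ 2 * Real.exp (2 * a - a1) *
      F.P.pr (fun y => F.iso (L ^ (2 : ℝ)) y.1 = F.iso (L ^ (2 : ℝ)) x0) := by
  have hL0 : 0 < L := by linarith
  have hLb := pj_L_one_le hA hr0 hr1 (n + 2)
  have hM1 : 0 ≤ bnM1 n A := by
    unfold bnM1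
    positivity
  have hM2 : 1 ≤ bnM2 n (pjL A r0 (n + 2)) := by
    unfold bnM2
    exact one_le_pow₀ (by linarith)
  have hp0 : 0 ≤ F.P.pr (fun y => F.iso (L ^ (2 : ℝ)) y.1 = F.iso (L ^ (2 : ℝ)) x0) := ent_pr_nonneg _ _
  rcases 𝒜.eq_empty_or_nonempty with he | ⟨x₁, hx₁⟩
  · rw [he, Finset.sum_empty]
    have := Real.exp_pos (2 * a - a1)
    positivity
  have D : PjDual (n + 2) A (pjL A r0 (n + 2)) (fun j => F.dir (θ j)) (bnSeq (fun j => F.dir (θ j)) (n + 2)) := by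
    have D0 := bn_seq_dual hA hr0 hr1 (fun j => F.dir (θ j)) (fun i l => hB.hdir _ _) (n + 2) le_rfl (hg x₁ hx₁)
    have e : (fun i : Fin (n + 2) => if i.val < n + 2 then (fun j => F.dir (θ j)) i else (Pi.single i 1 : Fin (n + 2) → ℝ))
        = fun j => F.dir (θ j) := by
      funext i
      rw [if_pos i.isLt]
    rwa [e] at D0
  obtain ⟨τ, hτ⟩ : ∃ τ : ℝ, τ = ((n + 1 : ℕ) : ℝ) * d0 * (2 - w) * Real.log L - a1 := ⟨_, rfl⟩
  rw [← hτ] at h2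
  obtain ⟨Y, hY⟩ : ∃ Y : 𝒳 × 𝒯 → (𝒲 × (Fin (n + 2) → ℤ)) × 𝒯, Y = pair (fun y => F.iso (L ^ (2 : ℝ)) y.1) Prod.snd := ⟨_, rfl⟩
  have hYv : ∀ x ∈ 𝒜, ∀ j, Y (x, θ j) = (F.iso (L ^ (2 : ℝ)) x0, θ j) := by
    intro x hx j
    rw [hY]
    show (F.iso (L ^ (2 : ℝ)) x, θ j) = _
    rw [(h1 x hx).1]
  obtain ⟨Tj, hTjd⟩ : ∃ Tj : Fin (n + 2) → Finset (𝒲 × (Fin (n + 2) → ℤ) × ℤ), Tj = fun j =>
      (Finset.univ.image (F.tub (L ^ w) (L ^ (2 : ℝ)))).filter fun t =>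
        Real.exp (-τ) * F.P.pr (fun ω => Y ω = (F.iso (L ^ (2 : ℝ)) x0, θ j)) ≤
          F.P.pr (fun ω => F.tub (L ^ w) (L ^ (2 : ℝ)) ω = t ∧ Y ω = (F.iso (L ^ (2 : ℝ)) x0, θ j)) := ⟨_, rfl⟩
  have hTj : ∀ j, ((Tj j).card : ℝ) ≤ Real.exp τ := by
    intro j
    have hx : 0 < F.P.pr (fun ω => Y ω = (F.iso (L ^ (2 : ℝ)) x0, θ j)) :=
      (ent_pr_pos_iff F.P _).2 ⟨(x₁, θ j), hYv x₁ hx₁ j, (h2 x₁ hx₁ j).1⟩
    have hc := ent_count F.P Y (F.tub (L ^ w) (L ^ (2 : ℝ))) (F.iso (L ^ (2 : ℝ)) x0, θ j) (Tj j) (Real.exp_pos (-τ)) hx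
      (fun t ht => by
        rw [hTjd] at ht
        exact (bn_mem_filter ht).2)
    rwa [Real.exp_neg, one_div, inv_inv] at hc
  have h2' : ∀ x ∈ 𝒜, ∀ j, F.tub (L ^ w) (L ^ (2 : ℝ)) (x, θ j) ∈ Tj j := by
    intro x hx j
    rw [hTjd]
    refine bn_mem_filter_mk (Finset.mem_image_of_mem _ (Finset.mem_univ _)) ?_
    obtain ⟨hp, hs⟩ := h2 x hx j
    have e1 := ent_exp_neg_surC F.P (F.tub (L ^ w) (L ^ (2 : ℝ))) Y hp
    have e2 : F.sur (L ^ w) (L ^ (2 : ℝ)) (x, θ j) = F.P.surC (F.tub (L ^ w) (L ^ (2 : ℝ))) Y (x, θ j) := by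
      rw [hY]
      rfl
    rw [e2] at hs
    have e3 : Real.exp (-τ) ≤ F.P.fib (pair (F.tub (L ^ w) (L ^ (2 : ℝ))) Y) (x, θ j) / F.P.fib Y (x, θ j) := by
      rw [← e1]
      exact Real.exp_le_exp.2 (by linarith)
    rw [le_div_iff₀ (ent_fib_pos F.P Y hp), ent_fib_pair] at e3
    have e4 : F.P.fib Y (x, θ j) = F.P.pr (fun ω => Y ω = Y (x, θ j)) := rfl
    rw [e4, hYv x hx j] at e3
    exact e3
  have key := bn_lw_cell F hL hA hLb (Real.exp_pos τ).le x0 θ D 𝒜 Tj hTj h1 h2'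
  refine key.trans ?_
  have ar := bn_lt_arith n (d0 := d0) (w := w) (a := a) hL0 hM2 ha1
  rw [← hτ] at ar
  have := mul_le_mul_of_nonneg_left ar hM1
  calc bnM1 n A * (bnM2 n (pjL A r0 (n + 2)) * Real.exp τ) ^ ((((n + 2 : ℕ) : ℝ)) / ((n + 1 : ℕ) : ℝ)) *
        (L ^ (-(((n + 2 : ℕ) : ℝ) * d0 * (2 - w))) * Real.exp (2 * a)) *
        F.P.pr (fun y => F.iso (L ^ (2 : ℝ)) y.1 = F.iso (L ^ (2 : ℝ)) x0)
      = (bnM1 n A * ((bnM2 n (pjL A r0 (n + 2)) * Real.exp τ) ^ ((((n + 2 : ℕ) : ℝ)) / ((n + 1 : ℕ) : ℝ)) *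
        (L ^ (-(((n + 2 : ℕ) : ℝ) * d0 * (2 - w))) * Real.exp (2 * a)))) *
        F.P.pr (fun y => F.iso (L ^ (2 : ℝ)) y.1 = F.iso (L ^ (2 : ℝ)) x0) := by ring
    _ ≤ (bnM1 n A * (bnM2 n (pjL A r0 (n + 2)) ^ 2 * Real.exp (2 * a - a1))) *
        F.P.pr (fun y => F.iso (L ^ (2 : ℝ)) y.1 = F.iso (L ^ (2 : ℝ)) x0) := mul_le_mul_of_nonneg_right this hp0
    _ = _ := by ring

/-- summation over the parent cells and the tuples -/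
theorem bn_lt_sum (F : BnCfg n 𝒳 𝒯 𝒲) {K A γ ρ C s2 : ℝ} (hB : F.Base K A γ ρ) (hK : 0 ≤ K) (hC : 0 ≤ C) (d : ℕ)
    (G : 𝒳 × (Fin d → 𝒯) → Prop)
    (H : ∀ (x0 : 𝒳) (θ : Fin d → 𝒯) (𝒜 : Finset 𝒳), (∀ x ∈ 𝒜, F.iso s2 x = F.iso s2 x0 ∧ G (x, θ)) →
      ∑ x ∈ 𝒜, rdM F.P x ≤ C * F.P.pr (fun y => F.iso s2 y.1 = F.iso s2 x0)) :
    (rdLaw F.P d).pr G ≤ K ^ d * C := by
  have a1 : (rdLaw F.P d).pr G ≤
      ∑ θ : Fin d → 𝒯, K ^ d * ∑ x, (if G (x, θ) then rdM F.P x else 0) * ∏ j, F.ν (F.iso s2 x).1 (θ j) := by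
    unfold FLaw.pr
    rw [Fintype.sum_prod_type_right]
    refine Finset.sum_le_sum fun θ _ => ?_
    rw [Finset.mul_sum]
    refine Finset.sum_le_sum fun x _ => ?_
    by_cases hG : G (x, θ)
    · rw [if_pos hG, if_pos hG]
      refine (rd_dom F.P d (fun x θ => F.ν (F.grp x) θ) K hK (fun x θ => hB.ν0 _ _) hB.dom (x, θ)).trans (le_of_eq ?_)
      show K ^ d * rdM F.P x * ∏ j, F.ν (F.grp x) (θ j) = K ^ d * (rdM F.P x * ∏ j, F.ν (F.grp x) (θ j))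
      ring
    · rw [if_neg hG, if_neg hG, zero_mul, mul_zero]
  have a2 : ∀ θ : Fin d → 𝒯, ∑ x, (if G (x, θ) then rdM F.P x else 0) * ∏ j, F.ν (F.iso s2 x).1 (θ j) ≤
      C * ∑ x, rdM F.P x * ∏ j, F.ν (F.iso s2 x).1 (θ j) := by
    intro θ
    refine bn_cellwise (F.iso s2) (fun x => if G (x, θ) then rdM F.P x else 0) (rdM F.P) (fun q => ∏ j, F.ν q.1 (θ j))
      (fun q => Finset.prod_nonneg fun j _ => hB.ν0 _ _) fun x0 => ?_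
    rw [← Finset.sum_filter]
    refine (H x0 θ _ fun x hx => ⟨(bn_mem_filter (bn_mem_filter hx).1).2, (bn_mem_filter hx).2⟩).trans (le_of_eq ?_)
    rw [bn_pr_fst F.P (fun x => F.iso s2 x = F.iso s2 x0)]
    refine congrArg (C * ·) (Finset.sum_congr ?_ fun _ _ => rfl)
    ext x
    simp only [Finset.mem_filter]
  have a3 : ∑ θ : Fin d → 𝒯, ∑ x, rdM F.P x * ∏ j, F.ν (F.iso s2 x).1 (θ j) ≤ 1 := by
    rw [Finset.sum_comm, ← rd_M_sum F.P]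
    refine Finset.sum_le_sum fun x _ => ?_
    rw [← Finset.mul_sum]
    have h := (Finset.prod_univ_sum (fun _ : Fin d => (Finset.univ : Finset 𝒯)) (fun _ t => F.ν (F.iso s2 x).1 t)).symm
    rw [Fintype.piFinset_univ] at h
    rw [h, Finset.prod_const, Finset.card_univ, Fintype.card_fin]
    have h1 : (∑ t, F.ν (F.iso s2 x).1 t) ^ d ≤ 1 :=
      pow_le_one₀ (Finset.sum_nonneg fun t _ => hB.ν0 _ _) (hB.ν1 _)
    calc rdM F.P x * (∑ t, F.ν (F.iso s2 x).1 t) ^ d ≤ rdM F.P x * 1 := mul_le_mul_of_nonneg_left h1 (rd_M_nonneg _ _)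
      _ = rdM F.P x := mul_one _
  have hKd : 0 ≤ K ^ d := pow_nonneg hK d
  calc (rdLaw F.P d).pr G
      ≤ ∑ θ : Fin d → 𝒯, K ^ d * ∑ x, (if G (x, θ) then rdM F.P x else 0) * ∏ j, F.ν (F.iso s2 x).1 (θ j) := a1
    _ ≤ ∑ θ : Fin d → 𝒯, K ^ d * (C * ∑ x, rdM F.P x * ∏ j, F.ν (F.iso s2 x).1 (θ j)) :=
        Finset.sum_le_sum fun θ _ => mul_le_mul_of_nonneg_left (a2 θ) hKd
    _ = K ^ d * C * ∑ θ : Fin d → 𝒯, ∑ x, rdM F.P x * ∏ j, F.ν (F.iso s2 x).1 (θ j) := by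
        rw [Finset.mul_sum]
        exact Finset.sum_congr rfl fun θ _ => (mul_assoc _ _ _).symm
    _ ≤ K ^ d * C * 1 := mul_le_mul_of_nonneg_left a3 (mul_nonneg hKd hC)
    _ = K ^ d * C := mul_one _

/-- LEAF `L-F3-C4`  **lower tail of the surprise of the tilted cell.**   `c̄ = (n+1) d0 (2-w) ℓ`, `Lb = pjL A r0 (n+2)`.
PLAN.  `E = {sur < c̄ - a1}`.  `rd_jensen`: `P(E)^(n+2) ≤ R(∀ j, E (x, θ_j))`.   Split: bad tuple (`bn_bad_pr`), `¬Fr x` (`rd_map` at `0`), rest.   REST `= ∑_{(x,θ⃗)} R.p 1[..]`, `R.p ≤ K^(n+2) rdM x ∏ ν(grp x, θ_j)` (`rd_dom`); only the support of `R` matters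
(there `P.p (x, θ_j) ≠ 0`).   Group by the parent cell `q` (it determines `grp`): for fixed `(q, θ⃗)`, `θ⃗` good, apply `bn_lw_cell` with `Tj j` = the labels `t` with `P(tub = t ∧ (iso_2, θ) = (q, θ_j)) > e^(-(c̄-a1)) P((iso_2,θ) = (q,θ_j))`
(`≤ T = e^(c̄-a1)` of them: `ent_count`), `D = bn_seq_dual`.   `T^((n+2)/(n+1)) = L^((n+2) d0 (2-w)) e^(-a1 (n+2)/(n+1))`, `bnM2^((n+2)/(n+1)) ≤ bnM2^2`, `e^(-a1(n+2)/(n+1)) ≤ e^(-a1)`.   `∑_q P(q) ≤ 1`, `∑_{θ⃗} ∏ ν = (∑ ν)^(n+2) ≤ 1`. -/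
theorem bn_lower_tail (F : BnCfg n 𝒳 𝒯 𝒲) {L K A d0 γ ρ r0 w a a1 : ℝ} (hB : F.Base K A γ ρ) (hL : 1 < L) (hK : 1 ≤ K) (hA : 1 ≤ A)
    (hd0 : 0 ≤ d0) (hρ : 0 < ρ) (hr0 : ρ ≤ r0) (hr1 : r0 ≤ 1) (hw : w ≤ 2) (ha1 : 0 ≤ a1) :
    F.P.pr (fun y => F.sur (L ^ w) (L ^ (2 : ℝ)) y < ((n + 1 : ℕ) : ℝ) * d0 * (2 - w) * Real.log L - a1) ^ (n + 2) ≤
      ((n + 2 : ℕ) : ℝ) * (K ^ 2 * r0 ^ γ) + F.P.pr (fun y => ¬ F.Fr L d0 w a y.1) +
        K ^ (n + 2) * bnM1 n A * bnM2 n (pjL A r0 (n + 2)) ^ 2 * Real.exp (2 * a - a1) := by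
  have hr00 : 0 < r0 := hρ.trans_le hr0
  have hK0 : 0 ≤ K := by linarith
  obtain ⟨E, hE⟩ : ∃ E : 𝒳 × 𝒯 → Prop, E = fun y =>
      F.sur (L ^ w) (L ^ (2 : ℝ)) y < ((n + 1 : ℕ) : ℝ) * d0 * (2 - w) * Real.log L - a1 := ⟨_, rfl⟩
  have j1 := rd_jensen F.P (n + 2) E
  have b1 := bn_bad_pr F hB hK hA hρ hr0 hr1
  obtain ⟨G, hG⟩ : ∃ G : 𝒳 × (Fin (n + 2) → 𝒯) → Prop, G = fun y =>
      bnGoodTo (r0 / A) (fun j => F.dir (y.2 j)) (n + 2) ∧ F.Fr L d0 w a y.1 ∧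
        ∀ j, F.P.p (y.1, y.2 j) ≠ 0 ∧ E (y.1, y.2 j) := ⟨_, rfl⟩
  have s1 : (rdLaw F.P (n + 2)).pr (fun y => ∀ j, E (y.1, y.2 j)) ≤
      (rdLaw F.P (n + 2)).pr (fun y => ¬ bnGoodTo (r0 / A) (fun j => F.dir (y.2 j)) (n + 2)) +
        (rdLaw F.P (n + 2)).pr (fun y => ¬ F.Fr L d0 w a y.1) + (rdLaw F.P (n + 2)).pr G := by
    have o1 := ent_pr_or_le (rdLaw F.P (n + 2)) (fun y => (¬ bnGoodTo (r0 / A) (fun j => F.dir (y.2 j)) (n + 2)) ∨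
      (¬ F.Fr L d0 w a y.1)) G
    have o2 := ent_pr_or_le (rdLaw F.P (n + 2)) (fun y => ¬ bnGoodTo (r0 / A) (fun j => F.dir (y.2 j)) (n + 2))
      (fun y => ¬ F.Fr L d0 w a y.1)
    refine le_trans (ent_pr_mono _ fun y hy hEy => ?_) (o1.trans (by linarith))
    by_cases g1 : bnGoodTo (r0 / A) (fun j => F.dir (y.2 j)) (n + 2)
    · by_cases g2 : F.Fr L d0 w a y.1
      · right
        rw [hG]
        refine ⟨g1, g2, fun j => ⟨?_, hEy j⟩⟩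
        have := ent_map_supp (rdLaw F.P (n + 2)) (fun y => (y.1, y.2 j)) hy
        rwa [rd_map] at this
      · exact Or.inl (Or.inr g2)
    · exact Or.inl (Or.inl g1)
  have s2 : (rdLaw F.P (n + 2)).pr (fun y => ¬ F.Fr L d0 w a y.1) = F.P.pr (fun y => ¬ F.Fr L d0 w a y.1) := by
    have := ent_map_pr (rdLaw F.P (n + 2)) (fun y => (y.1, y.2 0)) (fun y => ¬ F.Fr L d0 w a y.1)
    rw [rd_map] at this
    exact this.symm
  have hC : 0 ≤ bnM1 n A * bnM2 n (pjL A r0 (n + 2)) ^ 2 * Real.exp (2 * a - a1) := by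
    have h1 : 0 ≤ bnM1 n A := by
      unfold bnM1
      positivity
    have := Real.exp_pos (2 * a - a1)
    positivity
  have s3 : (rdLaw F.P (n + 2)).pr G ≤
      K ^ (n + 2) * (bnM1 n A * bnM2 n (pjL A r0 (n + 2)) ^ 2 * Real.exp (2 * a - a1)) := by
    refine bn_lt_sum F (s2 := L ^ (2 : ℝ)) hB hK0 hC (n + 2) G fun x0 θ 𝒜 h𝒜 => ?_
    refine bn_lt_cell F (d0 := d0) (w := w) hB hL hA hr00 hr1 ha1 x0 θ 𝒜 (fun x hx => ?_) (fun x hx => ?_) (fun x hx j => ?_)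
    · have h := (h𝒜 x hx).2
      rw [hG] at h
      exact h.1
    · have h := (h𝒜 x hx).2
      rw [hG] at h
      exact ⟨(h𝒜 x hx).1, h.2.1⟩
    · have h := (h𝒜 x hx).2
      rw [hG] at h
      have h' := h.2.2 j
      rw [hE] at h'
      exact h'
  rw [hE] at j1
  rw [s2] at s1
  rw [hE] at s1
  calc _ ≤ _ := j1
    _ ≤ _ := s1
    _ ≤ _ := by
      have e : K ^ (n + 2) * bnM1 n A * bnM2 n (pjL A r0 (n + 2)) ^ 2 * Real.exp (2 * a - a1)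
          = K ^ (n + 2) * (bnM1 n A * bnM2 n (pjL A r0 (n + 2)) ^ 2 * Real.exp (2 * a - a1)) := by ring
      rw [e]
      linarith

/-- LEAF `L-F3-C5`  **upper tail.**   PLAN. `ek_upper_tail` with `f = F.sur ..` (`≥ 0` on the support: `ent_surC_nonneg`), `P.ev f = entC` (`ent_entC_eq_ev`). -/
theorem bn_upper_tail (F : BnCfg n 𝒳 𝒯 𝒲) {s s2 c E3 a1 b p : ℝ} (hc : 0 ≤ c) (ha1 : 0 ≤ a1) (hb : 0 < b)
    (hE : F.P.entC (F.tub s s2) (pair (fun y => F.iso s2 y.1) Prod.snd) ≤ c + E3)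
    (hp : F.P.pr (fun y => F.sur s s2 y < c - a1) ≤ p) :
    F.P.pr (fun y => c + b ≤ F.sur s s2 y) ≤ (E3 + a1 + c * p) / (a1 + b) := by
  refine ek_upper_tail F.P (F.sur s s2) (fun ω hω => ent_surC_nonneg F.P _ _ hω) hc ha1 hb ?_ hp
  have e : F.P.ev (F.sur s s2) = F.P.entC (F.tub s s2) (pair (fun y => F.iso s2 y.1) Prod.snd) :=
    (ent_entC_eq_ev F.P _ _).symm
  rw [e]
  exact hE

end Claimed.Agent.R257
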