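import Claimed.Agent.R257.FR3.BlkCon

/-!
# ROW 257, package FR3, GBLK: NODES AND GAIN      (helper121)          0 sorry

Side lemmas of the final glue `gb_main` (helper266), for the parameters of `FR3/BlkPar.lean`.
* `gbx_vv_anti`, `gbx_vv_lam`     `vv` is antitone, `vv lam = 0`
* `gbx_nod`                       under `Mesh μ0 (s lam) (s lam + W)`, `0 ≤ t ≤ W`:   `nod t ≤ lam`,  `t - μ0 ≤ vv (nod t) ≤ t`
* `gbx_nod_lt`                    `nod t < lam` if moreover `μ0 < t`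
* `gbx_ratio`                     `κ_i / κ_lam = Λ^{vv i}`,  `r_i / r_lam = Λ^{ρ_i - ρ_lam}`
* `gbx_gain`, `gbx_gain_mu`       the two GAIN hypotheses of `GbNumB` from the slope hypothesis of `GBlk`
-/

set_option autoImplicit false

namespace Claimed.Agent.R257.FR3

open scoped BigOperators
open Classical Matrix
open Claimed.Agent.R255 Claimed.Agent.R257 Claimed.Agent.R257.FR2 Claimed.Agent.R257.Tree

noncomputable section

variable {k : ℕ} {F : FCfg k} {j : Fin (k + 1)} {lam m : ℕ}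

theorem gbx_Λ (hF : F.Ok m) : 1 < F.Λ := by
  have := hF.Λ_ge
  have h0 : (0 : ℝ) ≤ m := Nat.cast_nonneg _
  linarith

theorem gbx_s_anti (hF : F.Ok m) {i i' : ℕ} (h : i ≤ i') : F.s j i' ≤ F.s j i := by
  have hκ := (F.D j).κ_pos (hF.good j)
  unfold FCfg.s
  exact Real.logb_le_logb_of_le (gbx_Λ hF) (div_pos (hκ i') (hF.κr_pos j)) (div_le_div_of_nonneg_right ((F.D j).κ_le (hF.good j) h) (hF.κr_pos j).le)

theorem gbx_vv_anti (hF : F.Ok m) {i i' : ℕ} (h : i ≤ i') : F.vv j lam i' ≤ F.vv j lam i := by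
  unfold FCfg.vv
  linarith [gbx_s_anti (j := j) hF h]

theorem gbx_vv_lam (F : FCfg k) (j : Fin (k + 1)) (lam : ℕ) : F.vv j lam lam = 0 := by
  unfold FCfg.vv
  ring

/-- **the nodes** -/
theorem gbx_nod (hlam : lam ≤ F.c.ℓ) {μ0 W t : ℝ} (hμ0 : 0 ≤ μ0) (hM : F.Mesh j μ0 (F.s j lam) (F.s j lam + W)) (ht0 : 0 ≤ t) (ht : t ≤ W) :
    F.nod j lam t ≤ lam ∧ F.vv j lam (F.nod j lam t) ≤ t ∧ t - μ0 ≤ F.vv j lam (F.nod j lam t) := by
  have hmem : lam ∈ {i : ℕ | F.vv j lam i ≤ t} := by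
    show F.vv j lam lam ≤ t
    rw [gbx_vv_lam]
    exact ht0
  have hne : {i : ℕ | F.vv j lam i ≤ t}.Nonempty := ⟨lam, hmem⟩
  have h1 : F.nod j lam t ≤ lam := Nat.sInf_le hmem
  have h2 : F.vv j lam (F.nod j lam t) ≤ t := Nat.sInf_mem hne
  refine ⟨h1, h2, ?_⟩
  rcases Nat.eq_zero_or_pos (F.nod j lam t) with h0 | h0
  · rw [h0]
    have := hM.2.2
    unfold FCfg.vv
    linarith
  · obtain ⟨a, ha⟩ : ∃ a, F.nod j lam t = a + 1 := ⟨F.nod j lam t - 1, by omega⟩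
    have h3 : a ∉ {i : ℕ | F.vv j lam i ≤ t} := Nat.notMem_of_lt_sInf (by show a < F.nod j lam t; omega)
    have h4 : t < F.vv j lam a := not_le.1 h3
    have h5 := hM.1 a (by omega)
    rw [ha]
    unfold FCfg.vv at h4 ⊢
    linarith

theorem gbx_nod_lt (hlam : lam ≤ F.c.ℓ) {μ0 W t : ℝ} (hμ0 : 0 ≤ μ0) (hM : F.Mesh j μ0 (F.s j lam) (F.s j lam + W)) (ht0 : μ0 < t) (ht : t ≤ W) :
    F.nod j lam t < lam := by
  obtain ⟨h1, -, h3⟩ := gbx_nod hlam hμ0 hM (hμ0.trans ht0.le) ht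
  refine lt_of_le_of_ne h1 fun h => ?_
  rw [h, gbx_vv_lam] at h3
  linarith

/-- the nodes are monotone: a larger parameter gives a lower height -/
theorem gbx_nod_anti (F : FCfg k) (j : Fin (k + 1)) (lam : ℕ) {t t' : ℝ} (ht0 : 0 ≤ t) (h : t ≤ t') : F.nod j lam t' ≤ F.nod j lam t := by
  have hmem : lam ∈ {i : ℕ | F.vv j lam i ≤ t} := by
    show F.vv j lam lam ≤ t
    rw [gbx_vv_lam]
    exact ht0
  have h2 : F.vv j lam (F.nod j lam t) ≤ t := Nat.sInf_mem ⟨lam, hmem⟩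
  exact Nat.sInf_le (show F.vv j lam (F.nod j lam t) ≤ t' from h2.trans h)

/-- `κ_i / κ_lam = Λ^{vv i}`,  `r_i / r_lam = Λ^{ρ_i - ρ_lam}` -/
theorem gbx_ratio (hF : F.Ok m) (i : ℕ) :
    (F.D j).κ i / (F.D j).κ lam = F.Λ ^ F.vv j lam i ∧ F.r j i / F.r j lam = F.Λ ^ (F.ρ j i - F.ρ j lam) := by
  have hΛ := gbx_Λ hF
  have hΛ0 : 0 < F.Λ := by linarith
  have hκ := (F.D j).κ_pos (hF.good j)
  have hκr := hF.κr_pos j
  have hr := (hF.frozen j).r_pos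
  constructor
  · unfold FCfg.vv FCfg.s
    rw [Real.rpow_sub hΛ0, Real.rpow_logb hΛ0 hΛ.ne' (div_pos (hκ i) hκr), Real.rpow_logb hΛ0 hΛ.ne' (div_pos (hκ lam) hκr)]
    have := (hκ lam).ne'
    field_simp
  · unfold FCfg.ρ
    rw [Real.rpow_sub hΛ0, Real.rpow_logb hΛ0 hΛ.ne' (hr i), Real.rpow_logb hΛ0 hΛ.ne' (hr lam)]

/-- `2 < q_k` -/
theorem gbx_qk (hk : 1 ≤ k) : 2 < qk k := by
  have hk0 : (0 : ℝ) < k := by exact_mod_cast hk
  unfold qk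
  rw [lt_div_iff₀ hk0]
  linarith

/-- **GAIN at the mesh heights of ANG** -/
theorem gbx_gain (hk : 1 ≤ k) (hF : F.Ok m) (π : GbP) {x e1 cg : ℝ} (hx : 0 < x) (hu : 0 < π.u) (hη : π.η = gbEta k x)
    (hslope : ∀ i, i ≤ lam → F.s j i - F.s j lam ≤ π.u → x * (F.s j i - F.s j lam) - e1 * π.u ≤ F.ρ j lam - F.ρ j i)
    (hbot : F.vv j lam (gbBot F j lam π) ≤ π.u) (he1 : e1 ≤ x * π.θ / 4) (hcg : cg ≤ (tia_qa k - qk k) * x * π.θ * π.u / 4) :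
    ∀ i ∈ gbMs F j lam π, (1 / gbT F j lam π i) ^ (tia_qa k - 1) * (F.r j i / F.r j lam) ^ (tia_qa k - qk k) ≤ F.Λ ^ (-cg) := by
  intro i hi
  have hΛ := gbx_Λ hF
  have hΛ0 : 0 < F.Λ := by linarith
  obtain ⟨hi1, hi2⟩ := Finset.mem_filter.1 hi
  obtain ⟨hi3, hi4⟩ := Finset.mem_Ico.1 hi1
  have hv1 : F.vv j lam i ≤ π.u := (gbx_vv_anti hF hi3).trans hbot
  have hs := hslope i hi4.le hv1
  obtain ⟨v, hv⟩ : ∃ v : ℝ, v = F.vv j lam i := ⟨_, rfl⟩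
  have hv' : F.s j i - F.s j lam = v := hv.symm
  rw [hv'] at hs
  rw [← hv] at hi2 hv1
  have hq := gbx_qk hk
  have hq' := tia_qa_gt hk
  obtain ⟨q, hqd⟩ : ∃ q : ℝ, q = qk k := ⟨_, rfl⟩
  obtain ⟨q', hq'd⟩ : ∃ q' : ℝ, q' = tia_qa k := ⟨_, rfl⟩
  rw [← hqd] at hq hq' hcg ⊢
  rw [← hq'd] at hq' hcg ⊢
  have hη' : π.η = x * (q' - q) / (4 * q') := by rw [hη, gbEta, ← hqd, ← hq'd]
  have e1' : 1 / gbT F j lam π i = F.Λ ^ (2 * π.η * v) := by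
    unfold gbT
    rw [← hv, Real.rpow_neg hΛ0.le, one_div, inv_inv]
  rw [e1', (gbx_ratio (j := j) (lam := lam) hF i).2, ← Real.rpow_mul hΛ0.le, ← Real.rpow_mul hΛ0.le, ← Real.rpow_add hΛ0]
  refine Real.rpow_le_rpow_of_exponent_le hΛ.le ?_
  have hq0 : 0 < q' := by linarith
  have hd : 0 < q' - q := by linarith
  have hv0 : 0 ≤ v := by
    have : 0 ≤ F.vv j lam i := by
      have := gbx_vv_anti (j := j) (lam := lam) hF hi4.le
      rwa [gbx_vv_lam] at this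
    rwa [← hv] at this
  -- `2 η (q' - 1) ≤ x (q' - q) / 2`
  have h1 : 2 * π.η * (q' - 1) ≤ x * (q' - q) / 2 := by
    rw [hη']
    have : 2 * (x * (q' - q) / (4 * q')) * (q' - 1) = x * (q' - q) / 2 * ((q' - 1) / q') := by
      field_simp
      ring
    rw [this]
    have h2 : (q' - 1) / q' ≤ 1 := by rw [div_le_one hq0]; linarith
    exact mul_le_of_le_one_right (by positivity) h2
  have h2 : 2 * π.η * v * (q' - 1) ≤ x * (q' - q) / 2 * v := by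
    calc 2 * π.η * v * (q' - 1) = 2 * π.η * (q' - 1) * v := by ring
      _ ≤ _ := mul_le_mul_of_nonneg_right h1 hv0
  have h3 : (F.ρ j i - F.ρ j lam) * (q' - q) ≤ -(x * v - e1 * π.u) * (q' - q) := mul_le_mul_of_nonneg_right (by linarith) hd.le
  have h4 : e1 * π.u ≤ x * π.θ / 4 * π.u := mul_le_mul_of_nonneg_right he1 hu.le
  have h5 : x * (π.θ * π.u) ≤ x * v := mul_le_mul_of_nonneg_left hi2 hx.le
  have h6 : (x * π.θ * π.u / 4) * (q' - q) ≤ (x * v / 2 - e1 * π.u) * (q' - q) := mul_le_mul_of_nonneg_right (by nlinarith) hd.le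
  nlinarith

/-- **GAIN at the height of the groups of BROAD** -/
theorem gbx_gain_mu (hk : 1 ≤ k) (hF : F.Ok m) (π : GbP) {x e1 cg : ℝ} (hx : 0 < x) (hu : 0 < π.u) (hθ0 : 0 ≤ π.θ0)
    (hslope : ∀ i, i ≤ lam → F.s j i - F.s j lam ≤ π.u → x * (F.s j i - F.s j lam) - e1 * π.u ≤ F.ρ j lam - F.ρ j i)
    (hle : gbMu F j lam π ≤ lam) (hmu1 : 3 / 4 * (π.θ0 * π.u) ≤ F.vv j lam (gbMu F j lam π)) (hmu2 : F.vv j lam (gbMu F j lam π) ≤ π.u)
    (he1 : e1 ≤ x * π.θ0 / 4) (hcg : cg ≤ (tia_qa k - qk k) * x * π.θ0 * π.u / 4) :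
    (F.r j (gbMu F j lam π) / F.r j lam) ^ (tia_qa k - qk k) ≤ F.Λ ^ (-cg) := by
  have hΛ := gbx_Λ hF
  have hΛ0 : 0 < F.Λ := by linarith
  have hs := hslope _ hle hmu2
  obtain ⟨v, hv⟩ : ∃ v : ℝ, v = F.vv j lam (gbMu F j lam π) := ⟨_, rfl⟩
  have hv' : F.s j (gbMu F j lam π) - F.s j lam = v := hv.symm
  rw [hv'] at hs
  rw [← hv] at hmu1 hmu2
  have hd : 0 < tia_qa k - qk k := by linarith [tia_qa_gt hk]
  obtain ⟨d, hdd⟩ : ∃ d : ℝ, d = tia_qa k - qk k := ⟨_, rfl⟩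
  rw [← hdd] at hd hcg ⊢
  rw [(gbx_ratio (j := j) (lam := lam) hF _).2, ← Real.rpow_mul hΛ0.le]
  refine Real.rpow_le_rpow_of_exponent_le hΛ.le ?_
  have h3 : (F.ρ j (gbMu F j lam π) - F.ρ j lam) * d ≤ -(x * v - e1 * π.u) * d := mul_le_mul_of_nonneg_right (by linarith) hd.le
  have h4 : e1 * π.u ≤ x * π.θ0 / 4 * π.u := mul_le_mul_of_nonneg_right he1 hu.le
  have h5 : x * (3 / 4 * (π.θ0 * π.u)) ≤ x * v := mul_le_mul_of_nonneg_left hmu1 hx.le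
  have h7 : 0 ≤ x * π.θ0 * π.u := by positivity
  have h6 : (x * π.θ0 * π.u / 4) * d ≤ (x * v - e1 * π.u) * d := mul_le_mul_of_nonneg_right (by nlinarith) hd.le
  nlinarith

end

end Claimed.Agent.R257.FR3
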