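import Claimed.Agent.R257.FR3.InflOcc
import Claimed.Agent.R257.Tree.AngG
import Claimed.Agent.Lib.BD.Geo

/-!
# ROW 257, package FR3, unit INFL, file 5: THE LINK BROAD ↔ INFL ON THE CONCRETE TREE      (architect helper271; all leaves proved by helper5)

Every `sorry` is a leaf `L-257-FI-D*` (name in the docstring).   Statements are frozen; auxiliary lemmas directly above your theorem; edit only your block.   You may cite every (also sorried) lemma of `Tree/*`, `FR2/*`, `Infl*`, `Lib/BD/Geo`.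
Paper: H `frame.tex` l.1106-1125 (broad witnesses, maximal simplex test), l.1166-1169 (pigeonholing of the tuple).       CONSUMER: the assembly of `GBlk` (`FR3/BlkDefs.lean`; helper266, helper121).
`𝔄 = D.ang I` = the concrete angular instance of helper37 (`Tree/AngD.lean`) used for BROAD: `lam = I.lam`, macro boxes of native side `I.Sd`, strips enlarged by `I.Cs`;   `mu < lam` = height of the groups.
* `D.fiBr lam mu Q 𝒢`   THE CONCRETE PREDICATE `Br` OF `FR2/Broad.lean`: `𝒢` contains a tuple of groups under one cap `τ` which is `Transv Q` in the frame of `τ`, uniformly on ALL its descendants (`FiTr` down to the height `0`).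
* `fi_br_dich`          the hypothesis `hdich` of `tbw_main` for `Br = D.fiBr lam mu (4 κ_mu/κ_lam)`   (needs `2^(k+2) ℓ Cc ≤ I.Cs`).
* `fi_und_card`         the hypothesis `hnG` of `tbw_main`: `nG = Cm^ℓ (κ_mu/κ_lam)^k`.
* **`fi_blk_cnt`**      the field `cnt` of `BlkDat.Ok` for `P0 =` the OCCUPIED cells (`∃ y, inc lam y T`) of `bcell S r mu thr Br`, with explicit losses.   The restriction `fiOccR 𝔊 R` (`InflOcc.lean`) has the same near path masses `Jn` (`fi_occ_Jn`).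
-/

set_option autoImplicit false

namespace Claimed.Agent.R257

open MeasureTheory Metric Set
open Claimed.Agent.R257.Tree Claimed.Agent.R257.FR2
open scoped ENNReal BigOperators BoundedContinuousFunction Classical InnerProductSpace

noncomputable section

variable {k : ℕ} {c : TCls k}

/-- the exponent of the transversality constant in the multilinear Kakeya estimate -/
def fiMk (k : ℕ) : ℕ := (k + 1) * ((k + 1) ^ 2 + (k + 1))

theorem fi_mk_at_exp (k : ℕ) (hk : 1 ≤ k) (B : ℝ) (hB : 0 ≤ B) (P : ℝ) (hP : 0 ≤ P) : ∃ C : ℝ, 0 < C ∧ FiMKAt k B P C (fiMk k) := by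
  obtain ⟨C, hC, H⟩ := fi3_mk_pw_exp.{0} k hk B hB P hP
  exact ⟨C, hC, H⟩

/-- **the concrete predicate `Br`** -/
def Tree.TDat.fiBr (D : TDat c) (lam mu : ℕ) (Q : ℝ) (𝒢 : Finset (D.Lb mu)) : Prop :=
  ∃ (τ : D.Lb lam) (Gr : Fin (k + 1) → D.Lb mu), (∀ j, Gr j ∈ 𝒢) ∧ (∀ j, D.Und lam τ mu (Gr j)) ∧ D.FiTr lam mu 0 τ Gr Q

/-- **LEAF L-257-FI-D1** (40 l.)  `upL` and `Und`.   PLAN: induction on `d` for `∀ d i v, i + d = n → …`: `d = 0`: `subst`, `TDat.upL_self`, `fi_und_top`; step: `← TDat.upL_par D n v₀ (hi : i < n) v`, `fi_und_step`. -/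
theorem fi_upL_und (D : TDat c) (n : ℕ) (v₀ τ : D.Lb n) (i : ℕ) (hi : i ≤ n) (v : D.Lb i) : D.upL n v₀ i v = τ ↔ D.Und n τ i v := by
  have key : ∀ d i (v : D.Lb i), i + d = n → (D.upL n v₀ i v = τ ↔ D.Und n τ i v) := by
    intro d
    induction d with
    | zero =>
      intro i v he
      have he' : i = n := by omega
      subst he'
      rw [TDat.upL_self, fi_und_top]
    | succ d ih =>
      intro i v he
      rw [← TDat.upL_par D n v₀ (by omega : i < n) v, fi_und_step D n τ i (by omega)]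
      exact ih (i + 1) _ (by omega)
  exact key (n - i) i v (by omega)

/-- **LEAF L-257-FI-D2** (30 l.)  a label under `G` is within `ℓ Cc / κ mu` of `G`.   PLAN: `fi_lab_le hc D hD mu _ G h hh v hv` (first component). -/
theorem fi_grp_near (hc : c.Ok) (D : TDat c) (hD : D.Good) (mu : ℕ) (hmu : mu ≤ c.ℓ) (G : D.Lb mu) (h : ℕ) (hh : h ≤ mu) (v : D.Lb h) (hv : D.Und mu G h v) :
    ‖D.fr h v - D.fr mu G‖ ≤ c.ℓ * c.Cc / D.κ mu :=
  (fi_lab_le hc D hD mu hmu G h hh v hv).1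

/-- **LEAF L-257-FI-D3** (100 l.)  the number of the labels of height `mu` under a cap.
PLAN: induction on `d` for `∀ d mu, mu + d = lam → …  ≤ Cm^d (κ mu/κ lam)^k`.  `d = 0`: `fi_und_top`: the filter is `{τ}`.   Step (`mu < lam`): `Und lam τ mu G ↔ Und lam τ (mu+1) (par mu G)` (`fi_und_step`): fibre over the parent (`Finset.card_eq_sum_card_fiberwise` with `f = par mu`, target = the labels of height `mu+1` under `τ`);
each fibre has `≤ Cm (κ mu/κ (mu+1))^k` elements (`hD.nch mu v`); `Finset.sum_le_card_nsmul`; `(κ mu/κ(mu+1))^k (κ(mu+1)/κ lam)^k = (κ mu/κ lam)^k`.    Finally `Cm^d ≤ Cm^ℓ` (`hc.one_le_Cm`). -/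
theorem fi_und_card (hc : c.Ok) (D : TDat c) (hD : D.Good) (lam mu : ℕ) (hml : mu ≤ lam) (hl : lam ≤ c.ℓ) (τ : D.Lb lam) :
    (((Finset.univ.filter fun G : D.Lb mu => D.Und lam τ mu G).card : ℕ) : ℝ) ≤ c.Cm ^ c.ℓ * (D.κ mu / D.κ lam) ^ k := by
  have hκ0 : ∀ i, 0 < D.κ i := fun i => D.κ_pos hD i
  have hCm : 1 ≤ c.Cm := hc.one_le_Cm
  have hCm0 : 0 ≤ c.Cm := by linarith
  have key : ∀ d mu, mu + d = lam → (((Finset.univ.filter fun G : D.Lb mu => D.Und lam τ mu G).card : ℕ) : ℝ) ≤ c.Cm ^ d * (D.κ mu / D.κ lam) ^ k := by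
    intro d
    induction d with
    | zero =>
      intro mu he
      have he' : mu = lam := by omega
      subst he'
      have e : (Finset.univ.filter fun G : D.Lb mu => D.Und mu τ mu G) = {τ} := by
        ext G
        rw [Finset.mem_filter, Finset.mem_singleton, fi_und_top]
        exact ⟨fun h => h.2, fun h => ⟨Finset.mem_univ _, h⟩⟩
      rw [e, div_self (hκ0 _).ne']
      simp
    | succ d ih =>
      intro mu he
      have h1 := ih (mu + 1) (by omega)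
      have hmap : ∀ G ∈ Finset.univ.filter (fun G : D.Lb mu => D.Und lam τ mu G),
          D.par mu G ∈ Finset.univ.filter (fun G : D.Lb (mu + 1) => D.Und lam τ (mu + 1) G) := by
        intro G hG
        rw [Finset.mem_filter] at hG ⊢
        exact ⟨Finset.mem_univ _, (fi_und_step D lam τ mu (by omega) G).1 hG.2⟩
      have h3 : ∀ v ∈ Finset.univ.filter (fun G : D.Lb (mu + 1) => D.Und lam τ (mu + 1) G),
          ((((Finset.univ.filter fun G : D.Lb mu => D.Und lam τ mu G).filter fun G => D.par mu G = v).card : ℕ) : ℝ)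
            ≤ c.Cm * (D.κ mu / D.κ (mu + 1)) ^ k := by
        intro v _
        refine le_trans ?_ (hD.nch mu v)
        have : ((Finset.univ.filter fun G : D.Lb mu => D.Und lam τ mu G).filter fun G => D.par mu G = v)
            ⊆ Finset.univ.filter fun v' => D.par mu v' = v := by
          intro G hG
          rw [Finset.mem_filter] at hG ⊢
          exact ⟨Finset.mem_univ _, hG.2⟩
        exact_mod_cast Finset.card_le_card this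
      have hp1 : 0 < D.κ mu / D.κ (mu + 1) := div_pos (hκ0 _) (hκ0 _)
      rw [Finset.card_eq_sum_card_fiberwise hmap, Nat.cast_sum]
      calc _ ≤ ∑ _v ∈ Finset.univ.filter (fun G : D.Lb (mu + 1) => D.Und lam τ (mu + 1) G), c.Cm * (D.κ mu / D.κ (mu + 1)) ^ k :=
            Finset.sum_le_sum h3
        _ = (((Finset.univ.filter fun G : D.Lb (mu + 1) => D.Und lam τ (mu + 1) G).card : ℕ) : ℝ) * (c.Cm * (D.κ mu / D.κ (mu + 1)) ^ k) := by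
            rw [Finset.sum_const, nsmul_eq_mul]
        _ ≤ (c.Cm ^ d * (D.κ (mu + 1) / D.κ lam) ^ k) * (c.Cm * (D.κ mu / D.κ (mu + 1)) ^ k) :=
            mul_le_mul_of_nonneg_right h1 (by positivity)
        _ = c.Cm ^ (d + 1) * ((D.κ mu / D.κ (mu + 1)) * (D.κ (mu + 1) / D.κ lam)) ^ k := by
            rw [mul_pow]
            ring
        _ = _ := by rw [div_mul_div_cancel₀ (hκ0 _).ne']
  refine (key (lam - mu) mu (by omega)).trans ?_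
  have hp : 0 < D.κ mu / D.κ lam := div_pos (hκ0 _) (hκ0 _)
  exact mul_le_mul_of_nonneg_right (pow_le_pow_right₀ hCm (by omega)) (by positivity)

/-- `bdg_trans_or_slab_idx` in `E k`, the dimension written as `k` -/
theorem fi_simplex_bdg (hk : 0 < k) {ι : Type} (s : Finset ι) (ctr : ι → E k) {lam r M : ℝ} (hlam : 0 < lam) (hr : 0 ≤ r)
    (hrl : 2 ^ (k + 2) * r ≤ lam) (hM : ∀ a ∈ s, ‖ctr a‖ ≤ M) :
    (∃ a : Fin (k + 1) → ι, (∀ i, a i ∈ s) ∧ ∀ ξ : Fin (k + 1) → E k, (∀ i, ξ i ∈ closedBall (ctr (a i)) r) →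
      Transv (1 + 2 ^ (k + 2) * (M + r + 1) / lam) ξ) ∨
    ∃ n x0 : E k, ‖n‖ = 1 ∧ ∀ a ∈ s, |⟪ctr a - x0, n⟫_ℝ| < lam := by
  have gen : ∀ (m : ℕ), Module.finrank ℝ (E k) = m → 2 ^ (m + 2) * r ≤ lam →
      (∃ a : Fin (m + 1) → ι, (∀ i, a i ∈ s) ∧ BD.BdgTrans (1 + 2 ^ (m + 2) * (M + r + 1) / lam) (fun i => closedBall (ctr (a i)) r)) ∨
      ∃ n x0 : E k, ‖n‖ = 1 ∧ ∀ a ∈ s, |⟪ctr a - x0, n⟫_ℝ| < lam := by
    intro m hm hrl'
    subst hm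
    exact BD.bdg_trans_or_slab_idx (by rw [finrank_euclideanSpace_fin]; exact hk) s ctr hlam hr hrl' hM
  rcases gen k finrank_euclideanSpace_fin hrl with ⟨a, ha, H⟩ | H
  · exact Or.inl ⟨a, ha, fun ξ hξ => H ξ hξ⟩
  · exact Or.inr H

/-- **LEAF L-257-FI-D4: THE MAXIMAL SIMPLEX TEST IN THE FRAME OF A CAP** (200 l.)  (H l.1112-1121)
PLAN.  `ε = κ lam/κ mu ∈ (0,1]`, `L = ℓ Cc ≥ 1` (`mu < lam ≤ ℓ`, `hc.one_le_Cc`), `ρ = L ε`, `ctr G = κ lam • (fr mu G - fr lam τ)`, `‖ctr G‖ ≤ L` (`fi_lab_le`).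
`have := BD…bdg_trans_or_slab_idx (V := E k) (by rw [finrank_euclideanSpace_fin]; exact hc.k_pos) 𝒢 ctr (lam := 2^(k+2) ρ) (r := ρ) (M := L) …`, then `rw [finrank_euclideanSpace_fin] at this` (or `simp only`).
LEFT: `a : Fin (k+1) → D.Lb mu`, `BdgTrans Q₀ (closedBall (ctr (a j)) ρ)`, `Q₀ = 1 + 2^(k+2)(L + ρ + 1)/(2^(k+2) ρ) = 1 + (L + ρ + 1)/ρ ≤ 4/ε`.   `fiBr`: `τ`, `Gr = a`.  `FiTr`: for `h ≤ mu`, `v j` under `a j`: `ξ j = κ lam • (fr h (v j) - fr lam τ) ∈ closedBall (ctr (a j)) ρ`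
 (`ξ j - ctr (a j) = κ lam • (fr h (v j) - fr mu (a j))`, `fi_grp_near`); `Transv` and `BdgTrans` have the same body (`unfold`); enlarge the constant (`mul_le_mul_of_nonneg_right`).
RIGHT: `n, x₀`, `|⟪ctr G - x₀, n⟫| < 2^(k+2) ρ`.   `σ = ⟨mu, n, ⟪fr lam τ, n⟫ + ⟪x₀, n⟫/κ lam, hbot, hml.le, hn⟩`:  `⟪ctr G - x₀, n⟫ = κ lam (⟪fr mu G, n⟫ - σ.t)` (`inner_sub_left`, `real_inner_smul_left`, `field_simp`), so `|⟪fr mu G, n⟫ - t| < 2^(k+2) L/κ mu ≤ (Cs + mu Cc)/κ mu`. -/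
theorem fi_simplex (hc : c.Ok) (D : TDat c) (hD : D.Good) (bot' lam mu : ℕ) (hbot : bot' ≤ mu) (hml : mu < lam) (hl : lam ≤ c.ℓ) (Cs : ℝ) (hCs : 2 ^ (k + 2) * (c.ℓ * c.Cc) ≤ Cs)
    (τ : D.Lb lam) (𝒢 : Finset (D.Lb mu)) (h𝒢 : ∀ G ∈ 𝒢, D.Und lam τ mu G) :
    D.fiBr lam mu (4 * (D.κ mu / D.κ lam)) 𝒢 ∨ ∃ σ : TStr k bot' lam, σ.lev = mu ∧ ∀ G ∈ 𝒢, D.sinS Cs mu σ G := by
  have hκl : 0 < D.κ lam := D.κ_pos hD lam
  have hκm : 0 < D.κ mu := D.κ_pos hD mu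
  have hCc : 1 ≤ c.Cc := hc.one_le_Cc
  have hℓ : (1 : ℝ) ≤ c.ℓ := by exact_mod_cast (by omega : 1 ≤ c.ℓ)
  obtain ⟨L, hL⟩ : ∃ L : ℝ, L = c.ℓ * c.Cc := ⟨_, rfl⟩
  have hL1 : 1 ≤ L := by rw [hL]; exact one_le_mul_of_one_le_of_one_le hℓ hCc
  obtain ⟨ε, hε⟩ : ∃ ε : ℝ, ε = D.κ lam / D.κ mu := ⟨_, rfl⟩
  have hε0 : 0 < ε := by rw [hε]; exact div_pos hκl hκm
  have hε1 : ε ≤ 1 := by rw [hε]; exact (div_le_one hκm).2 (D.κ_le hD hml.le)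
  have hρ0 : 0 < L * ε := by positivity
  have h2k : (0 : ℝ) < 2 ^ (k + 2) := by positivity
  rcases fi_simplex_bdg hc.k_pos 𝒢 (fun G => D.κ lam • (D.fr mu G - D.fr lam τ)) (lam := 2 ^ (k + 2) * (L * ε)) (r := L * ε) (M := L)
    (by positivity) hρ0.le le_rfl (fun G hG => by rw [hL]; exact (fi_lab_le hc D hD lam hl τ mu hml.le G (h𝒢 G hG)).2) with ⟨a, ha, H⟩ | ⟨n, x0, hn, H⟩
  · left
    refine ⟨τ, a, ha, fun j => h𝒢 _ (ha j), ?_⟩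
    intro h _ hh v hv
    have h1 := H (fun j => D.κ lam • (D.fr h (v j) - D.fr lam τ)) (fun j => by
      rw [mem_closedBall, dist_eq_norm, ← smul_sub, sub_sub_sub_cancel_right, norm_smul, Real.norm_eq_abs, abs_of_pos hκl]
      calc D.κ lam * ‖D.fr h (v j) - D.fr mu (a j)‖ ≤ D.κ lam * (c.ℓ * c.Cc / D.κ mu) :=
            mul_le_mul_of_nonneg_left (fi_grp_near hc D hD mu (by omega) (a j) h hh (v j) (hv j)) hκl.le
        _ = L * ε := by rw [hL, hε]; ring)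
    have hQ : 1 + 2 ^ (k + 2) * (L + L * ε + 1) / (2 ^ (k + 2) * (L * ε)) ≤ 4 * (D.κ mu / D.κ lam) := by
      have e1 : D.κ mu / D.κ lam = 1 / ε := by rw [hε, one_div_div]
      rw [e1, mul_div_mul_left _ _ h2k.ne', ← sub_nonneg]
      have e2 : 4 * (1 / ε) - (1 + (L + L * ε + 1) / (L * ε)) = (2 * L * (1 - ε) + (L - 1)) / (L * ε) := by
        field_simp
        ring
      rw [e2]
      apply div_nonneg _ hρ0.le
      have : 0 ≤ 2 * L * (1 - ε) := by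
        apply mul_nonneg (by linarith) (by linarith)
      linarith
    intro t
    exact (h1 t).trans (mul_le_mul_of_nonneg_right hQ (by positivity))
  · right
    refine ⟨⟨mu, n, ⟪D.fr lam τ, n⟫_ℝ + ⟪x0, n⟫_ℝ / D.κ lam, hbot, hml.le, hn⟩, rfl, ?_⟩
    intro G hG
    have h1 := H G hG
    unfold TDat.sinS
    show |⟪D.fr mu G, n⟫_ℝ - (⟪D.fr lam τ, n⟫_ℝ + ⟪x0, n⟫_ℝ / D.κ lam)| ≤ (Cs + mu * c.Cc) / D.κ mu
    have e1 : ⟪D.κ lam • (D.fr mu G - D.fr lam τ) - x0, n⟫_ℝ = D.κ lam * (⟪D.fr mu G, n⟫_ℝ - (⟪D.fr lam τ, n⟫_ℝ + ⟪x0, n⟫_ℝ / D.κ lam)) := by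
      rw [inner_sub_left, real_inner_smul_left, inner_sub_left]
      field_simp
      ring
    rw [e1, abs_mul, abs_of_pos hκl] at h1
    have h2 : |⟪D.fr mu G, n⟫_ℝ - (⟪D.fr lam τ, n⟫_ℝ + ⟪x0, n⟫_ℝ / D.κ lam)| < 2 ^ (k + 2) * L / D.κ mu := by
      have e2 : 2 ^ (k + 2) * L / D.κ mu = (2 ^ (k + 2) * (L * ε)) / D.κ lam := by
        rw [hε]
        field_simp
      rw [e2, lt_div_iff₀ hκl, mul_comm]
      exact h1
    refine h2.le.trans ?_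
    apply div_le_div_of_nonneg_right _ hκm.le
    have : 0 ≤ (mu : ℝ) * c.Cc := by positivity
    rw [hL]
    linarith

/-- **LEAF L-257-FI-D5: the hypothesis `hdich` of `tbw_main`** (50 l.)   PLAN: unfold the projections of `D.ang I`, `D.geo` (`rfl`/`show`): `up mu G = D.upL I.lam I.v₀ mu G`, `cap mu T = T.1.1`, `under mu σ T = D.sinS I.Cs mu σ T.1.1`, `lev σ = σ.lev`; `fi_upL_und`; `fi_simplex`. -/
theorem fi_br_dich (hc : c.Ok) (D : TDat c) (hD : D.Good) (I : TAIn D) (mu : ℕ) (hbot : I.bot ≤ mu) (hml : mu < I.lam) (hl : I.lam ≤ c.ℓ) (hCs : 2 ^ (k + 2) * (c.ℓ * c.Cc) ≤ I.Cs) :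
    ∀ (τ : D.geo.Cap (D.ang I).lam) (𝒢 : Finset (D.geo.Cap mu)), (∀ G ∈ 𝒢, (D.ang I).up mu G = τ) →
      D.fiBr I.lam mu (4 * (D.κ mu / D.κ I.lam)) 𝒢 ∨ ∃ σ, (D.ang I).lev σ = mu ∧ ∀ T, D.geo.cap mu T ∈ 𝒢 → (D.ang I).under mu σ T := by
  intro τ 𝒢 h
  rcases fi_simplex hc D hD I.bot I.lam mu hbot hml hl I.Cs hCs τ 𝒢
    (fun G hG => (fi_upL_und D I.lam I.v₀ τ mu hml.le G).1 (h G hG)) with H | ⟨σ, hσ, H⟩
  · exact Or.inl H
  · exact Or.inr ⟨σ, hσ, fun T hT => H _ hT⟩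

/-- **LEAF L-257-FI-D6: the hypothesis `hnG` of `tbw_main`** (40 l.)   PLAN: `𝒢 ⊆ univ.filter (Und I.lam τ mu)` (`fi_upL_und`), `Finset.card_le_card`, `fi_und_card`. -/
theorem fi_br_nG (hc : c.Ok) (D : TDat c) (hD : D.Good) (I : TAIn D) (mu : ℕ) (hml : mu ≤ I.lam) (hl : I.lam ≤ c.ℓ) :
    ∀ (τ : D.geo.Cap (D.ang I).lam) (𝒢 : Finset (D.geo.Cap mu)), (∀ G ∈ 𝒢, (D.ang I).up mu G = τ) → (𝒢.card : ℝ) ≤ c.Cm ^ c.ℓ * (D.κ mu / D.κ I.lam) ^ k := by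
  have aux : ∀ (τ : D.Lb I.lam) (𝒢 : Finset (D.Lb mu)), (∀ G ∈ 𝒢, D.upL I.lam I.v₀ mu G = τ) → (𝒢.card : ℝ) ≤ c.Cm ^ c.ℓ * (D.κ mu / D.κ I.lam) ^ k := by
    intro τ 𝒢 h
    refine le_trans ?_ (fi_und_card hc D hD I.lam mu hml hl τ)
    have hsub : 𝒢 ⊆ Finset.univ.filter fun G : D.Lb mu => D.Und I.lam τ mu G := fun G hG =>
      Finset.mem_filter.2 ⟨Finset.mem_univ _, (fi_upL_und D I.lam I.v₀ τ mu hml G).1 (h G hG)⟩
    exact_mod_cast Finset.card_le_card hsub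
  exact aux

/-- **LEAF L-257-FI-D7** (60 l.)  two cells of one macro box.   PLAN: `TDat.bx0`, `Prod.ext_iff`; `flo`: `⌊a⌋ = ⌊b⌋ → |a - b| < 1` (`Int.abs_sub_lt_one_of_floor_eq_floor`) for every coordinate of `Sd⁻¹ • lat`; so every coordinate of `lat T.1.2 - lat T₁.1.2` is `≤ Sd` in absolute value:
`lat T₁.1.2 ∈ fiQ (lat T.1.2) Sd ⊆ closedBall _ ((k+1) Sd)` (`fi_Q_ball`). -/
theorem fi_bx_near (D : TDat c) (lam : ℕ) (Sd : ℝ) (hSd : 0 < Sd) (T T₁ : D.Cl lam) (h : D.bx0 lam Sd T₁ = D.bx0 lam Sd T) :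
    T₁.1.1 = T.1.1 ∧ ‖lat T₁.1.2 - lat T.1.2‖ ≤ ((k : ℝ) + 1) * Sd := by
  unfold TDat.bx0 at h
  rw [Prod.ext_iff] at h
  obtain ⟨h1, h2⟩ := h
  refine ⟨h1, ?_⟩
  simp only at h2
  unfold flo at h2
  rw [Prod.ext_iff] at h2
  obtain ⟨h3, h4⟩ := h2
  simp only at h3 h4
  have aux : ∀ a b : ℝ, ⌊Sd⁻¹ * a⌋ = ⌊Sd⁻¹ * b⌋ → |a - b| ≤ Sd := by
    intro a b hab
    have := Int.abs_sub_lt_one_of_floor_eq_floor hab
    rw [← mul_sub, abs_mul, abs_of_pos (inv_pos.2 hSd), inv_mul_lt_iff₀ hSd, mul_one] at this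
    exact this.le
  have hQ : lat T₁.1.2 ∈ fiQ (lat T.1.2) Sd := by
    refine ⟨fun i => ?_, ?_⟩
    · have := congrFun h3 i
      exact aux _ _ this
    · exact aux _ _ h4
  have := (fi_Q_ball (lat T.1.2) Sd hSd.le).2 hQ
  rwa [mem_closedBall, dist_eq_norm] at this

/-- the witness of a marked group (abstract form) -/
theorem fi_marked_wit {𝔖 : TSys} {𝔊 : TGeo 𝔖} (𝔄 : TAng 𝔖 𝔊) (S : ∀ i, Finset (𝔖.C i)) (r : ℕ → ℝ) (mu : ℕ) (thr : ℝ) (B : 𝔄.BB) (G : 𝔊.Cap mu)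
    (h : G ∈ 𝔄.marked S r mu thr B) :
    ∃ T ∈ S 𝔄.lam, 𝔄.Bx T = B ∧ thr * r 𝔄.lam * 𝔖.b 𝔄.lam T ≤ 𝔖.am (𝔖.upd S mu (𝔊.grp S mu G)) 𝔄.lam T :=
  (Finset.mem_filter.1 h).2

/-- **LEAF L-257-FI-D8: the witnesses of a broad cell** (150 l.)
PLAN.  `T ∈ bcell`: `T ∈ S lam` and `fiBr … (marked (Bx T))` (`Finset.mem_filter`): `τ'`, `Gr`, `Gr j ∈ marked`, `Und lam τ' mu (Gr j)`, `FiTr … 0 τ' Gr Q`.   `tbw_marked_cap hO hA hF mu hbot hml thr hthr T (Gr j) _ : up mu (Gr j) = cap lam T = T.1.1`, `fi_upL_und`: `Und lam T.1.1 mu (Gr j)`;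
`τ' = T.1.1`: both are `upL … mu (Gr 0)` (`fi_upL_und`).    Marked (`Finset.mem_filter`): `T_j ∈ S lam`, `Bx T_j = Bx T` (`Subtype.ext_iff`: `bx0 T_j = bx0 T`), `thr r b(T_j) ≤ aG (Gr j) T_j`; `fi_bx_near`; `hF.ratio`: `0 < b`;
`TAng.aG`, `D.geo.grp S mu G = D.fiM S mu G mu` (`Finset.filter_congr`, `fi_und_top`, `eq_comm`). -/
theorem fi_bcell_wit (hc : c.Ok) (D : TDat c) (hD : D.Good) (p : TPar) (hO : D.sys.Ok p) {A₀ K G : ℝ} {S : ∀ i, Finset (D.Cl i)} {r : ℕ → ℝ} {Yf : Finset D.Y}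
    (hF : D.sys.Frozen p.q A₀ K G S r Yf) (I : TAIn D) (a : TAPar) (hA : (D.ang I).Ok p a) (hSd : 0 < I.Sd) (mu : ℕ) (hbot : I.bot ≤ mu) (hml : mu < I.lam) (thr Q : ℝ) (hthr : 0 < thr)
    (T : D.Cl I.lam) (hT : T ∈ (D.ang I).bcell S r mu thr (D.fiBr I.lam mu Q)) :
    ∃ Gr : Fin (k + 1) → D.Lb mu, (∀ j, D.Und I.lam T.1.1 mu (Gr j)) ∧ D.FiTr I.lam mu 0 T.1.1 Gr Q ∧
      ∀ j, ∃ Tj : D.Cl I.lam, Tj ∈ S I.lam ∧ Tj.1.1 = T.1.1 ∧ ‖lat Tj.1.2 - lat T.1.2‖ ≤ ((k : ℝ) + 1) * I.Sd ∧ D.bb I.lam Tj ≠ 0 ∧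
        thr * r I.lam * D.bb I.lam Tj ≤ D.sys.am (D.sys.upd S mu (D.fiM S mu (Gr j) mu)) I.lam Tj := by
  obtain ⟨-, τ', Gr, hGm, hGu, htr⟩ := Finset.mem_filter.1 hT
  have hcap : ∀ j, D.Und I.lam T.1.1 mu (Gr j) := fun j =>
    (fi_upL_und D I.lam I.v₀ T.1.1 mu hml.le (Gr j)).1 (TAng.tbw_marked_cap hO hA hF mu hbot hml thr hthr T (Gr j) (hGm j))
  have hτ : τ' = T.1.1 := by
    have h1 := (fi_upL_und D I.lam I.v₀ τ' mu hml.le (Gr 0)).2 (hGu 0)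
    have h2 := (fi_upL_und D I.lam I.v₀ T.1.1 mu hml.le (Gr 0)).2 (hcap 0)
    exact h1.symm.trans h2
  subst hτ
  refine ⟨Gr, hcap, htr, fun j => ?_⟩
  obtain ⟨Tj, hTj, hB, hle⟩ := fi_marked_wit (D.ang I) S r mu thr _ (Gr j) (hGm j)
  have hB' : D.bx0 I.lam I.Sd Tj = D.bx0 I.lam I.Sd T := congrArg Subtype.val hB
  obtain ⟨h1, h2⟩ := fi_bx_near D I.lam I.Sd hSd T Tj hB'
  obtain ⟨hb, -, -⟩ := hF.ratio I.lam hA.lam_le Tj hTj
  refine ⟨Tj, hTj, h1, h2, hb.ne', ?_⟩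
  have e : D.geo.grp S mu (Gr j) = D.fiM S mu (Gr j) mu := by
    unfold TGeo.grp TDat.fiM
    apply Finset.filter_congr
    intro T' _
    rw [fi_und_top]
    rfl
  rw [e] at hle
  exact hle

/-- **LEAF L-257-FI-D9** (60 l., paper-free)  pigeonhole: a finite set fibred over the tuples of a finite set.
PLAN: `U.card = ∑_{t ∈ Fintype.piFinset fun _ => 𝒢} (U.filter fun x => f x = t).card` (`Finset.card_eq_sum_card_fiberwise`, `Fintype.mem_piFinset`), `≤ card (piFinset) • N` (`Finset.sum_le_card_nsmul`), `Fintype.card_piFinset_const`/`Fintype.card_piFinset`, `Finset.prod_const`, `Finset.card_fin`. -/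
theorem fi_pigeon {α β : Type} (n : ℕ) (U : Finset α) (𝒢 : Finset β) (f : α → Fin n → β) (hf : ∀ x ∈ U, ∀ j, f x j ∈ 𝒢) (N : ℝ)
    (hN : ∀ t : Fin n → β, (((U.filter fun x => f x = t).card : ℕ) : ℝ) ≤ N) : (U.card : ℝ) ≤ (𝒢.card : ℝ) ^ n * N := by
  have hmap : ∀ x ∈ U, f x ∈ Fintype.piFinset fun _ : Fin n => 𝒢 := by
    intro x hx
    rw [Fintype.mem_piFinset]
    exact hf x hx
  rw [Finset.card_eq_sum_card_fiberwise hmap, Nat.cast_sum]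
  calc _ ≤ ∑ _t ∈ Fintype.piFinset fun _ : Fin n => 𝒢, N := Finset.sum_le_sum fun t _ => hN t
    _ = _ := by
      rw [Finset.sum_const, nsmul_eq_mul, Fintype.card_piFinset, Finset.prod_const, Finset.card_fin]
      push_cast
      rfl

/-- **LEAF L-257-FI-D10: THE FIELD `cnt` OF THE BLOCK PACKAGE, explicit losses** (220 l.)   (H l.1166-1169 + `fi_tree_count`)      [statement changed 22:50Z: OCCUPIED cells instead of full windows]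
PLAN.  `Cm₀` of `fi_mk_at_exp k hc.k_pos (ℓ Cc) _ c.P _`, `C₁` of `fi_tree_count hc hK2 _ hL2 hMK`, `Co` of `fi_bg_wit hc`, `C = C₁ (Cm^ℓ)^(k+1) Co^((k+1)/k)`.     `U` = the filter, `Q = 4 κ mu/κ lam ≥ 1`, `Rw = (k+1) Sd`, `Cb = Co (1 + G_lam + Rw)^(2P) ≥ 1`.
For `T ∈ U` choose `Gr T` (`fi_bcell_wit`; `Classical.choose`, junk outside `U`); `T.1.1 = τ`.   `𝒢 = univ.filter (Und lam τ mu)`, `fi_und_card`.
For a fixed tuple `t`: if `U_t = U.filter (Gr · = t)` is empty the bound is trivial (`0 ≤`); else `t` is under `τ`, `FiTr lam mu 0 τ t Q` hence `FiTr lam mu bot τ t Q` (`fun h _ => htr h (Nat.zero_le h)`), and `fi_tree_count` applies to `U_t`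
(background: `fi_bg_wit … T Tj y Rw (Tj.1.1 = T.1.1) _ hinc`, with `T.1.1 = τ`).
`(thr r_lam)^{p_k} > 0`: divide: `N = RHS₁/(thr r)^{p_k}`; `fi_pigeon (k+1) U 𝒢 Gr`; multiply back;  `(Co x)^e = Co^e x^e` (`Real.mul_rpow`). -/
theorem fi_blk_cnt (hc : c.Ok) {K2 : ℝ} (hK2 : 0 ≤ K2) (hL2 : FiL2At c c.P (c.ℓ * c.Cc) K2) :
    ∃ C : ℝ, 1 ≤ C ∧ ∀ D : TDat c, D.Good → D.ηw ≤ 1 / 2 → ∀ (p : TPar), D.sys.Ok p → ∀ {A₀ K G : ℝ} {S : ∀ i, Finset (D.Cl i)} {r : ℕ → ℝ} {Yf : Finset D.Y},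
    D.sys.Frozen p.q A₀ K G S r Yf → ∀ (I : TAIn D) (a : TAPar), (D.ang I).Ok p a → 0 < I.Sd → ∀ (mu bot : ℕ), I.bot ≤ mu → bot ≤ mu → mu < I.lam → I.lam ≤ c.ℓ → (∀ h, bot < h → h < I.lam → h ≠ c.tr) →
    ∀ (s : ℕ) (nd : ℕ → ℕ), nd 0 = mu → nd s = bot → (∀ a, a < s → nd (a + 1) < nd a) → (∀ a, a < s → D.κ (nd (a + 1)) / D.κ I.lam ≤ (D.κ (nd a) / D.κ I.lam) ^ 2) →
    ∀ thr : ℝ, 0 < thr → ((k : ℝ) + 1) * I.Sd ≤ D.κ bot / D.κ I.lam → ∀ (τ : D.Lb I.lam) (c0 : ST k),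
    (((((D.ang I).bcell S r mu thr (D.fiBr I.lam mu (4 * (D.κ mu / D.κ I.lam)))).filter fun T : D.Cl I.lam => (∃ y, D.sys.inc I.lam y T) ∧ T.1.1 = τ ∧ ‖lat T.1.2 - c0‖ ≤ D.κ bot / D.κ I.lam).card : ℕ) : ℝ)
        * (thr * r I.lam) ^ pk' k
      ≤ C * ((D.κ mu / D.κ I.lam) ^ k) ^ (k + 1) * ((4 * (D.κ mu / D.κ I.lam)) ^ fiMk k) ^ s
        * ((1 + D.G I.lam + ((k : ℝ) + 1) * I.Sd) ^ (2 * c.P) * ((D.κ mu / D.κ I.lam) ^ k * (1 + ((k : ℝ) + 1) * I.Sd) ^ c.Q)) ^ (((k : ℝ) + 1) / k) * (D.κ bot / D.κ I.lam) ^ (k + 1) * r bot ^ pk' k := by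
  have hCc : 0 ≤ c.Cc := by linarith [hc.one_le_Cc]
  have hk0 : (0 : ℝ) ≤ k := Nat.cast_nonneg k
  have hP : 0 ≤ c.P := by linarith [hc.P_gt]
  have hlc : 0 ≤ (c.ℓ : ℝ) * c.Cc := by positivity
  obtain ⟨Cm₀, hCm₀, hMK⟩ := fi_mk_at_exp k hc.k_pos (c.ℓ * c.Cc) hlc c.P hP
  obtain ⟨C₁, hC₁, H⟩ := fi_tree_count hc hK2 hCm₀.le hL2 hMK
  obtain ⟨Co, hCo, Hocc⟩ := fi_bg_wit hc
  have hCm1 : 1 ≤ (c.Cm ^ c.ℓ) ^ (k + 1) := one_le_pow₀ (one_le_pow₀ hc.one_le_Cm)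
  have he0 : (0 : ℝ) ≤ ((k : ℝ) + 1) / k := by positivity
  have hCoe : 1 ≤ Co ^ (((k : ℝ) + 1) / k) := Real.one_le_rpow hCo he0
  refine ⟨C₁ * (c.Cm ^ c.ℓ) ^ (k + 1) * Co ^ (((k : ℝ) + 1) / k), one_le_mul_of_one_le_of_one_le (one_le_mul_of_one_le_of_one_le hC₁ hCm1) hCoe, ?_⟩
  intro D hD hη p hO A₀ K G S r Yf hF I a hA hSd mu bot hIb hbm hml hl htr s nd h0 hs hnd hκ thr hthr hRw τ c0
  obtain ⟨U, hU⟩ : ∃ U, U = ((D.ang I).bcell S r mu thr (D.fiBr I.lam mu (4 * (D.κ mu / D.κ I.lam)))).filter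
    fun T : D.Cl I.lam => (∃ y, D.sys.inc I.lam y T) ∧ T.1.1 = τ ∧ ‖lat T.1.2 - c0‖ ≤ D.κ bot / D.κ I.lam := ⟨_, rfl⟩
  rw [← hU]
  have hκ0 : ∀ i, 0 < D.κ i := fun i => D.κ_pos hD i
  have hR1 : 1 ≤ D.κ mu / D.κ I.lam := D.one_le_ratio hD hml.le
  have hR0 : 0 < D.κ mu / D.κ I.lam := by linarith
  have hQ : 1 ≤ 4 * (D.κ mu / D.κ I.lam) := by linarith
  have hRb0 : 0 < D.κ bot / D.κ I.lam := div_pos (hκ0 _) (hκ0 _)
  have hRw0 : 0 ≤ ((k : ℝ) + 1) * I.Sd := by positivity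
  have hrl := hF.r_pos I.lam
  have hrb := hF.r_pos bot
  have hx : 0 < (thr * r I.lam) ^ pk' k := Real.rpow_pos_of_pos (by positivity) _
  have hG1 : 1 ≤ D.G I.lam := hD.one_le_G I.lam hl
  obtain ⟨Gf, hGf⟩ : ∃ Gf, Gf = (1 + D.G I.lam + ((k : ℝ) + 1) * I.Sd) ^ (2 * c.P) := ⟨_, rfl⟩
  have hGf1 : 1 ≤ Gf := by
    rw [hGf]
    exact Real.one_le_rpow (by linarith) (by linarith)
  have hCb1 : 1 ≤ Co * Gf := one_le_mul_of_one_le_of_one_le hCo hGf1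
  rw [← hGf]
  obtain ⟨R₁, hR₁⟩ : ∃ R₁, R₁ = C₁ * ((4 * (D.κ mu / D.κ I.lam)) ^ fiMk k) ^ s
      * (Co * Gf * ((D.κ mu / D.κ I.lam) ^ k * (1 + ((k : ℝ) + 1) * I.Sd) ^ c.Q)) ^ (((k : ℝ) + 1) / k) * (D.κ bot / D.κ I.lam) ^ (k + 1) * r bot ^ pk' k := ⟨_, rfl⟩
  have hR₁0 : 0 ≤ R₁ := by
    rw [hR₁]
    have h1 : 0 ≤ (Co * Gf * ((D.κ mu / D.κ I.lam) ^ k * (1 + ((k : ℝ) + 1) * I.Sd) ^ c.Q)) ^ (((k : ℝ) + 1) / k) := Real.rpow_nonneg
      (mul_nonneg (by positivity) (mul_nonneg (by positivity) (Real.rpow_nonneg (by linarith) _))) _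
    have h2 : 0 ≤ r bot ^ pk' k := Real.rpow_nonneg hrb.le _
    have h3 : 0 ≤ C₁ := by linarith
    positivity
  have goal' : (U.card : ℝ) * (thr * r I.lam) ^ pk' k ≤ (c.Cm ^ c.ℓ * (D.κ mu / D.κ I.lam) ^ k) ^ (k + 1) * R₁ := by
    rcases U.eq_empty_or_nonempty with hUe | ⟨T₀, hT₀⟩
    · rw [hUe]
      simp only [Finset.card_empty, Nat.cast_zero, zero_mul]
      have : 0 ≤ c.Cm := by linarith [hc.one_le_Cm]
      positivity
    have wit : ∀ T ∈ U, ∃ Gr : Fin (k + 1) → D.Lb mu, (∀ j, D.Und I.lam T.1.1 mu (Gr j)) ∧ D.FiTr I.lam mu 0 T.1.1 Gr (4 * (D.κ mu / D.κ I.lam)) ∧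
        ∀ j, ∃ Tj : D.Cl I.lam, Tj ∈ S I.lam ∧ Tj.1.1 = T.1.1 ∧ ‖lat Tj.1.2 - lat T.1.2‖ ≤ ((k : ℝ) + 1) * I.Sd ∧ D.bb I.lam Tj ≠ 0 ∧
          thr * r I.lam * D.bb I.lam Tj ≤ D.sys.am (D.sys.upd S mu (D.fiM S mu (Gr j) mu)) I.lam Tj := by
      intro T hT
      rw [hU] at hT
      exact fi_bcell_wit hc D hD p hO hF I a hA hSd mu hIb hml thr _ hthr T (Finset.mem_filter.1 hT).1
    have hne : Nonempty (D.Lb mu) := by
      obtain ⟨Gr, -⟩ := wit T₀ hT₀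
      exact ⟨Gr 0⟩
    choose! Gr hGu hGt hGw using wit
    have hUτ : ∀ T ∈ U, T.1.1 = τ ∧ ‖lat T.1.2 - c0‖ ≤ D.κ bot / D.κ I.lam := by
      intro T hT
      rw [hU] at hT
      exact (Finset.mem_filter.1 hT).2.2
    have hUo : ∀ T ∈ U, ∃ y, D.sys.inc I.lam y T := by
      intro T hT
      rw [hU] at hT
      exact (Finset.mem_filter.1 hT).2.1
    have hN : ∀ t : Fin (k + 1) → D.Lb mu, (((U.filter fun T => Gr T = t).card : ℕ) : ℝ) ≤ R₁ / (thr * r I.lam) ^ pk' k := by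
      intro t
      rcases (U.filter fun T => Gr T = t).eq_empty_or_nonempty with he | ⟨T₁, hT₁⟩
      · rw [he]
        simp only [Finset.card_empty, Nat.cast_zero]
        positivity
      rw [le_div_iff₀ hx, hR₁]
      obtain ⟨hT₁U, hT₁t⟩ := Finset.mem_filter.1 hT₁
      have hτ₁ := (hUτ T₁ hT₁U).1
      refine H D hD p hO hF I.lam mu bot hbm hml hl τ t (fun j => ?_) (4 * (D.κ mu / D.κ I.lam)) hQ ?_ s nd h0 hs hnd hκ thr
        (((k : ℝ) + 1) * I.Sd) (Co * Gf) hthr hRw0 hRw hCb1 c0 (U.filter fun T => Gr T = t) ?_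
      · rw [← hT₁t, ← hτ₁]
        exact hGu T₁ hT₁U j
      · rw [← hT₁t, ← hτ₁]
        exact fun h _ => hGt T₁ hT₁U h (Nat.zero_le h)
      · intro T hT
        obtain ⟨hTU, hTt⟩ := Finset.mem_filter.1 hT
        obtain ⟨hTτ, hTc⟩ := hUτ T hTU
        refine ⟨hTτ, hTc, fun j => ?_⟩
        obtain ⟨Tj, hTjS, h1, h2, h3, h4⟩ := hGw T hTU j
        refine ⟨Tj, h1.trans hTτ, h2, h3, ?_, ?_⟩
        · rw [← hTt]
          exact h4
        · obtain ⟨y, hy⟩ := hUo T hTU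
          have := Hocc D hD hη bot I.lam (by omega) hl htr T Tj y (((k : ℝ) + 1) * I.Sd) h1 h2 hy
          rw [hTτ, ← hGf] at this
          exact this
    have hpg := fi_pigeon (k + 1) U (Finset.univ.filter fun G : D.Lb mu => D.Und I.lam τ mu G) Gr (fun T hT j => by
      rw [Finset.mem_filter]
      refine ⟨Finset.mem_univ _, ?_⟩
      rw [← (hUτ T hT).1]
      exact hGu T hT j) _ hN
    have hcard := fi_und_card hc D hD I.lam mu hml.le hl τ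
    have hpow : ((((Finset.univ.filter fun G : D.Lb mu => D.Und I.lam τ mu G).card : ℕ) : ℝ)) ^ (k + 1) ≤ (c.Cm ^ c.ℓ * (D.κ mu / D.κ I.lam) ^ k) ^ (k + 1) :=
      pow_le_pow_left₀ (Nat.cast_nonneg _) hcard _
    calc (U.card : ℝ) * (thr * r I.lam) ^ pk' k
        ≤ ((((Finset.univ.filter fun G : D.Lb mu => D.Und I.lam τ mu G).card : ℕ) : ℝ)) ^ (k + 1) * (R₁ / (thr * r I.lam) ^ pk' k) * (thr * r I.lam) ^ pk' k :=
          mul_le_mul_of_nonneg_right hpg hx.le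
      _ = ((((Finset.univ.filter fun G : D.Lb mu => D.Und I.lam τ mu G).card : ℕ) : ℝ)) ^ (k + 1) * R₁ := by
          rw [mul_assoc, div_mul_cancel₀ _ hx.ne']
      _ ≤ _ := mul_le_mul_of_nonneg_right hpow hR₁0
  refine goal'.trans (le_of_eq ?_)
  have hW0 : 0 ≤ (D.κ mu / D.κ I.lam) ^ k * (1 + ((k : ℝ) + 1) * I.Sd) ^ c.Q := mul_nonneg (by positivity) (Real.rpow_nonneg (by linarith) _)
  rw [hR₁, mul_pow, mul_assoc Co, Real.mul_rpow (by linarith) (mul_nonneg (by linarith) hW0)]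
  ring

end

end Claimed.Agent.R257
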