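import Claimed.Agent.R257.FR3.BlkCon
import Claimed.Agent.R257.FR3.InflBr

/-!
# ROW 257, package FR3, GBLK, unit BUD: THE BUDGET OF THE NON-BROAD ACTIVE CELLS      (helper271)

`gbb_main : GbBud k`  (contract of helper266, `FR3/BlkCon.lean`) `= tbw_budget` (`FR2/Broad.lean`) for the instance `gbIb`, with `hdich = fi_br_dich`, `hnG = fi_br_nG` (`FR3/InflBr.lean`).
* `gbb_br`   `fiBr → gbBr` (the cap of the tuple is the assigned ancestor of its first group).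
-/

set_option autoImplicit false

namespace Claimed.Agent.R257.FR3

open scoped BigOperators
open Classical Matrix
open Claimed.Agent.R255 Claimed.Agent.R257 Claimed.Agent.R257.FR2 Claimed.Agent.R257.Tree

noncomputable section

variable {k : ℕ}

/-- the predicate of INFL implies the predicate of the block package -/
theorem gbb_br (F : FCfg k) (j : Fin (k + 1)) (lam : ℕ) (π : GbP) (v₀ : (F.D j).Lb lam) (hml : gbMu F j lam π ≤ lam) (𝒢 : Finset ((F.D j).Lb (gbMu F j lam π)))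
    (h : (F.D j).fiBr lam (gbMu F j lam π) (gbQb F j lam π) 𝒢) : gbBr F j lam π v₀ 𝒢 := by
  obtain ⟨τ, Gr, h1, h2, h3⟩ := h
  refine ⟨Gr, h1, ?_⟩
  rw [(fi_upL_und (F.D j) lam v₀ τ (gbMu F j lam π) hml (Gr 0)).2 (h2 0)]
  exact h3

theorem gbb_sdiff {𝔖 : TSys} {𝔊 : TGeo 𝔖} (𝔄 : TAng 𝔖 𝔊) (S : ∀ i, Finset (𝔖.C i)) (r : ℕ → ℝ) (mu : ℕ) (thr : ℝ) (Br : Finset (𝔊.Cap mu) → Prop) :
    S 𝔄.lam \ 𝔄.bcell S r mu thr Br = 𝔄.nbcell S r mu thr Br := by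
  ext T
  simp only [TAng.nbcell, TAng.bcell, Finset.mem_sdiff, Finset.mem_filter]
  tauto

theorem gbb_Cp (F : FCfg k) (m : ℕ) (hF : F.Ok m) (j : Fin (k + 1)) : 1 ≤ F.Cp := (hF.sys j).one_le_Γ2

/-- **BUD** -/
theorem gbb_main (k : ℕ) : GbBud k := by
  intro F m hF hAng j lam π v₀ hl hml hI
  have hc := hF.cls
  have hD := hF.good j
  have hO := hF.sys j
  have hA : ((F.D j).ang (gbIb F j lam π v₀)).Ok (F.tp j) (gbAp F j) := hAng j (gbIb F j lam π v₀) rfl rfl rfl hI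
  have hFr : (F.D j).sys.Frozen (F.tp j).q (F.A j) F.K F.Go (F.S j) (F.r j) Finset.univ := hF.frozen j
  have hCp : (0 : ℝ) ≤ (gbAp F j).CPsi := by
    have := gbb_Cp F m hF j
    show 0 ≤ F.Cp
    linarith
  have hy1 : 1 ≤ gbY F j lam π := (F.D j).one_le_ratio hD hml.le
  have hCm : 1 ≤ F.c.Cm := hc.one_le_Cm
  have hnG0 : 0 < gbnG F j lam π := by
    unfold gbnG
    have : 0 < gbY F j lam π := by linarith
    have : 0 < F.c.Cm := by linarith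
    positivity
  have hthr : 0 < gbThr F j lam π := by
    unfold gbThr
    positivity
  have hnt : 4 * gbnG F j lam π * gbThr F j lam π ≤ 1 := by
    unfold gbThr
    rw [mul_one_div, div_self (by positivity)]
  have hCs : 2 ^ (k + 2) * ((F.c.ℓ : ℝ) * F.c.Cc) ≤ (gbIb F j lam π v₀).Cs := by
    show 2 ^ (k + 2) * ((F.c.ℓ : ℝ) * F.c.Cc) ≤ 2 ^ (k + 3) * ((F.c.ℓ : ℝ) + 1) * F.c.Cc
    have h1 : (0 : ℝ) ≤ F.c.ℓ := Nat.cast_nonneg _
    have h2 := hc.one_le_Cc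
    have h3 : (0 : ℝ) < 2 ^ (k + 2) := by positivity
    have e : (2 : ℝ) ^ (k + 3) = 2 * 2 ^ (k + 2) := by rw [pow_succ]; ring
    rw [e]
    have h4 : (F.c.ℓ : ℝ) * F.c.Cc ≤ 2 * (((F.c.ℓ : ℝ) + 1) * F.c.Cc) := by nlinarith
    calc 2 ^ (k + 2) * ((F.c.ℓ : ℝ) * F.c.Cc) ≤ 2 ^ (k + 2) * (2 * (((F.c.ℓ : ℝ) + 1) * F.c.Cc)) := mul_le_mul_of_nonneg_left h4 h3.le
      _ = _ := by ring
  have hdich := fi_br_dich hc (F.D j) hD (gbIb F j lam π v₀) (gbMu F j lam π) le_rfl hml hl hCs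
  have hnG := fi_br_nG hc (F.D j) hD (gbIb F j lam π v₀) (gbMu F j lam π) hml.le hl
  have main := TAng.tbw_budget hO hA hFr hCp (gbMu F j lam π) le_rfl hml (gbBr F j lam π v₀) (gbnG F j lam π) (gbThr F j lam π) hthr hnt hnG
    (fun τ 𝒢 h𝒢 => (hdich τ 𝒢 h𝒢).imp (gbb_br F j lam π v₀ hml.le 𝒢) id)
  have e : F.S j lam \ gbP1 F j lam π v₀
      = ((F.D j).ang (gbIb F j lam π v₀)).nbcell (F.S j) (F.r j) (gbMu F j lam π) (gbThr F j lam π) (gbBr F j lam π v₀) :=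
    gbb_sdiff ((F.D j).ang (gbIb F j lam π v₀)) (F.S j) (F.r j) (gbMu F j lam π) (gbThr F j lam π) (gbBr F j lam π v₀)
  rw [e]
  exact main

end

end Claimed.Agent.R257.FR3
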