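import Claimed.Agent.R257.FR3.BlkNu

/-!
# ROW 257, package FR3, GBLK: THE FIELD `strip` OF `BlkDat.Ok`, numerics      (helper212)

`gbs_field`: LITERALLY the field `strip` for `ν = gbNu F j I O`, from the last clause of `tgx_main` (`hres`), thresholds `t i ≤ Λ^{-γ (s_i - s_lam)}` on the mesh `Ms ⊇ [bot, lam)`, mesh width `μ` on `[bot, lam)`, `u - μ ≤ s_bot - s_lam`, and `K ≥ 2^γ, Λ^{γ μ}`.
-/

set_option autoImplicit false

namespace Claimed.Agent.R257.FR3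

open scoped BigOperators InnerProductSpace
open Classical Matrix
open Claimed.Agent.R255 Claimed.Agent.R257 Claimed.Agent.R257.FR2 Claimed.Agent.R257.Tree

noncomputable section

variable {k : ℕ}

/-- `Λ^{s_i - s_i'} = κ_i / κ_i'` -/
theorem gbs_pow_s (F : FCfg k) (j : Fin (k + 1)) (hΛ : 1 < F.Λ) (hκr : 0 < F.κr j) (hD : (F.D j).Good) (i i' : ℕ) :
    F.Λ ^ (F.s j i - F.s j i') = (F.D j).κ i / (F.D j).κ i' := by
  have hΛ0 : 0 < F.Λ := by linarith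
  have h1 := (F.D j).κ_pos hD i
  have h2 := (F.D j).κ_pos hD i'
  unfold FCfg.s
  rw [Real.rpow_sub hΛ0, Real.rpow_logb hΛ0 hΛ.ne' (by positivity), Real.rpow_logb hΛ0 hΛ.ne' (by positivity)]
  field_simp

/-- the real number inequality -/
theorem gbs_num {Λ r γ μ v K : ℝ} (hΛ : 1 < Λ) (hr : 0 < r) (hγ : 0 ≤ γ) (hv : r⁻¹ ≤ Λ ^ (v + μ)) (hK : Λ ^ (γ * μ) ≤ K) : Λ ^ (-(γ * v)) ≤ K * r ^ γ := by
  have hΛ0 : 0 < Λ := by linarith
  have h1 : Λ ^ (-v) ≤ Λ ^ μ * r := by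
    rw [Real.rpow_add hΛ0] at hv
    rw [Real.rpow_neg hΛ0.le, inv_le_comm₀ (by positivity) (by positivity), mul_inv]
    rw [inv_le_iff_one_le_mul₀ hr] at hv
    rw [← div_eq_mul_inv, div_le_iff₀ hr, inv_le_iff_one_le_mul₀ (by positivity)]
    nlinarith
  calc Λ ^ (-(γ * v)) = (Λ ^ (-v)) ^ γ := by rw [← Real.rpow_mul hΛ0.le]; congr 1; ring
    _ ≤ (Λ ^ μ * r) ^ γ := Real.rpow_le_rpow (by positivity) h1 hγ
    _ = Λ ^ (γ * μ) * r ^ γ := by rw [Real.mul_rpow (by positivity) hr.le, ← Real.rpow_mul hΛ0.le, mul_comm μ γ]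
    _ ≤ K * r ^ γ := by gcongr

/-- **the field `strip`** -/
theorem gbs_field (F : FCfg k) (j : Fin (k + 1)) (I : TAIn (F.D j)) {p : TPar} (h : (F.D j).sys.Ok p) (hc : F.c.Ok) (hD : (F.D j).Good) (hbl : I.bot ≤ I.lam) (hl : I.lam ≤ F.c.ℓ)
    (hCs : (k : ℝ) + 2 * (F.c.ℓ * F.c.Cc) ≤ I.Cs) (O : (F.D j).BBt I.lam I.Sd → (F.D j).Lb 0 → Prop) (Ms : Finset ℕ) (t : ℕ → ℝ)
    (hres : ∀ (B : (F.D j).BBt I.lam I.Sd) (σ : TStr k I.bot I.lam),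
      ∑ ω, (if ((F.D j).ang I).inStr σ.lev σ ω ∧ ¬ O B ω then ((F.D j).ang I).nu B ω else 0) ≤ if σ.lev ∈ Ms then t σ.lev else 1)
    {u γ μ K : ℝ} (hΛ : 1 < F.Λ) (hκr : 0 < F.κr j) (hγ : 0 ≤ γ)
    (hMs : ∀ i, I.bot ≤ i → i < I.lam → i ∈ Ms) (hmesh : ∀ i, I.bot ≤ i → i < I.lam → F.s j i - F.s j (i + 1) ≤ μ) (hbot : u - μ ≤ F.s j I.bot - F.s j I.lam)
    (ht0 : ∀ i ∈ Ms, 0 ≤ t i) (ht : ∀ i ∈ Ms, t i ≤ F.Λ ^ (-(γ * (F.s j i - F.s j I.lam)))) (hK1 : 2 ^ γ ≤ K) (hK2 : F.Λ ^ (γ * μ) ≤ K) :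
    ∀ g (w : Fin (k + 1) → ℝ), ∑ l, |w l| = 1 → ∀ r : ℝ, F.Λ ^ (-u) ≤ r → r ≤ 1 → ∑ ω with |w ⬝ᵥ F.ndir j I.lam ω| ≤ r, gbNu F j I O g ω ≤ K * r ^ γ := by
  intro g w hw r hru hr1
  have hΛ0 : 0 < F.Λ := by linarith
  have hr0 : 0 < r := lt_of_lt_of_le (Real.rpow_pos_of_pos hΛ0 _) hru
  have hκ := (F.D j).κ_pos hD
  rcases lt_or_ge (1 / 2 : ℝ) r with hr2 | hr2
  · -- wide strips: trivial
    have h1 : ∑ ω with |w ⬝ᵥ F.ndir j I.lam ω| ≤ r, gbNu F j I O g ω ≤ 1 :=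
      (Finset.sum_le_sum_of_subset_of_nonneg (Finset.filter_subset _ _) fun ω _ _ => gbn_nonneg F j I h O g ω).trans (gbn_sum F j I h O g)
    have h2 : (1 : ℝ) = 2 ^ γ * (1 / 2 : ℝ) ^ γ := by
      rw [← Real.mul_rpow (by norm_num) (by norm_num)]
      norm_num
    calc _ ≤ (1 : ℝ) := h1
      _ = 2 ^ γ * (1 / 2 : ℝ) ^ γ := h2
      _ ≤ K * r ^ γ := mul_le_mul hK1 (Real.rpow_le_rpow (by norm_num) hr2.le hγ) (by positivity) (le_trans (by positivity) hK1)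
  · -- the minimal height with `κ_i r ≤ κ_lam`
    have hex : ∃ i, I.bot ≤ i ∧ i ≤ I.lam ∧ (F.D j).κ i * r ≤ (F.D j).κ I.lam := ⟨I.lam, hbl, le_rfl, by nlinarith [hκ I.lam]⟩
    obtain ⟨hb, hle, hP⟩ := Nat.find_spec hex
    set i₀ := Nat.find hex with hi₀
    have hmin : ∀ i, i < i₀ → ¬ (I.bot ≤ i ∧ i ≤ I.lam ∧ (F.D j).κ i * r ≤ (F.D j).κ I.lam) := fun i hi => Nat.find_min hex hi
    have hstrip := gbs_strip F j I h hc hD hl hCs O (fun i => if i ∈ Ms then t i else 1) hres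
      (fun i => by split_ifs with hi; exacts [ht0 i hi, zero_le_one]) g w hw r hr0.le hr2 i₀ hb hle hP
    refine hstrip.trans ?_
    -- `1/r ≤ Λ^{v + μ}`
    have hv : r⁻¹ ≤ F.Λ ^ ((F.s j i₀ - F.s j I.lam) + μ) := by
      rcases hb.eq_or_lt with he | hlt
      · have h1 : r⁻¹ ≤ F.Λ ^ u := by
          rw [Real.rpow_neg hΛ0.le] at hru
          exact (inv_le_comm₀ (by positivity) hr0).1 hru
        refine h1.trans (Real.rpow_le_rpow_of_exponent_le hΛ.le ?_)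
        rw [← he]
        linarith
      · obtain ⟨i₁, hi₁⟩ : ∃ i₁, i₀ = i₁ + 1 := ⟨i₀ - 1, by omega⟩
        have h1 := hmin i₁ (by omega)
        have h2 : (F.D j).κ I.lam < (F.D j).κ i₁ * r := by
          by_contra hcon
          exact h1 ⟨by omega, by omega, not_lt.1 hcon⟩
        have h3 : r⁻¹ ≤ F.Λ ^ (F.s j i₁ - F.s j I.lam) := by
          rw [gbs_pow_s F j hΛ hκr hD, inv_le_iff_one_le_mul₀ hr0, div_mul_eq_mul_div, one_le_div (hκ _)]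
          exact h2.le
        refine h3.trans (Real.rpow_le_rpow_of_exponent_le hΛ.le ?_)
        have h4 := hmesh i₁ (by omega) (by omega)
        rw [hi₁]
        linarith
    have hfin := gbs_num hΛ hr0 hγ hv hK2
    by_cases hm : i₀ ∈ Ms
    · simp only [if_pos hm]
      exact (ht i₀ hm).trans hfin
    · simp only [if_neg hm]
      have he : i₀ = I.lam := by
        by_contra hne
        exact hm (hMs i₀ hb (lt_of_le_of_ne hle hne))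
      rw [he, sub_self, mul_zero, neg_zero, Real.rpow_zero] at hfin
      exact hfin

/-- **the field `strip`, form of helper266** (mesh `Ms` arbitrary; ONE hypothesis on the thresholds) -/
theorem gbs_field2 (F : FCfg k) (j : Fin (k + 1)) (I : TAIn (F.D j)) {p : TPar} (h : (F.D j).sys.Ok p) (hc : F.c.Ok) (hD : (F.D j).Good) (hbl : I.bot ≤ I.lam) (hl : I.lam ≤ F.c.ℓ)
    (hCs : (k : ℝ) + 2 * (F.c.ℓ * F.c.Cc) ≤ I.Cs) (O : (F.D j).BBt I.lam I.Sd → (F.D j).Lb 0 → Prop) (Ms : Finset ℕ) (t : ℕ → ℝ)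
    (hres : ∀ (B : (F.D j).BBt I.lam I.Sd) (σ : TStr k I.bot I.lam),
      ∑ ω, (if ((F.D j).ang I).inStr σ.lev σ ω ∧ ¬ O B ω then ((F.D j).ang I).nu B ω else 0) ≤ if σ.lev ∈ Ms then t σ.lev else 1)
    {u γ μ K K0 : ℝ} (hΛ : 1 < F.Λ) (hκr : 0 < F.κr j) (hγ : 0 ≤ γ)
    (hmesh : ∀ i, I.bot ≤ i → i < I.lam → F.s j i - F.s j (i + 1) ≤ μ) (hbot : u - μ ≤ F.s j I.bot - F.s j I.lam)
    (htt : ∀ i, I.bot ≤ i → i ≤ I.lam → (if i ∈ Ms then t i else 1) ≤ K0 * F.Λ ^ (-(γ * (F.s j i - F.s j I.lam)))) (hK1 : 2 ^ γ ≤ K) (hK2 : K0 * F.Λ ^ (γ * μ) ≤ K) :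
    ∀ g (w : Fin (k + 1) → ℝ), ∑ l, |w l| = 1 → ∀ r : ℝ, F.Λ ^ (-u) ≤ r → r ≤ 1 → ∑ ω with |w ⬝ᵥ F.ndir j I.lam ω| ≤ r, gbNu F j I O g ω ≤ K * r ^ γ := by
  intro g w hw r hru hr1
  have hΛ0 : 0 < F.Λ := by linarith
  have hr0 : 0 < r := lt_of_lt_of_le (Real.rpow_pos_of_pos hΛ0 _) hru
  have hκ := (F.D j).κ_pos hD
  have hK0 : 0 < K := lt_of_lt_of_le (by positivity) hK1
  rcases lt_or_ge (1 / 2 : ℝ) r with hr2 | hr2
  · -- wide strips: trivial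
    have h1 : ∑ ω with |w ⬝ᵥ F.ndir j I.lam ω| ≤ r, gbNu F j I O g ω ≤ 1 :=
      (Finset.sum_le_sum_of_subset_of_nonneg (Finset.filter_subset _ _) fun ω _ _ => gbn_nonneg F j I h O g ω).trans (gbn_sum F j I h O g)
    have h2 : (1 : ℝ) = 2 ^ γ * (1 / 2 : ℝ) ^ γ := by
      rw [← Real.mul_rpow (by norm_num) (by norm_num)]
      norm_num
    calc _ ≤ (1 : ℝ) := h1
      _ = 2 ^ γ * (1 / 2 : ℝ) ^ γ := h2
      _ ≤ K * r ^ γ := mul_le_mul hK1 (Real.rpow_le_rpow (by norm_num) hr2.le hγ) (by positivity) hK0.le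
  · -- the minimal height with `κ_i r ≤ κ_lam`
    have hex : ∃ i, I.bot ≤ i ∧ i ≤ I.lam ∧ (F.D j).κ i * r ≤ (F.D j).κ I.lam := ⟨I.lam, hbl, le_rfl, by nlinarith [hκ I.lam]⟩
    obtain ⟨hb, hle, hP⟩ := Nat.find_spec hex
    set i₀ := Nat.find hex with hi₀
    have hmin : ∀ i, i < i₀ → ¬ (I.bot ≤ i ∧ i ≤ I.lam ∧ (F.D j).κ i * r ≤ (F.D j).κ I.lam) := fun i hi => Nat.find_min hex hi
    have hstrip := gbs_strip F j I h hc hD hl hCs O (fun i => max 0 (if i ∈ Ms then t i else 1)) (fun B σ => (hres B σ).trans (le_max_right _ _))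
      (fun i => le_max_left _ _) g w hw r hr0.le hr2 i₀ hb hle hP
    refine hstrip.trans ?_
    -- `1/r ≤ Λ^{v + μ}`
    have hv : r⁻¹ ≤ F.Λ ^ ((F.s j i₀ - F.s j I.lam) + μ) := by
      rcases hb.eq_or_lt with he | hlt
      · have h1 : r⁻¹ ≤ F.Λ ^ u := by
          rw [Real.rpow_neg hΛ0.le] at hru
          exact (inv_le_comm₀ (by positivity) hr0).1 hru
        refine h1.trans (Real.rpow_le_rpow_of_exponent_le hΛ.le ?_)
        rw [← he]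
        linarith
      · obtain ⟨i₁, hi₁⟩ : ∃ i₁, i₀ = i₁ + 1 := ⟨i₀ - 1, by omega⟩
        have h1 := hmin i₁ (by omega)
        have h2 : (F.D j).κ I.lam < (F.D j).κ i₁ * r := by
          by_contra hcon
          exact h1 ⟨by omega, by omega, not_lt.1 hcon⟩
        have h3 : r⁻¹ ≤ F.Λ ^ (F.s j i₁ - F.s j I.lam) := by
          rw [gbs_pow_s F j hΛ hκr hD, inv_le_iff_one_le_mul₀ hr0, div_mul_eq_mul_div, one_le_div (hκ _)]
          exact h2.le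
        refine h3.trans (Real.rpow_le_rpow_of_exponent_le hΛ.le ?_)
        have h4 := hmesh i₁ (by omega) (by omega)
        rw [hi₁]
        linarith
    have hfin := gbs_num hΛ hr0 hγ hv le_rfl
    have hrγ : 0 < r ^ γ := Real.rpow_pos_of_pos hr0 _
    refine max_le (by positivity) ((htt i₀ hb hle).trans ?_)
    rcases le_or_gt 0 K0 with hK0' | hK0'
    · calc K0 * F.Λ ^ (-(γ * (F.s j i₀ - F.s j I.lam))) ≤ K0 * (F.Λ ^ (γ * μ) * r ^ γ) := mul_le_mul_of_nonneg_left hfin hK0'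
        _ = K0 * F.Λ ^ (γ * μ) * r ^ γ := by ring
        _ ≤ K * r ^ γ := mul_le_mul_of_nonneg_right hK2 hrγ.le
    · have h5 : K0 * F.Λ ^ (-(γ * (F.s j i₀ - F.s j I.lam))) ≤ 0 := mul_nonpos_of_nonpos_of_nonneg hK0'.le (Real.rpow_nonneg hΛ0.le _)
      exact h5.trans (by positivity)

end

end Claimed.Agent.R257.FR3
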