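import Claimed.Agent.R257.FR3.InflDefs
import Claimed.Agent.R257.Pk.AsmLoc

/-!
# ROW 257, package FR3, unit L2STEP, file `L2sAd`: ADAPTER  "one tree step of `TDat` in a frame `(K0, w0)`"  →  the one-step assembly `Asm` of `Pk/Asm.lean`      (helper162)

PAPER-FREE.   Prefix `fl2_`.    CONSUMER: `FiL2At` of `FR3/InflDefs.lean` (helper271).    PROVIDER of the analysis: `asm_l2_loc` / its ball form (`Pk/AsmLoc.lean`, helper136).
Given `D : TDat c`, `D.Good`, an admissible family `g` of height `h` with amplitudes `a`, a frame `(K0, w0)`, `0 < K0 ≤ κ (h+1)`, the labels of the packets with `a ≠ 0` within `Cd / K0` of `w0`: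
* `fl2Fam D h F`            the children as a `PFam` in PHYSICAL coordinates (`F` = native profiles chosen from `IsPk`);
* `fl2Asm D h F a K0 w0`    the assembly IN THE FRAME: child family `(fl2Fam …).resc K0 w0` (scale `κ h / K0`, labels `K0 (fr - w0)`), packets `{a ≠ 0}`, parent scale `κ (h+1) / K0`, caps = labels of height `h+1`, centres `K0 (fr - w0)`;
* `fl2_ok`       `Asm.Ok` with the class `⟨ρ h, M, Cd, ⌈Cm⌉ 3^(k+1)⟩`, `C₁ = Cc`, `m₁ = ⌈Cm⌉`;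
* `fl2_amp`      the fresh amplitudes agree (the same weighted supremum, transported by the bijection `natX`);
* `fl2_par_sq`, `fl2_ch_sq`   the envelopes agree with `TDat.fiE`;
* **`fl2_at`**   `c.Ok`, `k + 2 < A ≤ c.Q`  ⟹  `∀ Cd, ∃ K2 > 0, FiL2At c A Cd K2`   (constant = sum over the heights `h < ℓ`; Peetre from the centre of the ball to `X'`).
-/

set_option autoImplicit false

namespace Claimed.Agent.R257

open MeasureTheory Metric Set
open Claimed.Agent.R257.Tree Claimed.Agent.R257.FR2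
open scoped ENNReal BigOperators BoundedContinuousFunction

noncomputable section

variable {k : ℕ} {c : TCls k}

/-- the children of one tree step as a packet family in physical coordinates -/
def fl2Fam (D : TDat c) (h : ℕ) (F : D.Cl h → ST k → ℂ) : PFam k (D.Cl h) where
  N := D.κ h
  v := fun T => D.fr h T.1.1
  u := fun T => lat T.1.2
  F := F

open scoped Classical in
/-- the one-step assembly in the frame `(K0, w0)` -/
def fl2Asm (D : TDat c) (h : ℕ) (F : D.Cl h → ST k → ℂ) (a : D.Cl h → ℝ) (K0 : ℝ) (w0 : E k) : Asm k (D.Cl h) (D.Lb (h + 1)) where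
  A := (fl2Fam D h F).resc K0 w0
  s := Finset.univ.filter fun T => a T ≠ 0
  N := D.κ (h + 1) / K0
  π := fun T => D.par h T.1.1
  vc := fun J => K0 • (D.fr (h + 1) J - w0)
  χ := c.χ
  Ca := c.Cχ
  Cs := c.C0

/-- the profiles of an admissible family -/
theorem fl2_exists_F (D : TDat c) (h : ℕ) (g : D.Cl h → (ST k →ᵇ ℂ)) (a : D.Cl h → ℝ) (hA : D.Adm h g a) :
    ∃ F : D.Cl h → ST k → ℂ, ∀ T, BD.FS (closedBall (0 : ST k) (c.ρ h)) (F T) ∧ (∀ X, ‖F T X‖ ≤ a T * (1 + ‖X - lat T.1.2‖) ^ (-c.M)) ∧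
      ∀ z, g T z = car (D.fr h T.1.1) z * F T (natX (D.κ h) (D.fr h T.1.1) z) := by
  choose F hF using hA
  exact ⟨F, hF⟩

/-- the children form a family of the band limited class (physical coordinates; the frequency radius is irrelevant: it is replaced by `Cd` in the frame) -/
theorem fl2_in (D : TDat c) (hD : D.Good) (h : ℕ) (F : D.Cl h → ST k → ℂ) (a : D.Cl h → ℝ)
    (hF : ∀ T, BD.FS (closedBall (0 : ST k) (c.ρ h)) (F T) ∧ (∀ X, ‖F T X‖ ≤ a T * (1 + ‖X - lat T.1.2‖) ^ (-c.M))) (s : Finset (D.Cl h)) :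
    (fl2Fam D h F).In s ⟨c.ρ h, c.M, ∑ T : D.Cl h, ‖D.fr h T.1.1‖, ⌈c.Cm⌉₊ * 3 ^ (k + 1)⟩ a := by
  classical
  have hκ : 0 < D.κ h := lt_of_lt_of_le one_pos (hD.one_le_κ h)
  refine ⟨hD.one_le_κ h, fun T _ => (hF T).1, fun T _ => (hF T).2, fun T _ => ?_, fun ξ y τ t _ ht => ?_⟩
  · exact Finset.single_le_sum (f := fun T : D.Cl h => ‖D.fr h T.1.1‖) (fun _ _ => norm_nonneg _) (Finset.mem_univ T)
  · have h1 : t.card ≤ 3 ^ (k + 1) * (t.image fun T : D.Cl h => T.1.1).card := by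
      refine Finset.card_le_mul_card_image t _ fun b _ => ?_
      have hinj : Set.InjOn (fun T : D.Cl h => T.1.2) (t.filter fun T => T.1.1 = b : Finset (D.Cl h)) := by
        intro T hT T' hT' hTT
        have e1 := (Finset.mem_filter.1 (Finset.mem_coe.1 hT)).2
        have e2 := (Finset.mem_filter.1 (Finset.mem_coe.1 hT')).2
        exact Subtype.ext (Prod.ext (e1.trans e2.symm) hTT)
      rw [← Finset.card_image_of_injOn hinj]
      refine pka_lat_card _ (y - (2 * τ * D.κ h) • D.fr h b) τ fun m hm => ?_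
      obtain ⟨T, hT, rfl⟩ := Finset.mem_image.1 hm
      obtain ⟨hTt, hTb⟩ := Finset.mem_filter.1 hT
      obtain ⟨_, h2, h3⟩ := ht T hTt
      refine ⟨?_, h2⟩
      have e : (plat T.1.2).1 - (y - (2 * τ * D.κ h) • D.fr h b) = (lat T.1.2).1 + (2 * τ * D.κ h) • D.fr h T.1.1 - y := by
        rw [hTb]
        show (lat T.1.2).1 - (y - (2 * τ * D.κ h) • D.fr h b) = _
        abel
      rw [e]
      exact h3
    have h2 : (t.image fun T : D.Cl h => T.1.1).card ≤ ⌈c.Cm⌉₊ := by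
      have hsub : (t.image fun T : D.Cl h => T.1.1) ⊆ Finset.univ.filter fun v => ‖D.fr h v - (D.κ h)⁻¹ • ξ‖ ≤ (D.κ h)⁻¹ := by
        intro v hv
        obtain ⟨T, hT, rfl⟩ := Finset.mem_image.1 hv
        refine Finset.mem_filter.2 ⟨Finset.mem_univ _, ?_⟩
        have h3 : ‖D.κ h • D.fr h T.1.1 - ξ‖ ≤ 1 := (ht T hT).1
        have e : D.fr h T.1.1 - (D.κ h)⁻¹ • ξ = (D.κ h)⁻¹ • (D.κ h • D.fr h T.1.1 - ξ) := by
          rw [smul_sub, inv_smul_smul₀ hκ.ne']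
        rw [e, norm_smul, norm_inv, Real.norm_of_nonneg hκ.le]
        exact mul_le_of_le_one_right (inv_nonneg.2 hκ.le) h3
      have h4 := hD.mult h ((D.κ h)⁻¹ • ξ)
      have h5 : (((t.image fun T : D.Cl h => T.1.1).card : ℕ) : ℝ) ≤ c.Cm := le_trans (by exact_mod_cast Finset.card_le_card hsub) h4
      exact_mod_cast h5.trans (Nat.le_ceil _)
    calc t.card ≤ 3 ^ (k + 1) * (t.image fun T : D.Cl h => T.1.1).card := h1
      _ ≤ 3 ^ (k + 1) * ⌈c.Cm⌉₊ := Nat.mul_le_mul_left _ h2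
      _ = ⌈c.Cm⌉₊ * 3 ^ (k + 1) := Nat.mul_comm _ _

/-- **the hypotheses of the one-step assembly hold in every frame** -/
theorem fl2_ok (hc : c.Ok) (D : TDat c) (hD : D.Good) (h : ℕ) (F : D.Cl h → ST k → ℂ) (a : D.Cl h → ℝ)
    (hF : ∀ T, BD.FS (closedBall (0 : ST k) (c.ρ h)) (F T) ∧ (∀ X, ‖F T X‖ ≤ a T * (1 + ‖X - lat T.1.2‖) ^ (-c.M)))
    {K0 Cd : ℝ} {w0 : E k} (hK0 : 0 < K0) (hK : K0 ≤ D.κ (h + 1)) (hcap : ∀ T', a T' ≠ 0 → ‖D.fr h T'.1.1 - w0‖ ≤ Cd / K0) :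
    (fl2Asm D h F a K0 w0).Ok ⟨c.ρ h, c.M, Cd, ⌈c.Cm⌉₊ * 3 ^ (k + 1)⟩ a c.Cc ⌈c.Cm⌉₊ c.ρχ c.Cχ (c.M + c.C0) := by
  classical
  have hκ1 : 0 < D.κ (h + 1) := lt_of_lt_of_le one_pos (hD.one_le_κ (h + 1))
  have hk0 : (0 : ℝ) ≤ k := Nat.cast_nonneg k
  have hP := hc.P_gt
  have hPQ := hc.P_lt
  have hM := hc.M_gt
  have hC0 := hc.C0_ge
  refine ⟨?_, ?_, ?_, fun T _ => ?_, fun ξ t _ ht => ?_, hc.χ_fs, hc.χ_dec, hc.χ_pou, le_rfl, ?_, ?_, hc.ρ_nonneg h, ?_⟩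
  · exact (fl2_in D hD h F a hF _).resc hK0 (hK.trans (hD.κ_anti h)) w0 fun T hT => hcap T (Finset.mem_filter.1 hT).2
  · show 1 ≤ D.κ (h + 1) / K0
    rwa [le_div_iff₀ hK0, one_mul]
  · show D.κ (h + 1) / K0 ≤ D.κ h / K0
    exact div_le_div_of_nonneg_right (hD.κ_anti h) hK0.le
  · show ‖K0 • (D.fr h T.1.1 - w0) - K0 • (D.fr (h + 1) (D.par h T.1.1) - w0)‖ ≤ c.Cc / (D.κ (h + 1) / K0)
    have e : K0 • (D.fr h T.1.1 - w0) - K0 • (D.fr (h + 1) (D.par h T.1.1) - w0) = K0 • (D.fr h T.1.1 - D.fr (h + 1) (D.par h T.1.1)) := by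
      rw [← smul_sub]; congr 1; abel
    rw [e, norm_smul, Real.norm_of_nonneg hK0.le]
    have h1 := hD.par_near h T.1.1
    calc K0 * ‖D.fr h T.1.1 - D.fr (h + 1) (D.par h T.1.1)‖ ≤ K0 * (c.Cc / D.κ (h + 1)) := by gcongr
      _ = c.Cc / (D.κ (h + 1) / K0) := by field_simp
  · have hsub : t ⊆ Finset.univ.filter fun v => ‖D.fr (h + 1) v - (w0 + (D.κ (h + 1))⁻¹ • ξ)‖ ≤ (D.κ (h + 1))⁻¹ := by
      intro J hJ
      refine Finset.mem_filter.2 ⟨Finset.mem_univ _, ?_⟩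
      have h3 : ‖(D.κ (h + 1) / K0) • (K0 • (D.fr (h + 1) J - w0)) - ξ‖ ≤ 1 := ht J hJ
      rw [smul_smul, div_mul_cancel₀ _ hK0.ne'] at h3
      have e : D.fr (h + 1) J - (w0 + (D.κ (h + 1))⁻¹ • ξ) = (D.κ (h + 1))⁻¹ • (D.κ (h + 1) • (D.fr (h + 1) J - w0) - ξ) := by
        rw [smul_sub, inv_smul_smul₀ hκ1.ne']; abel
      rw [e, norm_smul, norm_inv, Real.norm_of_nonneg hκ1.le]
      exact mul_le_of_le_one_right (inv_nonneg.2 hκ1.le) h3
    have h4 := hD.mult (h + 1) (w0 + (D.κ (h + 1))⁻¹ • ξ)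
    have h5 : ((t.card : ℕ) : ℝ) ≤ c.Cm := le_trans (by exact_mod_cast Finset.card_le_card hsub) h4
    exact_mod_cast h5.trans (Nat.le_ceil _)
  · show 0 ≤ c.C0
    linarith
  · linarith [hc.one_le_Cc]
  · show 0 ≤ c.M
    linarith

/-- the field of the children of the cap `J` is the pre-cutoff field -/
theorem fl2_fld (D : TDat c) (h : ℕ) (g : D.Cl h → (ST k →ᵇ ℂ)) (F : D.Cl h → ST k → ℂ) (a : D.Cl h → ℝ)
    (hF : ∀ T, (∀ X, ‖F T X‖ ≤ a T * (1 + ‖X - lat T.1.2‖) ^ (-c.M)) ∧ ∀ z, g T z = car (D.fr h T.1.1) z * F T (natX (D.κ h) (D.fr h T.1.1) z))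
    (K0 : ℝ) (w0 : E k) (J : D.Lb (h + 1)) (z : ST k) :
    (fl2Fam D h F).fld ((fl2Asm D h F a K0 w0).fib J) z = D.pre h g J z := by
  classical
  rw [TDat.pre_apply]
  unfold PFam.fld Asm.fib
  show ∑ T ∈ (Finset.univ.filter fun T : D.Cl h => a T ≠ 0).filter (fun T => D.par h T.1.1 = J), (fl2Fam D h F).pk T z = _
  rw [Finset.sum_filter, Finset.sum_filter]
  refine Finset.sum_congr rfl fun T _ => ?_
  have hpk : (fl2Fam D h F).pk T z = g T z := ((hF T).2 z).symm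
  by_cases ha : a T = 0
  · have h0 : g T z = 0 := by
      rw [(hF T).2 z]
      have := (hF T).1 (natX (D.κ h) (D.fr h T.1.1) z)
      rw [ha, zero_mul] at this
      rw [norm_le_zero_iff.1 this, mul_zero]
    simp [ha, h0]
  · simp [ha, hpk]

/-- **the fresh amplitudes agree** -/
theorem fl2_amp (D : TDat c) (hD : D.Good) (h : ℕ) (g : D.Cl h → (ST k →ᵇ ℂ)) (F : D.Cl h → ST k → ℂ) (a : D.Cl h → ℝ)
    (hF : ∀ T, (∀ X, ‖F T X‖ ≤ a T * (1 + ‖X - lat T.1.2‖) ^ (-c.M)) ∧ ∀ z, g T z = car (D.fr h T.1.1) z * F T (natX (D.κ h) (D.fr h T.1.1) z))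
    {K0 : ℝ} (w0 : E k) (hK0 : 0 < K0) (T : D.Cl (h + 1)) :
    (fl2Asm D h F a K0 w0).amp T.1 = D.amp h g T := by
  have hκ1 : 0 < D.κ (h + 1) := lt_of_lt_of_le one_pos (hD.one_le_κ (h + 1))
  have hN : (fl2Asm D h F a K0 w0).N ≠ 0 := (div_pos hκ1 hK0).ne'
  have hsurj : Function.Surjective (natX (D.κ (h + 1)) (D.fr (h + 1) T.1.1)) := fun X => ⟨natI _ _ X, natX_natI hκ1.ne' _ X⟩
  unfold Asm.amp TDat.amp
  show c.Cχ * _ = c.Cχ * _
  congr 1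
  rw [← hsurj.iSup_comp]
  refine iSup_congr fun z => ?_
  have e1 := (fl2Fam D h F).fld_resc hK0.ne' w0 ((fl2Asm D h F a K0 w0).fib T.1.1) z
  have e2 := (fl2Asm D h F a K0 w0).fld_fib hN T.1.1 (natX K0 w0 z)
  have e3 : natX (fl2Asm D h F a K0 w0).N ((fl2Asm D h F a K0 w0).vc T.1.1) (natX K0 w0 z) = natX (D.κ (h + 1)) (D.fr (h + 1) T.1.1) z :=
    natX_resc hK0.ne' (D.fr (h + 1) T.1.1) w0 z
  have e4 := fl2_fld D h g F a hF K0 w0 T.1.1 z
  have e5 : ‖D.pre h g T.1.1 z‖ = ‖(fl2Asm D h F a K0 w0).U T.1.1 (natX (D.κ (h + 1)) (D.fr (h + 1) T.1.1) z)‖ := by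
    rw [← e4, e1]
    change ‖car w0 z * (fl2Asm D h F a K0 w0).A.fld ((fl2Asm D h F a K0 w0).fib T.1.1) (natX K0 w0 z)‖ = _
    rw [e2, e3, norm_mul, norm_mul, norm_car, norm_car, one_mul, one_mul]
  rw [e5]
  rfl

/-- the parent envelope of the assembly is the envelope `fiE` of height `h + 1` with the fresh amplitudes -/
theorem fl2_par_sq (D : TDat c) (hD : D.Good) (h : ℕ) (g : D.Cl h → (ST k →ᵇ ℂ)) (F : D.Cl h → ST k → ℂ) (a : D.Cl h → ℝ)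
    (hF : ∀ T, (∀ X, ‖F T X‖ ≤ a T * (1 + ‖X - lat T.1.2‖) ^ (-c.M)) ∧ ∀ z, g T z = car (D.fr h T.1.1) z * F T (natX (D.κ h) (D.fr h T.1.1) z))
    {K0 : ℝ} (w0 : E k) (hK0 : 0 < K0) (A : ℝ) (X : ST k) :
    (fl2Asm D h F a K0 w0).par.sq A (D.W (h + 1)) (fl2Asm D h F a K0 w0).amp X = D.fiE K0 w0 A (h + 1) Finset.univ (D.amp h g) X := by
  unfold PFam.sq TDat.fiE
  rw [← Finset.sum_coe_sort (D.W (h + 1))]
  refine Finset.sum_congr rfl fun T _ => ?_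
  rw [fl2_amp D hD h g F a hF w0 hK0 T]
  rfl

/-- the child envelope of the assembly is the envelope `fiE` of height `h` -/
theorem fl2_ch_sq (D : TDat c) (h : ℕ) (F : D.Cl h → ST k → ℂ) (a : D.Cl h → ℝ) (K0 : ℝ) (w0 : E k) (A : ℝ) (X : ST k) :
    (fl2Asm D h F a K0 w0).A.sq A (fl2Asm D h F a K0 w0).s a X = D.fiE K0 w0 A h Finset.univ a X := by
  classical
  unfold PFam.sq TDat.fiE
  show ∑ T ∈ Finset.univ.filter (fun T : D.Cl h => a T ≠ 0), _ = _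
  rw [Finset.sum_filter]
  refine Finset.sum_congr rfl fun T _ => ?_
  by_cases ha : a T = 0
  · simp [ha]
  · rw [if_pos ha]
    rfl

/-- **THE ONE-STEP `L²` CONTRACT `FiL2At`** from the ball form `asm_l2_ball` of the local `L²` step of the assembly. -/
theorem fl2_at (hc : c.Ok) {A : ℝ} (hA : (k : ℝ) + 2 < A) (hAQ : A ≤ c.Q) (Cd : ℝ) : ∃ K2 : ℝ, 0 < K2 ∧ FiL2At c A Cd K2 := by
  have hk0 : (0 : ℝ) ≤ k := Nat.cast_nonneg k
  have hM := hc.M_gt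
  have hC0 := hc.C0_ge
  obtain ⟨Cd', hCd'⟩ : ∃ Cd' : ℝ, Cd' = max Cd 0 := ⟨_, rfl⟩
  have hCd0 : 0 ≤ Cd' := hCd' ▸ le_max_right _ _
  have hball := fun h : ℕ => asm_l2_ball k ⟨c.ρ h, c.M, Cd', ⌈c.Cm⌉₊ * 3 ^ (k + 1)⟩ (P := A) (Cs := c.C0) (C₁ := c.Cc) hA.le
    (by linarith) (by show A + (k : ℝ) + 1 < 2 * c.M; linarith)
  choose C hC0' hC using hball
  obtain ⟨Cs, hCs⟩ : ∃ Cs : ℝ, Cs = ∑ h ∈ Finset.range c.ℓ, C h := ⟨_, rfl⟩
  have hCs0 : 0 ≤ Cs := hCs ▸ Finset.sum_nonneg fun h _ => hC0' h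
  refine ⟨1 + Cs * c.Cχ ^ 2 * (2 + 2 * Cd') ^ A, by positivity, ?_⟩
  intro D hD h hh g a hAdm K0 w0 hK0 hK hcap cc X' hX'
  obtain ⟨F, hF⟩ := fl2_exists_F D h g a hAdm
  have hκ : 0 < D.κ h := lt_of_lt_of_le one_pos (hD.one_le_κ h)
  have hN' : 0 < D.κ h / K0 := div_pos hκ hK0
  have hok := fl2_ok hc D hD h F a (fun T => ⟨(hF T).1, (hF T).2.1⟩) (Cd := Cd') hK0 hK fun T' hT' =>
    (hcap T' hT').trans (div_le_div_of_nonneg_right (hCd' ▸ le_max_left _ _) hK0.le)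
  have key := hC h _ _ (fl2Asm D h F a K0 w0) a _ _ _ _ rfl hok (D.W (h + 1)) cc
  simp only [fl2_par_sq D hD h g F a (fun T => (hF T).2) w0 hK0 A] at key
  have hpe := hok.inn.sq_peetre (P := A) (by linarith) a cc X'
  rw [fl2_ch_sq, fl2_ch_sq] at hpe
  rw [fl2_ch_sq] at key
  change ∫⁻ z in closedBall cc (D.κ h / K0), _ ≤ ENNReal.ofReal (C h * c.Cχ ^ 2 * (D.κ h / K0) ^ (k + 1) * _) at key
  change _ ≤ (1 + (1 + 2 * Cd') * ‖X' - cc‖ / (D.κ h / K0)) ^ A * _ at hpe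
  refine key.trans (ENNReal.ofReal_le_ofReal ?_)
  have hE : ∀ X, 0 ≤ D.fiE K0 w0 A h Finset.univ a X := by
    intro X
    unfold TDat.fiE TDat.fiW pw
    exact Finset.sum_nonneg fun T _ => by positivity
  have hE0 := hE X'
  have hE1 := hE cc
  have h1 : (1 + (1 + 2 * Cd') * ‖X' - cc‖ / (D.κ h / K0)) ^ A ≤ (2 + 2 * Cd') ^ A := by
    refine Real.rpow_le_rpow (by positivity) ?_ (by linarith)
    have : (1 + 2 * Cd') * ‖X' - cc‖ / (D.κ h / K0) ≤ 1 + 2 * Cd' := by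
      rw [div_le_iff₀ hN']
      gcongr
    linarith
  have h2 : C h ≤ Cs := by
    rw [hCs]
    exact Finset.single_le_sum (f := C) (fun i _ => hC0' i) (Finset.mem_range.2 hh)
  calc C h * c.Cχ ^ 2 * (D.κ h / K0) ^ (k + 1) * D.fiE K0 w0 A h Finset.univ a cc
      ≤ Cs * c.Cχ ^ 2 * (D.κ h / K0) ^ (k + 1) * ((2 + 2 * Cd') ^ A * D.fiE K0 w0 A h Finset.univ a X') := by
        have h3 := hpe.trans (mul_le_mul_of_nonneg_right h1 hE0)
        have h4 := hC0' h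
        gcongr
    _ = Cs * c.Cχ ^ 2 * (2 + 2 * Cd') ^ A * (D.κ h / K0) ^ (k + 1) * D.fiE K0 w0 A h Finset.univ a X' := by ring
    _ ≤ (1 + Cs * c.Cχ ^ 2 * (2 + 2 * Cd') ^ A) * (D.κ h / K0) ^ (k + 1) * D.fiE K0 w0 A h Finset.univ a X' := by
        gcongr
        linarith

end

end Claimed.Agent.R257
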