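import Claimed.Agent.R257.FR3.BlkCon
import Claimed.Agent.R257.FR3.BlkStrip
import Claimed.Agent.R257.FR3.InflBr
import Claimed.Agent.R257.FR3.L2sAd

/-!
# ROW 257, package FR3, GBLK, unit CNT: THE FIELD `cnt` OF THE BLOCK PACKAGE      (helper162)

NOTHING is sorried in this file.   `gbc_main : GbCnt k`  (contract of helper266, `FR3/BlkCon.lean`) `= fi_blk_cnt` (helper271, `FR3/InflBr.lean`) `+ fl2_at` (`FR3/L2sAd.lean`) + numerics.    Paper: H `frame.tex` l.1142-1255.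
* `gbc_chain`   (paper-free) the inflation chain: nodes of a grid of mesh `μ ≤ vv mu / 2` from `mu` down to `bot`, consecutive parameters in the ratio `≤ 2`, at most `n + 1` steps if `vv bot ≤ 2 (3/2)^n vv mu`.
* `gbc_theta`   the broad precision `θ0 = 5 (2/3)^n` with `θ0 (E0 + M (n+1)) ≤ e/2`.
* `gbc_loss`    all the explicit losses of `fi_blk_cnt` are `≤ C(class) Go^{(k+1)/k} Z^E`, `Z = c₁ κ_mu/κ_lam`.
* `gbc_br`      `gbP1 ⊆ bcell … (fiBr …)`   (the marked groups of a macro box lie under the cap of the box).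
-/

set_option autoImplicit false

namespace Claimed.Agent.R257.FR3

open scoped BigOperators
open Classical Matrix Filter Topology
open Claimed.Agent.R255 Claimed.Agent.R257 Claimed.Agent.R257.FR2 Claimed.Agent.R257.Tree

noncomputable section

/-- a chain of nodes with ratios `≤ 2` between two heights of a fine grid -/
theorem gbc_chain (vv : ℕ → ℝ) (μ : ℝ) (hanti : ∀ i, vv (i + 1) ≤ vv i) : ∀ (n mu bot : ℕ), bot ≤ mu → (∀ i, i < mu → vv i - vv (i + 1) ≤ μ) → 0 < vv mu → 2 * μ ≤ vv mu →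
    vv bot ≤ 2 * (3 / 2) ^ n * vv mu → ∃ (s : ℕ) (nd : ℕ → ℕ), s ≤ n + 1 ∧ nd 0 = mu ∧ nd s = bot ∧ (∀ a, a < s → nd (a + 1) < nd a) ∧ ∀ a, a < s → vv (nd (a + 1)) ≤ 2 * vv (nd a) := by
  have hmono : ∀ a b, a ≤ b → vv b ≤ vv a := fun a b hab => (antitone_nat_of_succ_le hanti) hab
  have base : ∀ mu bot : ℕ, bot ≤ mu → vv bot ≤ 2 * vv mu → ∃ (s : ℕ) (nd : ℕ → ℕ), s ≤ 1 ∧ nd 0 = mu ∧ nd s = bot ∧ (∀ a, a < s → nd (a + 1) < nd a) ∧ ∀ a, a < s → vv (nd (a + 1)) ≤ 2 * vv (nd a) := by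
    intro mu bot hb h2
    rcases hb.eq_or_lt with he | hlt
    · exact ⟨0, fun _ => mu, by omega, rfl, he.symm, fun a ha => by omega, fun a ha => by omega⟩
    · refine ⟨1, fun a => if a = 0 then mu else bot, le_rfl, by simp, by simp, ?_, ?_⟩
      · intro a ha
        have : a = 0 := by omega
        subst this
        simpa using hlt
      · intro a ha
        have : a = 0 := by omega
        subst this
        simpa using h2
  intro n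
  induction n with
  | zero =>
    intro mu bot hb _ _ _ h2
    obtain ⟨s, nd, h⟩ := base mu bot hb (by simpa using h2)
    exact ⟨s, nd, by omega, h.2⟩
  | succ n ih =>
    intro mu bot hb hmesh hpos hμ h2
    by_cases hc : vv bot ≤ 2 * vv mu
    · obtain ⟨s, nd, h⟩ := base mu bot hb hc
      exact ⟨s, nd, by omega, h.2⟩
    · push Not at hc
      have hex : ∃ i, vv i ≤ 2 * vv mu := ⟨mu, by linarith⟩
      classical
      obtain ⟨a', ha', hmin⟩ : ∃ a', vv a' ≤ 2 * vv mu ∧ ∀ i, i < a' → 2 * vv mu < vv i :=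
        ⟨Nat.find hex, Nat.find_spec hex, fun i hi => not_le.1 (Nat.find_min hex hi)⟩
      have hle : a' ≤ mu := by
        by_contra hcon
        have := hmin mu (by omega)
        linarith
      have hba : bot < a' := by
        by_contra hcon
        have := hmono a' bot (by omega)
        linarith
      have h1 : 2 * vv mu < vv (a' - 1) := hmin _ (by omega)
      have h3 : vv (a' - 1) - vv a' ≤ μ := by
        have := hmesh (a' - 1) (by omega)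
        rwa [show a' - 1 + 1 = a' by omega] at this
      have h4 : 3 / 2 * vv mu ≤ vv a' := by linarith
      have hlt : a' < mu := by
        rcases hle.eq_or_lt with he | hlt
        · rw [he] at h4
          linarith
        · exact hlt
      obtain ⟨s, nd, hs, h0, hs', hd, hv⟩ := ih a' bot hba.le (fun i hi => hmesh i (by omega)) (by linarith) (by linarith) (by
        have h5 : (0 : ℝ) ≤ 2 * (3 / 2) ^ n := by positivity
        calc vv bot ≤ 2 * (3 / 2) ^ (n + 1) * vv mu := h2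
          _ = 2 * (3 / 2) ^ n * (3 / 2 * vv mu) := by rw [pow_succ]; ring
          _ ≤ 2 * (3 / 2) ^ n * vv a' := mul_le_mul_of_nonneg_left h4 h5)
      refine ⟨s + 1, fun a => Nat.casesOn a mu nd, by omega, rfl, hs', ?_, ?_⟩
      · intro a ha
        cases a with
        | zero =>
          show nd 0 < mu
          rw [h0]
          exact hlt
        | succ a => exact hd a (by omega)
      · intro a ha
        cases a with
        | zero =>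
          show vv (nd 0) ≤ 2 * vv mu
          rw [h0]
          exact ha'
        | succ a => exact hv a (by omega)

/-- the choice of the broad precision -/
theorem gbc_theta (a b ε : ℝ) (hε : 0 < ε) : ∃ n : ℕ, 5 * (2 / 3 : ℝ) ^ n * (a + b * (n + 1)) ≤ ε ∧ 5 * (2 / 3 : ℝ) ^ n ≤ 1 / 8 := by
  have h1 : Tendsto (fun n : ℕ => (2 / 3 : ℝ) ^ n) atTop (𝓝 0) := tendsto_pow_atTop_nhds_zero_of_lt_one (by norm_num) (by norm_num)
  have h2 : Tendsto (fun n : ℕ => (n : ℝ) * (2 / 3 : ℝ) ^ n) atTop (𝓝 0) := tendsto_self_mul_const_pow_of_abs_lt_one (by rw [abs_of_pos] <;> norm_num)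
  have h3 : Tendsto (fun n : ℕ => 5 * (a + b) * (2 / 3 : ℝ) ^ n + 5 * b * ((n : ℝ) * (2 / 3 : ℝ) ^ n)) atTop (𝓝 (5 * (a + b) * 0 + 5 * b * 0)) :=
    (h1.const_mul _).add (h2.const_mul _)
  have h4 : Tendsto (fun n : ℕ => 5 * (2 / 3 : ℝ) ^ n) atTop (𝓝 (5 * 0)) := h1.const_mul _
  simp only [mul_zero, add_zero] at h3 h4
  have e3 := h3.eventually (ge_mem_nhds hε)
  have e4 := h4.eventually (ge_mem_nhds (show (0 : ℝ) < 1 / 8 by norm_num))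
  obtain ⟨n, hn3, hn4⟩ := (e3.and e4).exists
  refine ⟨n, ?_, hn4⟩
  calc 5 * (2 / 3 : ℝ) ^ n * (a + b * (n + 1)) = 5 * (a + b) * (2 / 3 : ℝ) ^ n + 5 * b * ((n : ℝ) * (2 / 3 : ℝ) ^ n) := by ring
    _ ≤ ε := hn3

/-- large bases beat constants -/
theorem gbc_m0 (B a : ℝ) (ha : 0 < a) : ∃ m0 : ℕ, ∀ x : ℝ, (m0 : ℝ) + 3 ≤ x → B ≤ x ^ a := by
  refine ⟨⌈(max B 1) ^ (1 / a)⌉₊, fun x hx => ?_⟩
  have h1 : (1 : ℝ) ≤ max B 1 := le_max_right _ _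
  have h2 : (max B 1) ^ (1 / a) ≤ x := (Nat.le_ceil _).trans (by linarith)
  have h3 : 0 ≤ (max B 1) ^ (1 / a) := Real.rpow_nonneg (by linarith) _
  calc B ≤ max B 1 := le_max_left _ _
    _ = ((max B 1) ^ (1 / a)) ^ a := by rw [← Real.rpow_mul (by linarith), one_div, inv_mul_cancel₀ ha.ne', Real.rpow_one]
    _ ≤ x ^ a := Real.rpow_le_rpow h3 h2 ha.le

/-- the explicit losses of `fi_blk_cnt` in terms of ONE base `Z` -/
theorem gbc_loss {k Mm s n : ℕ} (hk : 1 ≤ k) {C Cn Z Y T A B Go P Q pk : ℝ} (hC : 0 ≤ C) (hCn : 0 ≤ Cn) (hZ : 1 ≤ Z) (hY0 : 0 ≤ Y) (hY : Y ≤ Z) (h4 : 4 * Y ≤ Z) (h4' : 1 ≤ 4 * Y)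
    (hT0 : 0 ≤ T) (hT : T ≤ Cn * Z ^ k) (hA0 : 0 ≤ A) (hA : A ^ (2 * P) ≤ Go * Z ^ (4 * P)) (hB0 : 0 ≤ B) (hB : B ≤ Z ^ 2) (hQ : 0 ≤ Q) (hs : s ≤ n + 1) (hGo : 0 ≤ Go) (hpk : 0 ≤ pk) :
    T ^ pk * (C * (Y ^ k) ^ (k + 1) * ((4 * Y) ^ Mm) ^ s * (A ^ (2 * P) * (Y ^ k * B ^ Q)) ^ (((k : ℝ) + 1) / k))
      ≤ C * Cn ^ pk * Go ^ (((k : ℝ) + 1) / k) * Z ^ ((k : ℝ) * pk + (k : ℝ) * ((k : ℝ) + 1) + (Mm : ℝ) * ((n : ℝ) + 1) + (4 * P + k + 2 * Q) * (((k : ℝ) + 1) / k)) := by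
  have hZ0 : 0 < Z := by linarith
  have hk0 : (0 : ℝ) < k := by exact_mod_cast hk
  have he : 0 ≤ ((k : ℝ) + 1) / k := by positivity
  have f1 : T ^ pk ≤ Cn ^ pk * Z ^ ((k : ℝ) * pk) := by
    calc T ^ pk ≤ (Cn * Z ^ k) ^ pk := Real.rpow_le_rpow hT0 hT hpk
      _ = Cn ^ pk * Z ^ ((k : ℝ) * pk) := by
        rw [Real.mul_rpow hCn (by positivity), ← Real.rpow_natCast Z k, ← Real.rpow_mul hZ0.le]
  have f2 : (Y ^ k) ^ (k + 1) ≤ Z ^ ((k : ℝ) * ((k : ℝ) + 1)) := by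
    calc (Y ^ k) ^ (k + 1) ≤ (Z ^ k) ^ (k + 1) := pow_le_pow_left₀ (by positivity) (pow_le_pow_left₀ hY0 hY k) _
      _ = Z ^ ((k : ℝ) * ((k : ℝ) + 1)) := by
        rw [← pow_mul, ← Real.rpow_natCast]
        push_cast
        rfl
  have f3 : ((4 * Y) ^ Mm) ^ s ≤ Z ^ ((Mm : ℝ) * ((n : ℝ) + 1)) := by
    calc ((4 * Y) ^ Mm) ^ s ≤ ((4 * Y) ^ Mm) ^ (n + 1) := pow_le_pow_right₀ (one_le_pow₀ h4') hs
      _ ≤ (Z ^ Mm) ^ (n + 1) := pow_le_pow_left₀ (by positivity) (pow_le_pow_left₀ (by linarith) h4 Mm) _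
      _ = Z ^ ((Mm : ℝ) * ((n : ℝ) + 1)) := by
        rw [← pow_mul, ← Real.rpow_natCast]
        push_cast
        rfl
  have f4 : (A ^ (2 * P) * (Y ^ k * B ^ Q)) ^ (((k : ℝ) + 1) / k) ≤ Go ^ (((k : ℝ) + 1) / k) * Z ^ ((4 * P + k + 2 * Q) * (((k : ℝ) + 1) / k)) := by
    have g1 : B ^ Q ≤ Z ^ (2 * Q) := by
      calc B ^ Q ≤ (Z ^ 2) ^ Q := Real.rpow_le_rpow hB0 hB hQ
        _ = Z ^ (2 * Q) := by
          rw [← Real.rpow_natCast Z 2, ← Real.rpow_mul hZ0.le]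
          norm_num
    have g2 : Y ^ k ≤ Z ^ (k : ℝ) := by
      rw [Real.rpow_natCast]
      exact pow_le_pow_left₀ hY0 hY k
    have g3 : A ^ (2 * P) * (Y ^ k * B ^ Q) ≤ Go * Z ^ (4 * P + k + 2 * Q) := by
      calc A ^ (2 * P) * (Y ^ k * B ^ Q) ≤ (Go * Z ^ (4 * P)) * (Z ^ (k : ℝ) * Z ^ (2 * Q)) := by
            apply mul_le_mul hA (mul_le_mul g2 g1 (Real.rpow_nonneg hB0 _) (by positivity)) (by positivity) (by positivity)
        _ = Go * Z ^ (4 * P + k + 2 * Q) := by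
            rw [Real.rpow_add hZ0, Real.rpow_add hZ0]
            ring
    calc (A ^ (2 * P) * (Y ^ k * B ^ Q)) ^ (((k : ℝ) + 1) / k) ≤ (Go * Z ^ (4 * P + k + 2 * Q)) ^ (((k : ℝ) + 1) / k) :=
          Real.rpow_le_rpow (mul_nonneg (Real.rpow_nonneg hA0 _) (mul_nonneg (by positivity) (Real.rpow_nonneg hB0 _))) g3 he
      _ = _ := by rw [Real.mul_rpow hGo (by positivity), ← Real.rpow_mul hZ0.le]
  have p4 : 0 ≤ (A ^ (2 * P) * (Y ^ k * B ^ Q)) ^ (((k : ℝ) + 1) / k) := Real.rpow_nonneg (mul_nonneg (Real.rpow_nonneg hA0 _) (mul_nonneg (by positivity) (Real.rpow_nonneg hB0 _))) _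
  have pG : 0 ≤ Go ^ (((k : ℝ) + 1) / k) := Real.rpow_nonneg hGo _
  have pC : 0 ≤ Cn ^ pk := Real.rpow_nonneg hCn _
  calc T ^ pk * (C * (Y ^ k) ^ (k + 1) * ((4 * Y) ^ Mm) ^ s * (A ^ (2 * P) * (Y ^ k * B ^ Q)) ^ (((k : ℝ) + 1) / k))
      ≤ (Cn ^ pk * Z ^ ((k : ℝ) * pk)) * (C * Z ^ ((k : ℝ) * ((k : ℝ) + 1)) * Z ^ ((Mm : ℝ) * ((n : ℝ) + 1)) * (Go ^ (((k : ℝ) + 1) / k) * Z ^ ((4 * P + k + 2 * Q) * (((k : ℝ) + 1) / k)))) := by
        apply mul_le_mul f1 _ (by positivity) (by positivity)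
        apply mul_le_mul _ f4 p4 (by positivity)
        apply mul_le_mul _ f3 (by positivity) (by positivity)
        exact mul_le_mul_of_nonneg_left f2 hC
    _ = _ := by
        rw [Real.rpow_add hZ0, Real.rpow_add hZ0, Real.rpow_add hZ0]
        ring


variable {k : ℕ}

/-- the nodes decrease with the height -/
theorem gbc_s_anti (F : FCfg k) (j : Fin (k + 1)) (hΛ : 1 < F.Λ) (hκr : 0 < F.κr j) (hD : (F.D j).Good) {a b : ℕ} (hab : a ≤ b) : F.s j b ≤ F.s j a := by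
  unfold FCfg.s
  have h1 := (F.D j).κ_pos hD b
  exact Real.logb_le_logb_of_le hΛ (by positivity) (div_le_div_of_nonneg_right ((F.D j).κ_le hD hab) hκr.le)

/-- the node `nod t` -/
theorem gbc_nod (F : FCfg k) (j : Fin (k + 1)) (lam : ℕ) (hl : lam ≤ F.c.ℓ) {μ0 t : ℝ} (hmesh : ∀ i, i < F.c.ℓ → F.s j i - F.s j (i + 1) ≤ μ0) (ht0 : 0 ≤ t) (ht : t < F.vv j lam 0) :
    F.nod j lam t ≤ lam ∧ F.vv j lam (F.nod j lam t) ≤ t ∧ t - μ0 < F.vv j lam (F.nod j lam t) := by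
  have hlam : lam ∈ {i : ℕ | F.vv j lam i ≤ t} := by
    show F.vv j lam lam ≤ t
    unfold FCfg.vv
    linarith
  have hmem : F.nod j lam t ∈ {i : ℕ | F.vv j lam i ≤ t} := Nat.sInf_mem ⟨lam, hlam⟩
  have hle : F.nod j lam t ≤ lam := Nat.sInf_le hlam
  refine ⟨hle, hmem, ?_⟩
  have hne : F.nod j lam t ≠ 0 := by
    intro h0
    rw [h0] at hmem
    have : F.vv j lam 0 ≤ t := hmem
    linarith
  have hnot : F.nod j lam t - 1 ∉ {i : ℕ | F.vv j lam i ≤ t} := Nat.notMem_of_lt_sInf (by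
    show F.nod j lam t - 1 < F.nod j lam t
    omega)
  have h1 : t < F.vv j lam (F.nod j lam t - 1) := not_le.1 hnot
  have h2 := hmesh (F.nod j lam t - 1) (by omega)
  rw [show F.nod j lam t - 1 + 1 = F.nod j lam t by omega] at h2
  unfold FCfg.vv at h1 ⊢
  linarith

/-- the broad cells of the block package are broad cells in the sense of INFL -/
theorem gbc_br (F : FCfg k) (j : Fin (k + 1)) (lam : ℕ) (π : GbP) (v₀ : (F.D j).Lb lam) {A₀ K G : ℝ} {Yf : Finset (F.D j).Y}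
    (hO : (F.D j).sys.Ok (F.tp j)) (hA : ((F.D j).ang (gbIb F j lam π v₀)).Ok (F.tp j) (gbAp F j)) (hFr : (F.D j).sys.Frozen (F.tp j).q A₀ K G (F.S j) (F.r j) Yf)
    (hml : gbMu F j lam π < lam) (hthr : 0 < gbThr F j lam π) (T : (F.D j).Cl lam) (hT : T ∈ gbP1 F j lam π v₀) :
    T ∈ ((F.D j).ang (gbIb F j lam π v₀)).bcell (F.S j) (F.r j) (gbMu F j lam π) (gbThr F j lam π)
      ((F.D j).fiBr lam (gbMu F j lam π) (4 * ((F.D j).κ (gbMu F j lam π) / (F.D j).κ lam))) := by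
  obtain ⟨hS, Gr, hGm, htr⟩ := Finset.mem_filter.1 hT
  refine Finset.mem_filter.2 ⟨hS, (F.D j).upL lam v₀ (gbMu F j lam π) (Gr 0), Gr, hGm, fun a => ?_, htr⟩
  have h0 := TAng.tbw_marked_cap hO hA hFr (gbMu F j lam π) le_rfl hml (gbThr F j lam π) hthr T (Gr 0) (hGm 0)
  have ha := TAng.tbw_marked_cap hO hA hFr (gbMu F j lam π) le_rfl hml (gbThr F j lam π) hthr T (Gr a) (hGm a)
  exact (fi_upL_und (F.D j) lam v₀ _ (gbMu F j lam π) hml.le (Gr a)).1 (ha.trans h0.symm)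

/-- removal of the threshold -/
theorem gbc_div {N T thr rl ri LE V pk : ℝ} (hthr : 0 < thr) (hT : T * thr = 1) (hT0 : 0 ≤ T) (hrl : 0 < rl) (hri : 0 ≤ ri)
    (h : N * (thr * rl) ^ pk ≤ LE * V * ri ^ pk) : N ≤ T ^ pk * LE * V * (ri / rl) ^ pk := by
  have hx : 0 < (thr * rl) ^ pk := Real.rpow_pos_of_pos (by positivity) _
  refine le_of_mul_le_mul_right ?_ hx
  have e1 : T ^ pk * thr ^ pk = 1 := by rw [← Real.mul_rpow hT0 hthr.le, hT, Real.one_rpow]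
  have e2 : (ri / rl) ^ pk * rl ^ pk = ri ^ pk := by rw [← Real.mul_rpow (by positivity) hrl.le, div_mul_cancel₀ _ hrl.ne']
  calc N * (thr * rl) ^ pk ≤ LE * V * ri ^ pk := h
    _ = (T ^ pk * thr ^ pk) * LE * V * ((ri / rl) ^ pk * rl ^ pk) := by rw [e1, e2]; ring
    _ = T ^ pk * LE * V * (ri / rl) ^ pk * (thr * rl) ^ pk := by rw [Real.mul_rpow hthr.le hrl.le]; ring

/-- the geometry of the block: the height of the groups and the inflation chain -/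
theorem gbc_geo (F : FCfg k) (j : Fin (k + 1)) (hΛ1 : 1 < F.Λ) (hκr : 0 < F.κr j) (hD : (F.D j).Good) (lam : ℕ) (hl : lam ≤ F.c.ℓ) {θ0 u μ0 : ℝ} {n : ℕ} (hθpos : 0 < θ0) (hn2 : θ0 ≤ 1 / 8)
    (hθn : (3 / 2 : ℝ) ^ n * θ0 = 5) (hu : 0 < u) (hμ0' : μ0 ≤ θ0 * u / 4) (hMesh : F.Mesh j μ0 (F.s j lam) (F.s j lam + 6 * u)) (π : GbP) (hπu : π.u = u) (hπθ : π.θ0 = θ0)
    (i : ℕ) (hlo : u / 2 ≤ F.s j i - F.s j lam) (hhi : F.s j i - F.s j lam ≤ 5 * u) :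
    gbMu F j lam π < lam ∧ i ≤ gbMu F j lam π ∧ 1 ≤ gbY F j lam π ∧ gbY F j lam π ≤ F.Λ ^ (θ0 * u) ∧
      ∃ (s : ℕ) (nd : ℕ → ℕ), s ≤ n + 1 ∧ nd 0 = gbMu F j lam π ∧ nd s = i ∧ (∀ a, a < s → nd (a + 1) < nd a) ∧
        ∀ a, a < s → (F.D j).κ (nd (a + 1)) / (F.D j).κ lam ≤ ((F.D j).κ (nd a) / (F.D j).κ lam) ^ 2 := by
  have hΛ0 : 0 < F.Λ := by linarith
  have hanti : ∀ a b, a ≤ b → F.vv j lam b ≤ F.vv j lam a := by
    intro a b hab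
    unfold FCfg.vv
    linarith [gbc_s_anti F j hΛ1 hκr hD hab]
  have hvv0 : 6 * u ≤ F.vv j lam 0 := by
    unfold FCfg.vv
    linarith [hMesh.2.2]
  have hmuE : gbMu F j lam π = F.nod j lam (θ0 * u) := by unfold gbMu; rw [hπθ, hπu]
  have hθu8 : θ0 * u ≤ u / 8 := by
    have := mul_le_mul_of_nonneg_right hn2 hu.le
    linarith
  obtain ⟨hmul, hmu1, hmu2⟩ := gbc_nod F j lam hl hMesh.1 (t := θ0 * u) (by positivity) (by linarith)
  rw [← hmuE] at hmul hmu1 hmu2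
  have hmu3 : 3 / 4 * (θ0 * u) ≤ F.vv j lam (gbMu F j lam π) := by linarith
  have hθu : 0 < θ0 * u := by positivity
  have hml : gbMu F j lam π < lam := by
    rcases hmul.eq_or_lt with he' | hlt
    · exfalso
      rw [he'] at hmu3
      unfold FCfg.vv at hmu3
      linarith
    · exact hlt
  have hvi : F.vv j lam i = F.s j i - F.s j lam := rfl
  have him : i ≤ gbMu F j lam π := by
    by_contra hcon
    have := hanti (gbMu F j lam π) i (by omega)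
    linarith
  have hYe : gbY F j lam π = F.Λ ^ (F.vv j lam (gbMu F j lam π)) := by
    unfold gbY FCfg.vv
    rw [gbs_pow_s F j hΛ1 hκr hD]
  have hY1 : 1 ≤ gbY F j lam π := (F.D j).one_le_ratio hD hml.le
  have hYle : gbY F j lam π ≤ F.Λ ^ (θ0 * u) := by
    rw [hYe]
    exact Real.rpow_le_rpow_of_exponent_le hΛ1.le hmu1
  refine ⟨hml, him, hY1, hYle, ?_⟩
  obtain ⟨s, nd, hs, h0, hsb, hdec, hrat⟩ := gbc_chain (fun a => F.vv j lam a) μ0 (fun a => hanti a (a + 1) (Nat.le_succ a)) n (gbMu F j lam π) i him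
    (fun a ha => by
      have := hMesh.1 a (by omega)
      show F.vv j lam a - F.vv j lam (a + 1) ≤ μ0
      unfold FCfg.vv
      linarith) (by show 0 < F.vv j lam (gbMu F j lam π); linarith) (by show 2 * μ0 ≤ F.vv j lam (gbMu F j lam π); linarith) (by
      show F.vv j lam i ≤ 2 * (3 / 2) ^ n * F.vv j lam (gbMu F j lam π)
      have h5 : (0 : ℝ) ≤ 2 * (3 / 2) ^ n := by positivity
      calc F.vv j lam i ≤ 5 * u := hhi
        _ = (3 / 2 : ℝ) ^ n * θ0 * u := by rw [hθn]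
        _ ≤ 2 * (3 / 2) ^ n * (3 / 4 * (θ0 * u)) := by
            have h9 : 0 ≤ (3 / 2 : ℝ) ^ n * θ0 * u := by positivity
            have e9 : 2 * (3 / 2 : ℝ) ^ n * (3 / 4 * (θ0 * u)) = 3 / 2 * ((3 / 2 : ℝ) ^ n * θ0 * u) := by ring
            rw [e9]
            linarith
        _ ≤ 2 * (3 / 2) ^ n * F.vv j lam (gbMu F j lam π) := mul_le_mul_of_nonneg_left hmu3 h5)
  refine ⟨s, nd, hs, h0, hsb, hdec, ?_⟩
  intro a ha
  rw [← gbs_pow_s F j hΛ1 hκr hD (nd (a + 1)) lam, ← gbs_pow_s F j hΛ1 hκr hD (nd a) lam, ← Real.rpow_natCast, ← Real.rpow_mul hΛ0.le]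
  apply Real.rpow_le_rpow_of_exponent_le hΛ1.le
  have h6 : F.vv j lam (nd (a + 1)) ≤ 2 * F.vv j lam (nd a) := hrat a ha
  unfold FCfg.vv at h6
  push_cast
  linarith

/-- the BROAD instance is admissible -/
theorem gbc_inst (F : FCfg k) (hc : F.c.Ok) (j : Fin (k + 1)) (lam : ℕ) (hl : lam ≤ F.c.ℓ) (π : GbP) (v₀ : (F.D j).Lb lam) (hml : gbMu F j lam π < lam) : (gbIb F j lam π v₀).Ok := by
  have hk0 : (0 : ℝ) ≤ k := Nat.cast_nonneg k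
  have hℓ : (0 : ℝ) ≤ F.c.ℓ := Nat.cast_nonneg _
  exact
    { bot_le := hml.le
      lam_le := hl
      Ew_gt := by show (k : ℝ) + 1 < (k : ℝ) + 2; linarith
      Q2_ge := le_refl _
      Q2_C0 := by
        show F.c.Q + ((k : ℝ) + 2) * k / 2 + k + 2 ≤ F.c.C0
        have := hc.room_C0
        nlinarith
      Q2_M := by
        show F.c.Q + ((k : ℝ) + 2) * k / 2 ≤ F.c.M
        have := hc.room_M
        nlinarith
      one_le_Cs := by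
        show 1 ≤ 2 ^ (k + 3) * ((F.c.ℓ : ℝ) + 1) * F.c.Cc
        have h7 : (1 : ℝ) ≤ 2 ^ (k + 3) := one_le_pow₀ (by norm_num)
        have h8 : (1 : ℝ) ≤ (F.c.ℓ : ℝ) + 1 := by linarith
        exact one_le_mul_of_one_le_of_one_le (one_le_mul_of_one_le_of_one_le h7 h8) hc.one_le_Cc
      Sd_ge := le_refl _ }

/-- the defect of the windows is small -/
theorem gbc_eta (F : FCfg k) {m : ℕ} (hF : F.Ok m) (hm : 1 ≤ m) (j : Fin (k + 1)) : (F.D j).ηw ≤ 1 / 2 := by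
  have hD := hF.good j
  have h1 : F.Cp * (F.D j).ηw * (F.D j).κ 0 ^ k * F.X ^ m ≤ 1 := hF.η_le j
  have hCp : 1 ≤ F.Cp := (hF.sys j).one_le_Γ2
  have hη := hD.ηw_nonneg
  have hκ : 1 ≤ (F.D j).κ 0 ^ k := one_le_pow₀ (hD.one_le_κ 0)
  have hΛ : 3 ≤ F.Λ := by
    have := hF.Λ_ge
    have : (0 : ℝ) ≤ m := Nat.cast_nonneg _
    linarith
  have hX : 3 ≤ F.X := by
    unfold FCfg.X
    calc (3 : ℝ) ≤ F.Λ := hΛ
      _ = F.Λ ^ 1 := (pow_one _).symm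
      _ ≤ F.Λ ^ F.cx := pow_le_pow_right₀ (by linarith) hF.cx_pos
  have hXm : 3 ≤ F.X ^ m := by
    calc (3 : ℝ) ≤ F.X := hX
      _ = F.X ^ 1 := (pow_one _).symm
      _ ≤ F.X ^ m := pow_le_pow_right₀ (by linarith) hm
  have h2 : (F.D j).ηw * 3 ≤ F.Cp * (F.D j).ηw * (F.D j).κ 0 ^ k * F.X ^ m := by
    have h3 : (F.D j).ηw ≤ F.Cp * (F.D j).ηw * (F.D j).κ 0 ^ k := by
      calc (F.D j).ηw = 1 * (F.D j).ηw * 1 := by ring
        _ ≤ F.Cp * (F.D j).ηw * (F.D j).κ 0 ^ k := by gcongr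
    exact mul_le_mul h3 hXm (by norm_num) (by positivity)
  linarith

/-- the block avoids the seam -/
theorem gbc_seam (F : FCfg k) (j : Fin (k + 1)) (hΛ1 : 1 < F.Λ) (hκr : 0 < F.κr j) (hD : (F.D j).Good) (lam : ℕ) {u : ℝ} (hOff : F.Off j (F.s j lam) (6 * u)) (hu : 0 < u) (i : ℕ)
    (hhi : F.s j i - F.s j lam ≤ 5 * u) (h : ℕ) (h1 : i < h) (h2 : h < lam) : h ≠ F.c.tr := by
  intro he
  unfold FCfg.Off at hOff
  rw [← he] at hOff
  have a1 := gbc_s_anti F j hΛ1 hκr hD h1.le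
  have a2 := gbc_s_anti F j hΛ1 hκr hD h2.le
  rw [abs_of_nonneg (by linarith)] at hOff
  linarith

/-- the enlargement is below the occupancy cut-off -/
theorem gbc_G (F : FCfg k) {m : ℕ} (hF : F.Ok m) (j : Fin (k + 1)) (lam : ℕ) (hl : lam ≤ F.c.ℓ) : 1 ≤ (F.D j).G lam ∧ (F.D j).G lam ^ (2 * F.c.P) ≤ F.Go ∧ 1 ≤ F.Go := by
  have hc := hF.cls
  have hD := hF.good j
  have hP : 0 ≤ F.c.P := by
    have := hc.P_gt
    have : (0 : ℝ) ≤ k := Nat.cast_nonneg k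
    linarith
  have h1 := hD.one_le_G lam hl
  have h2 := ti_G_le hc (F.D j) hD (Nat.zero_le lam) hl
  have h3 : F.Cp * (F.D j).G 0 ^ (2 * F.c.P) * (F.D j).ϖ ≤ F.Go := hF.ϖ1_Go j
  have hCp : 1 ≤ F.Cp := (hF.sys j).one_le_Γ2
  have hϖ := hD.one_le_ϖ
  have h4 : 0 ≤ (F.D j).G 0 ^ (2 * F.c.P) := Real.rpow_nonneg (by linarith) _
  refine ⟨h1, ?_, (hF.sys j).one_le_ϖ1.trans (hF.ϖ1_Go j)⟩
  calc (F.D j).G lam ^ (2 * F.c.P) ≤ (F.D j).G 0 ^ (2 * F.c.P) := Real.rpow_le_rpow (by linarith) h2 (by positivity)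
    _ = 1 * (F.D j).G 0 ^ (2 * F.c.P) * 1 := by ring
    _ ≤ F.Cp * (F.D j).G 0 ^ (2 * F.c.P) * (F.D j).ϖ := by gcongr
    _ ≤ F.Go := h3

/-- powers of the occupancy cut-off are subpowers -/
theorem gbc_Go {Go Λ a x : ℝ} {m : ℕ} (hGo : 1 ≤ Go) (hΛ : 1 < Λ) (h : Go ^ m ≤ Λ) (hm : 1 ≤ m) (hx : 0 ≤ x) (hx2 : x ≤ 2) (ha : 2 / a ≤ m) (ha0 : 0 < a) : Go ^ x ≤ Λ ^ a := by
  have hm0 : (0 : ℝ) < m := by exact_mod_cast hm
  have h1 : Go ≤ Λ ^ (1 / (m : ℝ)) := by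
    calc Go = (Go ^ m) ^ (1 / (m : ℝ)) := by
          rw [← Real.rpow_natCast, ← Real.rpow_mul (by linarith), mul_one_div, div_self hm0.ne', Real.rpow_one]
      _ ≤ Λ ^ (1 / (m : ℝ)) := Real.rpow_le_rpow (by positivity) h (by positivity)
  calc Go ^ x ≤ (Λ ^ (1 / (m : ℝ))) ^ x := Real.rpow_le_rpow (by linarith) h1 hx
    _ = Λ ^ (1 / (m : ℝ) * x) := by rw [← Real.rpow_mul (by linarith)]
    _ ≤ Λ ^ a := by
        apply Real.rpow_le_rpow_of_exponent_le hΛ.le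
        rw [div_le_iff₀ ha0] at ha
        rw [one_div, inv_mul_le_iff₀ hm0]
        nlinarith

/-- the final inequality between real numbers -/
theorem gbc_fin {Mm s n : ℕ} (hk : 1 ≤ k) {Λ Y t c1 c2 Sd G Go Cn nG C P Q pk E a : ℝ} (hΛ : 1 < Λ) (hY1 : 1 ≤ Y) (hYt : Y ≤ Λ ^ t) (hc2 : 1 ≤ c2) (hc1 : c1 = 2 + ((k : ℝ) + 1) * c2)
    (hSd : Sd = c2 * Y ^ 2) (hG : 1 ≤ G) (hGGo : G ^ (2 * P) ≤ Go) (hGo : 1 ≤ Go) (hCn : 0 ≤ Cn) (hnG : nG = Cn * Y ^ k) (hs : s ≤ n + 1) (hC : 0 ≤ C) (hP : 0 ≤ P) (hQ : 0 ≤ Q) (hpk : 0 ≤ pk)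
    (hE : E = (k : ℝ) * pk + (k : ℝ) * ((k : ℝ) + 1) + (Mm : ℝ) * ((n : ℝ) + 1) + (4 * P + k + 2 * Q) * (((k : ℝ) + 1) / k)) (b1 : C * Cn ^ pk * c1 ^ E ≤ Λ ^ a)
    (bGo : Go ^ (((k : ℝ) + 1) / k) ≤ Λ ^ a) (bE : t * E ≤ 2 * a) :
    (4 * nG) ^ pk * (C * (Y ^ k) ^ (k + 1) * ((4 * Y) ^ Mm) ^ s * ((1 + G + ((k : ℝ) + 1) * Sd) ^ (2 * P) * (Y ^ k * (1 + ((k : ℝ) + 1) * Sd) ^ Q)) ^ (((k : ℝ) + 1) / k)) ≤ Λ ^ (4 * a) := by
  have hΛ0 : 0 < Λ := by linarith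
  have hk0 : (0 : ℝ) < k := by exact_mod_cast hk
  have hY0 : 0 < Y := by linarith
  obtain ⟨d, hd⟩ : ∃ d : ℝ, d = ((k : ℝ) + 1) * c2 := ⟨_, rfl⟩
  have hk1 : (1 : ℝ) ≤ k := by exact_mod_cast hk
  have hd2 : 2 ≤ d := by
    rw [hd]
    calc (2 : ℝ) = (1 + 1) * 1 := by norm_num
      _ ≤ ((k : ℝ) + 1) * c2 := mul_le_mul (by linarith) hc2 (by norm_num) (by linarith)
  have hc1' : c1 = 2 + d := by rw [hc1, hd]
  have hc14 : 4 ≤ c1 := by linarith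
  obtain ⟨W, hW⟩ : ∃ W : ℝ, W = Y ^ 2 := ⟨_, rfl⟩
  have hW1 : 1 ≤ W := by rw [hW]; exact one_le_pow₀ hY1
  have hdS : ((k : ℝ) + 1) * Sd = d * W := by rw [hSd, hd, hW]; ring
  have hZ2 : (c1 * Y) ^ 2 = c1 ^ 2 * W := by rw [hW]; ring
  have hcc : c1 * W ≤ c1 ^ 2 * W := by
    have : c1 ≤ c1 ^ 2 := by
      rw [pow_two]
      exact le_mul_of_one_le_left (by linarith) (by linarith)
    exact mul_le_mul_of_nonneg_right this (by linarith)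
  have hB : 1 + ((k : ℝ) + 1) * Sd ≤ (c1 * Y) ^ 2 := by
    rw [hdS, hZ2]
    have : 1 + d * W ≤ c1 * W := by
      rw [hc1', add_mul]
      linarith
    linarith
  have hA1 : 1 + G + ((k : ℝ) + 1) * Sd ≤ G * (c1 * Y) ^ 2 := by
    rw [hdS, hZ2]
    have h1 : G * (c1 * W) ≤ G * (c1 ^ 2 * W) := mul_le_mul_of_nonneg_left hcc (by linarith)
    have h2 : 1 + G + d * W ≤ G * (c1 * W) := by
      rw [hc1']
      have h3 : G ≤ G * W := le_mul_of_one_le_right (by linarith) hW1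
      have h4 : d * W ≤ G * (d * W) := le_mul_of_one_le_left (by positivity) hG
      have e5 : G * ((2 + d) * W) = 2 * (G * W) + G * (d * W) := by ring
      rw [e5]
      linarith
    linarith
  have hZ0 : 0 < c1 * Y := by positivity
  have hA : (1 + G + ((k : ℝ) + 1) * Sd) ^ (2 * P) ≤ Go * (c1 * Y) ^ (4 * P) := by
    have hA0 : 0 ≤ 1 + G + ((k : ℝ) + 1) * Sd := by rw [hdS]; positivity
    calc (1 + G + ((k : ℝ) + 1) * Sd) ^ (2 * P) ≤ (G * (c1 * Y) ^ 2) ^ (2 * P) := Real.rpow_le_rpow hA0 hA1 (by positivity)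
      _ = G ^ (2 * P) * (c1 * Y) ^ (4 * P) := by
          rw [Real.mul_rpow (by linarith) (by positivity), ← Real.rpow_natCast (c1 * Y) 2, ← Real.rpow_mul hZ0.le]
          congr 2
          push_cast
          ring
      _ ≤ Go * (c1 * Y) ^ (4 * P) := mul_le_mul_of_nonneg_right hGGo (by positivity)
  have hT : 4 * nG ≤ Cn * (c1 * Y) ^ k := by
    rw [hnG, mul_pow]
    have h1 : 4 ≤ c1 ^ k := by
      calc (4 : ℝ) ≤ c1 := hc14
        _ = c1 ^ 1 := (pow_one _).symm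
        _ ≤ c1 ^ k := pow_le_pow_right₀ (by linarith) hk
    have h2 : 0 ≤ Cn * Y ^ k := by positivity
    calc 4 * (Cn * Y ^ k) ≤ c1 ^ k * (Cn * Y ^ k) := mul_le_mul_of_nonneg_right h1 h2
      _ = Cn * (c1 ^ k * Y ^ k) := by ring
  have hZ1 : 1 ≤ c1 * Y := one_le_mul_of_one_le_of_one_le (by linarith) hY1
  have hYZ : Y ≤ c1 * Y := le_mul_of_one_le_left hY0.le (by linarith)
  have h4Z : 4 * Y ≤ c1 * Y := mul_le_mul_of_nonneg_right hc14 hY0.le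
  have main := gbc_loss (Mm := Mm) (s := s) (n := n) hk (C := C) (Cn := Cn) (Z := c1 * Y) (Y := Y) (T := 4 * nG) (A := 1 + G + ((k : ℝ) + 1) * Sd) (B := 1 + ((k : ℝ) + 1) * Sd)
    (Go := Go) (P := P) (Q := Q) (pk := pk) hC hCn hZ1 hY0.le hYZ h4Z (by linarith) (by rw [hnG]; positivity) hT (by rw [hdS]; positivity) hA
    (by rw [hdS]; positivity) hB hQ hs (by linarith) hpk
  rw [← hE] at main
  refine main.trans ?_
  have hE0 : 0 ≤ E := by rw [hE]; positivity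
  have hYE : Y ^ E ≤ Λ ^ (2 * a) := by
    calc Y ^ E ≤ (Λ ^ t) ^ E := Real.rpow_le_rpow hY0.le hYt hE0
      _ = Λ ^ (t * E) := by rw [← Real.rpow_mul hΛ0.le]
      _ ≤ Λ ^ (2 * a) := Real.rpow_le_rpow_of_exponent_le hΛ.le bE
  calc C * Cn ^ pk * Go ^ (((k : ℝ) + 1) / k) * (c1 * Y) ^ E = (C * Cn ^ pk * c1 ^ E) * Go ^ (((k : ℝ) + 1) / k) * Y ^ E := by
        rw [Real.mul_rpow (by linarith) hY0.le]
        ring
    _ ≤ Λ ^ a * Λ ^ a * Λ ^ (2 * a) := by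
        have p1 : 0 ≤ Go ^ (((k : ℝ) + 1) / k) := Real.rpow_nonneg (by linarith) _
        have p2 : 0 ≤ Y ^ E := Real.rpow_nonneg hY0.le _
        exact mul_le_mul (mul_le_mul b1 bGo p1 (by positivity)) hYE p2 (by positivity)
    _ = Λ ^ (4 * a) := by
        rw [← Real.rpow_add hΛ0, ← Real.rpow_add hΛ0]
        congr 1
        ring

/-- the count on ONE configuration, all the numerical facts as hypotheses -/
theorem gbc_one (F : FCfg k) {m : ℕ} (hF : F.Ok m) (hm : 1 ≤ m) (hAng : F.AngOk) {C : ℝ}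
    (H : ∀ D : TDat F.c, D.Good → D.ηw ≤ 1 / 2 → ∀ (p : TPar), D.sys.Ok p → ∀ {A₀ K G : ℝ} {S : ∀ i, Finset (D.Cl i)} {r : ℕ → ℝ} {Yf : Finset D.Y},
      D.sys.Frozen p.q A₀ K G S r Yf → ∀ (I : TAIn D) (a : TAPar), (D.ang I).Ok p a → 0 < I.Sd → ∀ (mu bot : ℕ), I.bot ≤ mu → bot ≤ mu → mu < I.lam → I.lam ≤ F.c.ℓ → (∀ h, bot < h → h < I.lam → h ≠ F.c.tr) →
      ∀ (s : ℕ) (nd : ℕ → ℕ), nd 0 = mu → nd s = bot → (∀ a, a < s → nd (a + 1) < nd a) → (∀ a, a < s → D.κ (nd (a + 1)) / D.κ I.lam ≤ (D.κ (nd a) / D.κ I.lam) ^ 2) →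
      ∀ thr : ℝ, 0 < thr → ((k : ℝ) + 1) * I.Sd ≤ D.κ bot / D.κ I.lam → ∀ (τ : D.Lb I.lam) (c0 : ST k),
      (((((D.ang I).bcell S r mu thr (D.fiBr I.lam mu (4 * (D.κ mu / D.κ I.lam)))).filter fun T : D.Cl I.lam => (∃ y, D.sys.inc I.lam y T) ∧ T.1.1 = τ ∧ ‖lat T.1.2 - c0‖ ≤ D.κ bot / D.κ I.lam).card : ℕ) : ℝ)
          * (thr * r I.lam) ^ pk' k
        ≤ C * ((D.κ mu / D.κ I.lam) ^ k) ^ (k + 1) * ((4 * (D.κ mu / D.κ I.lam)) ^ fiMk k) ^ s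
          * ((1 + D.G I.lam + ((k : ℝ) + 1) * I.Sd) ^ (2 * F.c.P) * ((D.κ mu / D.κ I.lam) ^ k * (1 + ((k : ℝ) + 1) * I.Sd) ^ F.c.Q)) ^ (((k : ℝ) + 1) / k) * (D.κ bot / D.κ I.lam) ^ (k + 1) * r bot ^ pk' k)
    (j : Fin (k + 1)) (lam : ℕ) (hl : lam ≤ F.c.ℓ) (π : GbP) (v₀ : (F.D j).Lb lam) (i : ℕ) (hml : gbMu F j lam π < lam) (him : i ≤ gbMu F j lam π) (hseam : ∀ h, i < h → h < lam → h ≠ F.c.tr)
    (s : ℕ) (nd : ℕ → ℕ) (h0 : nd 0 = gbMu F j lam π) (hsb : nd s = i) (hdec : ∀ a, a < s → nd (a + 1) < nd a)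
    (hκ : ∀ a, a < s → (F.D j).κ (nd (a + 1)) / (F.D j).κ lam ≤ ((F.D j).κ (nd a) / (F.D j).κ lam) ^ 2)
    (hRw : ((k : ℝ) + 1) * gbSb F j lam π ≤ (F.D j).κ i / (F.D j).κ lam) (τ : (F.D j).Lb lam) (c0 : ST k) :
    ((((gbP0 F j lam π v₀).filter fun T : (F.D j).Cl lam => T.1.1 = τ ∧ ‖lat T.1.2 - c0‖ ≤ (F.D j).κ i / (F.D j).κ lam).card : ℕ) : ℝ) ≤
      (4 * gbnG F j lam π) ^ pk' k * (C * (gbY F j lam π ^ k) ^ (k + 1) * ((4 * gbY F j lam π) ^ fiMk k) ^ s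
          * ((1 + (F.D j).G lam + ((k : ℝ) + 1) * gbSb F j lam π) ^ (2 * F.c.P) * (gbY F j lam π ^ k * (1 + ((k : ℝ) + 1) * gbSb F j lam π) ^ F.c.Q)) ^ (((k : ℝ) + 1) / k))
        * ((F.D j).κ i / (F.D j).κ lam) ^ (k + 1) * (F.r j i / F.r j lam) ^ pk' k := by
  have hc := hF.cls
  have hD := hF.good j
  have hO := hF.sys j
  have hFr : (F.D j).sys.Frozen (F.tp j).q (F.A j) F.K F.Go (F.S j) (F.r j) Finset.univ := hF.frozen j
  have hA : ((F.D j).ang (gbIb F j lam π v₀)).Ok (F.tp j) (gbAp F j) := hAng j (gbIb F j lam π v₀) rfl rfl rfl (gbc_inst F hc j lam hl π v₀ hml)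
  have hY1 : 1 ≤ gbY F j lam π := (F.D j).one_le_ratio hD hml.le
  have hY0 : 0 < gbY F j lam π := by linarith
  have hCm : 0 < F.c.Cm := by linarith [hc.one_le_Cm]
  have hnG0 : 0 < gbnG F j lam π := by
    unfold gbnG
    positivity
  have hthr : 0 < gbThr F j lam π := by
    unfold gbThr
    positivity
  have hSd : 0 < gbSb F j lam π := by
    unfold gbSb
    have : (0 : ℝ) ≤ F.c.ℓ := Nat.cast_nonneg _
    have := hc.one_le_Cc
    positivity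
  have key := H (F.D j) hD (gbc_eta F hF hm j) (F.tp j) hO hFr (gbIb F j lam π v₀) (gbAp F j) hA hSd (gbMu F j lam π) i le_rfl him hml hl hseam s nd h0 hsb hdec hκ
    (gbThr F j lam π) hthr hRw τ c0
  have hsub : ((gbP0 F j lam π v₀).filter fun T : (F.D j).Cl lam => T.1.1 = τ ∧ ‖lat T.1.2 - c0‖ ≤ (F.D j).κ i / (F.D j).κ lam) ⊆
      ((((F.D j).ang (gbIb F j lam π v₀)).bcell (F.S j) (F.r j) (gbMu F j lam π) (gbThr F j lam π)
        ((F.D j).fiBr lam (gbMu F j lam π) (4 * ((F.D j).κ (gbMu F j lam π) / (F.D j).κ lam)))).filter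
          fun T : (F.D j).Cl lam => (∃ y, (F.D j).sys.inc lam y T) ∧ T.1.1 = τ ∧ ‖lat T.1.2 - c0‖ ≤ (F.D j).κ i / (F.D j).κ lam) := by
    intro T hT
    obtain ⟨hT0, hT1⟩ := Finset.mem_filter.1 hT
    obtain ⟨hT2, hT3⟩ := Finset.mem_filter.1 hT0
    exact Finset.mem_filter.2 ⟨gbc_br F j lam π v₀ hO hA hFr hml hthr T hT2, hT3, hT1⟩
  have hcard : ((((gbP0 F j lam π v₀).filter fun T : (F.D j).Cl lam => T.1.1 = τ ∧ ‖lat T.1.2 - c0‖ ≤ (F.D j).κ i / (F.D j).κ lam).card : ℕ) : ℝ) ≤ _ :=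
    Nat.cast_le.2 (Finset.card_le_card hsub)
  refine hcard.trans ?_
  refine gbc_div hthr ?_ (by positivity) (hFr.r_pos lam) (hFr.r_pos i).le key
  unfold gbThr
  rw [mul_one_div, div_self (by positivity)]

/-- **CNT** -/
theorem gbc_main (k : ℕ) : GbCnt k := by
  intro o e he
  obtain ⟨E0, hE0⟩ : ∃ E0 : ℝ, E0 = (k : ℝ) * pk' k + (k : ℝ) * ((k : ℝ) + 1) + (4 * o.P + k + 2 * o.Q) * (((k : ℝ) + 1) / k) := ⟨_, rfl⟩
  obtain ⟨n, hn1, hn2⟩ := gbc_theta E0 (fiMk k) (e / 2) (by positivity)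
  obtain ⟨θ0, hθ0⟩ : ∃ θ0 : ℝ, θ0 = 5 * (2 / 3 : ℝ) ^ n := ⟨_, rfl⟩
  rw [← hθ0] at hn1 hn2
  have hθpos : 0 < θ0 := by rw [hθ0]; positivity
  have hθn : (3 / 2 : ℝ) ^ n * θ0 = 5 := by
    rw [hθ0, ← mul_assoc, mul_comm _ (5 : ℝ), mul_assoc, ← mul_pow]
    norm_num
  refine ⟨θ0, hθpos, hn2, ?_⟩
  intro u hu c cx ho
  by_cases hc : c.Ok
  swap
  · exact ⟨0, fun F hFc _ hF => absurd (hFc ▸ hF.cls) hc⟩
  have hk : 1 ≤ k := hc.k_pos
  have hk0 : (0 : ℝ) < k := by exact_mod_cast hk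
  have hk1 : (1 : ℝ) ≤ k := by exact_mod_cast hk
  have hP : 0 ≤ c.P := by linarith [hc.P_gt]
  have hQ : 0 ≤ c.Q := by linarith [hc.P_lt]
  have hCc := hc.one_le_Cc
  have hℓ : (0 : ℝ) ≤ c.ℓ := Nat.cast_nonneg _
  obtain ⟨K2, hK2, hL2⟩ := fl2_at hc (A := c.P) hc.P_gt hc.P_lt.le (c.ℓ * c.Cc)
  obtain ⟨C, hC, H⟩ := fi_blk_cnt hc hK2.le hL2
  obtain ⟨c2, hc2⟩ : ∃ c2 : ℝ, c2 = 1 + 2 * (c.ℓ : ℝ) * c.Cc := ⟨_, rfl⟩
  have hc21 : 1 ≤ c2 := by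
    rw [hc2]
    have : 0 ≤ 2 * (c.ℓ : ℝ) * c.Cc := by positivity
    linarith
  obtain ⟨c1, hc1⟩ : ∃ c1 : ℝ, c1 = 2 + ((k : ℝ) + 1) * c2 := ⟨_, rfl⟩
  obtain ⟨E, hE⟩ : ∃ E : ℝ, E = (k : ℝ) * pk' k + (k : ℝ) * ((k : ℝ) + 1) + (fiMk k : ℝ) * ((n : ℝ) + 1) + (4 * c.P + k + 2 * c.Q) * (((k : ℝ) + 1) / k) := ⟨_, rfl⟩
  have hpk : 0 ≤ pk' k := by unfold pk'; positivity
  have hEE : E = E0 + (fiMk k : ℝ) * ((n : ℝ) + 1) := by
    have e1 : o.P = c.P := by rw [← ho]; rfl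
    have e2 : o.Q = c.Q := by rw [← ho]; rfl
    rw [hE, hE0, e1, e2]
    ring
  obtain ⟨m1, hm1⟩ := gbc_m0 (C * (c.Cm ^ c.ℓ) ^ pk' k * c1 ^ E) (e * u / 4) (by positivity)
  obtain ⟨m2, hm2⟩ := gbc_m0 (((k : ℝ) + 1) * c2) (u / 4) (by positivity)
  obtain ⟨m0, hm0⟩ : ∃ m0 : ℕ, m0 = max (max m1 m2) (max ⌈8 / (e * u)⌉₊ 1) := ⟨_, rfl⟩
  have hm01 : m1 ≤ m0 := by rw [hm0]; exact (le_max_left _ _).trans (le_max_left _ _)
  have hm02 : m2 ≤ m0 := by rw [hm0]; exact (le_max_right _ _).trans (le_max_left _ _)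
  have hm03 : ⌈8 / (e * u)⌉₊ ≤ m0 := by rw [hm0]; exact (le_max_left _ _).trans (le_max_right _ _)
  have hm04 : 1 ≤ m0 := by rw [hm0]; exact (le_max_right _ _).trans (le_max_right _ _)
  refine ⟨m0, ?_⟩
  clear hm0
  intro F hFc hFcx hF hAng j lam hl μ0 hμ0 hμ0' hMesh hOff π hπu hπθ v₀ i hi hlo hhi τ c0
  subst hFc
  have hD := hF.good j
  have hκr := hF.κr_pos j
  have hΛm : (m0 : ℝ) + 3 ≤ F.Λ := hF.Λ_ge
  have hm0r : (0 : ℝ) ≤ m0 := Nat.cast_nonneg _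
  have hΛ1 : 1 < F.Λ := by linarith
  have hΛ0 : 0 < F.Λ := by linarith
  have b1 : C * (F.c.Cm ^ F.c.ℓ) ^ pk' k * c1 ^ E ≤ F.Λ ^ (e * u / 4) := hm1 _ (by
    have : (m1 : ℝ) ≤ m0 := by exact_mod_cast hm01
    linarith)
  have b2 : ((k : ℝ) + 1) * c2 ≤ F.Λ ^ (u / 4) := hm2 _ (by
    have : (m2 : ℝ) ≤ m0 := by exact_mod_cast hm02
    linarith)
  have b3 : 8 / (e * u) ≤ m0 := (Nat.le_ceil _).trans (by exact_mod_cast hm03)
  obtain ⟨hml, him, hY1, hYle, s, nd, hs, h0, hsb, hdec, hκ⟩ := gbc_geo F j hΛ1 hκr hD lam hl hθpos hn2 hθn hu hμ0' hMesh π hπu hπθ i hlo hhi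
  obtain ⟨hG1, hG2, hGo⟩ := gbc_G F hF j lam hl
  have hθu8 : θ0 * u ≤ u / 8 := by
    have := mul_le_mul_of_nonneg_right hn2 hu.le
    linarith
  have hSbE : gbSb F j lam π = c2 * gbY F j lam π ^ 2 := by rw [hc2]; rfl
  have hRw : ((k : ℝ) + 1) * gbSb F j lam π ≤ (F.D j).κ i / (F.D j).κ lam := by
    have h1 : gbY F j lam π ^ 2 ≤ F.Λ ^ (u / 4) := by
      calc gbY F j lam π ^ 2 ≤ (F.Λ ^ (θ0 * u)) ^ 2 := pow_le_pow_left₀ (by linarith) hYle 2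
        _ = F.Λ ^ (θ0 * u * 2) := by rw [← Real.rpow_natCast, ← Real.rpow_mul hΛ0.le]; norm_num
        _ ≤ F.Λ ^ (u / 4) := Real.rpow_le_rpow_of_exponent_le hΛ1.le (by linarith)
    calc ((k : ℝ) + 1) * gbSb F j lam π = (((k : ℝ) + 1) * c2) * gbY F j lam π ^ 2 := by rw [hSbE]; ring
      _ ≤ F.Λ ^ (u / 4) * F.Λ ^ (u / 4) := mul_le_mul b2 h1 (by positivity) (by positivity)
      _ = F.Λ ^ (u / 2) := by rw [← Real.rpow_add hΛ0]; congr 1; ring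
      _ ≤ F.Λ ^ (F.s j i - F.s j lam) := Real.rpow_le_rpow_of_exponent_le hΛ1.le hlo
      _ = (F.D j).κ i / (F.D j).κ lam := gbs_pow_s F j hΛ1 hκr hD i lam
  have main := gbc_one F hF hm04 hAng H j lam hl π v₀ i hml him (fun h h1 h2 => gbc_seam F j hΛ1 hκr hD lam hOff hu i hhi h h1 h2) s nd h0 hsb hdec hκ hRw τ c0
  refine main.trans ?_
  have bGo : F.Go ^ (((k : ℝ) + 1) / k) ≤ F.Λ ^ (e * u / 4) := by
    refine gbc_Go hGo hΛ1 hF.Go_Λ hm04 (by positivity) ?_ ?_ (by positivity)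
    · rw [div_le_iff₀ hk0]
      linarith
    · have e8 : 2 / (e * u / 4) = 8 / (e * u) := by
        field_simp
        norm_num
      rw [e8]
      exact b3
  have bE : θ0 * u * E ≤ 2 * (e * u / 4) := by
    rw [hEE]
    have := mul_le_mul_of_nonneg_right hn1 hu.le
    linarith
  have fin := gbc_fin (Mm := fiMk k) (s := s) (n := n) hk hΛ1 hY1 hYle hc21 hc1 hSbE hG1 hG2 hGo (Cn := F.c.Cm ^ F.c.ℓ) (by have := hc.one_le_Cm; positivity) (nG := gbnG F j lam π) rfl hs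
    (C := C) (by linarith) hP hQ hpk hE b1 bGo bE
  have e4 : 4 * (e * u / 4) = e * u := by ring
  rw [e4] at fin
  have hR0 : 0 ≤ ((F.D j).κ i / (F.D j).κ lam) ^ (k + 1) := by
    have h1 := (F.D j).κ_pos hD i
    have h2 := (F.D j).κ_pos hD lam
    positivity
  have hr0 : 0 ≤ (F.r j i / F.r j lam) ^ pk' k := Real.rpow_nonneg (div_nonneg ((hF.frozen j).r_pos i).le ((hF.frozen j).r_pos lam).le) _
  exact mul_le_mul_of_nonneg_right (mul_le_mul_of_nonneg_right fin hR0) hr0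

end

end Claimed.Agent.R257.FR3
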