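import Claimed.Agent.R257.FR3.BlkBud
import Claimed.Agent.R257.FR3.BlkStrip
import Claimed.Agent.R257.FR3.L2sAd

/-!
# ROW 257, package FR3, GBLK, unit CNT, file A: THE COUNT OF INFL ON A CONFIGURATION, THE INFLATION CHAIN      (helper271)

* `gbb_Ib_ok`   the BROAD instance `gbIb` is admissible;   `gbb_P1_sub`  `gbP1 ⊆ bcell … fiBr`;   `gbb_eta`  `ηw ≤ 1/2`
* **`gbb_cnt`** `fi_blk_cnt` (`FR3/InflBr.lean`) for `gbP0`, explicit losses
* `gbb_nod`     the nodes `F.nod j lam t` under `Mesh`;   **`gbb_chain`**  the inflation chain `nd a = nod ((3/2)^a θ0 u)`, last node `= i`, at most `n` steps if `5 ≤ (3/2)^n θ0`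
* `gbb_theta`   the choice of `(θ0, n)`
-/

set_option autoImplicit false

namespace Claimed.Agent.R257.FR3

open scoped BigOperators
open Classical Matrix
open Claimed.Agent.R255 Claimed.Agent.R257 Claimed.Agent.R257.FR2 Claimed.Agent.R257.Tree

noncomputable section

variable {k : ℕ}

/-- the BROAD instance is admissible -/
theorem gbb_Ib_ok (F : FCfg k) (hc : F.c.Ok) (j : Fin (k + 1)) (lam : ℕ) (π : GbP) (v₀ : (F.D j).Lb lam) (hl : lam ≤ F.c.ℓ) (hml : gbMu F j lam π ≤ lam) :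
    (gbIb F j lam π v₀).Ok where
  bot_le := hml
  lam_le := hl
  Ew_gt := by
    show (k : ℝ) + 1 < (k : ℝ) + 2
    linarith
  Q2_ge := le_refl _
  Q2_C0 := by
    show F.c.Q + ((k : ℝ) + 2) * k / 2 + k + 2 ≤ F.c.C0
    have h := hc.room_C0
    have hk : (0 : ℝ) ≤ k := Nat.cast_nonneg k
    nlinarith
  Q2_M := by
    show F.c.Q + ((k : ℝ) + 2) * k / 2 ≤ F.c.M
    have h := hc.room_M
    have hk : (0 : ℝ) ≤ k := Nat.cast_nonneg k
    nlinarith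
  one_le_Cs := by
    show 1 ≤ 2 ^ (k + 3) * ((F.c.ℓ : ℝ) + 1) * F.c.Cc
    have h1 : (1 : ℝ) ≤ 2 ^ (k + 3) := one_le_pow₀ (by norm_num)
    have h2 : (1 : ℝ) ≤ (F.c.ℓ : ℝ) + 1 := by
      have : (0 : ℝ) ≤ F.c.ℓ := Nat.cast_nonneg _
      linarith
    exact one_le_mul_of_one_le_of_one_le (one_le_mul_of_one_le_of_one_le h1 h2) hc.one_le_Cc
  Sd_ge := le_refl _

/-- the broad cells of the block package are broad cells for the predicate of INFL -/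
theorem gbb_P1_sub (F : FCfg k) (m : ℕ) (hF : F.Ok m) (hAng : F.AngOk) (j : Fin (k + 1)) (lam : ℕ) (π : GbP) (v₀ : (F.D j).Lb lam) (hl : lam ≤ F.c.ℓ) (hml : gbMu F j lam π < lam) :
    gbP1 F j lam π v₀ ⊆ ((F.D j).ang (gbIb F j lam π v₀)).bcell (F.S j) (F.r j) (gbMu F j lam π) (gbThr F j lam π)
      ((F.D j).fiBr lam (gbMu F j lam π) (4 * ((F.D j).κ (gbMu F j lam π) / (F.D j).κ lam))) := by
  have hc := hF.cls
  have hD := hF.good j
  have hO := hF.sys j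
  have hA : ((F.D j).ang (gbIb F j lam π v₀)).Ok (F.tp j) (gbAp F j) := hAng j (gbIb F j lam π v₀) rfl rfl rfl (gbb_Ib_ok F hc j lam π v₀ hl hml.le)
  have hFr : (F.D j).sys.Frozen (F.tp j).q (F.A j) F.K F.Go (F.S j) (F.r j) Finset.univ := hF.frozen j
  have hy1 : 1 ≤ gbY F j lam π := (F.D j).one_le_ratio hD hml.le
  have hthr : 0 < gbThr F j lam π := by
    unfold gbThr gbnG
    have : 0 < gbY F j lam π := by linarith
    have : 0 < F.c.Cm := by linarith [hc.one_le_Cm]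
    positivity
  intro T hT
  obtain ⟨hTS, Gr, hGm, hGt⟩ := Finset.mem_filter.1 hT
  refine Finset.mem_filter.2 ⟨hTS, T.1.1, Gr, hGm, ?_, ?_⟩
  · intro a
    have h1 := TAng.tbw_marked_cap hO hA hFr (gbMu F j lam π) le_rfl hml (gbThr F j lam π) hthr T (Gr a) (hGm a)
    exact (fi_upL_und (F.D j) lam v₀ T.1.1 (gbMu F j lam π) hml.le (Gr a)).1 h1
  · have h1 := TAng.tbw_marked_cap hO hA hFr (gbMu F j lam π) le_rfl hml (gbThr F j lam π) hthr T (Gr 0) (hGm 0)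
    have h2 : (F.D j).upL lam v₀ (gbMu F j lam π) (Gr 0) = T.1.1 := h1
    rw [h2] at hGt
    exact hGt

/-- the defect of the windows is small -/
theorem gbb_eta (F : FCfg k) (m : ℕ) (hF : F.Ok m) (hm : 1 ≤ m) (j : Fin (k + 1)) : (F.D j).ηw ≤ 1 / 2 := by
  have hD := hF.good j
  have hCp : 1 ≤ F.Cp := (hF.sys j).one_le_Γ2
  have hη := hF.η_le j
  have hη0 := hD.ηw_nonneg
  have hκ : 1 ≤ (F.D j).κ 0 ^ k := one_le_pow₀ (hD.one_le_κ 0)
  have hΛ : (3 : ℝ) ≤ F.Λ := by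
    have := hF.Λ_ge
    have : (0 : ℝ) ≤ m := Nat.cast_nonneg m
    linarith
  have hX : 3 ≤ F.X := by
    unfold FCfg.X
    exact hΛ.trans (le_self_pow₀ (by linarith) (by have := hF.cx_pos; omega))
  have hXm : 3 ≤ F.X ^ m := hX.trans (le_self_pow₀ (by linarith) (by omega))
  have e : (F.tp j).η = F.Cp * (F.D j).ηw * (F.D j).κ 0 ^ k := rfl
  rw [e] at hη
  have h1 : (F.D j).ηw ≤ F.Cp * (F.D j).ηw * (F.D j).κ 0 ^ k := by
    have : (F.D j).ηw ≤ F.Cp * (F.D j).ηw := le_mul_of_one_le_left hη0 hCp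
    exact this.trans (le_mul_of_one_le_right (by positivity) hκ)
  have h2 : (F.D j).ηw * 3 ≤ 1 := by
    calc (F.D j).ηw * 3 ≤ (F.Cp * (F.D j).ηw * (F.D j).κ 0 ^ k) * F.X ^ m := mul_le_mul h1 hXm (by norm_num) (by positivity)
      _ ≤ 1 := hη
  linarith

/-- **the count of INFL for the retained cells of the block package**, explicit losses -/
theorem gbb_cnt (c : TCls k) (hc : c.Ok) : ∃ C : ℝ, 1 ≤ C ∧ ∀ (F : FCfg k) (m : ℕ), F.c = c → F.Ok m → 1 ≤ m → F.AngOk → ∀ (j : Fin (k + 1)) (lam : ℕ) (π : GbP) (v₀ : (F.D j).Lb lam),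
    lam ≤ F.c.ℓ → gbMu F j lam π < lam → ∀ bot : ℕ, bot ≤ gbMu F j lam π → (∀ h, bot < h → h < lam → h ≠ F.c.tr) →
    ∀ (s : ℕ) (nd : ℕ → ℕ), nd 0 = gbMu F j lam π → nd s = bot → (∀ a, a < s → nd (a + 1) < nd a) →
    (∀ a, a < s → (F.D j).κ (nd (a + 1)) / (F.D j).κ lam ≤ ((F.D j).κ (nd a) / (F.D j).κ lam) ^ 2) → ((k : ℝ) + 1) * gbSb F j lam π ≤ (F.D j).κ bot / (F.D j).κ lam →
    ∀ (τ : (F.D j).Lb lam) (c0 : ST k),
    ((((gbP0 F j lam π v₀).filter fun T : (F.D j).Cl lam => T.1.1 = τ ∧ ‖lat T.1.2 - c0‖ ≤ (F.D j).κ bot / (F.D j).κ lam).card : ℕ) : ℝ) * (gbThr F j lam π * F.r j lam) ^ pk' k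
      ≤ C * (gbY F j lam π ^ k) ^ (k + 1) * ((4 * gbY F j lam π) ^ fiMk k) ^ s
        * ((1 + (F.D j).G lam + ((k : ℝ) + 1) * gbSb F j lam π) ^ (2 * F.c.P) * (gbY F j lam π ^ k * (1 + ((k : ℝ) + 1) * gbSb F j lam π) ^ F.c.Q)) ^ (((k : ℝ) + 1) / k)
        * ((F.D j).κ bot / (F.D j).κ lam) ^ (k + 1) * F.r j bot ^ pk' k := by
  obtain ⟨K2, hK2, hL2⟩ := fl2_at hc hc.P_gt hc.P_lt.le ((c.ℓ : ℝ) * c.Cc)
  obtain ⟨C, hC, H⟩ := fi_blk_cnt hc hK2.le hL2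
  refine ⟨C, hC, ?_⟩
  intro F m hFc hF hm hAng j lam π v₀ hl hml bot hbm htr s nd h0 hs hnd hκ hSb τ c0
  subst hFc
  have hD := hF.good j
  have hO := hF.sys j
  have hA : ((F.D j).ang (gbIb F j lam π v₀)).Ok (F.tp j) (gbAp F j) := hAng j (gbIb F j lam π v₀) rfl rfl rfl (gbb_Ib_ok F hc j lam π v₀ hl hml.le)
  have hFr : (F.D j).sys.Frozen (F.tp j).q (F.A j) F.K F.Go (F.S j) (F.r j) Finset.univ := hF.frozen j
  have hy1 : 1 ≤ gbY F j lam π := (F.D j).one_le_ratio hD hml.le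
  have hy0 : 0 < gbY F j lam π := by linarith
  have hthr : 0 < gbThr F j lam π := by
    unfold gbThr gbnG
    have : 0 < F.c.Cm := by linarith [hc.one_le_Cm]
    positivity
  have hSd : 0 < gbSb F j lam π := by
    unfold gbSb
    have h1 : (0 : ℝ) ≤ F.c.ℓ := Nat.cast_nonneg _
    have h2 := hc.one_le_Cc
    positivity
  have main := H (F.D j) hD (gbb_eta F m hF hm j) (F.tp j) hO hFr (gbIb F j lam π v₀) (gbAp F j) hA hSd (gbMu F j lam π) bot le_rfl hbm hml hl htr s nd h0 hs hnd hκ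
    (gbThr F j lam π) hthr hSb τ c0
  refine le_trans ?_ main
  refine mul_le_mul_of_nonneg_right ?_ (Real.rpow_nonneg (mul_nonneg hthr.le (hFr.r_pos lam).le) _)
  have hsub := gbb_P1_sub F m hF hAng j lam π v₀ hl hml
  have : ((gbP0 F j lam π v₀).filter fun T : (F.D j).Cl lam => T.1.1 = τ ∧ ‖lat T.1.2 - c0‖ ≤ (F.D j).κ bot / (F.D j).κ lam)
      ⊆ ((((F.D j).ang (gbIb F j lam π v₀)).bcell (F.S j) (F.r j) (gbMu F j lam π) (gbThr F j lam π)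
        ((F.D j).fiBr lam (gbMu F j lam π) (4 * ((F.D j).κ (gbMu F j lam π) / (F.D j).κ lam)))).filter
          fun T : (F.D j).Cl lam => (∃ y, (F.D j).sys.inc lam y T) ∧ T.1.1 = τ ∧ ‖lat T.1.2 - c0‖ ≤ (F.D j).κ bot / (F.D j).κ lam) := by
    intro T hT
    obtain ⟨h1, h2⟩ := Finset.mem_filter.1 hT
    obtain ⟨h3, h4⟩ := Finset.mem_filter.1 h1
    exact Finset.mem_filter.2 ⟨hsub h3, h4, h2⟩
  exact_mod_cast Finset.card_le_card this

/-! ## nodes -/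

theorem gbb_Lam (F : FCfg k) (m : ℕ) (hF : F.Ok m) : 1 < F.Λ := by
  have := hF.Λ_ge
  have : (0 : ℝ) ≤ m := Nat.cast_nonneg m
  linarith

/-- `Λ^{vv i} = κ_i / κ_lam` -/
theorem gbb_vv_pow (F : FCfg k) (m : ℕ) (hF : F.Ok m) (j : Fin (k + 1)) (lam i : ℕ) : F.Λ ^ F.vv j lam i = (F.D j).κ i / (F.D j).κ lam :=
  gbs_pow_s F j (gbb_Lam F m hF) (hF.κr_pos j) (hF.good j) i lam

/-- `vv` is antitone in the height -/
theorem gbb_vv_anti (F : FCfg k) (m : ℕ) (hF : F.Ok m) (j : Fin (k + 1)) (lam : ℕ) {i i' : ℕ} (h : i ≤ i') : F.vv j lam i' ≤ F.vv j lam i := by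
  have hD := hF.good j
  have hΛ := gbb_Lam F m hF
  have h1 : (F.D j).κ i' ≤ (F.D j).κ i := (F.D j).κ_le hD h
  have h2 := (F.D j).κ_pos hD i'
  have h3 := hF.κr_pos j
  unfold FCfg.vv FCfg.s
  have : Real.logb F.Λ ((F.D j).κ i' / F.κr j) ≤ Real.logb F.Λ ((F.D j).κ i / F.κr j) :=
    Real.logb_le_logb_of_le hΛ (by positivity) (div_le_div_of_nonneg_right h1 h3.le)
  linarith

theorem gbb_vv_lam (F : FCfg k) (j : Fin (k + 1)) (lam : ℕ) : F.vv j lam lam = 0 := sub_self _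

/-- a larger parameter means a smaller height -/
theorem gbb_vv_lt (F : FCfg k) (m : ℕ) (hF : F.Ok m) (j : Fin (k + 1)) (lam : ℕ) {i i' : ℕ} (h : F.vv j lam i < F.vv j lam i') : i' < i := by
  by_contra hcon
  have := gbb_vv_anti F m hF j lam (not_lt.1 hcon)
  linarith

/-- **the nodes under `Mesh`** -/
theorem gbb_nod (F : FCfg k) (j : Fin (k + 1)) (lam : ℕ) (hl : lam ≤ F.c.ℓ) (μ0 b : ℝ) (hμ : 0 ≤ μ0) (hM : F.Mesh j μ0 (F.s j lam) (F.s j lam + b))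
    (t : ℝ) (ht0 : 0 ≤ t) (htb : t ≤ b) : F.nod j lam t ≤ lam ∧ F.vv j lam (F.nod j lam t) ≤ t ∧ t - μ0 ≤ F.vv j lam (F.nod j lam t) := by
  have hmem : lam ∈ {i : ℕ | F.vv j lam i ≤ t} := by
    show F.vv j lam lam ≤ t
    rw [gbb_vv_lam]
    exact ht0
  have h1 : F.nod j lam t ≤ lam := Nat.sInf_le hmem
  have h2 : F.vv j lam (F.nod j lam t) ≤ t := Nat.sInf_mem ⟨lam, hmem⟩
  refine ⟨h1, h2, ?_⟩
  rcases Nat.eq_zero_or_pos (F.nod j lam t) with h0 | hpos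
  · rw [h0]
    have := hM.2.2
    unfold FCfg.vv
    linarith
  · obtain ⟨n, hn⟩ : ∃ n, F.nod j lam t = n + 1 := ⟨F.nod j lam t - 1, by omega⟩
    have h3 : n ∉ {i : ℕ | F.vv j lam i ≤ t} := Nat.notMem_of_lt_sInf (by
      show n < F.nod j lam t
      omega)
    have h4 : t < F.vv j lam n := not_le.1 h3
    have h5 := hM.1 n (by omega)
    rw [hn]
    unfold FCfg.vv at h4 ⊢
    linarith

/-- **THE INFLATION CHAIN** -/
theorem gbb_chain (F : FCfg k) (m : ℕ) (hF : F.Ok m) (j : Fin (k + 1)) (lam : ℕ) (hl : lam ≤ F.c.ℓ) (θ0 u μ0 : ℝ) (hθ : 0 < θ0) (hθ8 : θ0 ≤ 1 / 8) (hu : 0 < u) (hμ : 0 < μ0) (hμ4 : μ0 ≤ θ0 * u / 4)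
    (hM : F.Mesh j μ0 (F.s j lam) (F.s j lam + 6 * u)) (n : ℕ) (hn : 5 ≤ (3 / 2 : ℝ) ^ n * θ0) (i : ℕ) (h1 : u / 2 ≤ F.vv j lam i) (h2 : F.vv j lam i ≤ 5 * u) :
    ∃ (s : ℕ) (nd : ℕ → ℕ), s ≤ n ∧ nd 0 = F.nod j lam (θ0 * u) ∧ nd s = i ∧ (∀ a, a < s → nd (a + 1) < nd a) ∧
      (∀ a, a < s → (F.D j).κ (nd (a + 1)) / (F.D j).κ lam ≤ ((F.D j).κ (nd a) / (F.D j).κ lam) ^ 2) := by
  have hΛ := gbb_Lam F m hF
  obtain ⟨t, ht⟩ : ∃ t : ℕ → ℝ, t = fun a => (3 / 2 : ℝ) ^ a * (θ0 * u) := ⟨_, rfl⟩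
  have ht0 : t 0 = θ0 * u := by rw [ht]; simp
  have hts : ∀ a, t (a + 1) = 3 / 2 * t a := by
    intro a
    rw [ht]
    show (3 / 2 : ℝ) ^ (a + 1) * (θ0 * u) = 3 / 2 * ((3 / 2 : ℝ) ^ a * (θ0 * u))
    rw [pow_succ]
    ring
  have hθu : 0 < θ0 * u := by positivity
  have htge : ∀ a, θ0 * u ≤ t a := by
    intro a
    rw [ht]
    exact le_mul_of_one_le_left hθu.le (one_le_pow₀ (by norm_num))
  have hex : ∃ a, F.vv j lam i ≤ t a := by
    refine ⟨n, h2.trans ?_⟩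
    rw [ht]
    show 5 * u ≤ (3 / 2 : ℝ) ^ n * (θ0 * u)
    calc 5 * u ≤ ((3 / 2 : ℝ) ^ n * θ0) * u := mul_le_mul_of_nonneg_right hn hu.le
      _ = _ := by ring
  obtain ⟨s, hs⟩ : ∃ s, s = Nat.find hex := ⟨_, rfl⟩
  have hs1 : F.vv j lam i ≤ t s := by rw [hs]; exact Nat.find_spec hex
  have hs2 : ∀ a, a < s → t a < F.vv j lam i := by
    intro a ha
    rw [hs] at ha
    exact not_le.1 (Nat.find_min hex ha)
  have hsn : s ≤ n := by
    rw [hs]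
    refine Nat.find_min' hex (h2.trans ?_)
    rw [ht]
    show 5 * u ≤ (3 / 2 : ℝ) ^ n * (θ0 * u)
    calc 5 * u ≤ ((3 / 2 : ℝ) ^ n * θ0) * u := mul_le_mul_of_nonneg_right hn hu.le
      _ = _ := by ring
  have hs0 : 0 < s := by
    rcases Nat.eq_zero_or_pos s with h | h
    · rw [h, ht0] at hs1
      nlinarith
    · exact h
  have hnod : ∀ a, a < s → F.vv j lam (F.nod j lam (t a)) ≤ t a ∧ t a - μ0 ≤ F.vv j lam (F.nod j lam (t a)) := by
    intro a ha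
    have := gbb_nod F j lam hl μ0 (6 * u) hμ.le hM (t a) (hθu.le.trans (htge a)) (by linarith [hs2 a ha])
    exact this.2
  refine ⟨s, fun a => if a < s then F.nod j lam (t a) else i, hsn, ?_, ?_, ?_, ?_⟩
  · show (if 0 < s then F.nod j lam (t 0) else i) = _
    rw [if_pos hs0, ht0]
  · show (if s < s then F.nod j lam (t s) else i) = _
    rw [if_neg (lt_irrefl s)]
  · intro a ha
    show (if a + 1 < s then F.nod j lam (t (a + 1)) else i) < if a < s then F.nod j lam (t a) else i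
    rw [if_pos ha]
    obtain ⟨ha1, ha2⟩ := hnod a ha
    have hta := htge a
    by_cases h : a + 1 < s
    · rw [if_pos h]
      obtain ⟨hb1, hb2⟩ := hnod (a + 1) h
      have hta1 := hts a
      exact gbb_vv_lt F m hF j lam (by linarith)
    · rw [if_neg h]
      exact gbb_vv_lt F m hF j lam (by linarith [hs2 a ha])
  · intro a ha
    show (F.D j).κ (if a + 1 < s then F.nod j lam (t (a + 1)) else i) / (F.D j).κ lam ≤ ((F.D j).κ (if a < s then F.nod j lam (t a) else i) / (F.D j).κ lam) ^ 2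
    rw [if_pos ha, ← gbb_vv_pow F m hF, ← gbb_vv_pow F m hF, ← Real.rpow_natCast, ← Real.rpow_mul (by linarith)]
    refine Real.rpow_le_rpow_of_exponent_le hΛ.le ?_
    obtain ⟨ha1, ha2⟩ := hnod a ha
    have hta := htge a
    push_cast
    by_cases h : a + 1 < s
    · rw [if_pos h]
      obtain ⟨hb1, hb2⟩ := hnod (a + 1) h
      have hta1 := hts a
      linarith
    · rw [if_neg h]
      have e : s = a + 1 := by omega
      rw [e, hts] at hs1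
      linarith

/-- **the choice of the broad precision** -/
theorem gbb_theta (E0 M e : ℝ) (he : 0 < e) : ∃ (θ0 : ℝ) (n : ℕ), 0 < θ0 ∧ θ0 ≤ 1 / 8 ∧ 5 ≤ (3 / 2 : ℝ) ^ n * θ0 ∧ θ0 * (E0 + M * ((n : ℝ) + 1)) ≤ e / 2 := by
  have l1 : Filter.Tendsto (fun n : ℕ => ((2 / 3 : ℝ)) ^ n) Filter.atTop (nhds 0) := tendsto_pow_atTop_nhds_zero_of_lt_one (by norm_num) (by norm_num)
  have l2 : Filter.Tendsto (fun n : ℕ => (n : ℝ) * ((2 / 3 : ℝ)) ^ n) Filter.atTop (nhds 0) := by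
    have := tendsto_pow_const_mul_const_pow_of_abs_lt_one 1 (r := (2 / 3 : ℝ)) (by rw [abs_of_pos] <;> norm_num)
    simpa using this
  have l3 : Filter.Tendsto (fun n : ℕ => 5 * (E0 + M) * ((2 / 3 : ℝ)) ^ n + 5 * M * ((n : ℝ) * ((2 / 3 : ℝ)) ^ n)) Filter.atTop (nhds 0) := by
    have := (l1.const_mul (5 * (E0 + M))).add (l2.const_mul (5 * M))
    simpa using this
  have e1 := l1.eventually (gt_mem_nhds (show (0 : ℝ) < 1 / 40 by norm_num))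
  have e3 := l3.eventually (gt_mem_nhds (show (0 : ℝ) < e / 2 by positivity))
  obtain ⟨n, hn1, hn3⟩ := (e1.and e3).exists
  refine ⟨5 * (2 / 3 : ℝ) ^ n, n, by positivity, by linarith, ?_, ?_⟩
  · have : (3 / 2 : ℝ) ^ n * (5 * (2 / 3 : ℝ) ^ n) = 5 * ((3 / 2 : ℝ) * (2 / 3)) ^ n := by rw [mul_pow]; ring
    rw [this]
    norm_num
  · have : 5 * (2 / 3 : ℝ) ^ n * (E0 + M * ((n : ℝ) + 1)) = 5 * (E0 + M) * ((2 / 3 : ℝ)) ^ n + 5 * M * ((n : ℝ) * ((2 / 3 : ℝ)) ^ n) := by ring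
    rw [this]
    exact hn3.le

end

end Claimed.Agent.R257.FR3
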