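import Claimed.Agent.R257.FR3.BlkPar
import Claimed.Agent.R257.FR3.Top

/-!
# ROW 257, package FR3, GBLK: THE EXIT CONTRACTS OF THE UNITS      (helper266)          DEFINITIONS ONLY (nothing sorried)

The final glue `gb_main` (`FR3/BlkGlue.lean`) consumes EXACTLY these statements (+ `gbn_*`, `gbs_field` of helper212, `tia_main` of helper37, `ti_geo_ok`).    Each unit proves `theorem … : GbXxx k` in its own file (import this file).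
* `TAng.NumHyp`   the five numerical hypotheses of `TAng.tgx_main`, VERBATIM, as one structure
* `GbBud k`       (BUD = NUM-A, helper137)   `hβ₀` of `tgx_main` for `P₀ = gbP1`, `β₀ = gbβ0`:   `tbw_budget` for the instance `gbIb`;  to prove: `hnG` (`Good.nch`, induction), `hdich` (`bdg_trans_or_slab_idx` in the frame of the cap), `hnt`, `hthr`.   NO `m0`.   (`tbw_main` is NOT used.)
* `GbNumB k`      (NUM-B, helper18)          `NumHyp` for the instance `gbIa`, `Ms = gbMs`, `t = gbT`, `β₀ = gbβ0`, `ϖl = gbϖ = K^{-gbN c}`, and `Λ^{-ε} ≤ ϖl / 2`;   from the GAIN hypotheses (proved in the glue from the slope hypothesis)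
* `GbCnt k`       (CNT, helper162)           the field `cnt` for `P0 = gbP0`, loss `Λ^{e u}`;  the unit chooses the broad precision `θ0 = θ0(o, e)`
-/

set_option autoImplicit false

namespace Claimed.Agent.R257.FR2

open scoped BigOperators Classical

/-- **the numerical hypotheses of `TAng.tgx_main`** (verbatim) -/
structure TAng.NumHyp {𝔖 : TSys} {𝔊 : TGeo 𝔖} (𝔄 : TAng 𝔖 𝔊) (p : TPar) (g : GPar) (a : TAPar) (A K : ℝ) (r : ℕ → ℝ) (Yf : Finset 𝔖.Y)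
    (Ms : Finset ℕ) (t : ℕ → ℝ) (β₀ : ℝ) (d : ℕ) (ϖl : ℝ) : Prop where
  hR : ((Ms.card + 1 : ℝ) ^ 2 * ∏ m ∈ Finset.range 𝔄.lam, p.Γ m) * 𝔖.GamProd p 𝔄.lam * p.Γr 𝔖.ℓ * p.ϖ0 ≤ (p.Rm * (A / (2 * K))) ^ 2
  hgain : 2 * (p.L0 * p.L ^ d * p.ϖ0 ^ (p.q / 2 - 1) * (A / (2 * K)) ^ (-p.q) *
      ((Ms.card : ℝ) ^ (p.q - 1) * ∑ k ∈ Ms, 𝔄.cQ p a K r (fun k => 1 / t k) k + β₀)) ≤ Yf.card
  hϖ : 0 < ϖl
  hR' : (∏ m ∈ Finset.range 𝔖.ℓ, p.Γ m) * p.Γr 𝔖.ℓ * ϖl ≤ (p.Rm * (A / (2 * K))) ^ 2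
  hsmall : p.L0 * (A / (2 * K)) ^ (-p.q) * ϖl ^ (p.q / 2 - 1) *
      (p.L ^ d * (a.Lq ^ (𝔄.lam - 𝔄.bot) * (a.CPsi * (p.L ^ 𝔄.bot * 𝔖.D)))) ≤ Yf.card / 4
  hδ : g.δ * (𝔖.ℓ * p.ϖ0 + g.ϖb) ≤ ϖl / 2

end Claimed.Agent.R257.FR2

namespace Claimed.Agent.R257.FR3

open scoped BigOperators
open Classical Matrix
open Claimed.Agent.R255 Claimed.Agent.R257 Claimed.Agent.R257.FR2 Claimed.Agent.R257.Tree

noncomputable section

variable {k : ℕ}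

/-- the exponent of `ϖl = K^{-N}`:   `N · 2/k ≥ ℓ + 5 + 2 q` -/
def gbN (c : TCls k) : ℕ := (c.ℓ + 5) * k + 2 * (k + 2)

/-- **BUD**: the `q`-budget of the non-broad active cells -/
def GbBud (k : ℕ) : Prop :=
  ∀ (F : FCfg k) (m : ℕ), F.Ok m → F.AngOk → ∀ (j : Fin (k + 1)) (lam : ℕ) (π : GbP) (v₀ : (F.D j).Lb lam), lam ≤ F.c.ℓ → gbMu F j lam π < lam → (gbIb F j lam π v₀).Ok →
    (F.D j).sys.bud (qk k) lam ((F.D j).sys.resA (F.S j lam \ gbP1 F j lam π v₀) ((F.D j).sys.am (F.S j) lam)) ((F.D j).sys.b lam) ≤ gbβ0 F j lam π v₀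

/-- **NUM-B**: the numerical hypotheses of `tgx_main` on a configuration of high quality.   `Cg` = the constant of `ti_geo_ok`, `cg` = the gain exponent, `ε` = the exponent allowed for the path mass. -/
def GbNumB (k : ℕ) : Prop :=
  ∀ (c : TCls k) (cx : ℕ) (Cg cg ε : ℝ), c.Ok → 0 < cg → 0 < ε → ∃ m0 : ℕ, ∀ F : FCfg k, F.c = c → F.cx = cx → F.Ok m0 →
    ∀ (j : Fin (k + 1)) (lam d : ℕ), lam + d = F.c.ℓ → ∀ π : GbP, π.N = gbN c → ∀ v₀ : (F.D j).Lb lam, gbBot F j lam π ≤ lam → gbMu F j lam π < lam →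
      (∀ i ∈ gbMs F j lam π, (1 / gbT F j lam π i) ^ (tia_qa k - 1) * (F.r j i / F.r j lam) ^ (tia_qa k - qk k) ≤ F.Λ ^ (-cg)) →
      (F.r j (gbMu F j lam π) / F.r j lam) ^ (tia_qa k - qk k) ≤ F.Λ ^ (-cg) →
      ((F.D j).ang (gbIa F j lam π v₀)).NumHyp (F.tp j) ((F.D j).gp Cg) (gbAp F j) (F.A j) F.K (F.r j) Finset.univ (gbMs F j lam π) (gbT F j lam π) (gbβ0 F j lam π v₀) d (gbϖ F π) ∧
        F.Λ ^ (-ε) ≤ gbϖ F π / 2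

/-- **CNT**: the field `cnt` of `BlkDat.Ok` -/
def GbCnt (k : ℕ) : Prop :=
  ∀ (o : TOrd) (e : ℝ), 0 < e → ∃ θ0 : ℝ, 0 < θ0 ∧ θ0 ≤ 1 / 8 ∧ ∀ u : ℝ, 0 < u → ∀ (c : TCls k) (cx : ℕ), ordOf c = o → ∃ m0 : ℕ, ∀ F : FCfg k, F.c = c → F.cx = cx → F.Ok m0 → F.AngOk →
    ∀ (j : Fin (k + 1)) (lam : ℕ), lam ≤ F.c.ℓ → ∀ μ0 : ℝ, 0 < μ0 → μ0 ≤ θ0 * u / 4 → F.Mesh j μ0 (F.s j lam) (F.s j lam + 6 * u) → F.Off j (F.s j lam) (6 * u) →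
    ∀ π : GbP, π.u = u → π.θ0 = θ0 → ∀ v₀ : (F.D j).Lb lam,
      ∀ i, i ≤ lam → u / 2 ≤ F.s j i - F.s j lam → F.s j i - F.s j lam ≤ 5 * u → ∀ (τ : (F.D j).Lb lam) (c0 : ST k),
        ((((gbP0 F j lam π v₀).filter fun T : (F.D j).Cl lam => T.1.1 = τ ∧ ‖lat T.1.2 - c0‖ ≤ (F.D j).κ i / (F.D j).κ lam).card : ℕ) : ℝ) ≤
          F.Λ ^ (e * u) * ((F.D j).κ i / (F.D j).κ lam) ^ (k + 1) * (F.r j i / F.r j lam) ^ pk' k

end

end Claimed.Agent.R257.FR3
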