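import Claimed.Agent.R257.FR2.SelTop

/-!
# ROW 257, package FR3, unit FIN: THE FINAL INCIDENCE CONTRADICTION (H `frame.tex` l.1747-1809), abstract finite form      (architect + prover helper41)

Paper-free: a consequence of `TSys.Ok`, of a frozen tree and of the hypothesis structure `FinHyp` (instance: INST + FR1).   No limits, explicit losses.
`t` = the height of the ORIGINAL TRANSITION MASKS (`𝔖.C t` = the retained original masks), `near z T` = "`z` lies in the `Λ^η`-enlargement of `T`" (a SECOND incidence relation, independent of `𝔖.inc`),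
`wl` = the kernel of height `t` of the smaller order (`far`: gain `δ = Λ^{-η(Q-P)}` outside the enlargement), `ao` = the original amplitudes (`≥ σ = c S H^{-k/2}`, (f:original-amplitudes)), `ao_en` = (f:original-energy).
PROOF of `ff_main`.  (1) last occupancy deletion: `Bad` = masks of `S t` with more than `V` visits; `∑_Bad b² ≤ ϖn |Y| / V` (double counting, `near_le`), weighted budget `≤ |T| (2 r_t)^q ϖn |Y| / V`; `ts_discard_now`: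
the field of `Bad` is `≥ A/(4K)` on at most half of `Yf` (`hV`).   No reselection.   (2) far tails: `cauchy_root` + `far` + `sql_le` (`hδ`).   (3) at the remaining points the near good masks `N(z)` carry `≥ A/(2K)`;
`ev_le` + Cauchy-Schwarz over `N(z)` + `near_le`:  `(A/(2K))² ≤ (2 Ce r_t)² ϖn #N(z)`.   (4) double counting of visits: `∑_z #N(z) ≤ V #Good`.   (5) `|T| σ² #Good ≤ Ke D ≤ Ke Kb |Y| A^q`.
USE (TOP): in the instance `vol t = H^{k+2} = A^q`, `σ² A² = c² S²`, so `ff_main` reads `S² ≤ 32 c^{-2} K³ Ce² r_t² ϖn V Ke Kb = Λ^{O(η) + o(1)}` as soon as the recomputed transition ratio `r t` is `Λ^{o(1)}`.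
-/

set_option autoImplicit false

namespace Claimed.Agent.R257.FR3

open scoped BigOperators Classical
open Claimed.Agent.R257.FR2 Claimed.Agent.R257.FR2.TSys

noncomputable section

/-- the hypotheses of the final incidence count at the transition height `t` -/
structure FinHyp (𝔖 : TSys) (t : ℕ) (near : 𝔖.Y → 𝔖.C t → Prop) (wl : 𝔖.C t → 𝔖.Y → ℝ) (ao : 𝔖.C t → ℝ) (Ce δ ϖl ϖn σ Ke : ℝ) : Prop where
  t_le : t ≤ 𝔖.ℓ
  Ce_nonneg : 0 ≤ Ce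
  δ_nonneg : 0 ≤ δ
  σ_nonneg : 0 ≤ σ
  /-- a packet is bounded by its amplitude at the witnesses -/
  ev_le : ∀ T a f z, 𝔖.Pk t T a f → ‖𝔖.ev t T f z‖ ≤ Ce * a
  /-- the reserve of the kernel outside the enlargement -/
  far : ∀ T z, ¬ near z T → 𝔖.w t T z ≤ δ * wl T z
  wl_nonneg : ∀ T z, 0 ≤ wl T z
  /-- the reference square function with the kernel of the smaller order -/
  sql_le : ∀ z, ∑ T, 𝔖.b t T ^ 2 * wl T z ≤ ϖl
  /-- the reference squares of the masks whose enlargement contains `z` -/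
  near_le : ∀ z, (∑ T, if near z T then 𝔖.b t T ^ 2 else 0) ≤ ϖn
  /-- (f:original-amplitudes) -/
  ao_ge : ∀ T, σ ≤ ao T
  /-- (f:original-energy) -/
  ao_en : 𝔖.vol t * ∑ T, ao T ^ 2 ≤ Ke * 𝔖.D

variable {𝔖 : TSys} {p : TPar} {t : ℕ}

/-- number of visits of a mask -/
def ffOcc (near : 𝔖.Y → 𝔖.C t → Prop) (T : 𝔖.C t) : ℕ := (Finset.univ.filter fun z => near z T).card

theorem ff_pt {a b r q : ℝ} (hq : 2 < q) (ha : 0 ≤ a) (hb : 0 < b) (hr : 0 < r) (h2 : a ≤ 2 * r * b) : a ^ q * b ^ (2 - q) ≤ (2 * r) ^ q * b ^ 2 := by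
  have h3 : a ^ q ≤ (2 * r * b) ^ q := Real.rpow_le_rpow ha h2 (by linarith)
  have h4 : (2 * r) ^ q * b ^ 2 = (2 * r * b) ^ q * b ^ (2 - q) := by
    rw [Real.mul_rpow (by positivity) hb.le, mul_assoc, ← Real.rpow_add hb]
    congr 1
    rw [← Real.rpow_natCast b 2]
    congr 1
    push_cast
    ring
  rw [h4]
  exact mul_le_mul_of_nonneg_right h3 (by positivity)

/-- double counting of the visits, weighted with the reference squares -/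
theorem ff_visits (near : 𝔖.Y → 𝔖.C t → Prop) (ϖn : ℝ) (hn : ∀ z, (∑ T, if near z T then 𝔖.b t T ^ 2 else 0) ≤ ϖn) :
    ∑ T, 𝔖.b t T ^ 2 * (ffOcc near T : ℝ) ≤ Fintype.card 𝔖.Y * ϖn := by
  have h1 : ∀ T, 𝔖.b t T ^ 2 * (ffOcc near T : ℝ) = ∑ z, if near z T then 𝔖.b t T ^ 2 else 0 := by
    intro T
    unfold ffOcc
    rw [Finset.card_filter]
    push_cast
    rw [Finset.mul_sum]
    refine Finset.sum_congr rfl fun z _ => ?_
    split_ifs <;> simp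
  calc ∑ T, 𝔖.b t T ^ 2 * (ffOcc near T : ℝ) = ∑ T, ∑ z, if near z T then 𝔖.b t T ^ 2 else 0 := Finset.sum_congr rfl fun T _ => h1 T
    _ = ∑ z, ∑ T, if near z T then 𝔖.b t T ^ 2 else 0 := Finset.sum_comm
    _ ≤ ∑ _z : 𝔖.Y, ϖn := Finset.sum_le_sum fun z _ => hn z
    _ = Fintype.card 𝔖.Y * ϖn := by simp

variable {A K G : ℝ} {S : ∀ i, Finset (𝔖.C i)} {r : ℕ → ℝ} {Yf : Finset 𝔖.Y}

/-- (1a) the weighted budget of the masks with more than `V` visits -/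
theorem ff_bad_bud (h : 𝔖.Ok p) (hF : 𝔖.Frozen p.q A K G S r Yf) (ht : t ≤ 𝔖.ℓ) (near : 𝔖.Y → 𝔖.C t → Prop) (ϖn V : ℝ) (hV : 0 < V)
    (hn : ∀ z, (∑ T, if near z T then 𝔖.b t T ^ 2 else 0) ≤ ϖn) :
    𝔖.bud p.q t (𝔖.resA ((S t).filter fun T => V < ffOcc near T) (𝔖.am S t)) (𝔖.b t) ≤ 𝔖.vol t * (2 * r t) ^ p.q * (Fintype.card 𝔖.Y * ϖn / V) := by
  have hq := h.q_gt
  have hvol := (h.vol_pos t).le
  have hr := hF.r_pos t
  have hc : 0 ≤ 𝔖.vol t * (2 * r t) ^ p.q := mul_nonneg hvol (Real.rpow_nonneg (by positivity) _)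
  rw [tsl_bud_res p.q (by linarith)]
  calc ∑ T ∈ (S t).filter fun T => V < ffOcc near T, 𝔖.vol t * 𝔖.am S t T ^ p.q * 𝔖.b t T ^ (2 - p.q)
      ≤ ∑ T ∈ (S t).filter fun T => V < ffOcc near T, 𝔖.vol t * (2 * r t) ^ p.q * (𝔖.b t T ^ 2 * (ffOcc near T : ℝ) / V) := by
        refine Finset.sum_le_sum fun T hT => ?_
        obtain ⟨hTS, hTV⟩ := Finset.mem_filter.1 hT
        obtain ⟨hb, -, h2⟩ := hF.ratio t ht T hTS
        have h3 := ff_pt hq (tpf_am_nonneg h S t T) hb hr h2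
        have h4 : 𝔖.b t T ^ 2 ≤ 𝔖.b t T ^ 2 * (ffOcc near T : ℝ) / V := by
          rw [le_div_iff₀ hV]
          exact mul_le_mul_of_nonneg_left hTV.le (sq_nonneg _)
        calc 𝔖.vol t * 𝔖.am S t T ^ p.q * 𝔖.b t T ^ (2 - p.q) = 𝔖.vol t * (𝔖.am S t T ^ p.q * 𝔖.b t T ^ (2 - p.q)) := by ring
          _ ≤ 𝔖.vol t * ((2 * r t) ^ p.q * 𝔖.b t T ^ 2) := mul_le_mul_of_nonneg_left h3 hvol
          _ = 𝔖.vol t * (2 * r t) ^ p.q * 𝔖.b t T ^ 2 := by ring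
          _ ≤ _ := mul_le_mul_of_nonneg_left h4 hc
    _ ≤ ∑ T, 𝔖.vol t * (2 * r t) ^ p.q * (𝔖.b t T ^ 2 * (ffOcc near T : ℝ) / V) :=
        Finset.sum_le_univ_sum_of_nonneg fun T => mul_nonneg hc (div_nonneg (mul_nonneg (sq_nonneg _) (Nat.cast_nonneg _)) hV.le)
    _ = 𝔖.vol t * (2 * r t) ^ p.q * ((∑ T, 𝔖.b t T ^ 2 * (ffOcc near T : ℝ)) / V) := by rw [← Finset.mul_sum, ← Finset.sum_div]
    _ ≤ _ := mul_le_mul_of_nonneg_left (div_le_div_of_nonneg_right (ff_visits near ϖn hn) hV.le) hc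

/-- (1b) the last occupancy deletion costs at most half of the retained witnesses -/
theorem ff_exc (h : 𝔖.Ok p) (hF : 𝔖.Frozen p.q A K G S r Yf) (hA : 0 < A) (hK : 0 < K) (ht : t ≤ 𝔖.ℓ) (near : 𝔖.Y → 𝔖.C t → Prop) (ϖn V : ℝ) (hV : 0 < V)
    (hn : ∀ z, (∑ T, if near z T then 𝔖.b t T ^ 2 else 0) ≤ ϖn) (hϖn : 0 ≤ ϖn)
    (hR : (2 * r t) ^ 2 * 𝔖.GamProd p t * p.Γr 𝔖.ℓ * p.ϖ0 ≤ (p.Rm * (A / (4 * K)) / 2) ^ 2)
    (hη : (p.η * 𝔖.ℓ) ^ 2 * ((2 * r t) ^ 2 * 𝔖.GamProd p t * p.ϖ0) ≤ (A / (4 * K) / 2) ^ 2)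
    (hVbig : 2 * K * (2 ^ p.q * p.L0 * p.L ^ (𝔖.ℓ - t) * p.ϖ0 ^ (p.q / 2 - 1) * (A / (4 * K)) ^ (-p.q) * (𝔖.vol t * (2 * r t) ^ p.q * ϖn)) ≤ V) :
    ((Finset.univ.filter fun z => A / (4 * K) ≤ ‖𝔖.Ev t (𝔖.res ((S t).filter fun T => V < ffOcc near T) (𝔖.fld S t)) z‖).card : ℝ) ≤ Yf.card / 2 := by
  have hr := hF.r_pos t
  have hθ : 0 < A / (4 * K) := by positivity
  have hL0 := le_trans zero_le_one h.one_le_L0
  have hL := le_trans zero_le_one h.one_le_L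
  have hϖ0 := le_trans zero_le_one h.one_le_ϖ0
  have hvol := (h.vol_pos t).le
  set c0 : ℝ := 2 ^ p.q * p.L0 * p.L ^ (𝔖.ℓ - t) * p.ϖ0 ^ (p.q / 2 - 1) * (A / (4 * K)) ^ (-p.q) with hc0
  have hc0n : 0 ≤ c0 := by positivity
  have key := ts_discard_now 𝔖 p h t ht (𝔖.res ((S t).filter fun T => V < ffOcc near T) (𝔖.fld S t)) (𝔖.resA ((S t).filter fun T => V < ffOcc near T) (𝔖.am S t))
    (tsl_adm_res h (tpf_adm h S t ht) _) (2 * r t) (A / (4 * K)) hθ (fun T => by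
      unfold TSys.resA
      split_ifs with hT
      · exact (hF.ratio t ht T (Finset.mem_filter.1 hT).1).2.2
      · exact mul_nonneg (by positivity) (h.b_nonneg t T)) hR hη
  have hb := ff_bad_bud h hF ht near ϖn V hV hn
  have hm : 0 ≤ 𝔖.vol t * (2 * r t) ^ p.q * ϖn := mul_nonneg (mul_nonneg hvol (Real.rpow_nonneg (by positivity) _)) hϖn
  calc _ ≤ c0 * 𝔖.bud p.q t (𝔖.resA ((S t).filter fun T => V < ffOcc near T) (𝔖.am S t)) (𝔖.b t) := key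
    _ ≤ c0 * (𝔖.vol t * (2 * r t) ^ p.q * (Fintype.card 𝔖.Y * ϖn / V)) := mul_le_mul_of_nonneg_left hb hc0n
    _ = c0 * (𝔖.vol t * (2 * r t) ^ p.q * ϖn) / V * Fintype.card 𝔖.Y := by ring
    _ ≤ c0 * (𝔖.vol t * (2 * r t) ^ p.q * ϖn) / V * (K * Yf.card) :=
        mul_le_mul_of_nonneg_left hF.card_le (div_nonneg (mul_nonneg hc0n hm) hV.le)
    _ = (2 * K * (c0 * (𝔖.vol t * (2 * r t) ^ p.q * ϖn))) / V * (Yf.card / 2) := by ring
    _ ≤ 1 * (Yf.card / 2) := mul_le_mul_of_nonneg_right ((div_le_one hV).2 hVbig) (by positivity)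
    _ = _ := one_mul _

/-- (2) the far tails of any part of the selected transition layer are negligible -/
theorem ff_far (h : 𝔖.Ok p) (hF : 𝔖.Frozen p.q A K G S r Yf) {near : 𝔖.Y → 𝔖.C t → Prop} {wl : 𝔖.C t → 𝔖.Y → ℝ} {ao : 𝔖.C t → ℝ} {Ce δ ϖl ϖn σ Ke : ℝ}
    (hH : FinHyp 𝔖 t near wl ao Ce δ ϖl ϖn σ Ke) (M : Finset (𝔖.C t)) (hM : M ⊆ S t) (z : 𝔖.Y) (hMz : ∀ T ∈ M, ¬ near z T) :
    ‖𝔖.Ev t (𝔖.res M (𝔖.fld S t)) z‖ ^ 2 ≤ p.Γr t * ((2 * r t) ^ 2 * (δ * ϖl)) := by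
  have ht := hH.t_le
  have hr := hF.r_pos t
  have hΓ : 0 ≤ p.Γr t := le_trans zero_le_one (h.one_le_Γr t)
  refine le_trans (h.cauchy_root t ht _ _ (tsl_adm_res h (tpf_adm h S t ht) M) z) (mul_le_mul_of_nonneg_left ?_ hΓ)
  unfold TSys.sq
  calc ∑ T, 𝔖.resA M (𝔖.am S t) T ^ 2 * 𝔖.w t T z ≤ ∑ T, (2 * r t) ^ 2 * (δ * (𝔖.b t T ^ 2 * wl T z)) := by
        refine Finset.sum_le_sum fun T _ => ?_
        unfold TSys.resA
        split_ifs with hT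
        · obtain ⟨hb, -, h2⟩ := hF.ratio t ht T (hM hT)
          have h3 : 𝔖.am S t T ^ 2 ≤ (2 * r t * 𝔖.b t T) ^ 2 := pow_le_pow_left₀ (tpf_am_nonneg h S t T) h2 2
          calc 𝔖.am S t T ^ 2 * 𝔖.w t T z ≤ (2 * r t * 𝔖.b t T) ^ 2 * (δ * wl T z) :=
                mul_le_mul h3 (hH.far T z (hMz T hT)) (h.w_nonneg t T z) (sq_nonneg _)
            _ = _ := by ring
        · have := hH.wl_nonneg T z
          have := hH.δ_nonneg
          simp only [ne_eq, OfNat.ofNat_ne_zero, not_false_eq_true, zero_pow, zero_mul]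
          positivity
    _ = (2 * r t) ^ 2 * (δ * ∑ T, 𝔖.b t T ^ 2 * wl T z) := by rw [Finset.mul_sum, Finset.mul_sum]
    _ ≤ _ := mul_le_mul_of_nonneg_left (mul_le_mul_of_nonneg_left (hH.sql_le z) hH.δ_nonneg) (sq_nonneg _)

/-- (3) absolute summation + Cauchy-Schwarz over the near masks -/
theorem ff_near (h : 𝔖.Ok p) (hF : 𝔖.Frozen p.q A K G S r Yf) {near : 𝔖.Y → 𝔖.C t → Prop} {wl : 𝔖.C t → 𝔖.Y → ℝ} {ao : 𝔖.C t → ℝ} {Ce δ ϖl ϖn σ Ke : ℝ}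
    (hH : FinHyp 𝔖 t near wl ao Ce δ ϖl ϖn σ Ke) (M : Finset (𝔖.C t)) (hM : M ⊆ S t) (z : 𝔖.Y) (hMz : ∀ T ∈ M, near z T) :
    ‖𝔖.Ev t (𝔖.res M (𝔖.fld S t)) z‖ ^ 2 ≤ (2 * Ce * r t) ^ 2 * (M.card * ϖn) := by
  have ht := hH.t_le
  have hr := hF.r_pos t
  have hCe := hH.Ce_nonneg
  rw [tsl_Ev_res h]
  have h1 : ‖∑ T ∈ M, 𝔖.ev t T (𝔖.fld S t T) z‖ ≤ 2 * Ce * r t * ∑ T ∈ M, 𝔖.b t T := by
    refine le_trans (norm_sum_le _ _) ?_
    rw [Finset.mul_sum]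
    refine Finset.sum_le_sum fun T hT => ?_
    refine le_trans (hH.ev_le T _ _ z (tpf_adm h S t ht T)) ?_
    have := mul_le_mul_of_nonneg_left (hF.ratio t ht T (hM hT)).2.2 hCe
    linarith
  have h2 : (∑ T ∈ M, 𝔖.b t T) ^ 2 ≤ M.card * ∑ T ∈ M, 𝔖.b t T ^ 2 := sq_sum_le_card_mul_sum_sq
  have h3 : ∑ T ∈ M, 𝔖.b t T ^ 2 ≤ ϖn := by
    refine le_trans ?_ (hH.near_le z)
    calc ∑ T ∈ M, 𝔖.b t T ^ 2 = ∑ T ∈ M, if near z T then 𝔖.b t T ^ 2 else 0 := Finset.sum_congr rfl fun T hT => by rw [if_pos (hMz T hT)]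
      _ ≤ _ := Finset.sum_le_univ_sum_of_nonneg fun T => by split_ifs <;> positivity
  calc ‖∑ T ∈ M, 𝔖.ev t T (𝔖.fld S t T) z‖ ^ 2 ≤ (2 * Ce * r t * ∑ T ∈ M, 𝔖.b t T) ^ 2 := pow_le_pow_left₀ (norm_nonneg _) h1 2
    _ = (2 * Ce * r t) ^ 2 * (∑ T ∈ M, 𝔖.b t T) ^ 2 := by ring
    _ ≤ (2 * Ce * r t) ^ 2 * (M.card * ∑ T ∈ M, 𝔖.b t T ^ 2) := mul_le_mul_of_nonneg_left h2 (sq_nonneg _)
    _ ≤ _ := mul_le_mul_of_nonneg_left (mul_le_mul_of_nonneg_left h3 (Nat.cast_nonneg _)) (sq_nonneg _)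

/-- (1)-(3) at a witness outside the exceptional set: many near masks with at most `V` visits -/
theorem ff_count (h : 𝔖.Ok p) (hF : 𝔖.Frozen p.q A K G S r Yf) (hA : 0 < A) (hK : 0 < K) {near : 𝔖.Y → 𝔖.C t → Prop} {wl : 𝔖.C t → 𝔖.Y → ℝ} {ao : 𝔖.C t → ℝ}
    {Ce δ ϖl ϖn σ Ke : ℝ} (hH : FinHyp 𝔖 t near wl ao Ce δ ϖl ϖn σ Ke) (V : ℝ) (hδ : p.Γr t * ((2 * r t) ^ 2 * (δ * ϖl)) ≤ (A / (4 * K)) ^ 2)
    (z : 𝔖.Y) (hz : z ∈ Yf) (hzE : ‖𝔖.Ev t (𝔖.res ((S t).filter fun T => V < ffOcc near T) (𝔖.fld S t)) z‖ < A / (4 * K)) :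
    (A / (2 * K)) ^ 2 ≤ (2 * Ce * r t) ^ 2 * ((((S t).filter fun T => ¬ V < ffOcc near T).filter fun T => near z T).card * ϖn) := by
  have ht := hH.t_le
  set Bad := (S t).filter fun T => V < ffOcc near T with hBad
  set Good := (S t).filter fun T => ¬ V < ffOcc near T with hGood
  have hθ : 0 < A / (4 * K) := by positivity
  have hsplit : 𝔖.Ev t (𝔖.res (S t) (𝔖.fld S t)) z = 𝔖.Ev t (𝔖.res Bad (𝔖.fld S t)) z + (𝔖.Ev t (𝔖.res (Good.filter fun T => near z T) (𝔖.fld S t)) z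
      + 𝔖.Ev t (𝔖.res (Good.filter fun T => ¬ near z T) (𝔖.fld S t)) z) := by
    rw [tsl_Ev_res h, tsl_Ev_res h, tsl_Ev_res h, tsl_Ev_res h, Finset.sum_filter_add_sum_filter_not, hBad, hGood, Finset.sum_filter_add_sum_filter_not]
  have hGS : Good ⊆ S t := Finset.filter_subset _ _
  have hfar := ff_far h hF hH (Good.filter fun T => ¬ near z T) ((Finset.filter_subset _ _).trans hGS) z (fun T hT => (Finset.mem_filter.1 hT).2)
  have hfar2 : ‖𝔖.Ev t (𝔖.res (Good.filter fun T => ¬ near z T) (𝔖.fld S t)) z‖ ≤ A / (4 * K) :=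
    (abs_le_of_sq_le_sq' (le_trans hfar hδ) hθ.le).2
  have hnear := ff_near h hF hH (Good.filter fun T => near z T) ((Finset.filter_subset _ _).trans hGS) z (fun T hT => (Finset.mem_filter.1 hT).2)
  have hhigh := hF.high t ht z hz
  have h1 : A / K ≤ ‖𝔖.Ev t (𝔖.res (S t) (𝔖.fld S t)) z‖ := by rw [div_le_iff₀ hK]; linarith
  have h2 : ‖𝔖.Ev t (𝔖.res (S t) (𝔖.fld S t)) z‖ ≤ ‖𝔖.Ev t (𝔖.res Bad (𝔖.fld S t)) z‖ + (‖𝔖.Ev t (𝔖.res (Good.filter fun T => near z T) (𝔖.fld S t)) z‖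
      + ‖𝔖.Ev t (𝔖.res (Good.filter fun T => ¬ near z T) (𝔖.fld S t)) z‖) := by
    rw [hsplit]
    exact le_trans (norm_add_le _ _) (add_le_add le_rfl (norm_add_le _ _))
  have h3 : A / K = A / (2 * K) + A / (4 * K) + A / (4 * K) := by field_simp; ring
  have h4 : A / (2 * K) ≤ ‖𝔖.Ev t (𝔖.res (Good.filter fun T => near z T) (𝔖.fld S t)) z‖ := by linarith
  exact le_trans (pow_le_pow_left₀ (by positivity) h4 2) hnear

/-- (4) double counting of the visits of the masks with at most `V` visits -/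
theorem ff_double (near : 𝔖.Y → 𝔖.C t → Prop) (V : ℝ) (M : Finset (𝔖.C t)) (hM : ∀ T ∈ M, ¬ V < ffOcc near T) (Y' : Finset 𝔖.Y) :
    ∑ z ∈ Y', (((M.filter fun T => near z T).card : ℕ) : ℝ) ≤ M.card * V := by
  have h1 : ∀ z, (((M.filter fun T => near z T).card : ℕ) : ℝ) = ∑ T ∈ M, if near z T then (1 : ℝ) else 0 := by
    intro z
    rw [Finset.card_filter]
    push_cast
    rfl
  calc ∑ z ∈ Y', (((M.filter fun T => near z T).card : ℕ) : ℝ) = ∑ z ∈ Y', ∑ T ∈ M, if near z T then (1 : ℝ) else 0 := Finset.sum_congr rfl fun z _ => h1 z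
    _ = ∑ T ∈ M, ∑ z ∈ Y', if near z T then (1 : ℝ) else 0 := Finset.sum_comm
    _ ≤ ∑ _T ∈ M, V := by
        refine Finset.sum_le_sum fun T hT => ?_
        refine le_trans ?_ (not_lt.1 (hM T hT))
        unfold ffOcc
        rw [Finset.card_filter]
        push_cast
        exact Finset.sum_le_univ_sum_of_nonneg fun z => by split_ifs <;> norm_num
    _ = M.card * V := by simp

/-- **FIN, the final incidence inequality.**   In the instance `vol t = A^q` and `σ² A² = c² S²`: the excess `S` of the original transition amplitudes is bounded by the losses. -/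
theorem ff_main (h : 𝔖.Ok p) (hF : 𝔖.Frozen p.q A K G S r Yf) (hA : 0 < A) (hK : 0 < K) (hY : Yf.Nonempty) {near : 𝔖.Y → 𝔖.C t → Prop} {wl : 𝔖.C t → 𝔖.Y → ℝ}
    {ao : 𝔖.C t → ℝ} {Ce δ ϖl ϖn σ Ke : ℝ} (hH : FinHyp 𝔖 t near wl ao Ce δ ϖl ϖn σ Ke) (V Kb : ℝ) (hV : 0 < V) (hKe : 0 ≤ Ke) (hKb : 0 ≤ Kb)
    (hbal : 𝔖.D ≤ Kb * (Fintype.card 𝔖.Y * A ^ p.q))
    (hR : (2 * r t) ^ 2 * 𝔖.GamProd p t * p.Γr 𝔖.ℓ * p.ϖ0 ≤ (p.Rm * (A / (4 * K)) / 2) ^ 2)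
    (hη : (p.η * 𝔖.ℓ) ^ 2 * ((2 * r t) ^ 2 * 𝔖.GamProd p t * p.ϖ0) ≤ (A / (4 * K) / 2) ^ 2)
    (hδ : p.Γr t * ((2 * r t) ^ 2 * (δ * ϖl)) ≤ (A / (4 * K)) ^ 2)
    (hVbig : 2 * K * (2 ^ p.q * p.L0 * p.L ^ (𝔖.ℓ - t) * p.ϖ0 ^ (p.q / 2 - 1) * (A / (4 * K)) ^ (-p.q) * (𝔖.vol t * (2 * r t) ^ p.q * ϖn)) ≤ V) :
    𝔖.vol t * σ ^ 2 * A ^ 2 ≤ 32 * K ^ 3 * Ce ^ 2 * r t ^ 2 * ϖn * V * Ke * Kb * A ^ p.q := by
  have ht := hH.t_le
  obtain ⟨z0, hz0⟩ := hY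
  have hϖn : 0 ≤ ϖn := le_trans (Finset.sum_nonneg fun T _ => by split_ifs <;> positivity) (hH.near_le z0)
  have hvol := (h.vol_pos t).le
  have hAq : 0 ≤ A ^ p.q := Real.rpow_nonneg hA.le _
  set Good := (S t).filter fun T => ¬ V < ffOcc near T with hGood
  set Y' := Yf.filter fun z => ¬ A / (4 * K) ≤ ‖𝔖.Ev t (𝔖.res ((S t).filter fun T => V < ffOcc near T) (𝔖.fld S t)) z‖ with hY'
  have hexc := ff_exc h hF hA hK ht near ϖn V hV hH.near_le hϖn hR hη hVbig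
  -- half of the witnesses survive
  have hcard : (Yf.card : ℝ) ≤ 2 * Y'.card := by
    have h1 : Yf.card = (Yf.filter fun z => A / (4 * K) ≤ ‖𝔖.Ev t (𝔖.res ((S t).filter fun T => V < ffOcc near T) (𝔖.fld S t)) z‖).card + Y'.card :=
      (Finset.card_filter_add_card_filter_not _).symm
    have h2 : (Yf.filter fun z => A / (4 * K) ≤ ‖𝔖.Ev t (𝔖.res ((S t).filter fun T => V < ffOcc near T) (𝔖.fld S t)) z‖).card
        ≤ (Finset.univ.filter fun z => A / (4 * K) ≤ ‖𝔖.Ev t (𝔖.res ((S t).filter fun T => V < ffOcc near T) (𝔖.fld S t)) z‖).card :=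
      Finset.card_le_card (Finset.filter_subset_filter _ (Finset.subset_univ _))
    have h3 : (Yf.card : ℝ) = ((Yf.filter fun z => A / (4 * K) ≤ ‖𝔖.Ev t (𝔖.res ((S t).filter fun T => V < ffOcc near T) (𝔖.fld S t)) z‖).card : ℝ) + Y'.card := by
      exact_mod_cast h1
    have h4 : ((Yf.filter fun z => A / (4 * K) ≤ ‖𝔖.Ev t (𝔖.res ((S t).filter fun T => V < ffOcc near T) (𝔖.fld S t)) z‖).card : ℝ)
        ≤ ((Finset.univ.filter fun z => A / (4 * K) ≤ ‖𝔖.Ev t (𝔖.res ((S t).filter fun T => V < ffOcc near T) (𝔖.fld S t)) z‖).card : ℝ) := by exact_mod_cast h2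
    linarith
  have hYfpos : (0 : ℝ) < Yf.card := by exact_mod_cast Finset.card_pos.2 ⟨z0, hz0⟩
  have hn' : (0 : ℝ) < Y'.card := by linarith
  -- (i) the count
  have hi : (Y'.card : ℝ) * (A / (2 * K)) ^ 2 ≤ (2 * Ce * r t) ^ 2 * ϖn * (Good.card * V) := by
    calc (Y'.card : ℝ) * (A / (2 * K)) ^ 2 = ∑ _z ∈ Y', (A / (2 * K)) ^ 2 := by simp
      _ ≤ ∑ z ∈ Y', (2 * Ce * r t) ^ 2 * (((Good.filter fun T => near z T).card : ℕ) * ϖn) := by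
          refine Finset.sum_le_sum fun z hz => ?_
          obtain ⟨hzY, hzE⟩ := Finset.mem_filter.1 hz
          exact ff_count h hF hA hK hH V hδ z hzY (not_le.1 hzE)
      _ = (2 * Ce * r t) ^ 2 * ϖn * ∑ z ∈ Y', (((Good.filter fun T => near z T).card : ℕ) : ℝ) := by
          rw [Finset.mul_sum]
          exact Finset.sum_congr rfl fun z _ => by ring
      _ ≤ _ := mul_le_mul_of_nonneg_left (ff_double near V Good (fun T hT => (Finset.mem_filter.1 hT).2) Y') (mul_nonneg (sq_nonneg _) hϖn)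
  -- (ii) the original energy
  have hii : 𝔖.vol t * σ ^ 2 * Good.card ≤ Ke * (Kb * (K * (2 * Y'.card) * A ^ p.q)) := by
    have h1 : σ ^ 2 * Good.card ≤ ∑ T, ao T ^ 2 := by
      calc σ ^ 2 * Good.card = ∑ _T ∈ Good, σ ^ 2 := by simp [mul_comm]
        _ ≤ ∑ T ∈ Good, ao T ^ 2 := Finset.sum_le_sum fun T _ => pow_le_pow_left₀ hH.σ_nonneg (hH.ao_ge T) 2
        _ ≤ _ := Finset.sum_le_univ_sum_of_nonneg fun T => sq_nonneg _
    calc 𝔖.vol t * σ ^ 2 * Good.card = 𝔖.vol t * (σ ^ 2 * Good.card) := by ring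
      _ ≤ 𝔖.vol t * ∑ T, ao T ^ 2 := mul_le_mul_of_nonneg_left h1 hvol
      _ ≤ Ke * 𝔖.D := hH.ao_en
      _ ≤ Ke * (Kb * (Fintype.card 𝔖.Y * A ^ p.q)) := mul_le_mul_of_nonneg_left hbal hKe
      _ ≤ _ := by
          refine mul_le_mul_of_nonneg_left (mul_le_mul_of_nonneg_left (mul_le_mul_of_nonneg_right ?_ hAq) hKb) hKe
          exact le_trans hF.card_le (mul_le_mul_of_nonneg_left hcard hK.le)
  -- the end
  have hc : 0 ≤ (2 * Ce * r t) ^ 2 * ϖn * V := mul_nonneg (mul_nonneg (sq_nonneg _) hϖn) hV.le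
  have hfin : (Y'.card : ℝ) * (𝔖.vol t * σ ^ 2 * (A / (2 * K)) ^ 2) ≤ (Y'.card : ℝ) * ((2 * Ce * r t) ^ 2 * ϖn * V * (Ke * (Kb * (K * 2 * A ^ p.q)))) := by
    calc (Y'.card : ℝ) * (𝔖.vol t * σ ^ 2 * (A / (2 * K)) ^ 2) = 𝔖.vol t * σ ^ 2 * ((Y'.card : ℝ) * (A / (2 * K)) ^ 2) := by ring
      _ ≤ 𝔖.vol t * σ ^ 2 * ((2 * Ce * r t) ^ 2 * ϖn * (Good.card * V)) := mul_le_mul_of_nonneg_left hi (mul_nonneg hvol (sq_nonneg _))
      _ = (2 * Ce * r t) ^ 2 * ϖn * V * (𝔖.vol t * σ ^ 2 * Good.card) := by ring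
      _ ≤ (2 * Ce * r t) ^ 2 * ϖn * V * (Ke * (Kb * (K * (2 * Y'.card) * A ^ p.q))) := mul_le_mul_of_nonneg_left hii hc
      _ = _ := by ring
  have hfin2 := le_of_mul_le_mul_left hfin hn'
  have h5 : 𝔖.vol t * σ ^ 2 * (A / (2 * K)) ^ 2 = 𝔖.vol t * σ ^ 2 * A ^ 2 / (4 * K ^ 2) := by field_simp; ring
  rw [h5, div_le_iff₀ (by positivity)] at hfin2
  calc 𝔖.vol t * σ ^ 2 * A ^ 2 ≤ _ := hfin2
    _ = _ := by ring

end

end Claimed.Agent.R257.FR3
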