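import Claimed.Agent.R257.FR3.TopDefs
import Claimed.Agent.R257.Tree.TG
import Claimed.Agent.R257.FR2.PathJoint

/-!
# ROW 257, package FR3: THE BLOCK PACKAGE `GBlk` = concrete exit of BROAD + ANG + INFL for ONE profile block      (architect helper121)          CONTRACT

NOTHING is sorried in this file (definitions only).   Paper: H `frame.tex` l.1010-1138 (`f:angular`), l.1142-1255 (`f:inflation`).   Language: `FCfg` (`FR3/TopDefs.lean`, helper41), `TDat.geo` (`Tree/TG.lean`, helper155), `TGeo` (`FR2/PathDef.lean`, helper125).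
CONSUMERS: the adapters of BIN (`GTestB`, helper121: `FR3/BinAd*.lean`) and of MID (`GTestM`: field `sep`, helper276).      PRODUCERS: ANG exit (helper37, helper125) + ANG-INST + INFL (helper271, helper162, helper87).

ONE field `j`, ONE cap height `lam` (parameter `l = F.s j lam`), block length `u`;  everything in the NATIVE coordinates of the caps `τ` of height `lam`, written as functions on `Fin (k+1)`, coordinate `0` = TIME (`stv`).
* `F.npos j lam (y, τ)`   native position of the witness `y` in the frame of `τ`;      `F.ndir j lam ω = (1, 2 κ_lam (fr ω - fr (anc lam ω)))`  = `(1, 2 × native velocity)` of the leaf direction `ω`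
* `F.ngrp j lam Rb (y, τ)` = (cap, macro box of native side `Rb`);  the macro boxes of the package have the side `Λ^{5u}`
* `F.lcap j lam z τ`      `= ∑_{ω under τ} a_ω(z)`  the leaf square weight of the cap (its sum over `τ` is `≤ ϖ0`: the lower half of the cap law holds with it, `fp_exc`)
* `BlkDat F j lam`        `P0` = the retained BROAD active cells of height `lam`, `R` = restriction of the frozen tree (macro dependent angular omissions), `J` = ANY kernel `0 ≤ J ≤ Jn R` (main case `J = Jn R`), `Y'` = root set, `ν g` = pruned reference law of the group `g`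
* `BlkDat.Ok u γ K`       `dom` (pointwise domination of the kernel by the reference law), `strip` (`ν g` gives mass `≤ K r^γ` to every affine hyperplane strip of width `r ∈ [Λ^{-u}, 1]`), `cnt` (INFL: UNIFORM count of the cells of `P0` in isotropic native balls)
* `GBlk k`                quantifiers:  orders `o` (with `o.Room k`), slope `x`  →  `γ`  →  loss exponent `e`  →  slope tolerance `e1`, window `V`  →  `u`  →  mesh `μ0`  →  class  →  quality `m0`.
-/

set_option autoImplicit false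

namespace Claimed.Agent.R257.FR3

open scoped BigOperators
open Classical Matrix
open Claimed.Agent.R255 Claimed.Agent.R257 Claimed.Agent.R257.FR2 Claimed.Agent.R257.Tree

noncomputable section

variable {k : ℕ}

/-- a space-time vector as a function on `Fin (k+1)`, coordinate `0` = TIME -/
def stv (X : ST k) : Fin (k + 1) → ℝ := Fin.cons X.2 (fun i => X.1 i)

namespace FCfg

variable (F : FCfg k) (j : Fin (k + 1)) (lam : ℕ)

/-- native position of the witness in the frame of the cap of height `lam` -/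
def npos (x : (F.D j).Y × (F.D j).Lb lam) : Fin (k + 1) → ℝ := stv (natX ((F.D j).κ lam) ((F.D j).fr lam x.2) ((F.D j).pt x.1))

/-- `(1, 2 × native velocity)` of a leaf direction in the frame of its ancestor of height `lam` -/
def ndir (ω : (F.D j).Lb 0) : Fin (k + 1) → ℝ :=
  stv ((2 * (F.D j).κ lam) • ((F.D j).fr 0 ω - (F.D j).fr lam ((F.D j).anc lam ω)), 1)

/-- (cap, macro box of native side `Rb`) -/
def ngrp (Rb : ℝ) (x : (F.D j).Y × (F.D j).Lb lam) : (F.D j).Lb lam × (Fin (k + 1) → ℤ) := (x.2, fun l => ⌊F.npos j lam x l / Rb⌋)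

/-- the leaf square weight of a cap of height `lam` -/
def lcap (z : (F.D j).Y) (τ : (F.D j).Lb lam) : ℝ := ∑ ω : (F.D j).Lb 0, if (F.D j).anc lam ω = τ then (F.D j).geo.leafw z ω else 0

/-- the occupancy size `M_i = |T| (r_i / A)^q` -/
def Mo (i : ℕ) : ℝ := (F.D j).sys.Mocc (qk k) (F.A j) (F.r j) i

end FCfg

/-- the data of the block package -/
structure BlkDat (F : FCfg k) (j : Fin (k + 1)) (lam : ℕ) where
  /-- the retained broad active cells -/
  P0 : Finset ((F.D j).sys.C lam)
  /-- the restriction of the frozen tree -/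
  R : (F.D j).geo.Restr
  /-- the path kernel -/
  J : (F.D j).Y → (F.D j).Lb 0 → ℝ
  /-- the root set -/
  Y' : Finset (F.D j).Y
  /-- the pruned reference laws of the groups (cap, macro box) -/
  ν : (F.D j).Lb lam × (Fin (k + 1) → ℤ) → (F.D j).Lb 0 → ℝ

/-- **the properties of the block package**: block length `u`, strip exponent `γ`, loss `K` -/
structure BlkDat.Ok {F : FCfg k} {j : Fin (k + 1)} {lam : ℕ} (B : BlkDat F j lam) (u γ K : ℝ) : Prop where
  R_sub : ∀ i ω, B.R i ω ⊆ F.S j i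
  R_lam : ∀ ω, B.R lam ω ⊆ B.P0
  J_nonneg : ∀ z ω, 0 ≤ B.J z ω
  J_le : ∀ z ω, B.J z ω ≤ (F.D j).geo.Jn B.R z ω
  /-- the root set loses only the factor `K` -/
  card : (Fintype.card (F.D j).Y : ℝ) ≤ K * B.Y'.card
  /-- low path mass is exceptional -/
  mass : ∀ z ∈ B.Y', K⁻¹ ≤ ∑ ω, B.J z ω
  ν_nonneg : ∀ g ω, 0 ≤ B.ν g ω
  ν_sum : ∀ g, ∑ ω, B.ν g ω ≤ 1
  /-- pointwise domination by the reference law of the macro box of `z` -/
  dom : ∀ z ω, B.J z ω ≤ K * B.ν (F.ngrp j lam (F.Λ ^ (5 * u)) (z, (F.D j).anc lam ω)) ω * F.lcap j lam z ((F.D j).anc lam ω)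
  /-- `f:angular` -/
  strip : ∀ g (w : Fin (k + 1) → ℝ), ∑ l, |w l| = 1 → ∀ r : ℝ, F.Λ ^ (-u) ≤ r → r ≤ 1 → ∑ ω with |w ⬝ᵥ F.ndir j lam ω| ≤ r, B.ν g ω ≤ K * r ^ γ
  /-- `f:inflation`: the number of retained active cells of one cap in an isotropic native ball of radius `κ_i / κ_lam` -/
  cnt : ∀ i, i ≤ lam → u / 2 ≤ F.s j i - F.s j lam → F.s j i - F.s j lam ≤ 5 * u → ∀ (τ : (F.D j).Lb lam) (c : ST k),
    (((B.P0.filter fun T : (F.D j).Cl lam => T.1.1 = τ ∧ ‖lat T.1.2 - c‖ ≤ (F.D j).κ i / (F.D j).κ lam).card : ℕ) : ℝ) ≤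
      K * ((F.D j).κ i / (F.D j).κ lam) ^ (k + 1) * (F.r j i / F.r j lam) ^ pk' k

/-- **THE BLOCK PACKAGE** (`f:angular` + `f:inflation` on a configuration) -/
def GBlk (k : ℕ) : Prop :=
  ∀ (o : TOrd), o.Room k → ∀ (x : ℝ), 0 < x → ∃ γ : ℝ, 0 < γ ∧ ∀ e : ℝ, 0 < e → ∃ e1 V : ℝ, 0 < e1 ∧ 0 < V ∧ ∀ u : ℝ, 0 < u → ∃ μ0 : ℝ, 0 < μ0 ∧
    ∀ (c : TCls k) (cx : ℕ), ordOf c = o → ∃ m0 : ℕ, ∀ F : FCfg k, F.c = c → F.cx = cx → F.Ok m0 → ∀ (j : Fin (k + 1)) (lam : ℕ), lam ≤ F.c.ℓ →
      F.Mesh j μ0 (F.s j lam) (F.s j lam + V * u) → F.Off j (F.s j lam) (V * u) →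
      (∀ i, i ≤ lam → F.s j i - F.s j lam ≤ u → x * (F.s j i - F.s j lam) - e1 * u ≤ F.ρ j lam - F.ρ j i) →
      ∃ B : BlkDat F j lam, B.Ok u γ (F.Λ ^ (e * u))

end

end Claimed.Agent.R257.FR3
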