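import Claimed.Agent.R257.FR3.BlkNumA
import Claimed.Agent.R257.FR3.BlkCon

/-!
# ROW 257, package FR3, GBLK, unit NUM-B: `GbNumB k`      (helper37)

PROVED, no sorry.   `gbn_numB : GbNumB k` = the contract of `FR3/BlkCon.lean` (helper266): the five numerical hypotheses of `TAng.tgx_main` on a configuration of high quality, from the two GAIN hypotheses.
All the losses are powers of `K` (constants of the class: `≤ 2^M ≤ K^M`), `K^m ≤ Λ` (`ft_K_le`), `K^m ≤ G_ℓ`, `X^m ≤ Rm`.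
-/

set_option autoImplicit false

namespace Claimed.Agent.R257.FR3

open scoped BigOperators
open Classical Matrix
open Claimed.Agent.R255 Claimed.Agent.R257 Claimed.Agent.R257.FR2 Claimed.Agent.R257.Tree

noncomputable section

variable {k : ℕ}

/-- `N · (q/2 - 1) ≥ ℓ + 5 + 2 q` -/
theorem gbn_N (c : TCls k) (hk : 1 ≤ k) : (c.ℓ : ℝ) + 5 + 2 * qk k ≤ (gbN c : ℝ) * (qk k / 2 - 1) := by
  have hk0 : (0 : ℝ) < k := by exact_mod_cast hk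
  have hℓ : (0 : ℝ) ≤ c.ℓ := Nat.cast_nonneg _
  have e : (gbN c : ℝ) * (qk k / 2 - 1) = 2 * ((c.ℓ : ℝ) + 5) + 2 * qk k := by
    unfold gbN qk
    push_cast
    field_simp
    ring
  rw [e]
  linarith

/-- the long edge gain against the path mass (`hδ`) -/
theorem gbn_hdelta {K Gl QP ℓ ϖ0 ϖ Cg : ℝ} {m N M1 : ℕ} (hK : 2 ≤ K) (hG : K ^ m ≤ Gl) (hQP : 0 < QP) (_hℓ : 0 ≤ ℓ) (hϖ : 0 ≤ ϖ) (hϖϖ : ϖ ≤ ϖ0) (hϖ0 : ϖ0 ≤ K)
    (hM1 : ℓ + |Cg| ≤ K ^ (M1 : ℝ)) (hm : (N : ℝ) + 2 + M1 ≤ ((m : ℝ) - 1) * QP) (_hm1 : 1 ≤ m) :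
    (1 + Gl / 2) ^ (-QP) * (ℓ * ϖ0 + Cg * ϖ) ≤ (K ^ N)⁻¹ / 2 := by
  have hK0 : 0 < K := by linarith
  have hK1 : 1 ≤ K := by linarith
  have h1 : K ^ ((m : ℝ) - 1) ≤ 1 + Gl / 2 := by
    have e : K ^ ((m : ℝ) - 1) = K ^ m / K := by rw [Real.rpow_sub hK0, Real.rpow_natCast, Real.rpow_one]
    rw [e]
    have h2 : K ^ m / K ≤ K ^ m / 2 := div_le_div_of_nonneg_left (by positivity) (by norm_num) hK
    linarith
  have h2 : (1 + Gl / 2) ^ (-QP) ≤ K ^ (-(((m : ℝ) - 1) * QP)) := by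
    have := Real.rpow_le_rpow_of_nonpos (Real.rpow_pos_of_pos hK0 _) h1 (by linarith : -QP ≤ 0)
    rwa [← Real.rpow_mul hK0.le, mul_neg] at this
  have h3 : ℓ * ϖ0 + Cg * ϖ ≤ K ^ (M1 : ℝ) * K := by
    have a1 : Cg * ϖ ≤ |Cg| * ϖ0 := (mul_le_mul_of_nonneg_right (le_abs_self _) hϖ).trans (mul_le_mul_of_nonneg_left hϖϖ (abs_nonneg _))
    have a2 : ℓ * ϖ0 + |Cg| * ϖ0 = (ℓ + |Cg|) * ϖ0 := by ring
    have a3 : (ℓ + |Cg|) * ϖ0 ≤ K ^ (M1 : ℝ) * K := mul_le_mul hM1 hϖ0 (hϖ.trans hϖϖ) (by positivity)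
    linarith
  have hG0 : 0 ≤ Gl := (by positivity : (0:ℝ) ≤ K ^ m).trans hG
  have n1 : 0 ≤ (1 + Gl / 2) ^ (-QP) := Real.rpow_nonneg (by positivity) _
  calc (1 + Gl / 2) ^ (-QP) * (ℓ * ϖ0 + Cg * ϖ) ≤ (1 + Gl / 2) ^ (-QP) * (K ^ (M1 : ℝ) * K) := mul_le_mul_of_nonneg_left h3 n1
    _ ≤ K ^ (-(((m : ℝ) - 1) * QP)) * (K ^ (M1 : ℝ) * K) := mul_le_mul_of_nonneg_right h2 (by positivity)
    _ = K ^ (-(((m : ℝ) - 1) * QP) + M1 + 1) := by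
        rw [Real.rpow_add hK0, Real.rpow_add hK0, Real.rpow_one]
        ring
    _ ≤ K ^ (-(N : ℝ) - 1) := Real.rpow_le_rpow_of_exponent_le hK1 (by linarith)
    _ = (K ^ N)⁻¹ / K := by rw [Real.rpow_sub hK0, Real.rpow_neg hK0.le, Real.rpow_natCast, Real.rpow_one]
    _ ≤ (K ^ N)⁻¹ / 2 := div_le_div_of_nonneg_left (by positivity) (by norm_num) hK

/-- **NUM-B** -/
theorem gbn_numB (k : ℕ) : GbNumB k := by
  intro c cx Cg cg ε hc hcg hε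
  have hk0 : (0 : ℝ) < k := by exact_mod_cast hc.k_pos
  have hq2 : 2 < qk k := ti_qk_gt hc.k_pos
  have hqq : qk k < tia_qa k := tia_qa_gt hc.k_pos
  have hq'0 : 0 < tia_qa k := by linarith
  obtain ⟨s, hs⟩ : ∃ s, s = qk k / tia_qa k := ⟨_, rfl⟩
  have hs0 : 0 < s := by rw [hs]; exact div_pos (by linarith) hq'0
  obtain ⟨M, hM⟩ := gbn_const (2 * ((c.ℓ : ℝ) ^ qk k + 1))
  obtain ⟨M1, hM1⟩ := gbn_const ((c.ℓ : ℝ) + |Cg|)
  obtain ⟨E, hE⟩ : ∃ E : ℝ, E = M + ((c.ℓ : ℝ) + 2 + 5 * qk k / 2) + s * ((c.ℓ : ℝ) + 1 + (tia_qa k - qk k) + tia_qa k) := ⟨_, rfl⟩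
  have hQP : 0 < c.Q - c.P := by linarith [hc.P_lt]
  obtain ⟨m1, hm1⟩ := exists_nat_ge (E / (cg * s))
  obtain ⟨m2, hm2⟩ := exists_nat_ge (((gbN c : ℝ) + 1) / ε)
  obtain ⟨m3, hm3⟩ := exists_nat_ge (((gbN c : ℝ) + 2 + M1) / (c.Q - c.P) + 1)
  refine ⟨m1 + m2 + m3 + c.ℓ + 8, ?_⟩
  intro F hFc _ hF j lam d hid π hN v₀ hbot hmu hgA hgB
  subst hFc
  obtain ⟨m, hm⟩ : ∃ m, m = m1 + m2 + m3 + F.c.ℓ + 8 := ⟨_, rfl⟩
  rw [← hm] at hF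
  have hmR : (m : ℝ) = m1 + m2 + m3 + F.c.ℓ + 8 := by rw [hm]; push_cast; ring
  have c1 : (0 : ℝ) ≤ m1 := Nat.cast_nonneg _
  have c2 : (0 : ℝ) ≤ m2 := Nat.cast_nonneg _
  have c3 : (0 : ℝ) ≤ m3 := Nat.cast_nonneg _
  have cℓ : (0 : ℝ) ≤ F.c.ℓ := Nat.cast_nonneg _
  -- basic facts
  have hsys := hF.sys j
  have hK := hF.two_le_K
  have hK0 : 0 < F.K := by linarith
  have hK1 : 1 ≤ F.K := by linarith
  have hKΛ : F.K ^ m ≤ F.Λ := ft_K_le hF (by omega)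
  have hΛ : (m : ℝ) + 3 ≤ F.Λ := hF.Λ_ge
  have hΛ0 : 0 < F.Λ := by
    have : (0 : ℝ) ≤ m := Nat.cast_nonneg _
    linarith
  have hΛ1 : 1 ≤ F.Λ := by
    have : (0 : ℝ) ≤ m := Nat.cast_nonneg _
    linarith
  have hΛX : F.Λ ≤ F.X := by
    unfold FCfg.X
    exact le_self_pow₀ hΛ1 (by have := hF.cx_pos; omega)
  have hKX : F.K ≤ F.X := ((le_self_pow₀ hK1 (by omega)).trans hKΛ).trans hΛX
  have hA0 : 0 < F.A j := lt_of_lt_of_le one_pos (hF.one_le_A j)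
  have hD0 := hF.D_pos j
  have hlam : lam ≤ F.c.ℓ := by omega
  have hcard : ((Finset.univ : Finset (F.D j).sys.Y).card : ℝ) = Fintype.card F.Qc := by
    rw [Finset.card_univ]
    exact_mod_cast (Fintype.card_congr (F.e j)).symm
  have hbal : (F.D j).sys.D ≤ F.K * (((Finset.univ : Finset (F.D j).sys.Y).card : ℝ) * F.A j ^ qk k) := by
    rw [hcard]
    exact hF.bal j
  have hCp1 : 1 ≤ F.Cp := hsys.one_le_Γ2
  have hL1 : 1 ≤ (F.tp j).L := hsys.one_le_L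
  have hLK : (F.tp j).L ≤ F.K := hF.L_le j
  have hL01 : 1 ≤ (F.tp j).L0 := hsys.one_le_L0
  have hL0K : (F.tp j).L0 ≤ F.K := hF.L0_le j
  have hϖ1 : 1 ≤ (F.tp j).ϖ0 := hsys.one_le_ϖ0
  have hϖK : (F.tp j).ϖ0 ≤ F.K := hF.ϖ0_le j
  have hMs : (gbMs F j lam π).card ≤ F.c.ℓ := by
    calc (gbMs F j lam π).card ≤ (Finset.Ico (gbBot F j lam π) lam).card := Finset.card_filter_le _ _
      _ = lam - gbBot F j lam π := Nat.card_Ico _ _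
      _ ≤ F.c.ℓ := by omega
  have hϖl0 : 0 < gbϖ F π := by
    unfold gbϖ
    positivity
  have hϖl1 : gbϖ F π ≤ 1 := by
    unfold gbϖ
    exact inv_le_one_of_one_le₀ (one_le_pow₀ hK1)
  have hr := (hF.frozen j).r_pos
  -- the common bound of `cQ` and `bndQ`
  obtain ⟨W, hWdef⟩ : ∃ W : ℝ, W = F.K ^ ((F.c.ℓ : ℝ) + 1 + (tia_qa k - qk k)) := ⟨_, rfl⟩
  obtain ⟨g, hgdef⟩ : ∃ g : ℝ, g = F.K ^ tia_qa k * F.Λ ^ (-cg) := ⟨_, rfl⟩
  have hKq' : 1 ≤ F.K ^ tia_qa k := Real.one_le_rpow hK1 hq'0.le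
  have hΛcg : 0 < F.Λ ^ (-cg) := Real.rpow_pos_of_pos hΛ0 _
  have hW : ∀ n : ℕ, n ≤ F.c.ℓ → (F.tp j).L ^ n * F.Cp * 2 ^ (tia_qa k - qk k) ≤ W := by
    intro n hn
    rw [hWdef, Real.rpow_add hK0, Real.rpow_add hK0, Real.rpow_one, Real.rpow_natCast]
    have a1 : (F.tp j).L ^ n ≤ F.K ^ F.c.ℓ := (pow_le_pow_left₀ (by linarith) hLK n).trans (pow_le_pow_right₀ hK1 hn)
    have a2 : (2 : ℝ) ^ (tia_qa k - qk k) ≤ F.K ^ (tia_qa k - qk k) := Real.rpow_le_rpow (by norm_num) hK (by linarith)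
    exact mul_le_mul (mul_le_mul a1 hF.Cp_le (by linarith) (by positivity)) a2 (by positivity) (by positivity)
  obtain ⟨Z, hZdef⟩ : ∃ Z : ℝ, Z = (W * g) ^ (qk k / tia_qa k) := ⟨_, rfl⟩
  have hW0 : 0 < W := by rw [hWdef]; exact Real.rpow_pos_of_pos hK0 _
  have hg0 : 0 < g := by rw [hgdef]; positivity
  have hZ0 : 0 ≤ Z := by rw [hZdef]; positivity
  have hKD : 0 < F.K * (F.D j).sys.D := mul_pos hK0 hD0
  have hcq : ∀ i ∈ gbMs F j lam π, ((F.D j).ang (gbIa F j lam π v₀)).cQ (F.tp j) (gbAp F j) F.K (F.r j) (fun i => 1 / gbT F j lam π i) i ≤ F.K * (F.D j).sys.D * Z := by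
    intro i hi
    rw [hZdef]
    unfold TAng.cQ TAng.cQ'
    refine gbn_cq (q := qk k) (q' := tia_qa k) (by linarith) hqq (Real.rpow_nonneg (by
      unfold gbT
      positivity) _) (pow_nonneg (by linarith : (0:ℝ) ≤ (F.tp j).L) _) (by linarith : (0:ℝ) ≤ F.Cp) hKD (hr i) (hr lam) ?_ (hW _ (by
        show lam - i ≤ F.c.ℓ
        omega))
    refine (hgA i hi).trans ?_
    rw [hgdef]
    exact le_mul_of_one_le_left hΛcg.le hKq'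
  have hβ : gbβ0 F j lam π v₀ ≤ F.K * (F.D j).sys.D * Z := by
    rw [hZdef]
    unfold gbβ0 TAng.bndQ TAng.bndQ'
    refine gbn_cq (q := qk k) (q' := tia_qa k) (by linarith) hqq (by positivity) (pow_nonneg (by linarith : (0:ℝ) ≤ (F.tp j).L) _) (by linarith : (0:ℝ) ≤ F.Cp) hKD
      (hr _) (hr lam) ?_ (hW _ (by
        show lam - gbMu F j lam π ≤ F.c.ℓ
        omega))
    rw [hgdef]
    refine mul_le_mul ?_ hgB (by
      have := hr (gbMu F j lam π)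
      have := hr lam
      positivity) (by positivity)
    exact Real.rpow_le_rpow (by norm_num) (by linarith) hq'0.le
  have hZ : 2 * ((F.c.ℓ : ℝ) ^ qk k + 1) * F.K ^ ((F.c.ℓ : ℝ) + 2 + 5 * qk k / 2) * Z ≤ 1 := by
    have e1 : Z = F.K ^ (s * ((F.c.ℓ : ℝ) + 1 + (tia_qa k - qk k) + tia_qa k)) * F.Λ ^ (-(cg * s)) := by
      rw [hZdef, hWdef, hgdef, ← hs, ← mul_assoc, ← Real.rpow_add hK0, Real.mul_rpow (by positivity) hΛcg.le, ← Real.rpow_mul hK0.le, ← Real.rpow_mul hΛ0.le]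
      congr 2 <;> ring
    have h1 : F.K ^ E ≤ F.Λ ^ (cg * s) := by
      refine gbn_pow_le hK1 hKΛ (by positivity) ?_
      have hcs : 0 < cg * s := by positivity
      rw [div_le_iff₀ hcs] at hm1
      have : (m1 : ℝ) * (cg * s) ≤ (m : ℝ) * (cg * s) := mul_le_mul_of_nonneg_right (by rw [hmR]; linarith) hcs.le
      linarith
    calc 2 * ((F.c.ℓ : ℝ) ^ qk k + 1) * F.K ^ ((F.c.ℓ : ℝ) + 2 + 5 * qk k / 2) * Z
        ≤ F.K ^ (M : ℝ) * F.K ^ ((F.c.ℓ : ℝ) + 2 + 5 * qk k / 2) * Z := by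
          have := hM F.K hK
          gcongr
      _ = F.K ^ E * F.Λ ^ (-(cg * s)) := by
          have e2 : F.K ^ E = F.K ^ (M : ℝ) * F.K ^ ((F.c.ℓ : ℝ) + 2 + 5 * qk k / 2) * F.K ^ (s * ((F.c.ℓ : ℝ) + 1 + (tia_qa k - qk k) + tia_qa k)) := by
            rw [hE, Real.rpow_add hK0, Real.rpow_add hK0]
          rw [e1, e2]
          ring
      _ ≤ F.Λ ^ (cg * s) * F.Λ ^ (-(cg * s)) := mul_le_mul_of_nonneg_right h1 (Real.rpow_nonneg hΛ0.le _)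
      _ = 1 := by rw [← Real.rpow_add hΛ0]; simp
  have hc0X : ((gbMs F j lam π).card + 1 : ℝ) ^ 2 ≤ F.X ^ 2 := by
    refine pow_le_pow_left₀ (by positivity) ?_ 2
    have : ((gbMs F j lam π).card : ℝ) ≤ F.c.ℓ := by exact_mod_cast hMs
    have : (F.c.ℓ : ℝ) + 1 ≤ F.Λ := by rw [hmR] at hΛ; linarith
    linarith
  refine ⟨⟨?_, ?_, hϖl0, ?_, ?_, ?_⟩, ?_⟩
  · exact gbn_hR (𝔖 := (F.D j).sys) (p := F.tp j) (m := m) (lam := lam) hsys hlam hA0 hK hKX (hF.Γ_le j) (hF.Γr_le j _ le_rfl) hϖK hF.Rm_ge (by positivity) hc0X (by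
      show F.c.ℓ + 8 ≤ 2 * m
      omega)
  · exact gbn_hgain (q := qk k) (ℓ := F.c.ℓ) hA0 hK hq2 (Nat.cast_nonneg _) hD0.le hbal (by linarith) hL0K (by linarith) hLK (by linarith) hϖK (by omega) hMs hZ0 hcq hβ hZ
  · exact gbn_hR' (𝔖 := (F.D j).sys) (p := F.tp j) (m := m) hsys hA0 hK hKX (hF.Γ_le j) (hF.Γr_le j _ le_rfl) hF.Rm_ge hϖl0.le hϖl1 (by
      show F.c.ℓ + 5 ≤ 2 * m
      omega)
  · have := gbn_hsmall (q := qk k) (L0 := (F.tp j).L0) (L := (F.tp j).L) (Lq := (F.tp j).L) (CPsi := F.Cp) (d := d) (e := lam - gbBot F j lam π) (b := gbBot F j lam π) (ℓ := F.c.ℓ) (N := π.N)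
      hA0 hK hq2 (Nat.cast_nonneg _) hD0.le hbal (by linarith) hL0K (by linarith) hLK (by linarith) hLK (by linarith) hF.Cp_le (by omega) (by
        rw [hN]
        exact gbn_N F.c hc.k_pos)
    exact this
  · have hϖϖ : (F.D j).ϖ ≤ (F.tp j).ϖ0 := by
      show (F.D j).ϖ ≤ F.Cp * (F.D j).ϖ
      exact le_mul_of_one_le_left (by linarith [(hF.good j).one_le_ϖ]) hCp1
    have := gbn_hdelta (K := F.K) (Gl := (F.D j).G F.c.ℓ) (QP := F.c.Q - F.c.P) (ℓ := (F.c.ℓ : ℝ)) (ϖ0 := (F.tp j).ϖ0) (ϖ := (F.D j).ϖ) (Cg := Cg) (m := m) (N := π.N) (M1 := M1)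
      hK (hF.K_G j) hQP cℓ (by linarith [(hF.good j).one_le_ϖ]) hϖϖ hϖK (hM1 F.K hK) (by
        rw [hN]
        have h1 : ((gbN F.c : ℝ) + 2 + M1) / (F.c.Q - F.c.P) ≤ (m : ℝ) - 1 := by rw [hmR]; linarith
        rwa [div_le_iff₀ hQP] at h1) (by omega)
    exact this
  · have h1 : F.K ^ ((π.N : ℝ) + 1) ≤ F.Λ ^ ε := by
      refine gbn_pow_le hK1 hKΛ hε.le ?_
      rw [div_le_iff₀ hε] at hm2
      have : (m2 : ℝ) * ε ≤ (m : ℝ) * ε := mul_le_mul_of_nonneg_right (by rw [hmR]; linarith) hε.le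
      rw [hN]
      linarith
    have h2 : 2 * F.K ^ π.N ≤ F.Λ ^ ε := by
      refine le_trans ?_ h1
      rw [Real.rpow_add hK0, Real.rpow_one, Real.rpow_natCast, mul_comm]
      exact mul_le_mul_of_nonneg_left hK (by positivity)
    unfold gbϖ
    rw [Real.rpow_neg hΛ0.le, ← one_div, ← one_div, div_div, div_le_div_iff₀ (Real.rpow_pos_of_pos hΛ0 _) (by positivity)]
    linarith

end

end Claimed.Agent.R257.FR3
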