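import Claimed.Agent.R257.Frame.Stmt
import Claimed.Agent.R257.Tree.FullDefs
import Claimed.Agent.R257.Tree.AngFin
import Claimed.Agent.R257.FR2.ProfDbl

/-!
# ROW 257, package FR3, unit TOP, file 1: CONFIGURATIONS, GRID-LEVEL TESTS, TOWERS      (architect helper41)

NOTHING is sorried in this file (definitions only).   THIS FILE IS THE CONTRACT between FR1 + GRID + INST (producers of towers), the geometric units BIN, MID, LL, FIN (+ their adapters: producers of the grid-level tests) and TOP.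

* `FCfg k`     ONE configuration = the `k + 1` fields of `f:frame` on ONE finite grid (class `c : TCls k`, concrete trees `D j : TDat c` of INST), over ONE set `Qc` of retained unit cubes (`e j : Qc ≃ (D j).Y`),
               WITH its frozen selected trees `S j`, `r j` (`f:selection`; ALL the witnesses of `D j` are retained: the systems are already restricted, `FR2/Multi.lean`).
               `Λ` = logarithmic base (`h` or `S`), `κr j` = reference inverse width (`1` in the power case, `H_j` in the subpower case): NODES `s j i = log_Λ (κ_i / κr)`, VALUES `ρ j i = log_Λ r_i`.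
* `FCfg.Ok m`  the QUALITY `m`: everything which is `Λ^{o(1)}` in the paper is `≤ Λ^{1/m}`, in the ACYCLIC ORDER   norm losses, frozen loss `K`  ≪  distance cut-offs `G i` (`K^m ≤ G ℓ`)  ≪  occupancy cut-off `Go` (`Go^m ≤ Λ`);
               everything which is "polynomial" is `≤ X = Λ^cx` (`cx` depends only on the grid), and the ranges `Rm`, `1/η` are `≥ X^m`.
* GRID-LEVEL TESTS `GTestB` (`f:binary`), `GTestM` (`f:midpoint`), `GTestX` (cross-field halving), `GTestL` (inequality of `f:left-limit`), `GTestF` (final incidence):   statements about ONE configuration: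
               "for every class `c`, `cx` there is `m0` such that NO configuration of quality `m0` whose grid is fine enough on the window has the listed affine behaviour".   Quantifiers: orders `o : TOrd` (fixed before all grids) → tolerances `e0, V, u0` → `u` → mesh `μ0` → class → `m0`.
* `Tower k`    configurations `F N n` (grid number `N`, member `n` of the countersequence), class depending only on `N`, quality `→ ∞` as `n → uf` for fixed `N`, mesh `μ N → 0`.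
-/

set_option autoImplicit false

namespace Claimed.Agent.R257.FR3

open Filter Topology
open scoped BigOperators
open Claimed.Agent.R255 Claimed.Agent.R257 Claimed.Agent.R257.FR2 Claimed.Agent.R257.Tree

noncomputable section

/-- the orders and constants which are fixed BEFORE all the grids (they are the same for all the classes of a tower) -/
structure TOrd where
  P : ℝ
  Q : ℝ
  M : ℝ
  C0 : ℝ
  Cχ : ℝ
  Cc : ℝ
  Cm : ℝ

/-- the orders of a class -/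
def ordOf {k : ℕ} (c : TCls k) : TOrd := ⟨c.P, c.Q, c.M, c.C0, c.Cχ, c.Cc, c.Cm⟩

/-- ROOM above the order `Q` (a third order `Q₂ = Q + (k+2) k / 2` with `Q₂ + k + 2 ≤ C0`, `Q₂ ≤ M` is used by the instance of `f:angular`) -/
def TOrd.Room (k : ℕ) (o : TOrd) : Prop := o.Q + ((k : ℝ) + 2) * k / 2 + k + 2 ≤ o.C0 ∧ o.Q + ((k : ℝ) + 2) * k / 2 ≤ o.M

/-- one configuration with its frozen trees -/
structure FCfg (k : ℕ) where
  /-- the class (grid, orders) -/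
  c : TCls k
  /-- exponent of the polynomial sizes -/
  cx : ℕ
  /-- the concrete trees of the `k + 1` fields -/
  D : Fin (k + 1) → TDat c
  /-- the retained unit cubes -/
  Qc : Type
  fQ : Fintype Qc
  e : ∀ j, Qc ≃ (D j).Y
  /-- the logarithmic base -/
  Λ : ℝ
  /-- the thresholds -/
  A : Fin (k + 1) → ℝ
  /-- the reference inverse widths -/
  κr : Fin (k + 1) → ℝ
  /-- the constants of `TDat.tp` -/
  Cp : ℝ
  εp : ℝ
  L0 : Fin (k + 1) → ℝ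
  Rm : ℝ
  /-- the frozen masks and ratios -/
  S : ∀ j i, Finset ((D j).sys.C i)
  r : Fin (k + 1) → ℕ → ℝ
  /-- norm losses and loss of the frozen trees -/
  K : ℝ
  /-- occupancy cut-off -/
  Go : ℝ
  /-- the field with the largest excess `S_j = S`, its original transition amplitudes and their lower bound `c S H^{-k/2}` -/
  j0 : Fin (k + 1)
  ao : (D j0).sys.C c.tr → ℝ
  σo : ℝ

attribute [instance] FCfg.fQ

namespace FCfg

variable {k : ℕ} (F : FCfg k)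

/-- the constants of the system of the field `j` -/
def tp (j : Fin (k + 1)) : TPar := (F.D j).tp F.Cp F.εp (F.L0 j) F.Rm

/-- the nodes `s = log_Λ (κ_i / κr)` -/
def s (j : Fin (k + 1)) (i : ℕ) : ℝ := Real.logb F.Λ ((F.D j).κ i / F.κr j)

/-- the values `log_Λ r_i` -/
def ρ (j : Fin (k + 1)) (i : ℕ) : ℝ := Real.logb F.Λ (F.r j i)

/-- the bound of the polynomial sizes -/
def X : ℝ := F.Λ ^ F.cx

/-- **a configuration of quality `m`** -/
structure Ok (m : ℕ) : Prop where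
  cls : F.c.Ok
  good : ∀ j, (F.D j).Good
  sys : ∀ j, (F.D j).sys.Ok (F.tp j)
  frozen : ∀ j, (F.D j).sys.Frozen (qk k) (F.A j) F.K F.Go (F.S j) (F.r j) Finset.univ
  /-- ANG-INST (`Tree/AngFin.tia_main`) WITH THE NORM LOSS OF THE SYSTEM: `L' = Lq = (tp j).L ≤ K`, `CPsi = Cp ≤ K` (the angular norm losses come BEFORE the distance cut-offs `G`: acyclic order);  `= FCfg.AngOk` of `FR3/BlkPar.lean` (`Cs = gbCs c`) -/
  ang : ∀ (j : Fin (k + 1)) (I : TAIn (F.D j)), I.Ew = (k : ℝ) + 2 → I.Q2 = F.c.Q + ((k : ℝ) + 2) * k / 2 → I.Cs = 2 ^ (k + 3) * ((F.c.ℓ : ℝ) + 1) * F.c.Cc → I.Ok →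
    ((F.D j).ang I).Ok (F.tp j) ((F.D j).ap F.Cp F.εp (tia_qa k)) ∧ ((F.D j).ang I).Var ((F.D j).kv I F.Cp)
  ne : Nonempty F.Qc
  one_le_A : ∀ j, 1 ≤ F.A j
  D_pos : ∀ j, 0 < (F.D j).sys.D
  /-- (f:hbalance) / (f:subbalance) relative to the retained cubes -/
  bal : ∀ j, (F.D j).sys.D ≤ F.K * (Fintype.card F.Qc * F.A j ^ qk k)
  κr_pos : ∀ j, 0 < F.κr j
  /-- the sizes, in the acyclic order -/
  cx_pos : 1 ≤ F.cx
  Λ_ge : (m : ℝ) + 3 ≤ F.Λ
  two_le_K : 2 ≤ F.K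
  L_le : ∀ j, (F.tp j).L ≤ F.K
  L0_le : ∀ j, F.L0 j ≤ F.K
  ϖ0_le : ∀ j, (F.tp j).ϖ0 ≤ F.K
  Cp_le : F.Cp ≤ F.K
  K_G : ∀ j, F.K ^ m ≤ (F.D j).G F.c.ℓ
  ϖ1_Go : ∀ j, (F.tp j).ϖ1 ≤ F.Go
  Go_Λ : F.Go ^ m ≤ F.Λ
  Γ_le : ∀ j i, i < F.c.ℓ → (F.tp j).Γ i ≤ F.X
  Γr_le : ∀ j i, i ≤ F.c.ℓ → (F.tp j).Γr i ≤ F.X * F.A j ^ 2
  Rm_ge : F.X ^ m ≤ F.Rm
  η_le : ∀ j, (F.tp j).η * F.X ^ m ≤ 1
  /-- lacunary scales (all the steps but possibly the first one: the leaf scale may be close to the seam): `‖fr 0 ω - fr i (anc i ω)‖ ≤ 2 Cc / κ_i`, NO factor `ℓ` -/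
  lac : ∀ j i, 1 ≤ i → i < F.c.ℓ → 2 * (F.D j).κ (i + 1) ≤ (F.D j).κ i
  /-- root transversality of the labels of the coarsest layers -/
  trans : ∀ lb : ∀ j, (F.D j).Lb F.c.ℓ, Transv F.K (fun j => (F.D j).fr F.c.ℓ (lb j))
  /-- … and of the leaf labels -/
  trans0 : ∀ lb : ∀ j, (F.D j).Lb 0, Transv F.K (fun j => (F.D j).fr 0 (lb j))
  /-- full (nested) windows: `TDat.Full` of `Tree/FullDefs.lean` (helper162) -/
  full : ∀ j, (F.D j).Full
  /-- separate witnesses in one unit cube -/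
  cube : ∀ q j j', ‖(F.D j).pt (F.e j q) - (F.D j').pt (F.e j' q)‖ ≤ (k : ℝ) + 1
  /-- `H^{k+2} = A^q` up to the loss -/
  tr_vol : ∀ j, F.A j ^ qk k ≤ F.K * (F.D j).κ F.c.tr ^ (k + 2)
  vol_tr : ∀ j, (F.D j).κ F.c.tr ^ (k + 2) ≤ F.K * F.A j ^ qk k
  /-- (f:original-amplitudes), (f:original-energy) -/
  σo_nonneg : 0 ≤ F.σo
  ao_ge : ∀ T, F.σo ≤ F.ao T
  ao_en : (F.D F.j0).sys.vol F.c.tr * ∑ T, F.ao T ^ 2 ≤ F.K * (F.D F.j0).sys.D

/-- the values at the nodes within `r` of `x0` are affine of slope `-x` up to `ε` -/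
def Aff (j : Fin (k + 1)) (x0 x r ε : ℝ) : Prop :=
  ∀ i i', i ≤ F.c.ℓ → i' ≤ F.c.ℓ → |F.s j i - x0| ≤ r → |F.s j i' - x0| ≤ r → |F.ρ j i' - F.ρ j i + x * (F.s j i' - F.s j i)| ≤ ε

/-- the grid of the field `j` has mesh `≤ μ` and covers `[a, b]` -/
def Mesh (j : Fin (k + 1)) (μ a b : ℝ) : Prop :=
  (∀ i, i < F.c.ℓ → F.s j i - F.s j (i + 1) ≤ μ) ∧ F.s j F.c.ℓ ≤ a ∧ b ≤ F.s j 0

/-- the transition seam lies outside the window of radius `r` about `x0` -/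
def Off (j : Fin (k + 1)) (x0 r : ℝ) : Prop := r < |F.s j F.c.tr - x0|

/-- the normalisations of the POWER case: `Λ = h`, the parameter is `log_h κ`; root witness sampling -/
structure Pow : Prop where
  κr_one : ∀ j, F.κr j = 1
  leaf : ∀ j, (F.D j).κ 0 = F.Λ
  samp : ∀ j g a, (F.D j).sys.Adm (F.D j).sys.ℓ g a → ∑ z, ‖(F.D j).sys.Ev (F.D j).sys.ℓ g z‖ ^ 2 ≤ F.K * (F.D j).sys.en (F.D j).sys.ℓ a
  /-- the FULL (unmasked) leaf square envelope at the witnesses (H l.982) -/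
  env0 : ∀ j y, ∑ T ∈ (F.D j).W 0, (F.D j).s0 T ^ 2 * (F.D j).wA F.c.P 0 T ((F.D j).pt y) ≤ F.K

/-- the normalisations of the SUBPOWER case (`Λ = S`, the parameter is `log_S (κ / H_j)`), quality `m`, fixed exponents `C1` (occupancy of the original masks), `C3` (clipping) -/
structure Sub (m : ℕ) (C1 C3 : ℝ) : Prop where
  /-- `A_j = H_j^{k/2}` up to the loss -/
  thr_le : ∀ j, F.A j ^ 2 ≤ F.κr j ^ k
  le_thr : ∀ j, F.κr j ^ k ≤ F.K * F.A j ^ 2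
  seam : ∀ j, (F.D j).κ F.c.tr = F.κr j
  /-- `H_j` grows faster than every power of `S`: the coarsest layer is still superpolynomial -/
  gap : ∀ j, F.Λ ^ m ≤ (F.D j).κ F.c.ℓ
  /-- (f:subbalance) -/
  ratio : ∀ j j', F.κr j ≤ F.K * F.κr j'
  /-- `M_c = H^{-k} S^{C_3}` -/
  clip : ∀ j, (F.D j).Mc * F.κr j ^ k ≤ F.Λ ^ C3
  /-- the deletion preceding (f:ballcount): occupancy of the original masks in the enlargement `S^{C_1}` … -/
  occ0 : ∀ j, ∀ T ∈ (F.D j).W F.c.tr, (((Finset.univ.filter fun y => ‖(F.D j).X F.c.tr T ((F.D j).pt y)‖ ≤ F.Λ).card : ℕ) : ℝ) ≤ F.Λ ^ C1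

end FCfg

/-! ## the grid-level tests -/

/-- **(B)** `f:binary`: no intermediate slope `0 < x < k/2` on a block -/
def GTestB (k : ℕ) : Prop :=
  ∀ (o : TOrd), o.Room k → ∀ (x l : ℝ), 0 < x → x < (k : ℝ) / 2 → ∃ e0 V u0 : ℝ, 0 < e0 ∧ 0 < V ∧ 0 < u0 ∧ ∀ u, 0 < u → u < u0 → ∃ μ0 : ℝ, 0 < μ0 ∧
    ∀ (c : TCls k) (cx : ℕ), ordOf c = o → ∃ m0 : ℕ, ∀ F : FCfg k, F.c = c → F.cx = cx → F.Ok m0 → ∀ j, F.Mesh j μ0 (l - V * u) (l + V * u) → F.Off j l (V * u) →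
      ¬ F.Aff j l x (V * u) (e0 * u)

/-- **(M)** `f:midpoint`: full slope at `l` and at `a`, zero slope at the midpoint -/
def GTestM (k : ℕ) : Prop :=
  ∀ (o : TOrd), o.Room k → ∀ (l a : ℝ), l < a → ∃ e0 V s0 : ℝ, 0 < e0 ∧ 0 < V ∧ 0 < s0 ∧ ∀ s, 0 < s → s < s0 → ∃ μ0 : ℝ, 0 < μ0 ∧
    ∀ (c : TCls k) (cx : ℕ), ordOf c = o → ∃ m0 : ℕ, ∀ F : FCfg k, F.c = c → F.cx = cx → F.Ok m0 → ∀ j, F.Mesh j μ0 (l - V * s) (a + V * s) →
      F.Off j l (V * s) → F.Off j a (V * s) → F.Off j ((l + a) / 2) (V * s) →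
      ¬ (F.Aff j l ((k : ℝ) / 2) (V * s) (e0 * s) ∧ F.Aff j a ((k : ℝ) / 2) (V * s) (e0 * s) ∧ F.Aff j ((l + a) / 2) 0 (V * s) (e0 * s))

/-- **(X)** cross-field halving (power case): full slope at `a` in the field `j`, zero slope at `a / 2` in the field `j'` -/
def GTestX (k : ℕ) : Prop :=
  ∀ (o : TOrd), o.Room k → ∀ (a : ℝ), 0 < a → a < 1 → ∃ e0 V s0 : ℝ, 0 < e0 ∧ 0 < V ∧ 0 < s0 ∧ ∀ s, 0 < s → s < s0 → ∃ μ0 : ℝ, 0 < μ0 ∧
    ∀ (c : TCls k) (cx : ℕ), ordOf c = o → ∃ m0 : ℕ, ∀ F : FCfg k, F.c = c → F.cx = cx → F.Ok m0 → F.Pow → ∀ j j', j ≠ j' →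
      F.Mesh j μ0 μ0 (a + V * s) → F.Mesh j' μ0 μ0 (a + V * s) → F.Off j a (V * s) → F.Off j' (a / 2) (V * s) →
      ¬ (F.Aff j a ((k : ℝ) / 2) (V * s) (e0 * s) ∧ F.Aff j' (a / 2) 0 (V * s) (e0 * s))

/-- **(L)** the inequality of `f:left-limit` (subpower case): `q d_i(s) ≤ (2/k) ∑_j d_j(s + C₅)`, at nodes within `ε`, up to `ε` -/
def GTestL (k : ℕ) : Prop :=
  ∀ (o : TOrd), o.Room k → ∀ (C1 C3 : ℝ), ∃ C5 s1 : ℝ, ∀ s, s < s1 → ∀ ε, 0 < ε → ∃ μ0 : ℝ, 0 < μ0 ∧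
    ∀ (c : TCls k) (cx : ℕ), ordOf c = o → ∃ m0 : ℕ, ∀ F : FCfg k, F.c = c → F.cx = cx → F.Ok m0 → F.Sub m0 C1 C3 → (∀ j, F.Mesh j μ0 (s - 1) (s + C5 + 1)) →
      ∀ i, ∃ (a : ℕ) (b : Fin (k + 1) → ℕ), a ≤ F.c.ℓ ∧ |F.s i a - s| ≤ ε ∧ (∀ j, b j ≤ F.c.ℓ ∧ |F.s j (b j) - (s + C5)| ≤ ε) ∧
        qk k * (F.ρ i a + (k : ℝ) / 2 * F.s i a) ≤ 2 / (k : ℝ) * ∑ j, (F.ρ j (b j) + (k : ℝ) / 2 * F.s j (b j)) + ε

/-- **(F)** the final incidence contradiction: if the excess is a power `Λ^{c1}`, the recomputed transition ratio of the field `j0` is not `Λ^{o(1)}` -/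
def GTestF (k : ℕ) : Prop :=
  ∀ (o : TOrd), o.Room k → ∀ (c1 : ℝ), 0 < c1 → ∃ tol : ℝ, 0 < tol ∧ ∀ (c : TCls k) (cx : ℕ), ordOf c = o → ∃ m0 : ℕ, ∀ F : FCfg k, F.c = c → F.cx = cx → F.Ok m0 →
    F.Λ ^ c1 ≤ F.σo ^ 2 * F.A F.j0 ^ 2 → tol < F.ρ F.j0 F.c.tr

/-! ## towers -/

/-- a doubly indexed family of configurations -/
structure Tower (k : ℕ) where
  F : ℕ → ℕ → FCfg k
  cN : ℕ → TCls k
  cx : ℕ → ℕ
  μ : ℕ → ℝ
  o : TOrd

namespace Tower

variable {k : ℕ} (T : Tower k)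

/-- the common requirements -/
structure Base : Prop where
  cls : ∀ N n, (T.F N n).c = T.cN N
  cxs : ∀ N n, (T.F N n).cx = T.cx N
  ord : ∀ N, ordOf (T.cN N) = T.o
  room : T.o.Room k
  /-- for a fixed grid the quality tends to infinity -/
  ok : ∀ N m, ∀ᶠ n in uf, (T.F N n).Ok m
  μ_pos : ∀ N, 0 < T.μ N
  μ_lim : Tendsto T.μ uf (𝓝 0)
  mesh : ∀ N, ∀ᶠ n in uf, ∀ j i, i < (T.cN N).ℓ → (T.F N n).s j i - (T.F N n).s j (i + 1) ≤ T.μ N
  /-- the excess is a fixed power of the base -/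
  exc : ∃ c1 : ℝ, 0 < c1 ∧ ∀ N, ∀ᶠ n in uf, (T.F N n).Λ ^ c1 ≤ (T.F N n).σo ^ 2 * (T.F N n).A (T.F N n).j0 ^ 2

/-- **a tower of the power case**, `sH = lim log_h H_j` -/
structure PowOk (sH : ℝ) : Prop extends T.Base where
  pow : ∀ N, ∀ᶠ n in uf, (T.F N n).Pow
  sH_pos : 0 < sH
  sH_le : sH ≤ 1
  /-- the grids reach down to the root -/
  bot : ∀ a : ℝ, 0 < a → ∀ᶠ N in uf, ∀ᶠ n in uf, ∀ j, (T.F N n).s j (T.cN N).ℓ ≤ a
  seam : ∀ N j, Tendsto (fun n => (T.F N n).s j (T.cN N).tr) uf (𝓝 sH)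
  thr : ∀ N j, Tendsto (fun n => Real.logb (T.F N n).Λ ((T.F N n).A j)) uf (𝓝 ((k : ℝ) / 2 * sH))

/-- **a tower of the subpower case**, `e j` = the limiting fine endpoints -/
structure SubOk (e : Fin (k + 1) → ℝ) (C1 C3 : ℝ) : Prop extends T.Base where
  sub : ∀ N m, ∀ᶠ n in uf, (T.F N n).Sub m C1 C3
  e_nonneg : ∀ j, 0 ≤ e j
  top : ∀ N j, Tendsto (fun n => (T.F N n).s j 0) uf (𝓝 (e j))
  /-- the grids exhaust the unbounded left end -/
  bot : ∀ a : ℝ, ∀ᶠ N in uf, ∀ᶠ n in uf, ∀ j, (T.F N n).s j (T.cN N).ℓ ≤ a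

/-- the sampled profiles of the field `j` -/
def pd (j : Fin (k + 1)) : PDbl where
  ℓ N := (T.cN N).ℓ
  s N n i := (T.F N n).s j i
  ρ N n i := (T.F N n).ρ j i
  ε N n := (T.cN N).ℓ * Real.logb (T.F N n).Λ (2 * (T.F N n).K ^ (k + 1))
  μ := T.μ

end Tower

end

end Claimed.Agent.R257.FR3
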