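import Claimed.Agent.R257.Tree.TG
import Claimed.Agent.R257.FR2.PathTop
import Claimed.Agent.R257.FR3.TopDefs

/-!
# ROW 257, package FR3, SHARED ADAPTER: THE PATH LAW OF A FIELD OF A CONFIGURATION `FCfg`      (architect helper227; prefix `fl3_`)            CONTRACT

For ALL the adapters (B) of FR3 (LL, BIN, MID): from `F.Ok m0` (`FR3/TopDefs.lean`, helper41) to the exits of `FR2/PathTop.lean` (helper125) for the concrete tree `(F.D j).sys`, `(F.D j).geo` (`Tree/TG.lean`, helper155), all losses `≤ Λ^β`.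
* `fl3_pkg`    ABSTRACT (any `𝔖`, `𝔊`, tree frozen with `Yf = univ`):  root set `Y'` (`#Y ≤ 2 #Y'`, near path mass `≥ ϖl/2`), path law `P` on `Y × Dir` (`IsLaw (Jn (ofMask S)) Y' P fst snd`), attachment at all heights, upper half of (f:cap-law) and `FpOcc` at ALL heights with ONE constant `Ko`.     PROVED.
* `fl3_path`   on `FCfg`:  `∀ class c, β > 0  ∃ m0 ∀ m ≥ m0`:  `F.c = c`, `F.Ok m`  ⟹  the package for every field `j` with `Ko ≤ Λ^β`.     GLUE PROVED from the numeric leaves `L-257-LL-P*`.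
     Choice:  `ϖl = ((2 K^(ℓ+8))^k)⁻¹`,   `Ko = fl3Ko …` (explicit polynomial in `Cg, K, G 0, Go`).
Every `sorry` is a leaf `L-257-LL-P*`.   STATEMENTS ARE FROZEN (defect: one line to helper227).   Prove IN PLACE.
-/

set_option autoImplicit false

namespace Claimed.Agent.R257.FR3

open scoped BigOperators
open Classical
open Claimed.Agent.R255 Claimed.Agent.R255.FLaw Claimed.Agent.R257 Claimed.Agent.R257.FR2 Claimed.Agent.R257.Tree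

noncomputable section

/-- **the path package**: what the adapters consume -/
structure Fl3Pkg (𝔖 : TSys) (𝔊 : TGeo 𝔖) (S : ∀ i, Finset (𝔖.C i)) (q A : ℝ) (r : ℕ → ℝ) (ϖ Ko : ℝ) (Y' : Finset 𝔖.Y) (P : FLaw (𝔖.Y × 𝔊.Dir)) : Prop where
  ne : Y'.Nonempty
  card_le : (Fintype.card 𝔖.Y : ℝ) ≤ 2 * Y'.card
  mass : ∀ z ∈ Y', ϖ ≤ ∑ ω, 𝔊.Jn (𝔊.ofMask S) z ω
  law : 𝔊.IsLaw (𝔊.Jn (𝔊.ofMask S)) Y' P Prod.fst Prod.snd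
  /-- `tp_law_att` -/
  att : ∀ x, P.p x ≠ 0 → ∀ j, j ≤ 𝔖.ℓ → ∃ T ∈ S j, 𝔊.cap j T = 𝔊.anc j x.2 ∧ 𝔖.inc j x.1 T
  /-- upper half of `tp_cap_law` -/
  cap : ∀ a, a ≤ 𝔖.ℓ → ∀ x, P.p x ≠ 0 → P.fib (pair (fun x => 𝔊.anc a x.2) Prod.fst) x ≤ Ko * 𝔊.capw a (𝔊.anc a x.2) x.1 * P.fib Prod.fst x
  /-- `tp_occ` -/
  occ : ∀ a, a ≤ 𝔖.ℓ → FpOcc P Prod.fst Prod.snd (fun x => 𝔊.cel a x.1 x.2) Y'.card (𝔖.Mocc q A r a) Ko (fun ω z => 𝔊.leafw z ω) (𝔊.chg S a)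

/-- **the abstract package** -/
theorem fl3_pkg {𝔖 : TSys} {𝔊 : TGeo 𝔖} {p : TPar} {g : GPar} (h : 𝔖.Ok p) (hg : 𝔊.Ok g) {A K G : ℝ} {S : ∀ i, Finset (𝔖.C i)} {r : ℕ → ℝ}
    (hF : 𝔖.Frozen p.q A K G S r Finset.univ) (hA : 0 < A) (hK : 0 < K) (hne : Nonempty 𝔖.Y) (ϖl : ℝ) (hϖ : 0 < ϖl)
    (hR : (∏ m ∈ Finset.range 𝔖.ℓ, p.Γ m) * p.Γr 𝔖.ℓ * ϖl ≤ (p.Rm * (A / K)) ^ 2)
    (hsmall : p.L0 * (A / K) ^ (-p.q) * ϖl ^ (p.q / 2 - 1) * (p.L ^ 𝔖.ℓ * 𝔖.D) ≤ (Fintype.card 𝔖.Y : ℝ) / 2)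
    (hδ : g.δ * (𝔖.ℓ * p.ϖ0 + g.ϖb) ≤ ϖl / 2) (Kb : ℝ) (hKb : 0 ≤ Kb) (hbal : 𝔖.D ≤ Kb * (Fintype.card 𝔖.Y * A ^ p.q)) (Ko : ℝ)
    (hK1 : g.Γc ^ 𝔖.ℓ / (ϖl / 2) ≤ Ko) (hK2 : p.ϖ0 ≤ Ko) (hK3 : g.Kc ≤ Ko) (hK4 : g.Γc ^ 𝔖.ℓ * g.Γw / (ϖl / 2) ≤ Ko)
    (hK5 : g.m * K * (2 * Kb) ≤ Ko) (hK6 : g.m * G ≤ Ko) :
    ∃ (Y' : Finset 𝔖.Y) (P : FLaw (𝔖.Y × 𝔊.Dir)), Fl3Pkg 𝔖 𝔊 S p.q A r (ϖl / 2) Ko Y' P := by
  have hcard : ((Finset.univ : Finset 𝔖.Y).card : ℝ) = Fintype.card 𝔖.Y := by rw [Finset.card_univ]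
  obtain ⟨Y', -, hY2, hW⟩ := TGeo.tp_root_set (𝔊 := 𝔊) h hg hF hA hK ϖl hϖ hR (by rw [hcard]; exact hsmall) hδ
  rw [hcard] at hY2
  have hc0 : (0 : ℝ) < Fintype.card 𝔖.Y := by exact_mod_cast Fintype.card_pos
  have hYne : Y'.Nonempty := by
    rw [← Finset.card_pos]
    have : (0 : ℝ) < Y'.card := by linarith
    exact_mod_cast this
  have hϖ2 : 0 < ϖl / 2 := by linarith
  have hJ0 : ∀ z ω, 0 ≤ 𝔊.Jn (𝔊.ofMask S) z ω := fun z ω => TGeo.Jn_nonneg h _ z ω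
  have hJR : ∀ z ω, 𝔊.Jn (𝔊.ofMask S) z ω ≤ 𝔊.Jn (𝔊.ofMask S) z ω := fun _ _ => le_rfl
  have hW' : ∀ z ∈ Y', ϖl / 2 ≤ ∑ ω, 𝔊.Jn (𝔊.ofMask S) z ω := hW
  obtain ⟨P, hL⟩ := TGeo.tp_law_exists (𝔊 := 𝔊) (𝔊.Jn (𝔊.ofMask S)) hJ0 Y' hYne fun z hz => hϖ2.trans_le (hW' z hz)
  have hAq : 0 ≤ A ^ p.q := Real.rpow_nonneg hA.le _
  have hbal' : 𝔖.D ≤ 2 * Kb * (Y'.card * A ^ p.q) := by
    refine hbal.trans ?_
    have : (Fintype.card 𝔖.Y : ℝ) * A ^ p.q ≤ 2 * Y'.card * A ^ p.q := mul_le_mul_of_nonneg_right hY2 hAq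
    nlinarith
  refine ⟨Y', P, hYne, hY2, hW', hL, ?_, ?_, ?_⟩
  · intro x hx j hj
    exact TGeo.tp_law_att h hg hJ0 hJR hL x hx j hj
  · intro a ha x hx
    refine ((TGeo.tp_cap_law h hg hJ0 hJR hL (ϖl / 2) hϖ2 hW' a ha (t := 1) one_pos).1 x hx).trans ?_
    refine mul_le_mul_of_nonneg_right (mul_le_mul_of_nonneg_right ?_ (TGeo.capw_nonneg h a _ _)) (ent_fib_nonneg P _ x)
    refine le_trans ?_ hK1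
    exact div_le_div_of_nonneg_right (pow_le_pow_right₀ hg.one_le_Γc (Nat.sub_le _ _)) hϖ2.le
  · intro a ha
    exact TGeo.tp_occ h hg hF hA (fun _ _ => Finset.Subset.refl _) hJ0 hJR hL hYne (ϖl / 2) hϖ2 hW' (2 * Kb) hbal' a ha Ko hK1 hK2 hK3 hK4 hK5 hK6

/-! ## the numbers -/

/-- the common loss of the path package -/
def fl3Ko (ℓ k : ℕ) (Cg K G0 Go Q2 : ℝ) : ℝ :=
  Cg ^ (ℓ + 1) * (2 * (2 * K ^ (ℓ + 8)) ^ k) + K + Cg * G0 ^ Q2 + Cg * G0 ^ (k + 1) * K * (2 * K) + Cg * G0 ^ (k + 1) * Go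

/-- **LEAF L-257-LL-P1: the far paths are negligible.**   Mathlib only.
PLAN.  `n1 : ℕ` with `ℓ + Cg ≤ 2^n1` (`pow_unbounded_of_one_lt`);   `m0 := ⌈((ℓ+9) k + n1 + 2) / d⌉₊ + 1`.   `1 + Gl/2 ≥ K^m/2 ≥ K^(m-1)` (`K ≥ 2`),  so `(1 + Gl/2)^(-d) ≤ (K^(m-1))^(-d) = K^(-(m-1) d) ≤ K^(-((ℓ+9)k + n1 + 2))`   (`Real.rpow_le_rpow_of_nonpos`, `Real.rpow_natCast`, `Real.rpow_mul`, `Real.rpow_le_rpow_of_exponent_le`).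
`(ℓ + Cg) K · 2 (2 K^(ℓ+8))^k ≤ K^n1 · K · K · (K^(ℓ+9))^k = K^((ℓ+9) k + n1 + 2)`. -/
theorem fl3_num_delta (ℓ k : ℕ) (d Cg : ℝ) (hd : 0 < d) (hCg : 1 ≤ Cg) : ∃ m0 : ℕ, ∀ m : ℕ, m0 ≤ m → ∀ K Gl : ℝ, 2 ≤ K → K ^ m ≤ Gl →
    (1 + Gl / 2) ^ (-d) * (((ℓ : ℝ) + Cg) * K) ≤ ((2 * K ^ (ℓ + 8)) ^ k)⁻¹ / 2 := by
  obtain ⟨n1, hn1⟩ := pow_unbounded_of_one_lt ((ℓ : ℝ) + Cg) (one_lt_two : (1 : ℝ) < 2)
  obtain ⟨E, hE⟩ : ∃ E : ℕ, E = (ℓ + 9) * k + n1 + 2 := ⟨_, rfl⟩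
  refine ⟨⌈(E : ℝ) / d⌉₊ + 1, ?_⟩
  intro m hm K Gl hK hGl
  have hK0 : 0 < K := by linarith
  have hK1 : 1 ≤ K := by linarith
  obtain ⟨j, rfl⟩ : ∃ j, m = j + 1 := ⟨m - 1, by omega⟩
  have hj : ⌈(E : ℝ) / d⌉₊ ≤ j := by omega
  have hjd : (E : ℝ) ≤ j * d := by
    have h1 : (E : ℝ) / d ≤ (⌈(E : ℝ) / d⌉₊ : ℝ) := Nat.le_ceil _
    have h2 : ((⌈(E : ℝ) / d⌉₊ : ℕ) : ℝ) ≤ (j : ℝ) := by exact_mod_cast hj
    rw [div_le_iff₀ hd] at h1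
    nlinarith
  have hKj : 0 < K ^ j := by positivity
  have hbase : K ^ j ≤ 1 + Gl / 2 := by
    have : K ^ (j + 1) = K * K ^ j := by rw [pow_succ]; ring
    rw [this] at hGl
    nlinarith
  have h1 : (1 + Gl / 2) ^ (-d) ≤ (K ^ E)⁻¹ := by
    calc (1 + Gl / 2) ^ (-d) ≤ (K ^ j) ^ (-d) :=
          Real.rpow_le_rpow_of_nonpos hKj hbase (by linarith)
      _ = K ^ (-((j : ℝ) * d)) := by
          rw [← Real.rpow_natCast, ← Real.rpow_mul hK0.le]; congr 1; ring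
      _ ≤ K ^ (-(E : ℝ)) := Real.rpow_le_rpow_of_exponent_le hK1 (by linarith)
      _ = (K ^ E)⁻¹ := by rw [Real.rpow_neg hK0.le, Real.rpow_natCast]
  have hA : 0 < (2 * K ^ (ℓ + 8)) ^ k := by positivity
  have hlc : 0 ≤ (ℓ : ℝ) + Cg := by positivity
  have h2 : ((ℓ : ℝ) + Cg) * K * (2 * (2 * K ^ (ℓ + 8)) ^ k) ≤ K ^ E := by
    have a1 : (ℓ : ℝ) + Cg ≤ K ^ n1 := hn1.le.trans (pow_le_pow_left₀ (by norm_num) hK n1)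
    have a2 : 2 * K ^ (ℓ + 8) ≤ K ^ (ℓ + 9) := by
      have : K ^ (ℓ + 9) = K * K ^ (ℓ + 8) := by rw [pow_succ]; ring
      rw [this]
      exact mul_le_mul_of_nonneg_right hK (by positivity)
    have a3 : (2 * K ^ (ℓ + 8)) ^ k ≤ K ^ ((ℓ + 9) * k) := by
      rw [pow_mul]; exact pow_le_pow_left₀ (by positivity) a2 k
    calc ((ℓ : ℝ) + Cg) * K * (2 * (2 * K ^ (ℓ + 8)) ^ k)
        ≤ K ^ n1 * K * (K * K ^ ((ℓ + 9) * k)) := by gcongr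
      _ = K ^ E := by rw [hE]; ring
  have hKE : 0 < K ^ E := by positivity
  calc (1 + Gl / 2) ^ (-d) * (((ℓ : ℝ) + Cg) * K) ≤ (K ^ E)⁻¹ * (((ℓ : ℝ) + Cg) * K) :=
        mul_le_mul_of_nonneg_right h1 (by positivity)
    _ ≤ ((2 * K ^ (ℓ + 8)) ^ k)⁻¹ / 2 := by
        rw [inv_mul_le_iff₀ hKE]
        have e : K ^ E * (((2 * K ^ (ℓ + 8)) ^ k)⁻¹ / 2) = K ^ E / (2 * (2 * K ^ (ℓ + 8)) ^ k) := by
          field_simp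
        rw [e, le_div_iff₀ (by positivity)]
        exact h2

/-- **LEAF L-257-LL-P2: the common loss is a subpower.**   Mathlib only.
PLAN.  `K ≤ G0 ≤ Go`, `1 ≤ Go`;  `N : ℕ := max ((ℓ+8) k) (max (⌈Q2⌉₊) (k+3))`:  every summand is `≤ 2^(k+1) Cg^(ℓ+1) Go^N` (`G0^Q2 ≤ Go^Q2 ≤ Go^N`: `Real.rpow_le_rpow`, `Real.rpow_le_rpow_of_exponent_le`, `Real.rpow_natCast`), so `fl3Ko ≤ Cc Go^N`, `Cc := 5 · 2^(k+1) Cg^(ℓ+1)`.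
`m0 ≥ 2N/β` gives `Go^N ≤ Λ^(β/2)`:  `Go ≤ Λ^(1/m)` (from `Go^m ≤ Λ`: `Real.rpow_le_rpow` with exponent `1/m`, `Real.pow_rpow_inv_natCast`), `Go^N ≤ Λ^(N/m)`.   `m0 ≥ Cc^(2/β)` gives `Cc ≤ Λ^(β/2)` (`m + 3 ≤ Λ`; `Real.rpow_le_rpow`, `Real.rpow_mul`).   `Λ^(β/2) Λ^(β/2) = Λ^β`. -/
theorem fl3_num_Ko (ℓ k : ℕ) (Q2 Cg β : ℝ) (hQ2 : 0 ≤ Q2) (hCg : 1 ≤ Cg) (hβ : 0 < β) : ∃ m0 : ℕ, ∀ m : ℕ, m0 ≤ m → ∀ Λ K G0 Go : ℝ, (m : ℝ) + 3 ≤ Λ → 2 ≤ K → K ≤ G0 →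
    G0 ≤ Go → Go ^ m ≤ Λ → fl3Ko ℓ k Cg K G0 Go Q2 ≤ Λ ^ β := by
  obtain ⟨N, hN⟩ : ∃ N : ℕ, N = max ((ℓ + 8) * k) (max ⌈Q2⌉₊ (k + 3)) := ⟨_, rfl⟩
  have hN1 : (ℓ + 8) * k ≤ N := by rw [hN]; exact le_max_left _ _
  have hN2 : ⌈Q2⌉₊ ≤ N := by rw [hN]; exact le_trans (le_max_left _ _) (le_max_right _ _)
  have hN3 : k + 3 ≤ N := by rw [hN]; exact le_trans (le_max_right _ _) (le_max_right _ _)
  obtain ⟨c1, hc1⟩ : ∃ c1 : ℝ, c1 = 2 ^ (k + 1) * Cg ^ (ℓ + 1) := ⟨_, rfl⟩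
  have hCgl : 1 ≤ Cg ^ (ℓ + 1) := one_le_pow₀ hCg
  have hCgl' : Cg ≤ Cg ^ (ℓ + 1) := by
    calc Cg = Cg ^ 1 := (pow_one _).symm
      _ ≤ Cg ^ (ℓ + 1) := pow_le_pow_right₀ hCg (by omega)
  have h2k : (2 : ℝ) ≤ 2 ^ (k + 1) := by
    calc (2 : ℝ) = 2 ^ 1 := (pow_one _).symm
      _ ≤ 2 ^ (k + 1) := pow_le_pow_right₀ (by norm_num) (by omega)
  have hc1_1 : 1 ≤ c1 := by rw [hc1]; nlinarith
  have hc1_Cg : Cg ≤ c1 := by rw [hc1]; nlinarith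
  have hc1_2Cg : 2 * Cg ≤ c1 := by
    rw [hc1]; exact mul_le_mul h2k hCgl' (by linarith) (by positivity)
  obtain ⟨Cc, hCc⟩ : ∃ Cc : ℝ, Cc = 5 * c1 := ⟨_, rfl⟩
  have hCc0 : 0 < Cc := by rw [hCc]; linarith
  refine ⟨max ⌈2 * (N : ℝ) / β⌉₊ ⌈Cc ^ (2 / β)⌉₊ + 1, ?_⟩
  intro m hm Λ K G0 Go hΛ hK hKG hGG hGo
  have hm' : max ⌈2 * (N : ℝ) / β⌉₊ ⌈Cc ^ (2 / β)⌉₊ ≤ m := by omega
  have hm1 : ⌈2 * (N : ℝ) / β⌉₊ ≤ m := le_trans (le_max_left _ _) hm'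
  have hm2 : ⌈Cc ^ (2 / β)⌉₊ ≤ m := le_trans (le_max_right _ _) hm'
  have hm0 : 0 < m := by omega
  have hmR : (0 : ℝ) < m := by exact_mod_cast hm0
  have hK0 : 0 < K := by linarith
  have hG00 : 0 < G0 := by linarith
  have hGo0 : 0 < Go := by linarith
  have hGo1 : 1 ≤ Go := by linarith
  have hKGo : K ≤ Go := hKG.trans hGG
  have hΛ1 : 1 ≤ Λ := by linarith
  have hΛ0 : 0 < Λ := by linarith
  have hGN : 0 < Go ^ N := by positivity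
  have hCg0 : 0 < Cg := by linarith
  -- the five summands
  have t1 : Cg ^ (ℓ + 1) * (2 * (2 * K ^ (ℓ + 8)) ^ k) ≤ c1 * Go ^ N := by
    have a1 : (K ^ (ℓ + 8)) ^ k ≤ Go ^ N := by
      rw [← pow_mul]
      exact (pow_le_pow_left₀ hK0.le hKGo _).trans (pow_le_pow_right₀ hGo1 hN1)
    calc Cg ^ (ℓ + 1) * (2 * (2 * K ^ (ℓ + 8)) ^ k) = c1 * (K ^ (ℓ + 8)) ^ k := by
          rw [hc1, mul_pow, pow_succ 2 k]; ring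
      _ ≤ c1 * Go ^ N := mul_le_mul_of_nonneg_left a1 (by linarith)
  have t2 : K ≤ c1 * Go ^ N := by
    have a1 : Go ≤ Go ^ N := by
      calc Go = Go ^ 1 := (pow_one _).symm
        _ ≤ Go ^ N := pow_le_pow_right₀ hGo1 (by omega)
    calc K ≤ 1 * Go ^ N := by linarith
      _ ≤ c1 * Go ^ N := mul_le_mul_of_nonneg_right hc1_1 hGN.le
  have t3 : Cg * G0 ^ Q2 ≤ c1 * Go ^ N := by
    have a1 : G0 ^ Q2 ≤ Go ^ N := by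
      calc G0 ^ Q2 ≤ Go ^ Q2 := Real.rpow_le_rpow hG00.le hGG hQ2
        _ ≤ Go ^ (N : ℝ) := by
            refine Real.rpow_le_rpow_of_exponent_le hGo1 ?_
            exact (Nat.le_ceil Q2).trans (by exact_mod_cast hN2)
        _ = Go ^ N := Real.rpow_natCast _ _
    exact mul_le_mul hc1_Cg a1 (by positivity) (by linarith)
  have t4 : Cg * G0 ^ (k + 1) * K * (2 * K) ≤ c1 * Go ^ N := by
    have a1 : G0 ^ (k + 1) * K * K ≤ Go ^ N := by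
      calc G0 ^ (k + 1) * K * K ≤ Go ^ (k + 1) * Go * Go := by gcongr
        _ = Go ^ (k + 3) := by ring
        _ ≤ Go ^ N := pow_le_pow_right₀ hGo1 hN3
    calc Cg * G0 ^ (k + 1) * K * (2 * K) = (2 * Cg) * (G0 ^ (k + 1) * K * K) := by ring
      _ ≤ c1 * Go ^ N := mul_le_mul hc1_2Cg a1 (by positivity) (by linarith)
  have t5 : Cg * G0 ^ (k + 1) * Go ≤ c1 * Go ^ N := by
    have a1 : G0 ^ (k + 1) * Go ≤ Go ^ N := by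
      calc G0 ^ (k + 1) * Go ≤ Go ^ (k + 1) * Go := by gcongr
        _ = Go ^ (k + 2) := by ring
        _ ≤ Go ^ N := pow_le_pow_right₀ hGo1 (by omega)
    calc Cg * G0 ^ (k + 1) * Go = Cg * (G0 ^ (k + 1) * Go) := by ring
      _ ≤ c1 * Go ^ N := mul_le_mul hc1_Cg a1 (by positivity) (by linarith)
  have hsum : fl3Ko ℓ k Cg K G0 Go Q2 ≤ Cc * Go ^ N := by
    unfold fl3Ko
    rw [hCc]; linarith
  -- Go^N ≤ Λ^(β/2)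
  have hA : Go ^ N ≤ Λ ^ (β / 2) := by
    have e : Go ^ N = (Go ^ m) ^ ((N : ℝ) / m) := by
      rw [← Real.rpow_natCast Go m, ← Real.rpow_mul hGo0.le, ← Real.rpow_natCast Go N]
      congr 1; field_simp
    have hNm : (N : ℝ) / m ≤ β / 2 := by
      have h1 : 2 * (N : ℝ) / β ≤ (⌈2 * (N : ℝ) / β⌉₊ : ℝ) := Nat.le_ceil _
      have h2 : ((⌈2 * (N : ℝ) / β⌉₊ : ℕ) : ℝ) ≤ (m : ℝ) := by exact_mod_cast hm1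
      have h3 : 2 * (N : ℝ) / β ≤ m := h1.trans h2
      rw [div_le_iff₀ hβ] at h3
      rw [div_le_div_iff₀ hmR (by norm_num)]
      linarith
    rw [e]
    calc (Go ^ m) ^ ((N : ℝ) / m) ≤ Λ ^ ((N : ℝ) / m) :=
          Real.rpow_le_rpow (by positivity) hGo (by positivity)
      _ ≤ Λ ^ (β / 2) := Real.rpow_le_rpow_of_exponent_le hΛ1 hNm
  have hB : Cc ≤ Λ ^ (β / 2) := by
    have h1 : Cc ^ (2 / β) ≤ (⌈Cc ^ (2 / β)⌉₊ : ℝ) := Nat.le_ceil _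
    have h2 : ((⌈Cc ^ (2 / β)⌉₊ : ℕ) : ℝ) ≤ (m : ℝ) := by exact_mod_cast hm2
    have h3 : Cc ^ (2 / β) ≤ Λ := by linarith
    calc Cc = (Cc ^ (2 / β)) ^ (β / 2) := by
          rw [← Real.rpow_mul hCc0.le]
          have : 2 / β * (β / 2) = 1 := by field_simp
          rw [this, Real.rpow_one]
      _ ≤ Λ ^ (β / 2) := Real.rpow_le_rpow (by positivity) h3 (by positivity)
  calc fl3Ko ℓ k Cg K G0 Go Q2 ≤ Cc * Go ^ N := hsum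
    _ ≤ Λ ^ (β / 2) * Λ ^ (β / 2) := mul_le_mul hB hA hGN.le (by positivity)
    _ = Λ ^ β := by rw [← Real.rpow_add hΛ0]; congr 1; ring

variable {k : ℕ}

/-- **LEAF L-257-LL-P3: the sizes of a configuration.**
PLAN.  `K ≤ K^m` (`le_self_pow₀`, `1 ≤ K`), `h.K_G j`, `ti_G_le h.cls _ (h.good j) (Nat.zero_le _) le_rfl`.   `G 0 ≤ G 0 ^ (2 P)` (`Real.self_le_rpow_of_one_le`, `1 ≤ 2 P` from `h.cls.P_gt`),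
`(F.tp j).ϖ1 = Cp * G 0 ^ (2 P) * ϖ` (`rfl`), `1 ≤ Cp` (`(h.sys j).one_le_Γ2`, `Γ2 = Cp` by `rfl`), `1 ≤ ϖ` (`(h.good j).one_le_ϖ`), `h.ϖ1_Go j`.   `ϖ ≤ Cp * ϖ = (F.tp j).ϖ0 ≤ K` (`rfl`, `h.ϖ0_le j`). -/
theorem fl3_F_sizes {F : FCfg k} {m : ℕ} (h : F.Ok m) (hm : 1 ≤ m) (j : Fin (k + 1)) : F.K ≤ (F.D j).G 0 ∧ (F.D j).G 0 ≤ F.Go ∧ 1 ≤ F.Cp ∧ (F.D j).ϖ ≤ F.K := by
  have hK2 := h.two_le_K
  have hK1 : 1 ≤ F.K := by linarith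
  have hCp : 1 ≤ F.Cp := (h.sys j).one_le_Γ2
  have hϖ : 1 ≤ (F.D j).ϖ := (h.good j).one_le_ϖ
  have s1 : F.K ≤ (F.D j).G 0 :=
    ((le_self_pow₀ hK1 (by omega)).trans (h.K_G j)).trans (ti_G_le h.cls _ (h.good j) (Nat.zero_le _) le_rfl)
  have hG1 : 1 ≤ (F.D j).G 0 := hK1.trans s1
  refine ⟨s1, ?_, hCp, ?_⟩
  · have hP : 1 ≤ 2 * F.c.P := by
      have := h.cls.P_gt
      have hk : (0 : ℝ) ≤ k := Nat.cast_nonneg k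
      linarith
    have e1 : (F.D j).G 0 ≤ (F.D j).G 0 ^ (2 * F.c.P) := Real.self_le_rpow_of_one_le hG1 hP
    have e2 : F.Cp * (F.D j).G 0 ^ (2 * F.c.P) * (F.D j).ϖ ≤ F.Go := h.ϖ1_Go j
    have e3 : 0 ≤ (F.D j).G 0 ^ (2 * F.c.P) := by positivity
    have e4 : (F.D j).G 0 ^ (2 * F.c.P) ≤ F.Cp * (F.D j).G 0 ^ (2 * F.c.P) := le_mul_of_one_le_left e3 hCp
    have e5 : F.Cp * (F.D j).G 0 ^ (2 * F.c.P) ≤ F.Cp * (F.D j).G 0 ^ (2 * F.c.P) * (F.D j).ϖ := le_mul_of_one_le_right (by positivity) hϖ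
    linarith
  · have e1 : F.Cp * (F.D j).ϖ ≤ F.K := h.ϖ0_le j
    have e2 : (F.D j).ϖ ≤ F.Cp * (F.D j).ϖ := le_mul_of_one_le_left (by linarith) hCp
    linarith

/-- **LEAF L-257-LL-P4: the range condition of `tp_root_set`.**
PLAN.  `X := F.X ≥ 1` (`one_le_pow₀`, `Λ ≥ 3`).   `∏_{i<ℓ} Γ i ≤ X^ℓ` (`Finset.prod_le_pow_card` / `Finset.prod_le_prod` with `h.Γ_le`, `0 ≤ Γ` from `(h.sys j).one_le_Γ`), `Γr ℓ ≤ X A²` (`h.Γr_le`).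
`ϖl := ((2 K^(ℓ+8))^k)⁻¹ ≤ (K²)⁻¹` (`k ≥ 1`: `h.cls.k_pos`; `K² ≤ 2 K^(ℓ+8) ≤ (2 K^(ℓ+8))^k`).   `X^(ℓ+1) ≤ X^m ≤ Rm ≤ Rm²` … `(Rm A/K)² = Rm² A²/K²`. -/
theorem fl3_F_range {F : FCfg k} {m : ℕ} (h : F.Ok m) (hm : F.c.ℓ + 1 ≤ m) (j : Fin (k + 1)) :
    (∏ i ∈ Finset.range F.c.ℓ, (F.tp j).Γ i) * (F.tp j).Γr F.c.ℓ * ((2 * F.K ^ (F.c.ℓ + 8)) ^ k)⁻¹ ≤ ((F.tp j).Rm * (F.A j / F.K)) ^ 2 := by
  have hK2 := h.two_le_K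
  have hK0 : 0 < F.K := by linarith
  have hK1 : 1 ≤ F.K := by linarith
  have hA : 1 ≤ F.A j := h.one_le_A j
  have hΛ : 1 ≤ F.Λ := by
    have := h.Λ_ge
    have hm0 : (0 : ℝ) ≤ m := Nat.cast_nonneg m
    linarith
  have hX : 1 ≤ F.X := one_le_pow₀ hΛ
  have hX0 : 0 ≤ F.X := by linarith
  have hprod : ∏ i ∈ Finset.range F.c.ℓ, (F.tp j).Γ i ≤ F.X ^ F.c.ℓ := by
    have := Finset.prod_le_prod (s := Finset.range F.c.ℓ) (f := fun i => (F.tp j).Γ i) (g := fun _ => F.X)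
      (fun i _ => by linarith [(h.sys j).one_le_Γ i]) (fun i hi => h.Γ_le j i (Finset.mem_range.1 hi))
    rwa [Finset.prod_const, Finset.card_range] at this
  have hprod0 : 0 ≤ ∏ i ∈ Finset.range F.c.ℓ, (F.tp j).Γ i := Finset.prod_nonneg fun i _ => by linarith [(h.sys j).one_le_Γ i]
  have hΓr : (F.tp j).Γr F.c.ℓ ≤ F.X * F.A j ^ 2 := h.Γr_le j _ le_rfl
  have hΓr0 : 0 ≤ (F.tp j).Γr F.c.ℓ := by linarith [(h.sys j).one_le_Γr F.c.ℓ]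
  have hk : 1 ≤ k := h.cls.k_pos
  have hB : F.K ^ 2 ≤ 2 * F.K ^ (F.c.ℓ + 8) := by
    have : F.K ^ 2 ≤ F.K ^ (F.c.ℓ + 8) := pow_le_pow_right₀ hK1 (by omega)
    have h0 : 0 ≤ F.K ^ (F.c.ℓ + 8) := by positivity
    linarith
  have hB1 : 1 ≤ 2 * F.K ^ (F.c.ℓ + 8) := by
    have : 1 ≤ F.K ^ 2 := one_le_pow₀ hK1
    linarith
  have hBk : F.K ^ 2 ≤ (2 * F.K ^ (F.c.ℓ + 8)) ^ k := hB.trans (le_self_pow₀ hB1 (by omega))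
  have hϖ : ((2 * F.K ^ (F.c.ℓ + 8)) ^ k)⁻¹ ≤ (F.K ^ 2)⁻¹ := inv_anti₀ (by positivity) hBk
  have hRm : F.X ^ (F.c.ℓ + 1) ≤ F.Rm := (pow_le_pow_right₀ hX hm).trans h.Rm_ge
  have hRm1 : 1 ≤ F.Rm := (one_le_pow₀ hX).trans hRm
  have hRm2 : F.Rm ≤ F.Rm ^ 2 := by nlinarith
  show (∏ i ∈ Finset.range F.c.ℓ, (F.tp j).Γ i) * (F.tp j).Γr F.c.ℓ * ((2 * F.K ^ (F.c.ℓ + 8)) ^ k)⁻¹ ≤ (F.Rm * (F.A j / F.K)) ^ 2
  calc (∏ i ∈ Finset.range F.c.ℓ, (F.tp j).Γ i) * (F.tp j).Γr F.c.ℓ * ((2 * F.K ^ (F.c.ℓ + 8)) ^ k)⁻¹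
      ≤ F.X ^ F.c.ℓ * (F.X * F.A j ^ 2) * (F.K ^ 2)⁻¹ := by
        refine mul_le_mul (mul_le_mul hprod hΓr hΓr0 (by positivity)) hϖ (by positivity) (by positivity)
    _ = F.X ^ (F.c.ℓ + 1) * (F.A j ^ 2 * (F.K ^ 2)⁻¹) := by ring
    _ ≤ F.Rm ^ 2 * (F.A j ^ 2 * (F.K ^ 2)⁻¹) := mul_le_mul_of_nonneg_right (hRm.trans hRm2) (by positivity)
    _ = (F.Rm * (F.A j / F.K)) ^ 2 := by
        field_simp

/-- **LEAF L-257-LL-P5: the low-mass condition of `tp_root_set`.**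
PLAN.  `q = qk k = 2 (k+2)/k`, `q/2 - 1 = 2/k`, `2 < q ≤ 6`.   `(A/K)^(-q) = K^q / A^q` (`Real.div_rpow`, `Real.rpow_neg`), `K^q ≤ K^6` (`Real.rpow_le_rpow_of_exponent_le`, `Real.rpow_natCast`).
`(((2K^(ℓ+8))^k)⁻¹)^(2/k) = ((2K^(ℓ+8))^2)⁻¹` (`Real.inv_rpow`, `← Real.rpow_natCast`, `← Real.rpow_mul`).   `L0 ≤ K`, `L^ℓ ≤ K^ℓ` (`h.L_le j`, `h.L0_le j`; `0 ≤ L` from `(h.sys j).one_le_L`), `D ≤ K (#Qc A^q)` (`h.bal`), `#Y = #Qc` (`Fintype.card_congr (F.e j)`).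
Total `≤ K^(ℓ+8) #Qc / (4 K^(2ℓ+16)) ≤ #Qc / 2`. -/
theorem fl3_F_low {F : FCfg k} {m : ℕ} (h : F.Ok m) (j : Fin (k + 1)) :
    (F.tp j).L0 * (F.A j / F.K) ^ (-(qk k)) * (((2 * F.K ^ (F.c.ℓ + 8)) ^ k)⁻¹) ^ (qk k / 2 - 1) * ((F.tp j).L ^ F.c.ℓ * (F.D j).sys.D) ≤ (Fintype.card (F.D j).sys.Y : ℝ) / 2 := by
  have hK2 := h.two_le_K
  have hK0 : 0 < F.K := by linarith
  have hK1 : 1 ≤ F.K := by linarith
  have hA : 1 ≤ F.A j := h.one_le_A j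
  have hA0 : 0 < F.A j := by linarith
  have hk : 1 ≤ k := h.cls.k_pos
  have hkR : (1 : ℝ) ≤ k := by exact_mod_cast hk
  have hk0 : (0 : ℝ) < k := by linarith
  have hq6 : qk k ≤ 6 := by
    unfold qk
    rw [div_le_iff₀ hk0]
    linarith
  have hq2 : qk k / 2 - 1 = 2 / (k : ℝ) := by
    unfold qk
    field_simp
    ring
  have hAq : 0 < F.A j ^ qk k := Real.rpow_pos_of_pos hA0 _
  have e1 : (F.A j / F.K) ^ (-(qk k)) = F.K ^ qk k / F.A j ^ qk k := by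
    rw [Real.rpow_neg (by positivity), Real.div_rpow hA0.le hK0.le, inv_div]
  have hKq : F.K ^ qk k ≤ F.K ^ 6 := by
    have := Real.rpow_le_rpow_of_exponent_le hK1 hq6
    have e : F.K ^ (6 : ℝ) = F.K ^ 6 := by
      exact_mod_cast Real.rpow_natCast F.K 6
    rwa [e] at this
  have hB0 : 0 < 2 * F.K ^ (F.c.ℓ + 8) := by positivity
  have e2 : (((2 * F.K ^ (F.c.ℓ + 8)) ^ k)⁻¹) ^ (qk k / 2 - 1) = ((2 * F.K ^ (F.c.ℓ + 8)) ^ 2)⁻¹ := by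
    rw [hq2, Real.inv_rpow (by positivity), ← Real.rpow_natCast (2 * F.K ^ (F.c.ℓ + 8)) k, ← Real.rpow_mul hB0.le]
    have : (k : ℝ) * (2 / (k : ℝ)) = ((2 : ℕ) : ℝ) := by
      push_cast
      field_simp
    rw [this, Real.rpow_natCast]
  have hL0 : (F.tp j).L0 ≤ F.K := h.L0_le j
  have hL00 : 0 ≤ (F.tp j).L0 := by linarith [(h.sys j).one_le_L0]
  have hL : (F.tp j).L ^ F.c.ℓ ≤ F.K ^ F.c.ℓ := pow_le_pow_left₀ (by linarith [(h.sys j).one_le_L]) (h.L_le j) _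
  have hL1 : 0 ≤ (F.tp j).L ^ F.c.ℓ := pow_nonneg (by linarith [(h.sys j).one_le_L]) _
  have hD := h.bal j
  have hD0 := (h.D_pos j).le
  have hcard : (Fintype.card (F.D j).sys.Y : ℝ) = Fintype.card F.Qc := by
    exact_mod_cast (Fintype.card_congr (F.e j)).symm
  have hc0 : (0 : ℝ) ≤ Fintype.card F.Qc := Nat.cast_nonneg _
  rw [e1, e2, hcard]
  calc (F.tp j).L0 * (F.K ^ qk k / F.A j ^ qk k) * ((2 * F.K ^ (F.c.ℓ + 8)) ^ 2)⁻¹ * ((F.tp j).L ^ F.c.ℓ * (F.D j).sys.D)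
      ≤ F.K * (F.K ^ 6 / F.A j ^ qk k) * ((2 * F.K ^ (F.c.ℓ + 8)) ^ 2)⁻¹ * (F.K ^ F.c.ℓ * (F.K * (Fintype.card F.Qc * F.A j ^ qk k))) := by
        have a1 : F.K ^ qk k / F.A j ^ qk k ≤ F.K ^ 6 / F.A j ^ qk k := div_le_div_of_nonneg_right hKq hAq.le
        have a0 : 0 ≤ F.K ^ qk k / F.A j ^ qk k := by positivity
        refine mul_le_mul (mul_le_mul_of_nonneg_right (mul_le_mul hL0 a1 a0 hK0.le) (by positivity)) (mul_le_mul hL hD hD0 (by positivity)) (by positivity) (by positivity)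
    _ = (Fintype.card F.Qc : ℝ) / (4 * F.K ^ (F.c.ℓ + 8)) := by
        field_simp
        ring
    _ ≤ (Fintype.card F.Qc : ℝ) / 2 := by
        refine div_le_div_of_nonneg_left hc0 (by norm_num) ?_
        have : 1 ≤ F.K ^ (F.c.ℓ + 8) := one_le_pow₀ hK1
        linarith

/-- **the path package of the fields of a configuration** -/
theorem fl3_path (c : TCls k) (hc : c.Ok) (β : ℝ) (hβ : 0 < β) : ∃ m0 : ℕ, ∀ m : ℕ, m0 ≤ m → ∀ F : FCfg k, F.c = c → F.Ok m → ∀ j, ∃ (Cg ϖ Ko : ℝ) (Y' : Finset (F.D j).sys.Y) (P : FLaw ((F.D j).sys.Y × (F.D j).geo.Dir)),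
    (F.D j).geo.Ok ((F.D j).gp Cg) ∧ 0 < ϖ ∧ 0 < Ko ∧ Ko ≤ F.Λ ^ β ∧ Fl3Pkg (F.D j).sys (F.D j).geo (F.S j) (qk k) (F.A j) (F.r j) ϖ Ko Y' P := by
  obtain ⟨Cg, hCg, Hg⟩ := ti_geo_ok hc
  have hd : 0 < c.Q - c.P := by linarith [hc.P_lt]
  have hQ2 : 0 ≤ 2 * c.Q := by
    have : (0 : ℝ) ≤ k := Nat.cast_nonneg k
    linarith [hc.P_gt, hc.P_lt]
  obtain ⟨m1, H1⟩ := fl3_num_delta c.ℓ k (c.Q - c.P) Cg hd hCg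
  obtain ⟨m2, H2⟩ := fl3_num_Ko c.ℓ k (2 * c.Q) Cg β hQ2 hCg hβ
  refine ⟨m1 + m2 + c.ℓ + 1, fun m hm F hFc h j => ?_⟩
  subst hFc
  obtain ⟨s1, s2, s3, s4⟩ := fl3_F_sizes h (by omega) j
  have hK2 := h.two_le_K
  have hK0 : 0 < F.K := by linarith
  have hA0 : 0 < F.A j := by linarith [h.one_le_A j]
  have hgeo := Hg Cg le_rfl (F.D j) (h.good j)
  set ϖl : ℝ := ((2 * F.K ^ (F.c.ℓ + 8)) ^ k)⁻¹ with hϖl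
  have hϖ0 : 0 < ϖl := by positivity
  set Ko : ℝ := fl3Ko F.c.ℓ k Cg F.K ((F.D j).G 0) F.Go (2 * F.c.Q) with hKo
  have hG0 : 0 < (F.D j).G 0 := by linarith
  have hGo : 0 < F.Go := by linarith
  have hCg0 : 0 < Cg := by linarith
  have t1 : 0 ≤ Cg ^ (F.c.ℓ + 1) * (2 * (2 * F.K ^ (F.c.ℓ + 8)) ^ k) := by positivity
  have t3 : 0 ≤ Cg * (F.D j).G 0 ^ (2 * F.c.Q) := by positivity
  have t4 : 0 ≤ Cg * (F.D j).G 0 ^ (k + 1) * F.K * (2 * F.K) := by positivity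
  have t5 : 0 ≤ Cg * (F.D j).G 0 ^ (k + 1) * F.Go := by positivity
  have hKoβ : Ko ≤ F.Λ ^ β := H2 m (by omega) F.Λ F.K _ F.Go h.Λ_ge hK2 s1 s2 h.Go_Λ
  have e2 : ∀ x : ℝ, x / (ϖl / 2) = x * (2 * (2 * F.K ^ (F.c.ℓ + 8)) ^ k) := by
    intro x
    rw [hϖl]
    field_simp
  have hne : Nonempty (F.D j).sys.Y := ⟨F.e j h.ne.some⟩
  have hcard : (Fintype.card (F.D j).sys.Y : ℝ) = Fintype.card F.Qc := by
    exact_mod_cast (Fintype.card_congr (F.e j)).symm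
  have hδ : ((F.D j).gp Cg).δ * (((F.D j).sys.ℓ : ℝ) * (F.tp j).ϖ0 + ((F.D j).gp Cg).ϖb) ≤ ϖl / 2 := by
    have h1 := H1 m (by omega) F.K ((F.D j).G F.c.ℓ) hK2 (h.K_G j)
    refine le_trans (mul_le_mul_of_nonneg_left ?_ hgeo.δ_nonneg) h1
    show (F.c.ℓ : ℝ) * (F.tp j).ϖ0 + Cg * (F.D j).ϖ ≤ ((F.c.ℓ : ℝ) + Cg) * F.K
    have a1 := h.ϖ0_le j
    have a2 : (0 : ℝ) ≤ F.c.ℓ := Nat.cast_nonneg _
    nlinarith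
  obtain ⟨Y', P, hpkg⟩ := fl3_pkg (h.sys j) hgeo (h.frozen j) hA0 hK0 hne ϖl hϖ0 (fl3_F_range h (by omega) j) (fl3_F_low h j) hδ F.K hK0.le
    (by rw [hcard]; exact h.bal j) Ko
    (by
      show Cg ^ F.c.ℓ / (ϖl / 2) ≤ Ko
      rw [e2, hKo, fl3Ko]
      have : Cg ^ F.c.ℓ ≤ Cg ^ (F.c.ℓ + 1) := pow_le_pow_right₀ hCg (Nat.le_succ _)
      have := mul_le_mul_of_nonneg_right this (by positivity : (0 : ℝ) ≤ 2 * (2 * F.K ^ (F.c.ℓ + 8)) ^ k)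
      linarith)
    (by
      have := h.ϖ0_le j
      rw [hKo, fl3Ko]
      linarith)
    (by
      show Cg * (F.D j).G 0 ^ (2 * F.c.Q) ≤ Ko
      rw [hKo, fl3Ko]
      linarith)
    (by
      show Cg ^ F.c.ℓ * Cg / (ϖl / 2) ≤ Ko
      rw [e2, hKo, fl3Ko, ← pow_succ]
      linarith)
    (by
      show Cg * (F.D j).G 0 ^ (k + 1) * F.K * (2 * F.K) ≤ Ko
      rw [hKo, fl3Ko]
      linarith)
    (by
      show Cg * (F.D j).G 0 ^ (k + 1) * F.Go ≤ Ko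
      rw [hKo, fl3Ko]
      linarith)
  refine ⟨Cg, ϖl / 2, Ko, Y', P, hgeo, by linarith, ?_, hKoβ, hpkg⟩
  rw [hKo, fl3Ko]
  linarith

end

end Claimed.Agent.R257.FR3
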