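import Claimed.Agent.R257.FR3.MidFc
import Claimed.Agent.R257.FR3.LlPath
import Claimed.Agent.R257.FR3.Top

/-!
# ROW 257, package FR3, unit MID, file 11: EXIT OF THE UNIT   `fm3_gtestM : GAngM k → GTestM k`      (architect helper276)            CONTRACT

H `frame.tex` l.1389-1446 (`f:midpoint`, one field).   PARAMETERS.  `σ = s`, strip exponent `u = s/2`, `b₁ = min (1/100) (ηa/8)`, all losses `≤ T = Λ^β`, `β = b₁ s`, tolerance of ANG `tol = β/2`, mesh `≤ s/64`, `e0 ≤ 1/(16 q)`, `V ≥ 3`, `s ≤ (a-l)/8`.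
NODES.  `b = (l+a)/2`;   second path: parent `s_ip ≈ b + s/2`, child `s_ic ≈ b - s/2`;   first path: parent `s_jp ≈ a + 2s`, child `s_jc ≈ a - s`;   cap `s_lam ≈ l`.
`mdt_same` (`FR3/MidFc.lean`) + zero slope at `b` + full slope at `a`  ⟹  `2 s_ip ≤ s_jc + s_lam + u + 68 β + s/8`,  i.e.  `l + a + s - s/32 ≤ l + a - s/2 + 69 β + s/8`:  FALSE.
* `mdq_at`, `mdq_node`, `mdq_kappa`, `mdq_r`    quality calculus on `FCfg` (reusable)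
* `mdn_main`                                    the exponent arithmetic (reals only)
* `mdt_core`                                    nodes + exponents ⟹ `False`
* `fm3_gtestM`                                  **EXIT** (glue, proved here)
Every `sorry` is a leaf `L-F3-Q*` (statement frozen; prove in place; helpers directly above with the prefix of the theorem).
-/

set_option autoImplicit false

namespace Claimed.Agent.R257.FR3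

open scoped BigOperators
open Classical
open Claimed.Agent.R255 Claimed.Agent.R257 Claimed.Agent.R257.FR2 Claimed.Agent.R257.Tree

noncomputable section

theorem mdq_at_pow {Go Λ t β : ℝ} {m : ℕ} (hm : 0 < m) (hGo : 1 ≤ Go) (hGoΛ : Go ^ m ≤ Λ) (ht : 0 ≤ t) (hβ : 0 < β) (htm : t / β ≤ m) :
    Go ^ t ≤ Λ ^ β := by
  have hmR : (0 : ℝ) < m := by exact_mod_cast hm
  have hGo0 : 0 < Go := by linarith
  have hΛ1 : 1 ≤ Λ := (one_le_pow₀ hGo).trans hGoΛ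
  have e : Go ^ t = (Go ^ m) ^ (t / m) := by
    rw [← Real.rpow_natCast Go m, ← Real.rpow_mul hGo0.le]
    congr 1
    field_simp
  have htm' : t / m ≤ β := by
    rw [div_le_iff₀ hβ] at htm
    rw [div_le_iff₀ hmR]
    linarith
  rw [e]
  calc (Go ^ m) ^ (t / m) ≤ Λ ^ (t / m) := Real.rpow_le_rpow (by positivity) hGoΛ (by positivity)
    _ ≤ Λ ^ β := Real.rpow_le_rpow_of_exponent_le hΛ1 htm'

theorem mdq_at_cst {X Λ β : ℝ} {m : ℕ} (hβ : 0 < β) (hΛ : (m : ℝ) + 3 ≤ Λ) (hX : (max 1 X) ^ (1 / β) ≤ m) : X ≤ Λ ^ β := by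
  have h1 : (0 : ℝ) < max 1 X := lt_of_lt_of_le one_pos (le_max_left _ _)
  have h3 : (max 1 X) ^ (1 / β) ≤ Λ := by linarith
  calc X ≤ max 1 X := le_max_right _ _
    _ = ((max 1 X) ^ (1 / β)) ^ β := by
        rw [← Real.rpow_mul h1.le]
        have : 1 / β * β = 1 := by field_simp
        rw [this, Real.rpow_one]
    _ ≤ Λ ^ β := Real.rpow_le_rpow (by positivity) h3 hβ.le


/-- LEAF `L-F3-Q1`  **all the subpower quantities of a configuration of high quality are `≤ Λ^β`.**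
PLAN (model: `fl3_num_Ko`, `fl3_F_sizes` in `FR3/LlPath.lean`).   `subst`;  `fl3_F_sizes h (1 ≤ m) j`: `K ≤ G0 ≤ Go`;  `G0^(2P) ≤ Cp G0^(2P) ϖ = (F.tp j).ϖ1 ≤ Go` (`rfl`, `1 ≤ Cp`, `1 ≤ ϖ`, `h.ϖ1_Go j`).
`Go ≤ Λ^(1/m)` (from `h.Go_Λ`: `Real.rpow_le_rpow`, `Real.pow_rpow_inv_natCast`), so `Go^t ≤ Λ^(t/m) ≤ Λ^β` as soon as `m ≥ t/β` (`t ≥ 0`).   `K, Go ≤ Go^1`;   `G0^(2Q) = (G0^(2P))^(Q/P) ≤ Go^(Q/P)` (`Real.rpow_mul`, `P > 0`);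
`G0^(n+1+1) ≤ G0^(2P)` (`Real.rpow_natCast`, `n + 2 ≤ 2 P` from `hc.P_gt`, `1 ≤ G0`), `G0^P ≤ G0^(2P)`.   Constants `X ∈ {Cg^(ℓ+1), Cst}`: `X ≤ Λ^β` as soon as `m + 3 ≥ X^(1/β)` (`h.Λ_ge`; `Real.rpow_le_rpow`, `Real.rpow_mul`; if `X ≤ 1` trivial: `Real.one_le_rpow`).
`m0 := 1 + ⌈(Q/P + 1)/β⌉₊ + ⌈(max 1 (Cg^(ℓ+1)))^(1/β)⌉₊ + ⌈(max 1 Cst)^(1/β)⌉₊`. -/
theorem mdq_at {n : ℕ} (c : TCls (n + 1)) (hc : c.Ok) (Cg Cst β : ℝ) (hCg : 1 ≤ Cg) (hβ : 0 < β) :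
    ∃ m0 : ℕ, ∀ m : ℕ, m0 ≤ m → ∀ F : FCfg (n + 1), F.c = c → F.Ok m → ∀ j, MdtAt F j Cg (F.Λ ^ β) ∧ Cst ≤ F.Λ ^ β := by
  refine ⟨1 + ⌈(c.Q / c.P + 1) / β⌉₊ + ⌈(max 1 (Cg ^ (c.ℓ + 1))) ^ (1 / β)⌉₊ + ⌈(max 1 Cst) ^ (1 / β)⌉₊, ?_⟩
  intro m hm F hF h j
  subst hF
  have hm1 : 1 ≤ m := by omega
  have hmA : ⌈(F.c.Q / F.c.P + 1) / β⌉₊ ≤ m := by omega
  have hmB : ⌈(max 1 (Cg ^ (F.c.ℓ + 1))) ^ (1 / β)⌉₊ ≤ m := by omega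
  have hmC : ⌈(max 1 Cst) ^ (1 / β)⌉₊ ≤ m := by omega
  have hA : (F.c.Q / F.c.P + 1) / β ≤ m := (Nat.le_ceil _).trans (by exact_mod_cast hmA)
  have hB : (max 1 (Cg ^ (F.c.ℓ + 1))) ^ (1 / β) ≤ m := (Nat.le_ceil _).trans (by exact_mod_cast hmB)
  have hC : (max 1 Cst) ^ (1 / β) ≤ m := (Nat.le_ceil _).trans (by exact_mod_cast hmC)
  have hn0 : (0 : ℝ) ≤ ((n + 1 : ℕ) : ℝ) := Nat.cast_nonneg _
  have hP := hc.P_gt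
  have hP0 : 0 < F.c.P := by linarith
  have hQ0 : 0 < F.c.Q := hP0.trans hc.P_lt
  have hQP : 0 ≤ F.c.Q / F.c.P := (div_pos hQ0 hP0).le
  obtain ⟨s1, s2, s3, s4⟩ := fl3_F_sizes h hm1 j
  have hK2 := h.two_le_K
  have hG1 : 1 ≤ (F.D j).G 0 := by linarith
  have hG0 : 0 < (F.D j).G 0 := by linarith
  have hGo1 : 1 ≤ F.Go := by linarith
  have hϖ : 1 ≤ (F.D j).ϖ := (h.good j).one_le_ϖ
  have hG2P : (F.D j).G 0 ^ (2 * F.c.P) ≤ F.Go := by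
    have e2 : F.Cp * (F.D j).G 0 ^ (2 * F.c.P) * (F.D j).ϖ ≤ F.Go := h.ϖ1_Go j
    have e3 : 0 ≤ (F.D j).G 0 ^ (2 * F.c.P) := by positivity
    have e4 : (F.D j).G 0 ^ (2 * F.c.P) ≤ F.Cp * (F.D j).G 0 ^ (2 * F.c.P) := le_mul_of_one_le_left e3 s3
    have e5 : F.Cp * (F.D j).G 0 ^ (2 * F.c.P) ≤ F.Cp * (F.D j).G 0 ^ (2 * F.c.P) * (F.D j).ϖ := le_mul_of_one_le_right (by positivity) hϖ
    linarith
  have t1 : (1 : ℝ) / β ≤ m := by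
    refine le_trans ?_ hA
    exact div_le_div_of_nonneg_right (by linarith) hβ.le
  have t2 : F.c.Q / F.c.P / β ≤ m := by
    refine le_trans ?_ hA
    exact div_le_div_of_nonneg_right (by linarith) hβ.le
  have hGoT : F.Go ≤ F.Λ ^ β := by
    have := mdq_at_pow (t := 1) (by omega : 0 < m) hGo1 h.Go_Λ zero_le_one hβ t1
    rwa [Real.rpow_one] at this
  refine ⟨⟨hCg, mdq_at_cst hβ h.Λ_ge hB, (s1.trans s2).trans hGoT, hGoT, ?_, ?_, ?_⟩, mdq_at_cst hβ h.Λ_ge hC⟩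
  · have e : (F.D j).G 0 ^ (2 * F.c.Q) = ((F.D j).G 0 ^ (2 * F.c.P)) ^ (F.c.Q / F.c.P) := by
      rw [← Real.rpow_mul hG0.le]
      congr 1
      field_simp
    rw [e]
    exact (Real.rpow_le_rpow (by positivity) hG2P hQP).trans (mdq_at_pow (by omega : 0 < m) hGo1 h.Go_Λ hQP hβ t2)
  · refine le_trans ?_ (hG2P.trans hGoT)
    rw [← Real.rpow_natCast]
    refine Real.rpow_le_rpow_of_exponent_le hG1 ?_
    push_cast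
    push_cast at hP
    linarith
  · refine le_trans ?_ (hG2P.trans hGoT)
    exact Real.rpow_le_rpow_of_exponent_le hG1 (by linarith)

/-- LEAF `L-F3-Q2` (a)  a node of the grid just below `x`.
PLAN.  `hM = ⟨h1, h2, h3⟩`.   `i := Nat.find (⟨F.c.ℓ, h2.trans hxa⟩ : ∃ i, F.s j i ≤ x)`, `i ≤ ℓ` (`Nat.find_min'`).   `i = 0`: `s 0 ≤ x ≤ b ≤ s 0`.   `i = i' + 1`: `x < s i'` (`Nat.find_min`), `s i' - s (i'+1) ≤ μ` (`h1 i' (by omega)`). -/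
theorem mdq_node {k : ℕ} {F : FCfg k} {j : Fin (k + 1)} {μ a b x : ℝ} (hM : F.Mesh j μ a b) (hμ : 0 ≤ μ) (hxa : a ≤ x) (hxb : x ≤ b) :
    ∃ i, i ≤ F.c.ℓ ∧ x - μ ≤ F.s j i ∧ F.s j i ≤ x := by
  obtain ⟨h1, h2, h3⟩ := hM
  have hex : ∃ i, F.s j i ≤ x := ⟨F.c.ℓ, h2.trans hxa⟩
  have hle : Nat.find hex ≤ F.c.ℓ := Nat.find_min' hex (h2.trans hxa)
  have hsp : F.s j (Nat.find hex) ≤ x := Nat.find_spec hex
  have hmin : ∀ i', i' < Nat.find hex → ¬ F.s j i' ≤ x := fun i' hi' => Nat.find_min hex hi'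
  obtain ⟨i, hi⟩ : ∃ i, i = Nat.find hex := ⟨_, rfl⟩
  rw [← hi] at hle hsp hmin
  refine ⟨i, hle, ?_, hsp⟩
  cases i with
  | zero => linarith
  | succ i' =>
    have hlt := not_le.1 (hmin i' (Nat.lt_succ_self _))
    have := h1 i' (by omega)
    linarith

/-- LEAF `L-F3-Q2` (b).   PLAN.  `unfold FCfg.s`; `Real.rpow_logb` (`0 < Λ`, `Λ ≠ 1` from `h.Λ_ge`; `0 < κ i / κr`: `TDat.κ_pos _ (h.good j)`, `h.κr_pos j`); `mul_div_cancel₀`. -/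
theorem mdq_kappa {k : ℕ} {F : FCfg k} {m : ℕ} (h : F.Ok m) (j : Fin (k + 1)) (i : ℕ) : (F.D j).κ i = F.κr j * F.Λ ^ F.s j i := by
  have hΛ : (m : ℝ) + 3 ≤ F.Λ := h.Λ_ge
  have hm : (0 : ℝ) ≤ m := Nat.cast_nonneg m
  have hΛ0 : 0 < F.Λ := by linarith
  have hΛ1 : F.Λ ≠ 1 := by
    intro h1
    rw [h1] at hΛ
    linarith
  have hκ : 0 < (F.D j).κ i := TDat.κ_pos _ (h.good j) i
  have hr := h.κr_pos j
  unfold FCfg.s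
  rw [Real.rpow_logb hΛ0 hΛ1 (div_pos hκ hr)]
  field_simp

/-- LEAF `L-F3-Q2` (c).   PLAN.  `unfold FCfg.ρ`; `Real.rpow_logb`; `(h.frozen j).r_pos i`. -/
theorem mdq_r {k : ℕ} {F : FCfg k} {m : ℕ} (h : F.Ok m) (j : Fin (k + 1)) (i : ℕ) : F.r j i = F.Λ ^ F.ρ j i := by
  have hΛ : (m : ℝ) + 3 ≤ F.Λ := h.Λ_ge
  have hm : (0 : ℝ) ≤ m := Nat.cast_nonneg m
  have hΛ0 : 0 < F.Λ := by linarith
  have hΛ1 : F.Λ ≠ 1 := by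
    intro h1
    rw [h1] at hΛ
    linarith
  unfold FCfg.ρ
  rw [Real.rpow_logb hΛ0 hΛ1 ((h.frozen j).r_pos i)]

theorem mdn_fac (N : ℕ) {Λ κr A q x ρ : ℝ} (hΛ : 0 < Λ) (hA : 0 < A) :
    (κr * Λ ^ x) ^ N * (Λ ^ ρ / A) ^ q = (κr ^ N / A ^ q) * Λ ^ ((N : ℝ) * x + q * ρ) := by
  rw [mul_pow, Real.div_rpow (Real.rpow_pos_of_pos hΛ _).le hA.le, ← Real.rpow_natCast (Λ ^ x) N, ← Real.rpow_mul hΛ.le,
    ← Real.rpow_mul hΛ.le, Real.rpow_add hΛ, mul_comm x, mul_comm ρ]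
  ring

theorem mdn_F1 {Λ κr sp sc : ℝ} (hΛ : 1 < Λ) (hκr : 0 < κr) (h1 : sc ≤ sp) :
    0 ≤ 2 * (κr * Λ ^ sp) / (κr * Λ ^ sc) + 2 ∧ 2 * (κr * Λ ^ sp) / (κr * Λ ^ sc) + 2 ≤ 4 * Λ ^ (sp - sc) := by
  have h0 : 0 < Λ := by linarith
  have hp : 0 < Λ ^ sp := Real.rpow_pos_of_pos h0 _
  have hc : 0 < Λ ^ sc := Real.rpow_pos_of_pos h0 _
  have e : 2 * (κr * Λ ^ sp) / (κr * Λ ^ sc) = 2 * Λ ^ (sp - sc) := by
    rw [Real.rpow_sub h0]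
    field_simp
  have h2 : 1 ≤ Λ ^ (sp - sc) := Real.one_le_rpow hΛ.le (by linarith)
  rw [e]
  constructor <;> linarith

theorem mdn_F2 {Λ κr kk u sl sp sc uc : ℝ} (hΛ : 1 < Λ) (hκr : 0 < κr) (hk : 0 < kk) (h2 : sp ≤ uc) (h3 : 0 ≤ uc + sl + u - 2 * sc) :
    0 ≤ 2 * (κr * Λ ^ sp + κr * Λ ^ uc + 2 * 0) / (2 * Λ ^ (-u) / (kk * (κr * Λ ^ sl)) * (κr * Λ ^ sc) ^ 2) + 2 ∧
    2 * (κr * Λ ^ sp + κr * Λ ^ uc + 2 * 0) / (2 * Λ ^ (-u) / (kk * (κr * Λ ^ sl)) * (κr * Λ ^ sc) ^ 2) + 2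
      ≤ (2 * kk + 2) * Λ ^ (uc + sl + u - 2 * sc) := by
  have h0 : 0 < Λ := by linarith
  have hp : 0 < Λ ^ sp := Real.rpow_pos_of_pos h0 _
  have hc : 0 < Λ ^ sc := Real.rpow_pos_of_pos h0 _
  have hu : 0 < Λ ^ u := Real.rpow_pos_of_pos h0 _
  have hl : 0 < Λ ^ sl := Real.rpow_pos_of_pos h0 _
  have huc : 0 < Λ ^ uc := Real.rpow_pos_of_pos h0 _
  have hnu : Λ ^ (-u) = (Λ ^ u)⁻¹ := Real.rpow_neg h0.le u
  have hd : 0 < 2 * Λ ^ (-u) / (kk * (κr * Λ ^ sl)) * (κr * Λ ^ sc) ^ 2 := by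
    rw [hnu]; positivity
  have hexp : Λ ^ (uc + sl + u - 2 * sc) = Λ ^ uc * Λ ^ sl * Λ ^ u / (Λ ^ sc) ^ 2 := by
    rw [Real.rpow_sub h0, Real.rpow_add h0, Real.rpow_add h0, mul_comm 2 sc, Real.rpow_mul h0.le, Real.rpow_two]
  have hle : Λ ^ sp ≤ Λ ^ uc := Real.rpow_le_rpow_of_exponent_le hΛ.le h2
  have h1 : 1 ≤ Λ ^ (uc + sl + u - 2 * sc) := Real.one_le_rpow hΛ.le h3
  have hq : 2 * (κr * Λ ^ sp + κr * Λ ^ uc + 2 * 0) / (2 * Λ ^ (-u) / (kk * (κr * Λ ^ sl)) * (κr * Λ ^ sc) ^ 2)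
      ≤ 2 * kk * Λ ^ (uc + sl + u - 2 * sc) := by
    rw [div_le_iff₀ hd]
    have e : 2 * kk * Λ ^ (uc + sl + u - 2 * sc) * (2 * Λ ^ (-u) / (kk * (κr * Λ ^ sl)) * (κr * Λ ^ sc) ^ 2) = 4 * (κr * Λ ^ uc) := by
      rw [hexp, hnu]
      field_simp
      ring
    rw [e]
    have := mul_le_mul_of_nonneg_left hle hκr.le
    linarith
  constructor
  · have : 0 ≤ 2 * (κr * Λ ^ sp + κr * Λ ^ uc + 2 * 0) / (2 * Λ ^ (-u) / (kk * (κr * Λ ^ sl)) * (κr * Λ ^ sc) ^ 2) :=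
      div_nonneg (by positivity) hd.le
    linarith
  · nlinarith

/-- LEAF `L-F3-Q3`  **the exponent arithmetic** (reals only).     `k = n + 1`, `q = qk k = 2 (k+2)/k`, `q k / 2 = k + 2`.
PLAN.  Everything is a power of `Λ` times the common factor `c₀ = κr^(2(k+2)) A^(-2q)`:
`(κr Λ^x)^(k+2) (Λ^ρ/A)^q = κr^(k+2) A^(-q) Λ^((k+2) x + q ρ)`  (`mul_pow`, `← Real.rpow_natCast`, `← Real.rpow_mul`, `Real.div_rpow`, `← Real.rpow_add`).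
`2 (κr Λ^sp)/(κr Λ^sc) + 2 = 2 Λ^(sp-sc) + 2 ≤ 4 Λ^(sp-sc)` (`h1`: `1 ≤ Λ^(sp-sc)`), power `k`: `≤ 4^k Λ^(k (sp - sc))`.
`2 (κr Λ^sp + κr Λ^uc + 0)/(r0 (κr Λ^sc)²) + 2 ≤ 4 κr Λ^uc/(r0 κr² Λ^(2sc)) + 2 = 2 k Λ^(uc + sl + u - 2 sc) + 2 ≤ (2k + 2) Λ^(uc + sl + u - 2sc)`  (`h2`, `h3`).
So `Λ^((k+2)(sp + uc) + q (ρp + ρjc)) ≤ Λ^(w + k (sp - sc) + uc + sl + u - 2 sc + (k+2)(sc + up) + q (ρc + ρjp))` after dividing by `c₀ > 0`;  `Real.rpow_le_rpow_left_iff hΛ`.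
Then linear arithmetic:  `q (ρc - ρp) ≤ q ε₁`,  `q (ρjp - ρjc) ≤ q ε₂ + (k+2)(uc - up)`  (`abs_le`, `q > 0`, `q * (k/2) = k + 2`). -/
theorem mdn_main (n : ℕ) {Λ κr A W w u sl sp sc up uc ρp ρc ρjp ρjc ε₁ ε₂ : ℝ} (hΛ : 1 < Λ) (hκr : 0 < κr) (hA : 0 < A) (hW0 : 0 ≤ W)
    (hW : W * (4 ^ (n + 1) * (2 * ((n : ℝ) + 1) + 2)) ≤ Λ ^ w) (h1 : sc ≤ sp) (h2 : sp ≤ uc) (h3 : 0 ≤ uc + sl + u - 2 * sc)
    (he1 : |ρp - ρc| ≤ ε₁) (he2 : |ρjc - ρjp + ((n + 1 : ℕ) : ℝ) / 2 * (uc - up)| ≤ ε₂)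
    (H : ((κr * Λ ^ sp) ^ (n + 1 + 2) * (Λ ^ ρp / A) ^ qk (n + 1)) * ((κr * Λ ^ uc) ^ (n + 1 + 2) * (Λ ^ ρjc / A) ^ qk (n + 1)) ≤
      W * ((2 * (κr * Λ ^ sp) / (κr * Λ ^ sc) + 2) ^ (n + 1) *
        (2 * (κr * Λ ^ sp + κr * Λ ^ uc + 2 * 0) / (2 * Λ ^ (-u) / (((n : ℝ) + 1) * (κr * Λ ^ sl)) * (κr * Λ ^ sc) ^ 2) + 2)) *
      (((κr * Λ ^ sc) ^ (n + 1 + 2) * (Λ ^ ρc / A) ^ qk (n + 1)) * ((κr * Λ ^ up) ^ (n + 1 + 2) * (Λ ^ ρjp / A) ^ qk (n + 1)))) :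
    2 * sp ≤ uc + sl + u + w + qk (n + 1) * (ε₁ + ε₂) := by
  have h0 : 0 < Λ := by linarith
  have hk : (0 : ℝ) < (n : ℝ) + 1 := by positivity
  obtain ⟨q, hq⟩ : ∃ q, q = qk (n + 1) := ⟨_, rfl⟩
  rw [← hq] at H ⊢
  have hq0 : 0 < q := by
    rw [hq]; unfold qk; positivity
  have hqk : q * (((n + 1 : ℕ) : ℝ) / 2) = (n : ℝ) + 3 := by
    rw [hq]; unfold qk
    push_cast
    field_simp
    ring
  obtain ⟨F1, hF1⟩ : ∃ F1, F1 = 2 * (κr * Λ ^ sp) / (κr * Λ ^ sc) + 2 := ⟨_, rfl⟩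
  obtain ⟨F2, hF2⟩ : ∃ F2, F2 = 2 * (κr * Λ ^ sp + κr * Λ ^ uc + 2 * 0) / (2 * Λ ^ (-u) / (((n : ℝ) + 1) * (κr * Λ ^ sl)) * (κr * Λ ^ sc) ^ 2) + 2 :=
    ⟨_, rfl⟩
  rw [← hF1, ← hF2] at H
  obtain ⟨f1a, f1b⟩ := mdn_F1 (sp := sp) (sc := sc) hΛ hκr h1
  obtain ⟨f2a, f2b⟩ := mdn_F2 (sl := sl) (u := u) (sc := sc) hΛ hκr hk h2 h3
  rw [← hF1] at f1a f1b
  rw [← hF2] at f2a f2b
  rw [mdn_fac _ h0 hA, mdn_fac _ h0 hA, mdn_fac _ h0 hA, mdn_fac _ h0 hA] at H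
  obtain ⟨c0, hc0⟩ : ∃ c0, c0 = κr ^ (n + 1 + 2) / A ^ q := ⟨_, rfl⟩
  have hc0p : 0 < c0 := by
    rw [hc0]
    have : 0 < A ^ q := Real.rpow_pos_of_pos hA _
    positivity
  rw [← hc0] at H
  obtain ⟨N, hN⟩ : ∃ N : ℝ, N = ((n + 1 + 2 : ℕ) : ℝ) := ⟨_, rfl⟩
  have hN' : N = (n : ℝ) + 3 := by rw [hN]; push_cast; ring
  rw [← hN] at H
  -- the loss
  have hpow : F1 ^ (n + 1) ≤ 4 ^ (n + 1) * Λ ^ (((n : ℝ) + 1) * (sp - sc)) := by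
    have := pow_le_pow_left₀ f1a f1b (n + 1)
    rw [mul_pow, ← Real.rpow_natCast (Λ ^ (sp - sc)) (n + 1), ← Real.rpow_mul h0.le] at this
    have e : (sp - sc) * ((n + 1 : ℕ) : ℝ) = ((n : ℝ) + 1) * (sp - sc) := by push_cast; ring
    rwa [e] at this
  have hloss : W * (F1 ^ (n + 1) * F2) ≤ Λ ^ (w + ((n : ℝ) + 1) * (sp - sc) + (uc + sl + u - 2 * sc)) := by
    have hP1 : 0 < Λ ^ (((n : ℝ) + 1) * (sp - sc)) := Real.rpow_pos_of_pos h0 _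
    have hP2 : 0 < Λ ^ (uc + sl + u - 2 * sc) := Real.rpow_pos_of_pos h0 _
    have s1 : F1 ^ (n + 1) * F2 ≤ (4 ^ (n + 1) * Λ ^ (((n : ℝ) + 1) * (sp - sc))) * ((2 * ((n : ℝ) + 1) + 2) * Λ ^ (uc + sl + u - 2 * sc)) :=
      mul_le_mul hpow f2b f2a (by positivity)
    have s2 := mul_le_mul_of_nonneg_left s1 hW0
    have s3 : W * ((4 ^ (n + 1) * Λ ^ (((n : ℝ) + 1) * (sp - sc))) * ((2 * ((n : ℝ) + 1) + 2) * Λ ^ (uc + sl + u - 2 * sc)))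
        = (W * (4 ^ (n + 1) * (2 * ((n : ℝ) + 1) + 2))) * (Λ ^ (((n : ℝ) + 1) * (sp - sc)) * Λ ^ (uc + sl + u - 2 * sc)) := by ring
    rw [s3] at s2
    refine s2.trans ?_
    have e4 : Λ ^ (w + ((n : ℝ) + 1) * (sp - sc) + (uc + sl + u - 2 * sc))
        = Λ ^ w * (Λ ^ (((n : ℝ) + 1) * (sp - sc)) * Λ ^ (uc + sl + u - 2 * sc)) := by
      rw [Real.rpow_add h0, Real.rpow_add h0, mul_assoc]
    rw [e4]
    exact mul_le_mul_of_nonneg_right hW (by positivity)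
  have hR : 0 ≤ c0 * Λ ^ (N * sc + q * ρc) * (c0 * Λ ^ (N * up + q * ρjp)) := by positivity
  have H2 := H.trans (mul_le_mul_of_nonneg_right hloss hR)
  have eL : c0 * Λ ^ (N * sp + q * ρp) * (c0 * Λ ^ (N * uc + q * ρjc)) = c0 ^ 2 * Λ ^ ((N * sp + q * ρp) + (N * uc + q * ρjc)) := by
    rw [Real.rpow_add h0 (N * sp + q * ρp) (N * uc + q * ρjc)]; ring
  have eR : Λ ^ (w + ((n : ℝ) + 1) * (sp - sc) + (uc + sl + u - 2 * sc)) * (c0 * Λ ^ (N * sc + q * ρc) * (c0 * Λ ^ (N * up + q * ρjp)))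
      = c0 ^ 2 * Λ ^ ((w + ((n : ℝ) + 1) * (sp - sc) + (uc + sl + u - 2 * sc)) + ((N * sc + q * ρc) + (N * up + q * ρjp))) := by
    rw [Real.rpow_add h0 (w + ((n : ℝ) + 1) * (sp - sc) + (uc + sl + u - 2 * sc)) ((N * sc + q * ρc) + (N * up + q * ρjp)),
      Real.rpow_add h0 (N * sc + q * ρc) (N * up + q * ρjp)]
    ring
  rw [eL, eR] at H2
  have H3 := le_of_mul_le_mul_left H2 (by positivity)
  rw [Real.rpow_le_rpow_left_iff hΛ] at H3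
  have g1 : q * (ρc - ρp) ≤ q * ε₁ := mul_le_mul_of_nonneg_left (by linarith [(abs_le.1 he1).1]) hq0.le
  have g2 : q * (ρjp - ρjc) ≤ q * (ε₂ + ((n + 1 : ℕ) : ℝ) / 2 * (uc - up)) :=
    mul_le_mul_of_nonneg_left (by linarith [(abs_le.1 he2).1]) hq0.le
  have g3 : q * (ε₂ + ((n + 1 : ℕ) : ℝ) / 2 * (uc - up)) = q * ε₂ + ((n : ℝ) + 3) * (uc - up) := by
    rw [← hqk]; ring
  rw [g3] at g2
  rw [hN'] at H3
  nlinarith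

variable {n : ℕ}

theorem mdt_core_W {T a b c d e f M : ℝ} (hT : 1 ≤ T) (ha0 : 0 ≤ a) (hb0 : 0 ≤ b) (hc0 : 0 ≤ c) (hd0 : 0 ≤ d) (he0 : 0 ≤ e) (hf0 : 0 ≤ f)
    (hM0 : 0 ≤ M) (ha : a ≤ T) (hb : b ≤ T) (hc : c ≤ T) (hd : d ≤ T) (he : e ≤ T ^ 2) (hf : f ≤ T) (hM : M ≤ T) :
    a * b * c * d * e * f * M * T ^ 60 ≤ T ^ 68 := by
  have hT0 : 0 ≤ T := by linarith
  calc a * b * c * d * e * f * M * T ^ 60 ≤ T * T * T * T * T ^ 2 * T * T * T ^ 60 := by gcongr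
    _ = T ^ 68 := by ring

theorem mdt_core_mono {F : FCfg (n + 1)} {m : ℕ} (h : F.Ok m) (j : Fin (n + 1 + 1)) (i i' : ℕ) (hii : F.s j i ≤ F.s j i') :
    (F.D j).κ i ≤ (F.D j).κ i' := by
  have hΛ : 1 ≤ F.Λ := by
    have := h.Λ_ge
    have hm : (0 : ℝ) ≤ m := Nat.cast_nonneg m
    linarith
  rw [mdq_kappa h j i, mdq_kappa h j i']
  exact mul_le_mul_of_nonneg_left (Real.rpow_le_rpow_of_exponent_le hΛ hii) (h.κr_pos j).le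

/-- (3) of the plan, reals only -/
theorem mdt_core_dr {L κr X β sl sp up : ℝ} (hL : 1 < L) (hκr : 0 < κr) (hX : X ≤ L ^ β) (hexp : β + 2 * sp - sl ≤ up) :
    X / (κr * L ^ sl) * (κr * L ^ sp) ^ 2 ≤ κr * L ^ up := by
  have h0 : 0 < L := by linarith
  have hl : 0 < L ^ sl := Real.rpow_pos_of_pos h0 _
  have hp : 0 < L ^ sp := Real.rpow_pos_of_pos h0 _
  have e1 : X / (κr * L ^ sl) * (κr * L ^ sp) ^ 2 = X * (κr * L ^ (2 * sp - sl)) := by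
    rw [Real.rpow_sub h0, mul_comm 2 sp, Real.rpow_mul h0.le, Real.rpow_two]
    field_simp
  rw [e1]
  have hY : 0 < κr * L ^ (2 * sp - sl) := mul_pos hκr (Real.rpow_pos_of_pos h0 _)
  refine (mul_le_mul_of_nonneg_right hX hY.le).trans ?_
  have e2 : L ^ β * (κr * L ^ (2 * sp - sl)) = κr * L ^ (β + (2 * sp - sl)) := by
    rw [Real.rpow_add h0]; ring
  rw [e2]
  exact mul_le_mul_of_nonneg_left (Real.rpow_le_rpow_of_exponent_le hL.le (by linarith)) hκr.le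

/-- (5) of the plan, reals only -/
theorem mdt_core_del {L β x e : ℝ} (hL : 1 < L) (h32 : 32 ≤ L ^ β) (he0 : 0 ≤ e) (he : e ≤ 4 * L ^ β) (hx : 3 * β ≤ x) :
    L ^ (-x + β / 2) * e / L ^ (-(β / 2)) ≤ 1 / 8 := by
  have h0 : 0 < L := by linarith
  have hP : 0 < L ^ (-x + β / 2) := Real.rpow_pos_of_pos h0 _
  have hT : 0 < L ^ β := Real.rpow_pos_of_pos h0 _
  have hh : 0 < L ^ (β / 2) := Real.rpow_pos_of_pos h0 _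
  have e1 : L ^ (-x + β / 2) * e / L ^ (-(β / 2)) = L ^ (-x + β / 2) * e * L ^ (β / 2) := by
    rw [Real.rpow_neg h0.le, div_inv_eq_mul]
  rw [e1]
  have s1 : L ^ (-x + β / 2) * e * L ^ (β / 2) ≤ L ^ (-x + β / 2) * (4 * L ^ β) * L ^ (β / 2) :=
    mul_le_mul_of_nonneg_right (mul_le_mul_of_nonneg_left he hP.le) hh.le
  have s2 : L ^ β * (L ^ (-x + β / 2) * L ^ β * L ^ (β / 2)) ≤ 1 := by
    rw [← Real.rpow_add h0, ← Real.rpow_add h0, ← Real.rpow_add h0]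
    exact Real.rpow_le_one_of_one_le_of_nonpos hL.le (by linarith)
  have s3 : 32 * (L ^ (-x + β / 2) * L ^ β * L ^ (β / 2)) ≤ L ^ β * (L ^ (-x + β / 2) * L ^ β * L ^ (β / 2)) :=
    mul_le_mul_of_nonneg_right h32 (by positivity)
  nlinarith

/-- LEAF `L-F3-Q4`  **nodes + exponents ⟹ contradiction.**      `L = F.Λ > 1`, `T = L^β`, `κ_i = κr L^(s_i)` (`mdq_kappa`), `r_i = L^(ρ_i)` (`mdq_r`), `sl = s_lam`, `|sl - l| ≤ β/2` (`hA.node`).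
PLAN.  Verify the hypotheses of `mdt_same h j hgeo hT hC5 hC7 H5 hA (H7 lam ip hA.lam_le _) hip hic hjp hjc` (`tol = β/2`, `u = s/2`); monotonicity `x ≤ y → κr L^x ≤ κr L^y` (`Real.rpow_le_rpow_of_exponent_le`):
 (1) `κ ip ≤ κ jp`, `κ jc ≤ κ jp`: exponents.     (2) premise of `H7`: `κ ip² = κr² L^(2 sp) ≤ κr² L^(sl + s_0)`:  `2 sp ≤ l + a + s ≤ sl + s_0`.
 (3) `hdr`:  `4 ℓ Cc/κ lam κ ip² = 4 ℓ Cc κr L^(2 sp - sl) ≤ κr L^(β + 2 sp - sl) ≤ κr L^(up)`:  `β + 2sp - sl ≤ a + s + 3β/2 ≤ a + 2s - s/64`.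
 (4) `htol`:  `2 L^(β/2) ≤ L^(β/2) L^(β/2) = L^β` (`h2`).
 (5) `hδ`:  `ϖ ≤ K`, `ϖ0 ≤ K` (`fl3_F_sizes h hm j`, `h.ϖ0_le j`), `K ≤ T` (`hT.K_le`), `32 ≤ T`:  `8 · L^(-ηa s/2 + β/2) · 4K · L^(β/2) ≤ L^(-ηa s/2 + 3β) ≤ 1`  (`hβ2`).
 (6) rewrite the conclusion of `mdt_same` with `mdq_kappa`, `mdq_r` (`unfold mdtM`) into the hypothesis `H` of `mdn_main n` with `W := Cg^ℓ (C5 G0^P) C7 (2 (ϖ + ϖ0))/L^(-(β/2)) · 40^6 · 8^(n+3) · 6^(n+3) · ((T^5)^8 (16 T^5)^4)` (`ring_nf`/`calc` + `le_of_le_of_eq`), `w := 68 β`: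
     `Cg^ℓ ≤ Cg^(ℓ+1) ≤ T`, `C5, C7, G0^P ≤ T`, `2(ϖ+ϖ0) ≤ 4K ≤ T²`, `1/L^(-(β/2)) = L^(β/2) ≤ T`, `hnum`, `(T^5)^8 (T^5)^4 = T^60`:  `W · 4^(n+1) (2(n+1)+2) ≤ T^68 = L^(68 β)` (`← Real.rpow_natCast`, `← Real.rpow_mul`).
 (7) `mdn_main`:  `2 sp ≤ uc + sl + s/2 + 68 β + q (2 e0 s)`,  `q e0 ≤ 1/16`;  with the node bounds `linarith` gives `False`.    (Cut it into helpers `mdt_core_*` as you like.) -/
theorem mdt_core {F : FCfg (n + 1)} {m : ℕ} (h : F.Ok m) (hm : 1 ≤ m) (j : Fin (n + 1 + 1)) {Cg C5 C7 β l a s ηa e0 : ℝ} {lam ip ic jp jc : ℕ}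
    {R : (F.D j).geo.Restr} {J : (F.D j).Y → (F.D j).Lb 0 → ℝ} {Y' : Finset (F.D j).Y}
    (hgeo : (F.D j).geo.Ok ((F.D j).gp Cg)) (hT : MdtAt F j Cg (F.Λ ^ β)) (hC5 : 0 ≤ C5) (hC7 : 1 ≤ C7)
    (hc5 : C5 ≤ F.Λ ^ β) (hc7 : C7 ≤ F.Λ ^ β) (hcc : 4 * ((F.c.ℓ : ℝ) * F.c.Cc) ≤ F.Λ ^ β) (h32 : 32 ≤ F.Λ ^ β)
    (hnum : 40 ^ 6 * 8 ^ (n + 3) * 6 ^ (n + 3) * 16 ^ 4 * (4 ^ (n + 1) * (2 * ((n : ℝ) + 1) + 2)) ≤ F.Λ ^ β) (h2 : 2 ≤ F.Λ ^ (β / 2))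
    (H5 : ∀ (y : (F.D j).Y) (ω : (F.D j).Lb 0), (∃ T : (F.D j).Cl F.c.tr, T.1.1 = (F.D j).anc F.c.tr ω ∧ (F.D j).near F.c.tr ((F.D j).pt y) T.1) →
      (F.D j).geo.leafw y ω ≤ C5 * (F.D j).G 0 ^ F.c.P * mdiAr (F.D j) ((F.D j).pt y) ω)
    (H7 : ∀ lam ip : ℕ, lam ≤ F.c.ℓ → (F.D j).κ ip ^ 2 ≤ (F.D j).κ lam * (F.D j).κ 0 →
      ∀ (z z' : ST (n + 1)) (ω₂ ω ω' : (F.D j).Lb 0), flo (natX ((F.D j).κ ip) ((F.D j).fr 0 ω₂) z) = flo (natX ((F.D j).κ ip) ((F.D j).fr 0 ω₂) z') →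
      (F.D j).anc lam ω = (F.D j).anc lam ω₂ → (F.D j).anc lam ω' = (F.D j).anc lam ω₂ →
      mdiAr (F.D j) z' ω * mdiAr (F.D j) z ω' ≤ C7 * (mdiAr (F.D j) z ω * mdiAr (F.D j) z' ω'))
    (hA : AngOut F j l (s / 2) ηa (β / 2) lam R J Y')
    (hs : 0 < s) (hβ : 0 < β) (hβ1 : β ≤ s / 100) (hβ2 : β ≤ ηa * s / 8) (hsa : s ≤ (a - l) / 8)
    (hip : ip ≤ F.c.ℓ) (hic : ic ≤ F.c.ℓ) (hjp : jp ≤ F.c.ℓ) (hjc : jc ≤ F.c.ℓ)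
    (hsp1 : (l + a) / 2 + s / 2 - s / 64 ≤ F.s j ip) (hsp2 : F.s j ip ≤ (l + a) / 2 + s / 2)
    (hsc1 : (l + a) / 2 - s / 2 - s / 64 ≤ F.s j ic) (hsc2 : F.s j ic ≤ (l + a) / 2 - s / 2)
    (hup1 : a + 2 * s - s / 64 ≤ F.s j jp) (hup2 : F.s j jp ≤ a + 2 * s)
    (huc1 : a - s - s / 64 ≤ F.s j jc) (huc2 : F.s j jc ≤ a - s) (hs0 : a + 3 * s ≤ F.s j 0)
    (hρ1 : |F.ρ j ip - F.ρ j ic| ≤ e0 * s)
    (hρ2 : |F.ρ j jc - F.ρ j jp + ((n + 1 : ℕ) : ℝ) / 2 * (F.s j jc - F.s j jp)| ≤ e0 * s) (he0 : qk (n + 1) * e0 ≤ 1 / 16) : False := by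
  have hΛ : 1 < F.Λ := by
    have := h.Λ_ge
    have hm' : (0 : ℝ) ≤ m := Nat.cast_nonneg m
    linarith
  have hΛ0 : 0 < F.Λ := by linarith
  have hκr := h.κr_pos j
  have hA0 : 0 < F.A j := by linarith [h.one_le_A j]
  have hnode := abs_le.1 hA.node
  obtain ⟨T, hTd⟩ : ∃ T, T = F.Λ ^ β := ⟨_, rfl⟩
  have hT1 : 1 ≤ T := by rw [hTd]; linarith
  have hT0 : 0 < T := by linarith
  have hhalf : F.Λ ^ (β / 2) * F.Λ ^ (β / 2) = F.Λ ^ β := by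
    rw [← Real.rpow_add hΛ0]; congr 1; ring
  have hhp : 0 < F.Λ ^ (β / 2) := Real.rpow_pos_of_pos hΛ0 _
  have hηs : 0 < ηa * s := by linarith
  -- sizes
  have hsz := fl3_F_sizes h hm j
  have hϖ1 : 1 ≤ (F.D j).ϖ := (h.good j).one_le_ϖ
  have hϖ01 : 1 ≤ (F.tp j).ϖ0 := (h.sys j).one_le_ϖ0
  have he4 : 2 * ((F.D j).ϖ + (F.tp j).ϖ0) ≤ 4 * F.Λ ^ β := by
    have := hsz.2.2.2
    have := h.ϖ0_le j
    have := hT.K_le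
    linarith
  -- (4)
  have htol : 2 * F.Λ ^ (β / 2) ≤ F.Λ ^ β := by
    rw [← hhalf]
    exact mul_le_mul_of_nonneg_right h2 hhp.le
  -- (1)
  have hwpu : (F.D j).κ ip ≤ (F.D j).κ jp := mdt_core_mono h j ip jp (by linarith)
  have hucu : (F.D j).κ jc ≤ (F.D j).κ jp := mdt_core_mono h j jc jp (by linarith)
  -- (2)
  have hprem : (F.D j).κ ip ^ 2 ≤ (F.D j).κ lam * (F.D j).κ 0 := by
    rw [mdq_kappa h j ip, mdq_kappa h j lam, mdq_kappa h j 0]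
    have e1 : (F.κr j * F.Λ ^ F.s j ip) ^ 2 = F.κr j ^ 2 * F.Λ ^ (2 * F.s j ip) := by
      rw [mul_pow, mul_comm 2 (F.s j ip), Real.rpow_mul hΛ0.le, Real.rpow_two]
    have e2 : F.κr j * F.Λ ^ F.s j lam * (F.κr j * F.Λ ^ F.s j 0) = F.κr j ^ 2 * F.Λ ^ (F.s j lam + F.s j 0) := by
      rw [Real.rpow_add hΛ0]; ring
    rw [e1, e2]
    exact mul_le_mul_of_nonneg_left (Real.rpow_le_rpow_of_exponent_le hΛ.le (by linarith)) (by positivity)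
  -- (3)
  have hdr : 4 * ((F.c.ℓ : ℝ) * F.c.Cc) / (F.D j).κ lam * (F.D j).κ ip ^ 2 ≤ (F.D j).κ jp := by
    rw [mdq_kappa h j ip, mdq_kappa h j lam, mdq_kappa h j jp]
    exact mdt_core_dr hΛ hκr hcc (by linarith)
  -- (5)
  have hδ : F.Λ ^ (-(ηa * (s / 2)) + β / 2) * (2 * ((F.D j).ϖ + (F.tp j).ϖ0)) / F.Λ ^ (-(β / 2)) ≤ 1 / 8 :=
    mdt_core_del hΛ h32 (by linarith) he4 (by linarith)
  obtain ⟨W, hWd⟩ : ∃ W, W = Cg ^ F.c.ℓ * (C5 * (F.D j).G 0 ^ F.c.P) * C7 * (2 * ((F.D j).ϖ + (F.tp j).ϖ0)) / F.Λ ^ (-(β / 2)) * 40 ^ 6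
      * 8 ^ (n + 3) * 6 ^ (n + 3) * ((T ^ 5) ^ 8 * (16 * T ^ 5) ^ 4) := ⟨_, rfl⟩
  have hCg0 : 0 ≤ Cg := by linarith [hT.one_le_Cg]
  have hG0 : 0 ≤ (F.D j).G 0 := by linarith [(h.good j).one_le_G 0 (Nat.zero_le _)]
  have hGP : 0 ≤ (F.D j).G 0 ^ F.c.P := Real.rpow_nonneg hG0 _
  have hinv : (1 : ℝ) / F.Λ ^ (-(β / 2)) = F.Λ ^ (β / 2) := by
    rw [Real.rpow_neg hΛ0.le, one_div, inv_inv]
  have hWe : W * (4 ^ (n + 1) * (2 * ((n : ℝ) + 1) + 2)) = Cg ^ F.c.ℓ * C5 * (F.D j).G 0 ^ F.c.P * C7 * (2 * ((F.D j).ϖ + (F.tp j).ϖ0)) * F.Λ ^ (β / 2)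
      * (40 ^ 6 * 8 ^ (n + 3) * 6 ^ (n + 3) * 16 ^ 4 * (4 ^ (n + 1) * (2 * ((n : ℝ) + 1) + 2))) * T ^ 60 := by
    rw [hWd, ← hinv]
    ring
  have hW0 : 0 ≤ W := by
    rw [hWd]
    have : 0 < F.Λ ^ (-(β / 2)) := Real.rpow_pos_of_pos hΛ0 _
    have : 0 ≤ C7 := by linarith
    positivity
  have hW : W * (4 ^ (n + 1) * (2 * ((n : ℝ) + 1) + 2)) ≤ F.Λ ^ (68 * β) := by
    have e68 : F.Λ ^ (68 * β) = T ^ 68 := by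
      rw [hTd, ← Real.rpow_natCast, ← Real.rpow_mul hΛ0.le]
      congr 1
      push_cast
      ring
    rw [e68, hWe]
    refine mdt_core_W hT1 (pow_nonneg hCg0 _) hC5 hGP (by linarith) (by linarith) hhp.le (by positivity) ?_ (by rw [hTd]; exact hc5)
      (by rw [hTd]; exact hT.G3) (by rw [hTd]; exact hc7) ?_ ?_ (by rw [hTd]; exact hnum)
    · rw [hTd]
      exact (pow_le_pow_right₀ hT.one_le_Cg (by omega)).trans hT.Cg_le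
    · rw [← hTd] at he4 h32
      have h4 : 4 * T ≤ T * T := mul_le_mul_of_nonneg_right (by linarith only [h32]) hT0.le
      rw [pow_two]
      linarith only [h4, he4]
    · rw [hTd]
      linarith only [htol, hhp]
  -- (6)
  have hmain := mdt_same h j hgeo hT hC5 hC7 H5 hA (H7 lam ip hA.lam_le hprem) hip hic hjp hjc htol hwpu hucu hdr hδ
  unfold mdtM at hmain
  rw [mdq_kappa h j ip, mdq_kappa h j ic, mdq_kappa h j jp, mdq_kappa h j jc, mdq_kappa h j lam,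
    mdq_r h j ip, mdq_r h j ic, mdq_r h j jp, mdq_r h j jc, ← hTd] at hmain
  -- (7)
  have hfin := mdn_main n (W := W) (w := 68 * β) (u := s / 2) (ε₁ := e0 * s) (ε₂ := e0 * s) hΛ hκr hA0 hW0 hW
    (show F.s j ic ≤ F.s j ip by linarith) (show F.s j ip ≤ F.s j jc by linarith)
    (show 0 ≤ F.s j jc + F.s j lam + s / 2 - 2 * F.s j ic by linarith) hρ1 hρ2
    (hmain.trans (le_of_eq (by rw [hWd]; ring)))
  clear hmain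
  have hq : qk (n + 1) * (e0 * s + e0 * s) ≤ s / 8 := by
    have := mul_le_mul_of_nonneg_right he0 hs.le
    nlinarith only [this]
  linarith only [hq, hfin, hsp1, huc2, hnode.2, hβ1, hs]

end

end Claimed.Agent.R257.FR3
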