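import Claimed.Agent.R257.FR3.BlkPar
import Claimed.Agent.R257.FR3.BlkStrip
import Claimed.Agent.R257.FR3.MidTop

/-!
# ROW 257, package FR3, GBLK: THE SIDE CONDITIONS OF THE GLUE (sizes)      (helper276)          0 sorry

For a class `c`, constants `Cg`, `Cv`, block length `u > 0` and an exponent `β > 0` there is a quality `m0` such that for EVERY configuration of quality `m0`, field `j`, cap height `lam ≤ ℓ` with `s_lam + 6 u ≤ s_0` (`Mesh.2.2`, `V = 6`), `Off j s_lam (6 u)`,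
every `π : GbP` with `π.u = u`, `0 ≤ π.θ0` and every `v₀`:
 (a) `(gbIa F j lam π v₀).Ok`, `(gbIb F j lam π v₀).Ok`      (b) `G_lam ≤ Λ^{5u}`      (c) `kv (gbIa ..) C' ≤ Λ^β` for all `0 ≤ C' ≤ max Cv K` (so for `C' = Cp` and for the constant of `tia_var`)
 (d) `Cg^ℓ (kv (gbIa ..) C')² 3^{k+1} ≤ Λ^β`,  `4 ≤ Λ^β`.
* `gbz_nod_le`, `gbz_vv_nod`      `nod t ≤ lam`, `vv (nod t) ≤ t`  (`t ≥ 0`)
* `gbz_one`                       one configuration (`T = Λ^{β₁}`, `β₁ ≤ u`)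
* `gbz_main`                      **EXIT**;      `gbz_glue` = the form consumed by `gb_main` (helper266), with an arbitrary constant `C0 ≤ Λ^b`
-/

set_option autoImplicit false

namespace Claimed.Agent.R257.FR3

open scoped BigOperators
open Classical
open Claimed.Agent.R255 Claimed.Agent.R257 Claimed.Agent.R257.FR2 Claimed.Agent.R257.Tree

noncomputable section

theorem gbz_nod_mem {k : ℕ} (F : FCfg k) (j : Fin (k + 1)) (lam : ℕ) {t : ℝ} (ht : 0 ≤ t) : lam ∈ {i : ℕ | F.vv j lam i ≤ t} := by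
  show F.s j lam - F.s j lam ≤ t
  rw [sub_self]
  exact ht

theorem gbz_nod_le {k : ℕ} (F : FCfg k) (j : Fin (k + 1)) (lam : ℕ) {t : ℝ} (ht : 0 ≤ t) : F.nod j lam t ≤ lam :=
  Nat.sInf_le (gbz_nod_mem F j lam ht)

theorem gbz_vv_nod {k : ℕ} (F : FCfg k) (j : Fin (k + 1)) (lam : ℕ) {t : ℝ} (ht : 0 ≤ t) : F.vv j lam (F.nod j lam t) ≤ t :=
  Nat.sInf_mem (s := {i : ℕ | F.vv j lam i ≤ t}) ⟨lam, gbz_nod_mem F j lam ht⟩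

/-- the nodes are antitone in the height -/
theorem gbz_s_le {k : ℕ} {F : FCfg k} {m : ℕ} (h : F.Ok m) (j : Fin (k + 1)) {i i' : ℕ} (hii : i ≤ i') : F.s j i' ≤ F.s j i := by
  have hΛ := ft_one_lt_Λ h
  have e := gbs_pow_s F j hΛ (h.κr_pos j) (h.good j) i i'
  have h1 : 1 ≤ (F.D j).κ i / (F.D j).κ i' := (F.D j).one_le_ratio (h.good j) hii
  by_contra hcon
  have h2 : F.s j i - F.s j i' < 0 := by linarith [not_le.1 hcon]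
  have h3 := Real.rpow_lt_one_of_one_lt_of_neg hΛ h2
  rw [e] at h3
  linarith

/-- the orders of the two instances -/
theorem gbz_I_ok {k : ℕ} {c : TCls k} (hc : c.Ok) (hroom : (ordOf c).Room k) (D : TDat c) {lam bot : ℕ} (v₀ : D.Lb lam) {Sd : ℝ} (hb : bot ≤ lam) (hl : lam ≤ c.ℓ)
    (hSd : (1 + 2 * c.ℓ * c.Cc) * (D.κ bot / D.κ lam) ^ 2 ≤ Sd) : (gbI D lam bot v₀ Sd).Ok where
  bot_le := hb
  lam_le := hl
  Ew_gt := by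
    show (k : ℝ) + 1 < (k : ℝ) + 2
    linarith
  Q2_ge := le_rfl
  Q2_C0 := by
    have := hroom.1
    show c.Q + ((k : ℝ) + 2) * k / 2 + k + 2 ≤ c.C0
    exact this
  Q2_M := hroom.2
  one_le_Cs := by
    show 1 ≤ 2 ^ (k + 3) * ((c.ℓ : ℝ) + 1) * c.Cc
    have h1 := hc.one_le_Cc
    have h2 : (1 : ℝ) ≤ 2 ^ (k + 3) := one_le_pow₀ (by norm_num)
    have h3 : (1 : ℝ) ≤ (c.ℓ : ℝ) + 1 := by
      have : (0 : ℝ) ≤ c.ℓ := Nat.cast_nonneg _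
      linarith
    have h4 : (1 : ℝ) ≤ 2 ^ (k + 3) * ((c.ℓ : ℝ) + 1) := by nlinarith
    nlinarith
  Sd_ge := hSd

/-- **one configuration** -/
theorem gbz_one {n : ℕ} {F : FCfg (n + 1)} {m : ℕ} (h : F.Ok m) (hm : 1 ≤ m) (hroom : (ordOf F.c).Room (n + 1)) (j : Fin (n + 1 + 1)) {lam : ℕ} (hlam : lam ≤ F.c.ℓ)
    {Cg Cv β₁ : ℝ} (hT : MdtAt F j Cg (F.Λ ^ β₁))
    (hCst : (1 + 2 * F.c.ℓ * F.c.Cc) + |Cv| + 2 ^ F.c.Q + 3 ^ (n + 1 + 1) + 4 ≤ F.Λ ^ β₁) (π : GbP) (hβ0 : 0 < β₁) (hβu : β₁ ≤ π.u) (hθ0 : 0 ≤ π.θ0)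
    (hs0 : F.s j lam + 6 * π.u ≤ F.s j 0) (hOff : F.Off j (F.s j lam) (6 * π.u)) (v₀ : (F.D j).Lb lam) :
    (gbIa F j lam π v₀).Ok ∧ (gbIb F j lam π v₀).Ok ∧ (F.D j).G lam ≤ F.Λ ^ (5 * π.u) ∧ 4 ≤ F.Λ ^ β₁ ∧
      ∀ C' : ℝ, 0 ≤ C' → C' ≤ max Cv F.K → (F.D j).kv (gbIa F j lam π v₀) C' ≤ F.Λ ^ (3 * β₁) ∧
        Cg ^ F.c.ℓ * (F.D j).kv (gbIa F j lam π v₀) C' ^ 2 * 3 ^ (n + 1 + 1) ≤ F.Λ ^ (8 * β₁) := by
  have hΛ := ft_one_lt_Λ h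
  have hΛ0 : 0 < F.Λ := by linarith
  have hc := h.cls
  have hD := h.good j
  have hu : 0 < π.u := lt_of_lt_of_le hβ0 hβu
  have hκ := (F.D j).κ_pos hD
  have hQ0 : 0 ≤ F.c.Q := by
    have h1 := hc.P_gt
    have h2 := hc.P_lt
    have h3 : (0 : ℝ) ≤ ((n + 1 : ℕ) : ℝ) := Nat.cast_nonneg _
    linarith
  -- the pieces of the constant
  have p1 : (0 : ℝ) ≤ 1 + 2 * F.c.ℓ * F.c.Cc := by
    have := hc.one_le_Cc
    positivity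
  have p2 : 0 ≤ |Cv| := abs_nonneg _
  have p3 : (0 : ℝ) ≤ 2 ^ F.c.Q := by positivity
  have p4 : (0 : ℝ) ≤ 3 ^ (n + 1 + 1) := by positivity
  have c1 : (1 + 2 * F.c.ℓ * F.c.Cc) ≤ F.Λ ^ β₁ := by linarith
  have c2 : Cv ≤ F.Λ ^ β₁ := by linarith [le_abs_self Cv]
  have c3 : (2 : ℝ) ^ F.c.Q ≤ F.Λ ^ β₁ := by linarith
  have c4 : (3 : ℝ) ^ (n + 1 + 1) ≤ F.Λ ^ β₁ := by linarith
  have c5 : (4 : ℝ) ≤ F.Λ ^ β₁ := by linarith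
  have mono : ∀ {x y : ℝ}, x ≤ y → F.Λ ^ x ≤ F.Λ ^ y := fun hxy => Real.rpow_le_rpow_of_exponent_le hΛ.le hxy
  have hTpos : ∀ x : ℝ, 0 < F.Λ ^ x := fun x => Real.rpow_pos_of_pos hΛ0 x
  -- (b)
  obtain ⟨-, hG0Go, -, -⟩ := fl3_F_sizes h hm j
  have hGl : (F.D j).G lam ≤ F.Λ ^ β₁ := ((ti_G_le hc _ hD (Nat.zero_le _) hlam).trans hG0Go).trans hT.Go_le
  have hG5 : (F.D j).G lam ≤ F.Λ ^ (5 * π.u) := hGl.trans (mono (by linarith))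
  have hGl0 : 0 ≤ (F.D j).G lam := zero_le_one.trans (hD.one_le_G lam hlam)
  -- (a)
  have hbot : gbBot F j lam π ≤ lam := gbz_nod_le F j lam hu.le
  have hvb : F.s j (gbBot F j lam π) - F.s j lam ≤ π.u := gbz_vv_nod F j lam hu.le
  have hmu : gbMu F j lam π ≤ lam := gbz_nod_le F j lam (mul_nonneg hθ0 hu.le)
  have hIa : (gbIa F j lam π v₀).Ok := by
    refine gbz_I_ok hc hroom (F.D j) v₀ hbot hlam ?_
    rw [← gbs_pow_s F j hΛ (h.κr_pos j) hD, ← Real.rpow_natCast, ← Real.rpow_mul hΛ0.le]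
    calc (1 + 2 * F.c.ℓ * F.c.Cc) * F.Λ ^ ((F.s j (gbBot F j lam π) - F.s j lam) * ((2 : ℕ) : ℝ))
        ≤ F.Λ ^ β₁ * F.Λ ^ ((F.s j (gbBot F j lam π) - F.s j lam) * ((2 : ℕ) : ℝ)) := mul_le_mul_of_nonneg_right c1 (hTpos _).le
      _ = F.Λ ^ (β₁ + (F.s j (gbBot F j lam π) - F.s j lam) * ((2 : ℕ) : ℝ)) := (Real.rpow_add hΛ0 _ _).symm
      _ ≤ F.Λ ^ (5 * π.u) := mono (by push_cast; linarith)
  have hIb : (gbIb F j lam π v₀).Ok := gbz_I_ok hc hroom (F.D j) v₀ hmu hlam le_rfl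
  refine ⟨hIa, hIb, hG5, c5, fun C' hC0 hC' => ?_⟩
  -- (c)
  obtain ⟨e, he⟩ : ∃ e : ℕ, e = if F.c.tr ≤ lam then F.c.tr else 0 := ⟨_, rfl⟩
  have hse : 6 * π.u ≤ F.s j e - F.s j lam := by
    by_cases htl : F.c.tr ≤ lam
    · rw [he, if_pos htl]
      have h1 := gbz_s_le h j htl
      have h2 : 6 * π.u < |F.s j F.c.tr - F.s j lam| := hOff
      rw [abs_of_nonneg (by linarith)] at h2
      exact h2.le
    · rw [he, if_neg htl]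
      linarith
  have hrat : (F.D j).κ lam / (F.D j).κ e ≤ F.Λ ^ (-(6 * π.u)) := by
    rw [← gbs_pow_s F j hΛ (h.κr_pos j) hD]
    exact mono (by linarith)
  have hrat0 : 0 ≤ (F.D j).κ lam / (F.D j).κ e := (div_pos (hκ _) (hκ _)).le
  have h2u : (2 : ℝ) ≤ F.Λ ^ π.u := le_trans (by linarith) (mono hβu)
  have hV : (F.D j).G lam + F.Λ ^ (5 * π.u) ≤ 2 * F.Λ ^ (5 * π.u) := by linarith
  have hprod : ((F.D j).G lam + F.Λ ^ (5 * π.u)) * ((F.D j).κ lam / (F.D j).κ e) ≤ 1 := by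
    calc ((F.D j).G lam + F.Λ ^ (5 * π.u)) * ((F.D j).κ lam / (F.D j).κ e) ≤ (2 * F.Λ ^ (5 * π.u)) * F.Λ ^ (-(6 * π.u)) :=
          mul_le_mul hV hrat hrat0 (by have := hTpos (5 * π.u); linarith)
      _ = 2 * F.Λ ^ (-π.u) := by
          rw [mul_assoc, ← Real.rpow_add hΛ0]
          congr 2
          ring
      _ ≤ 1 := by
          rw [Real.rpow_neg hΛ0.le, ← div_eq_mul_inv, div_le_one (hTpos _)]
          exact h2u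
  have hprod0 : 0 ≤ ((F.D j).G lam + F.Λ ^ (5 * π.u)) * ((F.D j).κ lam / (F.D j).κ e) :=
    mul_nonneg (by have := hTpos (5 * π.u); linarith) hrat0
  have hfac : (1 + ((F.D j).G lam + F.Λ ^ (5 * π.u)) * ((F.D j).κ lam / (F.D j).κ e)) ^ F.c.Q ≤ F.Λ ^ β₁ :=
    (Real.rpow_le_rpow (by linarith) (by linarith) hQ0).trans c3
  have hfac0 : 0 ≤ (1 + ((F.D j).G lam + F.Λ ^ (5 * π.u)) * ((F.D j).κ lam / (F.D j).κ e)) ^ F.c.Q := Real.rpow_nonneg (by linarith) _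
  have hCT : C' ≤ F.Λ ^ β₁ := hC'.trans (max_le c2 hT.K_le)
  have hG0 : 0 ≤ (F.D j).G 0 ^ (2 * F.c.Q) := Real.rpow_nonneg (zero_le_one.trans (hD.one_le_G 0 (Nat.zero_le _))) _
  have hkvdef : (F.D j).kv (gbIa F j lam π v₀) C' =
      C' * (F.D j).G 0 ^ (2 * F.c.Q) * (1 + ((F.D j).G lam + F.Λ ^ (5 * π.u)) * ((F.D j).κ lam / (F.D j).κ e)) ^ F.c.Q := by
    rw [he]
    rfl
  have hkv0 : 0 ≤ (F.D j).kv (gbIa F j lam π v₀) C' := by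
    rw [hkvdef]
    positivity
  have hkv : (F.D j).kv (gbIa F j lam π v₀) C' ≤ F.Λ ^ (3 * β₁) := by
    rw [hkvdef]
    calc _ ≤ F.Λ ^ β₁ * F.Λ ^ β₁ * F.Λ ^ β₁ :=
          mul_le_mul (mul_le_mul hCT hT.G1 hG0 (hTpos _).le) hfac hfac0 (mul_pos (hTpos _) (hTpos _)).le
      _ = F.Λ ^ (3 * β₁) := by
          rw [← Real.rpow_add hΛ0, ← Real.rpow_add hΛ0]
          congr 1
          ring
  refine ⟨hkv, ?_⟩
  -- (d)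
  have hCg0 : 0 ≤ Cg := zero_le_one.trans hT.one_le_Cg
  have hCgl : Cg ^ F.c.ℓ ≤ F.Λ ^ β₁ := (pow_le_pow_right₀ hT.one_le_Cg (Nat.le_succ _)).trans hT.Cg_le
  have hsq : (F.D j).kv (gbIa F j lam π v₀) C' ^ 2 ≤ F.Λ ^ (6 * β₁) := by
    calc (F.D j).kv (gbIa F j lam π v₀) C' ^ 2 ≤ (F.Λ ^ (3 * β₁)) ^ 2 := pow_le_pow_left₀ hkv0 hkv 2
      _ = F.Λ ^ (6 * β₁) := by
          rw [← Real.rpow_natCast, ← Real.rpow_mul hΛ0.le]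
          congr 1
          push_cast
          ring
  calc Cg ^ F.c.ℓ * (F.D j).kv (gbIa F j lam π v₀) C' ^ 2 * 3 ^ (n + 1 + 1) ≤ F.Λ ^ β₁ * F.Λ ^ (6 * β₁) * F.Λ ^ β₁ :=
        mul_le_mul (mul_le_mul hCgl hsq (by positivity) (hTpos _).le) c4 p4 (mul_pos (hTpos _) (hTpos _)).le
    _ = F.Λ ^ (8 * β₁) := by
        rw [← Real.rpow_add hΛ0, ← Real.rpow_add hΛ0]
        congr 1
        ring

/-- **EXIT: the side conditions of `gb_core`, `GbBud`, `gba_ang` on a configuration of high quality** -/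
theorem gbz_main {k : ℕ} (c : TCls k) (hc : c.Ok) (hroom : (ordOf c).Room k) (Cg Cv u β : ℝ) (hCg : 1 ≤ Cg) (hu : 0 < u) (hβ : 0 < β) :
    ∃ m0 : ℕ, ∀ m : ℕ, m0 ≤ m → ∀ F : FCfg k, F.c = c → F.Ok m → ∀ (j : Fin (k + 1)) (lam : ℕ), lam ≤ F.c.ℓ → F.s j lam + 6 * u ≤ F.s j 0 → F.Off j (F.s j lam) (6 * u) →
      ∀ π : GbP, π.u = u → 0 ≤ π.θ0 → ∀ v₀ : (F.D j).Lb lam,
        (gbIa F j lam π v₀).Ok ∧ (gbIb F j lam π v₀).Ok ∧ (F.D j).G lam ≤ F.Λ ^ (5 * π.u) ∧ 4 ≤ F.Λ ^ β ∧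
          ∀ C' : ℝ, 0 ≤ C' → C' ≤ max Cv F.K → (F.D j).kv (gbIa F j lam π v₀) C' ≤ F.Λ ^ β ∧
            Cg ^ F.c.ℓ * (F.D j).kv (gbIa F j lam π v₀) C' ^ 2 * 3 ^ (k + 1) ≤ F.Λ ^ β := by
  cases k with
  | zero => exact absurd hc.k_pos (by norm_num)
  | succ n =>
    obtain ⟨β₁, hβ₁⟩ : ∃ β₁ : ℝ, β₁ = min (β / 8) u := ⟨_, rfl⟩
    have hb0 : 0 < β₁ := by rw [hβ₁]; exact lt_min (by linarith) hu
    have hb1 : β₁ ≤ β / 8 := by rw [hβ₁]; exact min_le_left _ _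
    have hb2 : β₁ ≤ u := by rw [hβ₁]; exact min_le_right _ _
    obtain ⟨m1, H1⟩ := mdq_at c hc Cg ((1 + 2 * c.ℓ * c.Cc) + |Cv| + 2 ^ c.Q + 3 ^ (n + 1 + 1) + 4) β₁ hCg hb0
    refine ⟨max m1 1, fun m hm F hFc hOk j lam hlam hs0 hOff π hπ hθ0 v₀ => ?_⟩
    subst hFc
    subst hπ
    obtain ⟨hT, hCst⟩ := H1 m ((le_max_left _ _).trans hm) F rfl hOk j
    have hΛ := ft_one_lt_Λ hOk
    obtain ⟨a1, a2, a3, a4, a5⟩ := gbz_one hOk ((le_max_right _ _).trans hm) hroom j hlam hT hCst π hb0 hb2 hθ0 hs0 hOff v₀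
    refine ⟨a1, a2, a3, a4.trans (Real.rpow_le_rpow_of_exponent_le hΛ.le (by linarith)), fun C' h0 h1 => ?_⟩
    obtain ⟨b1, b2⟩ := a5 C' h0 h1
    exact ⟨b1.trans (Real.rpow_le_rpow_of_exponent_le hΛ.le (by linarith)), b2.trans (Real.rpow_le_rpow_of_exponent_le hΛ.le (by linarith))⟩

/-- **the form consumed by `gb_main`** (helper266) -/
theorem gbz_glue {k : ℕ} (c : TCls k) (hc : c.Ok) (hroom : (ordOf c).Room k) (Cg Cv C0 u b : ℝ) (hCg : 1 ≤ Cg) (hCv : 0 ≤ Cv) (hu : 0 < u) (hb : 0 < b) :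
    ∃ m0 : ℕ, ∀ F : FCfg k, F.c = c → F.Ok m0 → ∀ (j : Fin (k + 1)) (lam : ℕ), lam ≤ F.c.ℓ → ∀ π : GbP, π.u = u → 0 ≤ π.θ0 → ∀ (v₀ : (F.D j).Lb lam) (μ0 : ℝ),
      F.Mesh j μ0 (F.s j lam) (F.s j lam + 6 * u) → F.Off j (F.s j lam) (6 * u) →
        (gbIa F j lam π v₀).Ok ∧ (gbIb F j lam π v₀).Ok ∧ (F.D j).G lam ≤ F.Λ ^ (5 * π.u) ∧
          Cg ^ F.c.ℓ * (F.D j).kv (gbIa F j lam π v₀) Cv ^ 2 * 3 ^ (k + 1) ≤ F.Λ ^ b ∧ Cg ^ F.c.ℓ * (F.D j).kv (gbIa F j lam π v₀) F.Cp ^ 2 * 3 ^ (k + 1) ≤ F.Λ ^ b ∧ C0 ≤ F.Λ ^ b := by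
  obtain ⟨m1, H1⟩ := gbz_main c hc hroom Cg Cv u b hCg hu hb
  refine ⟨max m1 ⌈(max 1 C0) ^ (1 / b)⌉₊, fun F hFc hOk j lam hlam π hπ hθ0 v₀ μ0 hM hOff => ?_⟩
  obtain ⟨a1, a2, a3, -, a5⟩ := H1 _ (le_max_left _ _) F hFc hOk j lam hlam hM.2.2 hOff π hπ hθ0 v₀
  refine ⟨a1, a2, a3, (a5 Cv hCv (le_max_left _ _)).2, (a5 F.Cp (zero_le_one.trans (hOk.sys j).one_le_Γ2) (hOk.Cp_le.trans (le_max_right _ _))).2, ?_⟩
  refine mdq_at_cst hb hOk.Λ_ge ?_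
  refine (Nat.le_ceil _).trans ?_
  exact_mod_cast le_max_right m1 ⌈(max 1 C0) ^ (1 / b)⌉₊

end

end Claimed.Agent.R257.FR3
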