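import Claimed.Agent.R257.FR3.BlkMain
import Claimed.Agent.R257.FR3.BlkSize
import Claimed.Agent.R257.FR3.BlkBud
import Claimed.Agent.R257.FR3.BlkNumB
import Claimed.Agent.R257.FR3.BlkCnt

/-!
# ROW 257, package FR3, GBLK: EXIT      (helper266)

* `gb_size k : GbSize k`   from `gbz_main` (helper276)
* **`gb_blk (hk : 1 ≤ k) : GBlk k`**   (with the field `FCfg.Ok.ang`, helper125)
* `gb_blk_of (hk : 1 ≤ k) : (∀ F m, F.Ok m → F.AngOk) → GBlk k`   all the units plugged: `gbb_main` (helper271), `gbn_numB` (helper37), `gbc_main` (helper162)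
-/

set_option autoImplicit false

namespace Claimed.Agent.R257.FR3

open scoped BigOperators
open Classical Matrix
open Claimed.Agent.R255 Claimed.Agent.R257 Claimed.Agent.R257.FR2 Claimed.Agent.R257.Tree

noncomputable section

variable {k : ℕ}

/-- constants are subpowers -/
theorem gb_const (C b : ℝ) (hb : 0 < b) : ∃ m0 : ℕ, ∀ m : ℕ, m0 ≤ m → ∀ Λ : ℝ, (m : ℝ) + 3 ≤ Λ → C ≤ Λ ^ b := by
  refine ⟨⌈|C| ^ (1 / b)⌉₊, fun m hm Λ hΛ => ?_⟩
  have h1 : |C| ^ (1 / b) ≤ (m : ℝ) := (Nat.le_ceil _).trans (by exact_mod_cast hm)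
  have e : |C| = (|C| ^ (1 / b)) ^ b := by
    rw [← Real.rpow_mul (abs_nonneg _)]
    have : 1 / b * b = 1 := by field_simp
    rw [this, Real.rpow_one]
  calc C ≤ |C| := le_abs_self _
    _ = (|C| ^ (1 / b)) ^ b := e
    _ ≤ Λ ^ b := Real.rpow_le_rpow (by positivity) (by linarith) hb.le

/-- **SIZES** -/
theorem gb_size (k : ℕ) : GbSize k := by
  intro c hc u b Cg Cv C0 hu hb hCg hCv
  have hk0 : (0 : ℝ) ≤ k := Nat.cast_nonneg k
  have hroom : (ordOf c).Room k := by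
    constructor
    · show c.Q + ((k : ℝ) + 2) * k / 2 + k + 2 ≤ c.C0
      have := hc.room_C0
      nlinarith
    · show c.Q + ((k : ℝ) + 2) * k / 2 ≤ c.M
      have := hc.room_M
      nlinarith
  obtain ⟨m1, H1⟩ := gbz_main c hc hroom Cg Cv u b hCg hu hb
  obtain ⟨m2, H2⟩ := gb_const C0 b hb
  refine ⟨m1 + m2, ?_⟩
  intro F hFc hOk j lam hl π hπ v₀ μ0 _ _ hMesh hOff
  obtain ⟨π', hπ'⟩ : ∃ π' : GbP, π' = ⟨π.u, π.η, π.θ, 0, π.N⟩ := ⟨_, rfl⟩
  have e1 : gbIa F j lam π' v₀ = gbIa F j lam π v₀ := by rw [hπ']; rfl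
  obtain ⟨a1, -, a3, -, a5⟩ := H1 (m1 + m2) (Nat.le_add_right _ _) F hFc hOk j lam hl hMesh.2.2 hOff π' (by rw [hπ']; exact hπ) (by rw [hπ']) v₀
  rw [e1] at a1 a5
  have e2 : π'.u = u := by rw [hπ']; exact hπ
  rw [e2] at a3
  exact ⟨a1, a3, (a5 Cv (by linarith) (le_max_left _ _)).2, H2 (m1 + m2) (Nat.le_add_left _ _) F.Λ hOk.Λ_ge⟩

/-- **THE BLOCK PACKAGE**, all the units plugged -/
theorem gb_blk_of (hk : 1 ≤ k) (hAng : ∀ (F : FCfg k) (m : ℕ), F.Ok m → F.AngOk) : GBlk k :=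
  gb_main hk hAng (gb_size k) (gbb_main k) (gbn_numB k) (gbc_main k)

/-- **EXIT OF GBLK** -/
theorem gb_blk (hk : 1 ≤ k) : GBlk k :=
  gb_blk_of hk fun _ _ h j I h1 h2 h3 h4 => (h.ang j I h1 h2 h3 h4).1

end

end Claimed.Agent.R257.FR3
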