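import Claimed.Agent.R257.FR3.BlkCon
import Claimed.Agent.R257.FR3.BlkStrip

/-!
# ROW 257, package FR3, GBLK: THE FINAL GLUE, part 1: ONE CONFIGURATION      (helper266)

* `gb_Jn_congr`, `gb_Jn_wit`   only the cells with a witness count in the near path masses
* `gb_core`                    `∃ B : BlkDat F j lam, B.Ok u γ Kb` for ONE configuration from: `tgx_main` (hypotheses = `GbBud`, `TAng.NumHyp`), `gbn_*` (helper212), the field `strip` in the form of `gbs_field`, the field `cnt` (`GbCnt`)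
-/

set_option autoImplicit false

namespace Claimed.Agent.R257.FR3

open scoped BigOperators
open Classical Matrix
open Claimed.Agent.R255 Claimed.Agent.R257 Claimed.Agent.R257.FR2 Claimed.Agent.R257.Tree

noncomputable section

variable {k : ℕ}

/-- the near path mass depends only on the allowed cells which are incident to the witness -/
theorem gb_Jn_congr {𝔖 : TSys} {𝔊 : TGeo 𝔖} (R R' : 𝔊.Restr) (z : 𝔖.Y) (ω : 𝔊.Dir)
    (h : ∀ i (T : 𝔖.C i), 𝔖.inc i z T → (T ∈ R i ω ↔ T ∈ R' i ω)) : 𝔊.Jn R z ω = 𝔊.Jn R' z ω := by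
  have e : 𝔊.vx R (fun i T => 𝔖.inc i z T) ω = 𝔊.vx R' (fun i T => 𝔖.inc i z T) ω := by
    funext i T
    cases i with
    | zero =>
      rw [TGeo.vx_zero, TGeo.vx_zero]
      by_cases hi : 𝔖.inc 0 z T
      · simp only [h 0 T hi]
      · simp only [hi, and_false, if_false]
    | succ i =>
      rw [TGeo.vx_succ, TGeo.vx_succ]
      by_cases hi : 𝔖.inc (i + 1) z T
      · simp only [h (i + 1) T hi]
      · simp only [hi, and_false, if_false]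
  unfold TGeo.Jn TGeo.fn
  rw [e]

/-- the cells without witnesses may be deleted from the mask of height `lam` -/
theorem gb_Jn_wit {𝔖 : TSys} {𝔊 : TGeo 𝔖} (𝔄 : TAng 𝔖 𝔊) (S : ∀ i, Finset (𝔖.C i)) (P : Finset (𝔖.C 𝔄.lam)) (O : 𝔄.BB → 𝔊.Dir → Prop) (z : 𝔖.Y) (ω : 𝔊.Dir) :
    𝔊.Jn (𝔄.RO S (P.filter fun T => ∃ z, 𝔖.inc 𝔄.lam z T) O) z ω = 𝔊.Jn (𝔄.RO S P O) z ω := by
  refine gb_Jn_congr _ _ z ω fun i T hi => ?_
  by_cases hl : i = 𝔄.lam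
  · subst hl
    rw [TAng.tgm_RO_lam, TAng.tgm_RO_lam]
    simp only [Finset.mem_filter]
    constructor
    · rintro ⟨⟨h1, -⟩, h2⟩
      exact ⟨h1, h2⟩
    · rintro ⟨h1, h2⟩
      exact ⟨⟨h1, z, hi⟩, h2⟩
  · rw [TAng.tgm_RO_ne S _ O ω hl, TAng.tgm_RO_ne S _ O ω hl]

/-- **the block package for one configuration** -/
theorem gb_core {F : FCfg k} {m : ℕ} (hOk : F.Ok m) (hAng : F.AngOk) (j : Fin (k + 1)) (lam d : ℕ) (hid : lam + d = F.c.ℓ) (π : GbP) (v₀ : (F.D j).Lb lam)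
    {Cg Kv γ Kb : ℝ} (hg : (F.D j).geo.Ok ((F.D j).gp Cg)) (hIa : (gbIa F j lam π v₀).Ok) (hV : ((F.D j).ang (gbIa F j lam π v₀)).Var Kv)
    (hbud : (F.D j).sys.bud (qk k) lam ((F.D j).sys.resA (F.S j lam \ gbP1 F j lam π v₀) ((F.D j).sys.am (F.S j) lam)) ((F.D j).sys.b lam) ≤ gbβ0 F j lam π v₀)
    (hnum : ((F.D j).ang (gbIa F j lam π v₀)).NumHyp (F.tp j) ((F.D j).gp Cg) (gbAp F j) (F.A j) F.K (F.r j) Finset.univ (gbMs F j lam π) (gbT F j lam π) (gbβ0 F j lam π v₀) d (gbϖ F π))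
    (hmass : Kb⁻¹ ≤ gbϖ F π / 2) (h4 : 4 ≤ Kb) (hG : (F.D j).G lam ≤ F.Λ ^ (5 * π.u)) (hdom : Cg ^ F.c.ℓ * Kv ^ 2 * 3 ^ (k + 1) ≤ Kb)
    (hstrip : ∀ O : (F.D j).BBt lam (F.Λ ^ (5 * π.u)) → (F.D j).Lb 0 → Prop,
      (∀ (B : (F.D j).BBt lam (F.Λ ^ (5 * π.u))) (σ : TStr k (gbBot F j lam π) lam),
        ∑ ω, (if ((F.D j).ang (gbIa F j lam π v₀)).inStr σ.lev σ ω ∧ ¬ O B ω then ((F.D j).ang (gbIa F j lam π v₀)).nu B ω else 0) ≤ if σ.lev ∈ gbMs F j lam π then gbT F j lam π σ.lev else 1) →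
      ∀ g (w : Fin (k + 1) → ℝ), ∑ l, |w l| = 1 → ∀ r : ℝ, F.Λ ^ (-π.u) ≤ r → r ≤ 1 → ∑ ω with |w ⬝ᵥ F.ndir j lam ω| ≤ r, gbNu F j (gbIa F j lam π v₀) O g ω ≤ Kb * r ^ γ)
    (hcnt : ∀ i, i ≤ lam → π.u / 2 ≤ F.s j i - F.s j lam → F.s j i - F.s j lam ≤ 5 * π.u → ∀ (τ : (F.D j).Lb lam) (c0 : ST k),
        ((((gbP0 F j lam π v₀).filter fun T : (F.D j).Cl lam => T.1.1 = τ ∧ ‖lat T.1.2 - c0‖ ≤ (F.D j).κ i / (F.D j).κ lam).card : ℕ) : ℝ) ≤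
          Kb * ((F.D j).κ i / (F.D j).κ lam) ^ (k + 1) * (F.r j i / F.r j lam) ^ pk' k) :
    ∃ B : BlkDat F j lam, B.Ok π.u γ Kb := by
  have hS := hOk.sys j
  have hFr := hOk.frozen j
  have hA : ((F.D j).ang (gbIa F j lam π v₀)).Ok (F.tp j) (gbAp F j) := hAng j _ rfl rfl rfl hIa
  have hΛ : 1 < F.Λ := ft_one_lt_Λ hOk
  have hΛ0 : 0 < F.Λ := by linarith
  have hA0 : 0 < F.A j := lt_of_lt_of_le one_pos (hOk.one_le_A j)
  have hCp : (0 : ℝ) ≤ F.Cp := le_trans zero_le_one hS.one_le_Γ2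
  have hKb : 0 < Kb := by linarith
  have hP1 : gbP1 F j lam π v₀ ⊆ F.S j lam := Finset.filter_subset _ _
  have hP0 : gbP0 F j lam π v₀ ⊆ F.S j lam := (Finset.filter_subset _ _).trans hP1
  obtain ⟨O, Y', hcard, hW, hres⟩ : ∃ (O : (F.D j).BBt lam (F.Λ ^ (5 * π.u)) → (F.D j).Lb 0 → Prop) (Y' : Finset (F.D j).Y),
      ((Finset.univ : Finset (F.D j).Y).card : ℝ) ≤ 4 * Y'.card ∧
      (∀ z ∈ Y', gbϖ F π / 2 ≤ ∑ ω, (F.D j).geo.Jn (((F.D j).ang (gbIa F j lam π v₀)).RO (F.S j) (gbP1 F j lam π v₀) O) z ω) ∧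
      ∀ (B : (F.D j).BBt lam (F.Λ ^ (5 * π.u))) (σ : TStr k (gbBot F j lam π) lam),
        ∑ ω, (if ((F.D j).ang (gbIa F j lam π v₀)).inStr σ.lev σ ω ∧ ¬ O B ω then ((F.D j).ang (gbIa F j lam π v₀)).nu B ω else 0) ≤ if σ.lev ∈ gbMs F j lam π then gbT F j lam π σ.lev else 1 := by
    obtain ⟨O, Y', -, hcard, hW, hres⟩ := TAng.tgx_main (𝔄 := (F.D j).ang (gbIa F j lam π v₀)) hS hg hA hFr (ft_univ_ne hOk j) hA0 hCp (gbMs F j lam π)
      (fun i hi => by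
        have h1 := (Finset.mem_filter.1 hi).1
        exact ⟨(Finset.mem_Ico.1 h1).1, (Finset.mem_Ico.1 h1).2⟩)
      (gbT F j lam π) (fun i _ => Real.rpow_pos_of_pos hΛ0 _) (gbP1 F j lam π v₀) hP1 (gbβ0 F j lam π v₀) hbud d hid hnum.hR hnum.hgain (gbϖ F π) hnum.hϖ hnum.hR' hnum.hsmall hnum.hδ
    exact ⟨O, Y', hcard, hW, hres⟩
  refine ⟨gbDat F j lam π v₀ O Y', ?_⟩
  have hJ : ∀ z ω, (F.D j).geo.Jn (gbR F j lam π v₀ O) z ω = (F.D j).geo.Jn (((F.D j).ang (gbIa F j lam π v₀)).RO (F.S j) (gbP1 F j lam π v₀) O) z ω :=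
    fun z ω => gb_Jn_wit ((F.D j).ang (gbIa F j lam π v₀)) (F.S j) (gbP1 F j lam π v₀) O z ω
  exact
    { R_sub := fun i ω => TAng.tgm_RO_sub (𝔄 := (F.D j).ang (gbIa F j lam π v₀)) (F.S j) (gbP0 F j lam π v₀) hP0 O i ω
      R_lam := fun ω =>
        (Finset.subset_of_eq (TAng.tgm_RO_lam (𝔄 := (F.D j).ang (gbIa F j lam π v₀)) (F.S j) (gbP0 F j lam π v₀) O ω)).trans (Finset.filter_subset _ _)
      J_nonneg := fun z ω => TGeo.Jn_nonneg (𝔊 := (F.D j).geo) hS (gbR F j lam π v₀ O) z ω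
      J_le := fun z ω => le_rfl
      card := by
        have h1 : ((Finset.univ : Finset (F.D j).Y).card : ℝ) ≤ 4 * Y'.card := hcard
        rw [Finset.card_univ] at h1
        exact h1.trans (mul_le_mul_of_nonneg_right h4 (Nat.cast_nonneg _))
      mass := fun z hz =>
        calc Kb⁻¹ ≤ gbϖ F π / 2 := hmass
          _ ≤ ∑ ω, (F.D j).geo.Jn (((F.D j).ang (gbIa F j lam π v₀)).RO (F.S j) (gbP1 F j lam π v₀) O) z ω := hW z hz
          _ = ∑ ω, (F.D j).geo.Jn (gbR F j lam π v₀ O) z ω := Finset.sum_congr rfl fun ω _ => (hJ z ω).symm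
      ν_nonneg := fun g ω => gbn_nonneg F j (gbIa F j lam π v₀) hS O g ω
      ν_sum := fun g => gbn_sum F j (gbIa F j lam π v₀) hS O g
      dom := fun z ω => by
        have h1 := gbn_dom F j (gbIa F j lam π v₀) hS hg hA hV (Real.rpow_pos_of_pos hΛ0 _) hG (F.S j) (gbP0 F j lam π v₀) O z ω
        have n1 := gbn_nonneg F j (gbIa F j lam π v₀) hS O (F.ngrp j lam (F.Λ ^ (5 * π.u)) (z, (F.D j).anc lam ω)) ω
        have n2 : 0 ≤ F.lcap j lam z ((F.D j).anc lam ω) := TGeo.lcw_nonneg (𝔊 := (F.D j).geo) hS lam _ z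
        refine le_trans h1 ?_
        exact mul_le_mul_of_nonneg_right (mul_le_mul_of_nonneg_right hdom n1) n2
      strip := hstrip O hres
      cnt := hcnt }

end

end Claimed.Agent.R257.FR3
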