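import Claimed.Agent.R257.FR3.BlkGlue
import Claimed.Agent.R257.FR3.BlkAux
import Claimed.Agent.R257.FR3.BlkCntA

/-!
# ROW 257, package FR3, GBLK: THE FINAL GLUE, part 2: PARAMETERS, `gb_main`      (helper266)

`gb_main (hk : 1 ≤ k) : (∀ F m, F.Ok m → F.AngOk) → GbSize k → GbBud k → GbNumB k → GbCnt k → GBlk k`.
CHOICES (header of `FR3/BlkPar.lean`):  `η = gbEta k x`, `γ = 2 η`;  `θ = min (1/2) (e/(4γ))`, `θ0` of `GbCnt o e`, `θm = min θ θ0`, `e1 = x θm / 4`, `V = 6`, `μ0 = θm u / 4`, `cg = (q' - q) x θm u / 4`, `N = gbN c`.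
Nodes and gain: `gbx_*` (helper121, `FR3/BlkAux.lean`);  `gbIb.Ok`: `gbb_Ib_ok` (helper271).
-/

set_option autoImplicit false

namespace Claimed.Agent.R257.FR3

open scoped BigOperators
open Classical Matrix
open Claimed.Agent.R255 Claimed.Agent.R257 Claimed.Agent.R257.FR2 Claimed.Agent.R257.Tree

noncomputable section

variable {k : ℕ}

/-- there are labels of height `lam` -/
theorem gb_v0 {F : FCfg k} {m : ℕ} (hOk : F.Ok m) (j : Fin (k + 1)) (lam : ℕ) (hl : lam ≤ F.c.ℓ) : Nonempty ((F.D j).Lb lam) := by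
  by_contra hne
  rw [not_nonempty_iff] at hne
  obtain ⟨z, hz⟩ := ft_univ_ne hOk j
  have h1 := (hOk.frozen j).high lam hl z hz
  have he : IsEmpty ((F.D j).sys.C lam) := ⟨fun T => hne.false (T : (F.D j).Cl lam).1.1⟩
  have h2 : (F.D j).sys.Ev lam ((F.D j).sys.res (F.S j lam) ((F.D j).sys.fld (F.S j) lam)) z = 0 := by
    unfold TSys.Ev
    exact Finset.sum_eq_zero fun T _ => (he.false T).elim
  rw [h2, norm_zero, mul_zero] at h1
  linarith [hOk.one_le_A j]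

/-- the enlargement of the strips is large enough for `gbs_field2` -/
theorem gb_Cs_ge {c : TCls k} (hc : c.Ok) : (k : ℝ) + 2 * (c.ℓ * c.Cc) ≤ gbCs c := by
  have hCc := hc.one_le_Cc
  have hℓ : (0 : ℝ) ≤ c.ℓ := Nat.cast_nonneg _
  have h1 : (k : ℝ) ≤ 2 ^ (k + 3) := by
    have : k ≤ 2 ^ (k + 3) := (Nat.lt_two_pow_self (n := k)).le.trans (Nat.pow_le_pow_right (by norm_num) (by omega))
    exact_mod_cast this
  have h2 : (2 : ℝ) ≤ 2 ^ (k + 3) := by
    calc (2 : ℝ) = 2 ^ 1 := (pow_one _).symm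
      _ ≤ 2 ^ (k + 3) := pow_le_pow_right₀ (by norm_num) (by omega)
  unfold gbCs
  have h3 : (k : ℝ) ≤ 2 ^ (k + 3) * c.Cc := h1.trans (le_mul_of_one_le_right (by positivity) hCc)
  have h4 : 2 * (c.ℓ * c.Cc) ≤ 2 ^ (k + 3) * (c.ℓ * c.Cc) := mul_le_mul_of_nonneg_right h2 (by positivity)
  nlinarith

/-- **SIZES**: the instance of ANG is admissible, all the constants are subpowers -/
def GbSize (k : ℕ) : Prop :=
  ∀ (c : TCls k), c.Ok → ∀ (u b Cg Cv C0 : ℝ), 0 < u → 0 < b → 1 ≤ Cg → 1 ≤ Cv → ∃ m0 : ℕ, ∀ F : FCfg k, F.c = c → F.Ok m0 → ∀ (j : Fin (k + 1)) (lam : ℕ), lam ≤ F.c.ℓ →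
    ∀ π : GbP, π.u = u → ∀ (v₀ : (F.D j).Lb lam) (μ0 : ℝ), 0 ≤ μ0 → μ0 ≤ u → F.Mesh j μ0 (F.s j lam) (F.s j lam + 6 * u) → F.Off j (F.s j lam) (6 * u) →
      (gbIa F j lam π v₀).Ok ∧ (F.D j).G lam ≤ F.Λ ^ (5 * u) ∧ Cg ^ F.c.ℓ * ((F.D j).kv (gbIa F j lam π v₀) Cv) ^ 2 * 3 ^ (k + 1) ≤ F.Λ ^ b ∧ C0 ≤ F.Λ ^ b

/-- **THE BLOCK PACKAGE from its units** -/
theorem gb_main (hk : 1 ≤ k) (hAng : ∀ (F : FCfg k) (m : ℕ), F.Ok m → F.AngOk) (hSize : GbSize k) (hBud : GbBud k) (hNum : GbNumB k) (hCnt : GbCnt k) : GBlk k := by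
  intro o _ x hx
  have hq' := tia_qa_gt hk
  have hq2 := gbx_qk hk
  have hη : 0 < gbEta k x := by
    unfold gbEta
    exact div_pos (mul_pos hx (by linarith)) (by linarith)
  refine ⟨2 * gbEta k x, by linarith, ?_⟩
  intro e he
  obtain ⟨θ0, hθ0, hθ0', H1⟩ := hCnt o e he
  obtain ⟨γ, hγd⟩ : ∃ γ : ℝ, γ = 2 * gbEta k x := ⟨_, rfl⟩
  have hγ : 0 < γ := by rw [hγd]; linarith
  obtain ⟨θ, hθd⟩ : ∃ θ : ℝ, θ = min (1 / 2) (e / (4 * γ)) := ⟨_, rfl⟩
  have hθ : 0 < θ := by rw [hθd]; exact lt_min (by norm_num) (by positivity)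
  have hθ1 : θ ≤ 1 / 2 := by rw [hθd]; exact min_le_left _ _
  have hθ2 : γ * θ ≤ e / 4 := by
    have h1 : θ ≤ e / (4 * γ) := by rw [hθd]; exact min_le_right _ _
    calc γ * θ ≤ γ * (e / (4 * γ)) := mul_le_mul_of_nonneg_left h1 hγ.le
      _ = e / 4 := by field_simp
  obtain ⟨θm, hθmd⟩ : ∃ θm : ℝ, θm = min θ θ0 := ⟨_, rfl⟩
  have hθm : 0 < θm := by rw [hθmd]; exact lt_min hθ hθ0
  have hθm1 : θm ≤ θ := by rw [hθmd]; exact min_le_left _ _
  have hθm2 : θm ≤ θ0 := by rw [hθmd]; exact min_le_right _ _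
  refine ⟨x * θm / 4, 6, by positivity, by norm_num, ?_⟩
  intro u hu
  refine ⟨θm * u / 4, by positivity, ?_⟩
  intro c cx hco
  by_cases hc : c.Ok
  swap
  · exact ⟨0, fun F hFc _ hOk => absurd (hFc ▸ hOk.cls) hc⟩
  have hk0 : (0 : ℝ) ≤ k := Nat.cast_nonneg k
  have hQ0 : 0 ≤ c.Q := by
    have := hc.P_gt
    have := hc.P_lt
    linarith
  obtain ⟨Cg, hCg, Hg⟩ := ti_geo_ok hc
  obtain ⟨Cv, hCv, Hv⟩ := tia_main hc (Ew := (k : ℝ) + 2) (Q2 := c.Q + ((k : ℝ) + 2) * k / 2) (Cs := gbCs c) (q' := tia_qa k) (ε := 1) (by linarith) (by positivity)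
    (by have := hc.room_C0; nlinarith) (by have := hc.room_M; nlinarith) hq' (tia_qa_le hk) one_pos
  have hd : 0 < tia_qa k - qk k := by linarith
  obtain ⟨m1, H1'⟩ := H1 u hu c cx hco
  obtain ⟨m2, H2⟩ := hNum c cx Cg ((tia_qa k - qk k) * x * θm * u / 4) (e * u) hc (by positivity) (by positivity)
  obtain ⟨m3, H3⟩ := hSize c hc u (e * u) Cg Cv (max 4 (2 ^ γ)) hu (by positivity) hCg hCv
  refine ⟨m1 + m2 + m3, ?_⟩
  intro F hFc hFcx hOk j lam hl hMesh hOff hslope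
  subst hFc
  have hΛ : 1 < F.Λ := ft_one_lt_Λ hOk
  have hΛ0 : 0 < F.Λ := by linarith
  obtain ⟨v₀⟩ := gb_v0 hOk j lam hl
  obtain ⟨π, hπ⟩ : ∃ π : GbP, π = ⟨u, gbEta k x, θ, θ0, gbN F.c⟩ := ⟨_, rfl⟩
  have hπu : π.u = u := by rw [hπ]
  have hπη : π.η = gbEta k x := by rw [hπ]
  have hπθ : π.θ = θ := by rw [hπ]
  have hπθ0 : π.θ0 = θ0 := by rw [hπ]
  have hπN : π.N = gbN F.c := by rw [hπ]
  have hμ0 : 0 < θm * u / 4 := by positivity
  have hθu : θm * u ≤ θ * u := mul_le_mul_of_nonneg_right hθm1 hu.le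
  have hθ0u : θm * u ≤ θ0 * u := mul_le_mul_of_nonneg_right hθm2 hu.le
  have hθu1 : θ * u ≤ u / 2 := by
    have := mul_le_mul_of_nonneg_right hθ1 hu.le
    linarith only [this]
  have hθ0u1 : θ0 * u ≤ u / 8 := by
    have := mul_le_mul_of_nonneg_right hθ0' hu.le
    linarith only [this]
  have hθ0u0 : 0 < θ0 * u := by positivity
  have n1 : x * θm / 4 ≤ x * θ / 4 := by
    have := mul_le_mul_of_nonneg_left hθm1 hx.le
    linarith only [this]
  have n2 : x * θm / 4 ≤ x * θ0 / 4 := by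
    have := mul_le_mul_of_nonneg_left hθm2 hx.le
    linarith only [this]
  have n3 : (tia_qa k - qk k) * x * θm * u / 4 ≤ (tia_qa k - qk k) * x * θ * u / 4 := by
    have : (tia_qa k - qk k) * x * (θm * u) ≤ (tia_qa k - qk k) * x * (θ * u) := mul_le_mul_of_nonneg_left hθu (by positivity)
    linarith only [this]
  have n4 : (tia_qa k - qk k) * x * θm * u / 4 ≤ (tia_qa k - qk k) * x * θ0 * u / 4 := by
    have : (tia_qa k - qk k) * x * (θm * u) ≤ (tia_qa k - qk k) * x * (θ0 * u) := mul_le_mul_of_nonneg_left hθ0u (by positivity)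
    linarith only [this]
  -- the nodes
  obtain ⟨hB1, hB2, hB3⟩ := gbx_nod (F := F) (j := j) hl hμ0.le hMesh hu.le (by linarith : u ≤ 6 * u)
  obtain ⟨hM1, hM2, hM3⟩ := gbx_nod (F := F) (j := j) hl hμ0.le hMesh hθ0u0.le (by linarith : θ0 * u ≤ 6 * u)
  have hMlt : F.nod j lam (θ0 * u) < lam := gbx_nod_lt (F := F) (j := j) hl hμ0.le hMesh (by linarith) (by linarith : θ0 * u ≤ 6 * u)
  have eB : gbBot F j lam π = F.nod j lam u := by unfold gbBot; rw [hπu]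
  have eM : gbMu F j lam π = F.nod j lam (θ0 * u) := by unfold gbMu; rw [hπu, hπθ0]
  rw [← eB] at hB1 hB2 hB3
  rw [← eM] at hM1 hM2 hM3 hMlt
  -- the units
  obtain ⟨hIa, hG, hdom, hC0⟩ := H3 F rfl (hOk.mono (by omega)) j lam hl π hπu v₀ (θm * u / 4) hμ0.le (by linarith) hMesh hOff
  have hIb : (gbIb F j lam π v₀).Ok := gbb_Ib_ok F hc j lam π v₀ hl hM1
  have hA := hAng F _ hOk
  have hslope' : ∀ i, i ≤ lam → F.s j i - F.s j lam ≤ π.u → x * (F.s j i - F.s j lam) - x * θm / 4 * π.u ≤ F.ρ j lam - F.ρ j i := by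
    rw [hπu]
    exact hslope
  have hgain1 := gbx_gain hk hOk π (x := x) (e1 := x * θm / 4) (cg := (tia_qa k - qk k) * x * θm * u / 4) hx (by rw [hπu]; exact hu) hπη hslope' (by rw [hπu]; exact hB2)
    (by rw [hπθ]; exact n1) (by rw [hπθ, hπu]; exact n3)
  have hgain2 := gbx_gain_mu hk hOk π (x := x) (e1 := x * θm / 4) (cg := (tia_qa k - qk k) * x * θm * u / 4) hx (by rw [hπu]; exact hu) (by rw [hπθ0]; exact hθ0.le) hslope' hM1
    (by rw [hπθ0, hπu]; linarith only [hM3, hθ0u]) (by rw [hπu]; linarith only [hM2, hθ0u1, hu]) (by rw [hπθ0]; exact n2) (by rw [hπθ0, hπu]; exact n4)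
  obtain ⟨hnum, hmass⟩ := H2 F rfl hFcx (hOk.mono (by omega)) j lam (F.c.ℓ - lam) (by omega) π hπN v₀ hB1 hMlt hgain1 hgain2
  have hbud := hBud F _ hOk hA j lam π v₀ hl hMlt hIb
  have hV := (Hv Cv le_rfl (F.D j) (hOk.good j) (gbIa F j lam π v₀) rfl rfl rfl hIa).2
  have hcnt := H1' F rfl hFcx (hOk.mono (by omega)) hA j lam hl (θm * u / 4) hμ0 (by linarith) hMesh hOff π hπu hπθ0 v₀
  have hfin := gb_core hOk hA j lam (F.c.ℓ - lam) (by omega) π v₀ (γ := γ) (Kb := F.Λ ^ (e * u)) (Hg Cg le_rfl (F.D j) (hOk.good j)) hIa hV hbud hnum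
    (by rw [← Real.rpow_neg hΛ0.le]; exact hmass) ((le_max_left _ _).trans hC0) (by rw [hπu]; exact hG) hdom ?_ (by rw [hπu]; exact hcnt)
  · rw [hπu, hγd] at hfin
    exact hfin
  · intro O hres
    have hf := gbs_field2 F j (gbIa F j lam π v₀) (hOk.sys j) hc (hOk.good j) hB1 hl (gb_Cs_ge hc) O (gbMs F j lam π) (gbT F j lam π) hres
      (u := π.u) (γ := γ) (μ := θm * u / 4) (K := F.Λ ^ (e * u)) (K0 := F.Λ ^ (γ * (θ * u))) hΛ (hOk.κr_pos j) hγ.le
      (fun i _ hi => hMesh.1 i (by have : i < lam := hi; omega)) (by rw [hπu]; exact hB3) ?_ ((le_max_right _ _).trans hC0) ?_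
    · exact hf
    · intro i hi1 hi2
      have hi1' : gbBot F j lam π ≤ i := hi1
      have hi2' : i ≤ lam := hi2
      show (if i ∈ gbMs F j lam π then gbT F j lam π i else 1) ≤ F.Λ ^ (γ * (θ * u)) * F.Λ ^ (-(γ * F.vv j lam i))
      rw [← Real.rpow_add hΛ0]
      split_ifs with hm
      · unfold gbT
        refine Real.rpow_le_rpow_of_exponent_le hΛ.le ?_
        rw [hπη, ← hγd]
        have : 0 ≤ γ * (θ * u) := by positivity
        linarith
      · have hv : F.vv j lam i ≤ θ * u := by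
          rcases Nat.lt_or_ge i lam with h | h
          · by_contra hcon
            rw [not_le] at hcon
            refine hm (Finset.mem_filter.2 ⟨Finset.mem_Ico.2 ⟨hi1', h⟩, ?_⟩)
            rw [hπθ, hπu]
            exact hcon.le
          · have : i = lam := le_antisymm hi2' h
            rw [this, gbx_vv_lam]
            positivity
        rw [← Real.rpow_zero F.Λ]
        refine Real.rpow_le_rpow_of_exponent_le hΛ.le ?_
        have := mul_le_mul_of_nonneg_left hv hγ.le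
        linarith
    · rw [← Real.rpow_add hΛ0]
      refine Real.rpow_le_rpow_of_exponent_le hΛ.le ?_
      have h1 : γ * (θ * u) ≤ e / 4 * u := by
        calc γ * (θ * u) = γ * θ * u := by ring
          _ ≤ e / 4 * u := mul_le_mul_of_nonneg_right hθ2 hu.le
      have h2 : γ * (θm * u / 4) ≤ γ * (θ * u) := mul_le_mul_of_nonneg_left (by linarith only [hθu, hμ0]) hγ.le
      have h3 := mul_pos he hu
      linarith only [h1, h2, h3]

end

end Claimed.Agent.R257.FR3
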