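import Claimed.Agent.R257.FR3.BlkDefs
import Claimed.Agent.R257.Tree.AngV
import Claimed.Agent.R257.FR2.AngTop

/-!
# ROW 257, package FR3, GBLK: THE PRUNED REFERENCE LAWS OF THE GROUPS; fields `ν_nonneg`, `ν_sum`, `dom`, `strip` of `BlkDat.Ok`      (architect helper212)          CONTRACT

`D = F.D j`, `I : TAIn D` (cap height `I.lam`, macro side `I.Sd` = the side `Rb` of the groups), `𝔄 = D.ang I`, `O B ω` = the omitted directions of the exit `tgx_main` of ANG.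
* `gbAdj F j I g B`    the macro box `B` of `𝔄` (cap, integer part of `Sd⁻¹ • lat T.2`) has the cap of the group `g = (τ, n)` and its index differs from `n` by at most `1` in every coordinate (`n 0` = TIME, as in `stv`)
* `gbNu F j I O g ω`   `= 3^{-(k+1)} ∑_{B adjacent to g, ¬ O B ω} 𝔄.nu B ω`      **= the field `ν` of `BlkDat`**
* `gbn_nonneg`, `gbn_sum`   fields `ν_nonneg`, `ν_sum`
* `gbn_dom`            field `dom`:  `Jn (RO S P₀ O) z ω ≤ Γc^ℓ Kv² 3^{k+1} ν (ngrp Sd (z, anc lam ω)) ω lcap z (anc lam ω)`      (needs `G_lam ≤ Sd`)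
* `gbs_strip`          field `strip` before the numerics: for `r ≤ 1/2` and EVERY height `bot ≤ i ≤ lam` with `κ_i r ≤ κ_lam`:  `∑_{|w · ndir ω| ≤ r} ν g ω ≤ tt i`   (`tt` = the right side of the last clause of `tgx_main`;  needs `k + 2 ℓ Cc ≤ I.Cs`)
Every `sorry` is a leaf `L-257-GBN-*`: prove IN PLACE on a fresh pull, statement verbatim (a FALSE statement: one line to helper212), auxiliary lemmas directly above, prefix `gbn_`/`gbs_`; splice only your block.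
-/

set_option autoImplicit false

namespace Claimed.Agent.R257.FR3

open scoped BigOperators InnerProductSpace
open Classical Matrix
open Claimed.Agent.R255 Claimed.Agent.R257 Claimed.Agent.R257.FR2 Claimed.Agent.R257.Tree

noncomputable section

variable {k : ℕ}

/-! ## definitions -/

/-- the macro box `B` is adjacent to the group `g` -/
def gbAdj (F : FCfg k) (j : Fin (k + 1)) (I : TAIn (F.D j)) (g : (F.D j).Lb I.lam × (Fin (k + 1) → ℤ)) (B : (F.D j).BBt I.lam I.Sd) : Prop :=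
  B.1.1 = g.1 ∧ |B.1.2.2 - g.2 0| ≤ 1 ∧ ∀ i : Fin k, |B.1.2.1 i - g.2 i.succ| ≤ 1

/-- **the pruned reference law of a group** -/
def gbNu (F : FCfg k) (j : Fin (k + 1)) (I : TAIn (F.D j)) (O : (F.D j).BBt I.lam I.Sd → (F.D j).Lb 0 → Prop)
    (g : (F.D j).Lb I.lam × (Fin (k + 1) → ℤ)) (ω : (F.D j).Lb 0) : ℝ :=
  ((3 : ℝ) ^ (k + 1))⁻¹ * ∑ B : (F.D j).BBt I.lam I.Sd, if gbAdj F j I g B ∧ ¬ O B ω then ((F.D j).ang I).nu B ω else 0

/-! ## elementary lemmas -/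

/-- **L-257-GBN-FLOOR** (15 l.)  `Int.floor_le`, `Int.lt_floor_add_one`, `Int.floor_le_floor`/`Int.le_floor`, `abs_le`; or: `⌊b⌋ ≤ ⌊a + 1⌋ = ⌊a⌋ + 1` (`Int.floor_add_one`). -/
theorem gbn_floor {a b : ℝ} (h : |a - b| ≤ 1) : |⌊a⌋ - ⌊b⌋| ≤ 1 := by
  rw [abs_le] at h ⊢
  constructor
  · have h1 : ⌊b⌋ ≤ ⌊a + 1⌋ := Int.floor_le_floor (by linarith [h.1])
    rw [Int.floor_add_one] at h1
    linarith
  · have h1 : ⌊a⌋ ≤ ⌊b + 1⌋ := Int.floor_le_floor (by linarith [h.2])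
    rw [Int.floor_add_one] at h1
    linarith

/-- **L-257-GBN-CARD** (80 l.)  at most `3^{k+1}` macro boxes are adjacent to a group.
PLAN: `B ↦ B.1.2 : Lat k` is injective on the filter (the first component is `g.1`; `Subtype.ext`, `Prod.ext`); the image lies in `Finset.Icc ((fun i => g.2 i.succ - 1), g.2 0 - 1) ((fun i => g.2 i.succ + 1), g.2 0 + 1)` (`abs_le`, `Prod.le_def`, `Pi.le_def`);
`Finset.card_le_card_of_injOn`;  `Prod.card_Icc`, `Pi.card_Icc`, `Int.card_Icc`: `3^k * 3`. -/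
theorem gbn_card (F : FCfg k) (j : Fin (k + 1)) (I : TAIn (F.D j)) (g : (F.D j).Lb I.lam × (Fin (k + 1) → ℤ)) :
    (((Finset.univ.filter fun B : (F.D j).BBt I.lam I.Sd => gbAdj F j I g B).card : ℕ) : ℝ) ≤ 3 ^ (k + 1) := by
  have h1 : (Finset.univ.filter fun B : (F.D j).BBt I.lam I.Sd => gbAdj F j I g B).card ≤
      (Finset.Icc (((fun i : Fin k => g.2 i.succ - 1), g.2 0 - 1) : Lat k) ((fun i : Fin k => g.2 i.succ + 1), g.2 0 + 1)).card := by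
    refine Finset.card_le_card_of_injOn (fun B => B.1.2) ?_ ?_
    · intro B hB
      have hB' : gbAdj F j I g B := (Finset.mem_filter.1 (Finset.mem_coe.1 hB)).2
      obtain ⟨_, h2, h3⟩ := hB'
      rw [Finset.coe_Icc, Set.mem_Icc, Prod.le_def, Prod.le_def, Pi.le_def, Pi.le_def]
      rw [abs_le] at h2
      refine ⟨⟨fun i => ?_, ?_⟩, ⟨fun i => ?_, ?_⟩⟩
      · have := (abs_le.1 (h3 i)).1
        show g.2 i.succ - 1 ≤ B.1.2.1 i
        linarith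
      · show g.2 0 - 1 ≤ B.1.2.2
        linarith [h2.1]
      · have := (abs_le.1 (h3 i)).2
        show B.1.2.1 i ≤ g.2 i.succ + 1
        linarith
      · show B.1.2.2 ≤ g.2 0 + 1
        linarith [h2.2]
    · intro B hB B' hB' hEq
      have hb : gbAdj F j I g B := (Finset.mem_filter.1 (Finset.mem_coe.1 hB)).2
      have hb' : gbAdj F j I g B' := (Finset.mem_filter.1 (Finset.mem_coe.1 hB')).2
      exact Subtype.ext (Prod.ext (hb.1.trans hb'.1.symm) hEq)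
  have h2 : (Finset.Icc (((fun i : Fin k => g.2 i.succ - 1), g.2 0 - 1) : Lat k) ((fun i : Fin k => g.2 i.succ + 1), g.2 0 + 1)).card = 3 ^ (k + 1) := by
    rw [Finset.card_Icc_prod, Pi.card_Icc]
    simp only [Int.card_Icc]
    have e1 : ∀ x : ℤ, (x + 1 + 1 - (x - 1)).toNat = 3 := by
      intro x
      have : x + 1 + 1 - (x - 1) = 3 := by ring
      rw [this]; rfl
    simp only [e1]
    simp [pow_succ]
  calc (((Finset.univ.filter fun B : (F.D j).BBt I.lam I.Sd => gbAdj F j I g B).card : ℕ) : ℝ) ≤ ((3 ^ (k + 1) : ℕ) : ℝ) := by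
        rw [← h2]; exact_mod_cast h1
    _ = 3 ^ (k + 1) := by push_cast; rfl

/-- **L-257-GBN-STV** (25 l.)  `stv`, `dotProduct`, `Fin.sum_univ_succ`, `Fin.cons_zero`, `Fin.cons_succ`; `⟪x, y⟫ = ∑ x i * y i` (`PiLp.inner_apply`/`EuclideanSpace.inner_eq_star_dotProduct`, `mul_comm`). -/
theorem gbs_dot (w : Fin (k + 1) → ℝ) (x : E k) (t : ℝ) : w ⬝ᵥ stv ((x, t) : ST k) = w 0 * t + ⟪(WithLp.toLp 2 (fun i : Fin k => w i.succ) : E k), x⟫_ℝ := by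
  unfold stv dotProduct
  rw [Fin.sum_univ_succ]
  simp only [Fin.cons_zero, Fin.cons_succ]
  congr 1
  rw [PiLp.inner_apply]
  refine Finset.sum_congr rfl fun i _ => ?_
  simp [mul_comm]

/-- **L-257-GBN-L1** (25 l.)  `Fin.sum_univ_succ`; `|w i.succ| ≤ ‖toLp …‖` (`PiLp.norm_apply_le`), `Finset.sum_le_card_nsmul`. -/
theorem gbs_l1 (w : Fin (k + 1) → ℝ) : ∑ l, |w l| ≤ |w 0| + (k : ℝ) * ‖(WithLp.toLp 2 (fun i : Fin k => w i.succ) : E k)‖ := by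
  rw [Fin.sum_univ_succ]
  refine add_le_add le_rfl ?_
  have h : ∀ i ∈ (Finset.univ : Finset (Fin k)), |w i.succ| ≤ ‖(WithLp.toLp 2 (fun i : Fin k => w i.succ) : E k)‖ := by
    intro i _
    have := PiLp.norm_apply_le (WithLp.toLp 2 (fun i : Fin k => w i.succ) : E k) i
    simpa using this
  have h2 := Finset.sum_le_card_nsmul _ _ _ h
  simpa using h2

/-! ## `ν_nonneg`, `ν_sum`, support -/

theorem gbn_nonneg (F : FCfg k) (j : Fin (k + 1)) (I : TAIn (F.D j)) {p : TPar} (h : (F.D j).sys.Ok p) (O : (F.D j).BBt I.lam I.Sd → (F.D j).Lb 0 → Prop)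
    (g : (F.D j).Lb I.lam × (Fin (k + 1) → ℤ)) (ω : (F.D j).Lb 0) : 0 ≤ gbNu F j I O g ω := by
  unfold gbNu
  refine mul_nonneg (by positivity) (Finset.sum_nonneg fun B _ => ?_)
  split_ifs
  · exact TAng.tgx_nu_nonneg (𝔄 := (F.D j).ang I) h B ω
  · exact le_rfl

/-- **L-257-GBN-SUM** (50 l.)  `Finset.mul_sum`/`Finset.sum_comm`: `∑_ω ν g ω ≤ 3^{-(k+1)} ∑_{B adjacent} ∑_ω nu B ω ≤ 3^{-(k+1)} #{B adjacent}` (`TAng.tgx_nu_sum h B Finset.univ`, `TAng.tgx_nu_nonneg`), `gbn_card`. -/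
theorem gbn_sum (F : FCfg k) (j : Fin (k + 1)) (I : TAIn (F.D j)) {p : TPar} (h : (F.D j).sys.Ok p) (O : (F.D j).BBt I.lam I.Sd → (F.D j).Lb 0 → Prop)
    (g : (F.D j).Lb I.lam × (Fin (k + 1) → ℤ)) : ∑ ω, gbNu F j I O g ω ≤ 1 := by
  unfold gbNu
  rw [← Finset.mul_sum, Finset.sum_comm]
  have h3 : (0 : ℝ) < 3 ^ (k + 1) := by positivity
  rw [inv_mul_le_iff₀ h3, mul_one]
  refine le_trans ?_ (gbn_card F j I g)
  have hB : ∀ B : (F.D j).BBt I.lam I.Sd, (∑ ω, if gbAdj F j I g B ∧ ¬ O B ω then ((F.D j).ang I).nu B ω else 0) ≤ if gbAdj F j I g B then (1 : ℝ) else 0 := by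
    intro B
    by_cases hadj : gbAdj F j I g B
    · rw [if_pos hadj]
      refine le_trans (Finset.sum_le_sum fun ω _ => ?_) (TAng.tgx_nu_sum (𝔄 := (F.D j).ang I) h B Finset.univ)
      split_ifs
      · exact le_rfl
      · exact TAng.tgx_nu_nonneg (𝔄 := (F.D j).ang I) h B ω
    · rw [if_neg hadj]
      refine le_of_eq (Finset.sum_eq_zero fun ω _ => ?_)
      rw [if_neg (fun hh => hadj hh.1)]
  refine le_trans (Finset.sum_le_sum fun B _ => hB B) (le_of_eq ?_)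
  rw [Finset.sum_ite, Finset.sum_const_zero, add_zero, Finset.sum_const, nsmul_eq_mul, mul_one]

/-- **L-257-GBN-NUSUPP** (40 l.)  the reference law of a macro box lives on the descendants of its cap.
PLAN: `TAng.nu`: `dif_pos hB`, the inner `if` gives `anc lam ω = cap lam hB.choose.2 = hB.choose.2.1.1`; `hB.choose_spec.1 : Bx hB.choose.2 = B`, so `B.1 = bx0 … hB.choose.2` (`congrArg Subtype.val`), first component. -/
theorem gbn_nu_supp (F : FCfg k) (j : Fin (k + 1)) (I : TAIn (F.D j)) (B : (F.D j).BBt I.lam I.Sd) (ω : (F.D j).Lb 0) (h : ((F.D j).ang I).nu B ω ≠ 0) :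
    (F.D j).anc I.lam ω = B.1.1 := by
  unfold TAng.nu at h
  split_ifs at h with hB hω
  · have h1 : ((F.D j).ang I).Bx hB.choose.2 = B := hB.choose_spec.1
    have h2 := congrArg (fun B : (F.D j).BBt I.lam I.Sd => B.1.1) h1
    exact hω.trans h2
  · exact absurd rfl h
  · exact absurd rfl h

/-! ## `dom` -/

/-- **L-257-GBN-ADJ** (80 l.)  the macro box of a cell near the witness is adjacent to the group of the witness.
PLAN: `X := natX κ_lam (fr lam T.1.1) (pt z)`, `hz : ‖X - lat T.1.2‖ ≤ G_lam ≤ Sd` (`TDat.X`).   `FCfg.ngrp`, `FCfg.npos`, `stv`, `TDat.bx0`, `flo`: time: `gbn_floor` with `a = (Sd⁻¹ • lat T.1.2).2 = Sd⁻¹ * lat.2`, `b = X.2 / Sd`, `|a - b| = |X.2 - lat.2| / Sd ≤ ‖X - lat‖ / Sd ≤ 1` (`norm_snd_le`);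
space: the same with `PiLp.norm_apply_le`, `norm_fst_le`. -/
theorem gbn_adj (F : FCfg k) (j : Fin (k + 1)) (I : TAIn (F.D j)) (hSd : 0 < I.Sd) (hG : (F.D j).G I.lam ≤ I.Sd) (z : (F.D j).Y) (T : (F.D j).Cl I.lam)
    (hz : ‖(F.D j).X I.lam T.1 ((F.D j).pt z)‖ ≤ (F.D j).G I.lam) :
    gbAdj F j I (F.ngrp j I.lam I.Sd (z, T.1.1)) ⟨(F.D j).bx0 I.lam I.Sd T, Finset.mem_image_of_mem _ (Finset.mem_univ T)⟩ := by
  obtain ⟨X, hX⟩ : ∃ X, X = natX ((F.D j).κ I.lam) ((F.D j).fr I.lam T.1.1) ((F.D j).pt z) := ⟨_, rfl⟩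
  have hz' : ‖X - lat T.1.2‖ ≤ I.Sd := by
    rw [hX]
    exact hz.trans hG
  refine ⟨rfl, ?_, fun i => ?_⟩
  · show |⌊(I.Sd⁻¹ • lat T.1.2).2⌋ - ⌊(natX ((F.D j).κ I.lam) ((F.D j).fr I.lam T.1.1) ((F.D j).pt z)).2 / I.Sd⌋| ≤ 1
    rw [← hX]
    apply gbn_floor
    have e1 : (I.Sd⁻¹ • lat T.1.2).2 - X.2 / I.Sd = -((X - lat T.1.2).2) / I.Sd := by
      show I.Sd⁻¹ * (lat T.1.2).2 - X.2 / I.Sd = -(X.2 - (lat T.1.2).2) / I.Sd
      field_simp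
      ring
    rw [e1, abs_div, abs_neg, abs_of_pos hSd, div_le_one hSd]
    exact (norm_snd_le (X - lat T.1.2)).trans hz'
  · show |⌊(I.Sd⁻¹ • lat T.1.2).1 i⌋ - ⌊(natX ((F.D j).κ I.lam) ((F.D j).fr I.lam T.1.1) ((F.D j).pt z)).1 i / I.Sd⌋| ≤ 1
    rw [← hX]
    apply gbn_floor
    have e1 : (I.Sd⁻¹ • lat T.1.2).1 i - X.1 i / I.Sd = -((X - lat T.1.2).1 i) / I.Sd := by
      show I.Sd⁻¹ * (lat T.1.2).1 i - X.1 i / I.Sd = -(X.1 i - (lat T.1.2).1 i) / I.Sd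
      field_simp
      ring
    rw [e1, abs_div, abs_neg, abs_of_pos hSd, div_le_one hSd]
    exact ((PiLp.norm_apply_le (X - lat T.1.2).1 i).trans (norm_fst_le (X - lat T.1.2))).trans hz'

/-- **L-257-GBN-NUZ** (50 l.)  the residual reference measure seen from `z` is dominated by the law of the group of `z`.
PLAN: `TAng.nuz`, `gbNu`: `mul_inv_cancel_left₀`; termwise (`Finset.sum_le_sum`): if the condition of `nuz` holds for `B` (`T ∈ Sl`, `Bx T = B`, `inc lam z T`, `cap lam T = anc lam ω`) then `gbAdj … B` by `gbn_adj` (`subst`; `inc lam z T = D.near lam (pt z) T.1`, first clause; `T.1.1 = anc lam ω`);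
otherwise `0 ≤` (`TAng.tgx_nu_nonneg`). -/
theorem gbn_nuz (F : FCfg k) (j : Fin (k + 1)) (I : TAIn (F.D j)) {p : TPar} (h : (F.D j).sys.Ok p) (hSd : 0 < I.Sd) (hG : (F.D j).G I.lam ≤ I.Sd)
    (Sl : Finset ((F.D j).Cl I.lam)) (O : (F.D j).BBt I.lam I.Sd → (F.D j).Lb 0 → Prop) (z : (F.D j).Y) (ω : (F.D j).Lb 0) :
    ((F.D j).ang I).nuz Sl O ((F.D j).ang I).nu z ω ≤ 3 ^ (k + 1) * gbNu F j I O (F.ngrp j I.lam I.Sd (z, (F.D j).anc I.lam ω)) ω := by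
  unfold TAng.nuz gbNu
  rw [mul_inv_cancel_left₀ (by positivity)]
  refine Finset.sum_le_sum fun B _ => ?_
  split_ifs with hc hc' hc'
  · exact le_rfl
  · exfalso
    apply hc'
    obtain ⟨⟨T, hT, rfl, hinc, hcap⟩, hO⟩ := hc
    refine ⟨?_, hO⟩
    have hadj := gbn_adj F j I hSd hG z T hinc.1
    have e : T.1.1 = (F.D j).anc I.lam ω := hcap
    rw [← e]
    exact hadj
  · exact TAng.tgx_nu_nonneg (𝔄 := (F.D j).ang I) h B ω
  · exact le_rfl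

/-- **field `dom`** (glue: `tgx_Jn_le`, `tgx_NU`, `gbn_nuz`; `lcap = lcw` by `rfl`) -/
theorem gbn_dom (F : FCfg k) (j : Fin (k + 1)) (I : TAIn (F.D j)) {p : TPar} {g : GPar} {a : TAPar} {Kv : ℝ} (h : (F.D j).sys.Ok p) (hg : (F.D j).geo.Ok g)
    (hA : ((F.D j).ang I).Ok p a) (hV : ((F.D j).ang I).Var Kv) (hSd : 0 < I.Sd) (hG : (F.D j).G I.lam ≤ I.Sd)
    (S : ∀ i, Finset ((F.D j).Cl i)) (Sl : Finset ((F.D j).Cl I.lam)) (O : (F.D j).BBt I.lam I.Sd → (F.D j).Lb 0 → Prop) (z : (F.D j).Y) (ω : (F.D j).Lb 0) :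
    (F.D j).geo.Jn (((F.D j).ang I).RO S Sl O) z ω
      ≤ g.Γc ^ F.c.ℓ * Kv ^ 2 * 3 ^ (k + 1) * gbNu F j I O (F.ngrp j I.lam I.Sd (z, (F.D j).anc I.lam ω)) ω * F.lcap j I.lam z ((F.D j).anc I.lam ω) := by
  have h1 := TAng.tgx_Jn_le (𝔄 := (F.D j).ang I) h hg hA S Sl O ((F.D j).ang I).nu
    (fun B ω => TAng.tgx_nu_nonneg (𝔄 := (F.D j).ang I) h B ω) (m4 := Kv ^ 2) (by positivity)
    (fun z T ω hz hω => TAng.tgx_NU (𝔄 := (F.D j).ang I) h hA hV z T ω hz hω) z ω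
  have h2 := gbn_nuz F j I h hSd hG Sl O z ω
  have hΓ : 0 ≤ g.Γc ^ F.c.ℓ := pow_nonneg (zero_le_one.trans hg.one_le_Γc) _
  have hl : 0 ≤ F.lcap j I.lam z ((F.D j).anc I.lam ω) := TGeo.lcw_nonneg (𝔊 := (F.D j).geo) h I.lam ((F.D j).anc I.lam ω) z
  refine h1.trans ?_
  have e : g.Γc ^ F.c.ℓ * Kv ^ 2 * 3 ^ (k + 1) * gbNu F j I O (F.ngrp j I.lam I.Sd (z, (F.D j).anc I.lam ω)) ω * F.lcap j I.lam z ((F.D j).anc I.lam ω)
      = g.Γc ^ F.c.ℓ * Kv ^ 2 * (3 ^ (k + 1) * gbNu F j I O (F.ngrp j I.lam I.Sd (z, (F.D j).anc I.lam ω)) ω) * F.lcap j I.lam z ((F.D j).anc I.lam ω) := by ring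
  rw [e]
  exact mul_le_mul_of_nonneg_right (mul_le_mul_of_nonneg_left h2 (mul_nonneg hΓ (by positivity))) hl

/-! ## `strip` -/

/-- **L-257-GBS-GEO** (120 l.)  a direction of the cap `τ` in the strip `|w · ndir ω| ≤ r` lies in ONE hyperplane strip of the net, of mesh height `i`.
PLAN.  `w' = toLp (w ∘ succ)`, `a = ‖w'‖`, `x ω = (2 κ_lam) • (fr 0 ω - fr lam τ)`, `‖x ω‖ ≤ 2 ℓ Cc` (`ti_anc_near`).   `gbs_dot`: `w · ndir ω = w 0 + ⟪w', x ω⟫`.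
If NO `ω` under `τ` lies in the strip: any `σ` (e.g. `n = EuclideanSpace.single ⟨0, _⟩ 1`, `k ≥ 1`).   Otherwise, from one such `ω₀`: `1 = ∑|w l| ≤ |w 0| + k a ≤ r + 2 ℓ Cc a + k a` (`gbs_l1`, `abs_real_inner_le_norm`), so `a ≥ 1 / (2 (k + 2 ℓ Cc)) > 0`.
`n = a⁻¹ • w'`, `t = ⟪fr lam τ, n⟫ - w 0 / (2 κ_lam a)`:   `⟪fr 0 ω, n⟫ - t = (w 0 + ⟪w', x ω⟫) / (2 κ_lam a)`, so `|…| ≤ r / (2 κ_lam a) ≤ (k + 2 ℓ Cc) r / κ_lam ≤ Cs / κ_i`;   `tia_sin_anc`. -/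
theorem gbs_geo (F : FCfg k) (j : Fin (k + 1)) (I : TAIn (F.D j)) (hc : F.c.Ok) (hD : (F.D j).Good) (hl : I.lam ≤ F.c.ℓ) (hCs : (k : ℝ) + 2 * (F.c.ℓ * F.c.Cc) ≤ I.Cs)
    (τ : (F.D j).Lb I.lam) (w : Fin (k + 1) → ℝ) (hw : ∑ l, |w l| = 1) (r : ℝ) (hr0 : 0 ≤ r) (hr : r ≤ 1 / 2) (i : ℕ) (hbi : I.bot ≤ i) (hil : i ≤ I.lam)
    (hκ : (F.D j).κ i * r ≤ (F.D j).κ I.lam) :
    ∃ σ : TStr k I.bot I.lam, σ.lev = i ∧ ∀ ω, (F.D j).anc I.lam ω = τ → |w ⬝ᵥ F.ndir j I.lam ω| ≤ r → (F.D j).sinS I.Cs i σ ((F.D j).anc i ω) := by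
  have hk : 0 < k := hc.k_pos
  have hκl : 0 < (F.D j).κ I.lam := (F.D j).κ_pos hD I.lam
  have hκi : 0 < (F.D j).κ i := (F.D j).κ_pos hD i
  have hCc : 0 ≤ F.c.Cc := by linarith [hc.one_le_Cc]
  obtain ⟨w', hw'⟩ : ∃ w' : E k, w' = WithLp.toLp 2 (fun i : Fin k => w i.succ) := ⟨_, rfl⟩
  obtain ⟨M, hM⟩ : ∃ M : ℝ, M = (k : ℝ) + 2 * (F.c.ℓ * F.c.Cc) := ⟨_, rfl⟩
  have hM0 : 0 ≤ M := by rw [hM]; positivity
  -- the dot product
  have hdot : ∀ ω, w ⬝ᵥ F.ndir j I.lam ω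
      = w 0 + (2 * (F.D j).κ I.lam) * ⟪w', (F.D j).fr 0 ω - (F.D j).fr I.lam ((F.D j).anc I.lam ω)⟫_ℝ := by
    intro ω
    unfold FCfg.ndir
    rw [gbs_dot, ← hw', inner_smul_right, mul_one]
  have hx : ∀ ω, |(2 * (F.D j).κ I.lam) * ⟪w', (F.D j).fr 0 ω - (F.D j).fr I.lam ((F.D j).anc I.lam ω)⟫_ℝ|
      ≤ ‖w'‖ * (2 * (F.c.ℓ * F.c.Cc)) := by
    intro ω
    have h1 := ti_anc_near hc (F.D j) hD I.lam hl ω
    have h2 := abs_real_inner_le_norm w' ((F.D j).fr 0 ω - (F.D j).fr I.lam ((F.D j).anc I.lam ω))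
    rw [abs_mul, abs_of_pos (by positivity : 0 < 2 * (F.D j).κ I.lam)]
    have h3 : ‖w'‖ * ‖(F.D j).fr 0 ω - (F.D j).fr I.lam ((F.D j).anc I.lam ω)‖ ≤ ‖w'‖ * (F.c.ℓ * F.c.Cc / (F.D j).κ I.lam) :=
      mul_le_mul_of_nonneg_left h1 (norm_nonneg _)
    calc 2 * (F.D j).κ I.lam * |⟪w', (F.D j).fr 0 ω - (F.D j).fr I.lam ((F.D j).anc I.lam ω)⟫_ℝ|
        ≤ 2 * (F.D j).κ I.lam * (‖w'‖ * (F.c.ℓ * F.c.Cc / (F.D j).κ I.lam)) :=
          mul_le_mul_of_nonneg_left (h2.trans h3) (by positivity)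
      _ = ‖w'‖ * (2 * (F.c.ℓ * F.c.Cc)) := by
          field_simp
  by_cases hex : ∃ ω₀, (F.D j).anc I.lam ω₀ = τ ∧ |w ⬝ᵥ F.ndir j I.lam ω₀| ≤ r
  · obtain ⟨ω₀, _, hω₀⟩ := hex
    -- lower bound of the norm
    have ha : 1 / 2 ≤ M * ‖w'‖ := by
      have h1 := gbs_l1 w
      rw [hw, ← hw'] at h1
      have h2 := hx ω₀
      rw [hdot] at hω₀
      have h3 : |w 0| ≤ r + ‖w'‖ * (2 * (F.c.ℓ * F.c.Cc)) := by
        have e : w 0 = (w 0 + (2 * (F.D j).κ I.lam) * ⟪w', (F.D j).fr 0 ω₀ - (F.D j).fr I.lam ((F.D j).anc I.lam ω₀)⟫_ℝ)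
            - (2 * (F.D j).κ I.lam) * ⟪w', (F.D j).fr 0 ω₀ - (F.D j).fr I.lam ((F.D j).anc I.lam ω₀)⟫_ℝ := by ring
        calc |w 0| = _ := congrArg _ e
          _ ≤ _ := abs_sub _ _
          _ ≤ _ := add_le_add hω₀ h2
      rw [hM]
      linarith
    have ha0 : 0 < ‖w'‖ := by
      rcases (norm_nonneg w').lt_or_eq with h | h
      · exact h
      · rw [← h, mul_zero] at ha
        norm_num at ha
    refine ⟨⟨i, ‖w'‖⁻¹ • w', ⟪(F.D j).fr I.lam τ, ‖w'‖⁻¹ • w'⟫_ℝ - w 0 / (2 * (F.D j).κ I.lam * ‖w'‖), hbi, hil, ?_⟩, rfl, ?_⟩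
    · rw [norm_smul, norm_inv, norm_norm, inv_mul_cancel₀ ha0.ne']
    · intro ω hω hs
      refine tia_sin_anc hc (F.D j) hD _ ω i ?_
      show |⟪(F.D j).fr 0 ω, ‖w'‖⁻¹ • w'⟫_ℝ - (⟪(F.D j).fr I.lam τ, ‖w'‖⁻¹ • w'⟫_ℝ - w 0 / (2 * (F.D j).κ I.lam * ‖w'‖))| ≤ I.Cs / (F.D j).κ i
      rw [hdot, hω] at hs
      have e : ⟪(F.D j).fr 0 ω, ‖w'‖⁻¹ • w'⟫_ℝ - (⟪(F.D j).fr I.lam τ, ‖w'‖⁻¹ • w'⟫_ℝ - w 0 / (2 * (F.D j).κ I.lam * ‖w'‖))
          = (w 0 + (2 * (F.D j).κ I.lam) * ⟪w', (F.D j).fr 0 ω - (F.D j).fr I.lam τ⟫_ℝ) / (2 * (F.D j).κ I.lam * ‖w'‖) := by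
        rw [inner_smul_right, inner_smul_right, inner_sub_right, real_inner_comm w' ((F.D j).fr 0 ω), real_inner_comm w' ((F.D j).fr I.lam τ)]
        field_simp
        ring
      rw [e, abs_div, abs_of_pos (by positivity : 0 < 2 * (F.D j).κ I.lam * ‖w'‖), div_le_div_iff₀ (by positivity) hκi]
      have h1 : 1 ≤ 2 * ‖w'‖ * I.Cs := by
        have : M * ‖w'‖ ≤ I.Cs * ‖w'‖ := mul_le_mul_of_nonneg_right (by rw [hM]; exact hCs) ha0.le
        linarith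
      calc _ ≤ r * (F.D j).κ i := mul_le_mul_of_nonneg_right hs hκi.le
        _ = (F.D j).κ i * r := mul_comm _ _
        _ ≤ (F.D j).κ I.lam := hκ
        _ = (F.D j).κ I.lam * 1 := (mul_one _).symm
        _ ≤ (F.D j).κ I.lam * (2 * ‖w'‖ * I.Cs) := mul_le_mul_of_nonneg_left h1 hκl.le
        _ = I.Cs * (2 * (F.D j).κ I.lam * ‖w'‖) := by ring
  · refine ⟨⟨i, EuclideanSpace.single ⟨0, hk⟩ 1, 0, hbi, hil, by simp⟩, rfl, ?_⟩
    intro ω hω hs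
    exact absurd ⟨ω, hω, hs⟩ hex

/-- **field `strip` before the numerics** (L-257-GBS-STRIP, 90 l.)
PLAN.  `σ` of `gbs_geo` for `τ = g.1`.   `∑_{ω in the strip} ν g ω = 3^{-(k+1)} ∑_B ∑_{ω in the strip} [adjacent ∧ ¬ O B ω] nu B ω` (`Finset.mul_sum`, `Finset.sum_comm`);  for `B` adjacent:  a term `≠ 0` has `anc lam ω = B.1.1 = g.1` (`gbn_nu_supp`), so `inStr (lev σ) σ ω`
(`TAng.inStr`, `(D.ang I).sin i σ v = D.sinS I.Cs i σ v` by `rfl`, `lev σ = i`): inner sum `≤ ∑_ω [inStr ∧ ¬ O B ω] nu B ω ≤ tt i` (`hres B σ`);  not adjacent: `0 ≤ tt i`… use `Finset.sum_filter`, `Finset.sum_le_card_nsmul`, `gbn_card`. -/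
theorem gbs_strip (F : FCfg k) (j : Fin (k + 1)) (I : TAIn (F.D j)) {p : TPar} (h : (F.D j).sys.Ok p) (hc : F.c.Ok) (hD : (F.D j).Good) (hl : I.lam ≤ F.c.ℓ)
    (hCs : (k : ℝ) + 2 * (F.c.ℓ * F.c.Cc) ≤ I.Cs) (O : (F.D j).BBt I.lam I.Sd → (F.D j).Lb 0 → Prop) (tt : ℕ → ℝ)
    (hres : ∀ (B : (F.D j).BBt I.lam I.Sd) (σ : TStr k I.bot I.lam),
      ∑ ω, (if ((F.D j).ang I).inStr σ.lev σ ω ∧ ¬ O B ω then ((F.D j).ang I).nu B ω else 0) ≤ tt σ.lev) (htt : ∀ i, 0 ≤ tt i)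
    (g : (F.D j).Lb I.lam × (Fin (k + 1) → ℤ)) (w : Fin (k + 1) → ℝ) (hw : ∑ l, |w l| = 1) (r : ℝ) (hr0 : 0 ≤ r) (hr : r ≤ 1 / 2) (i : ℕ) (hbi : I.bot ≤ i) (hil : i ≤ I.lam)
    (hκ : (F.D j).κ i * r ≤ (F.D j).κ I.lam) :
    ∑ ω with |w ⬝ᵥ F.ndir j I.lam ω| ≤ r, gbNu F j I O g ω ≤ tt i := by
  obtain ⟨σ, hσ, hσ'⟩ := gbs_geo F j I hc hD hl hCs g.1 w hw r hr0 hr i hbi hil hκ
  unfold gbNu
  rw [← Finset.mul_sum, Finset.sum_comm]
  have key : ∀ B : (F.D j).BBt I.lam I.Sd, ∑ ω ∈ Finset.univ.filter (fun ω => |w ⬝ᵥ F.ndir j I.lam ω| ≤ r),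
      (if gbAdj F j I g B ∧ ¬ O B ω then ((F.D j).ang I).nu B ω else 0) ≤ if gbAdj F j I g B then tt i else 0 := by
    intro B
    by_cases hB : gbAdj F j I g B
    · rw [if_pos hB, ← hσ]
      refine le_trans ?_ (hres B σ)
      rw [Finset.sum_filter]
      refine Finset.sum_le_sum fun ω _ => ?_
      by_cases h1 : |w ⬝ᵥ F.ndir j I.lam ω| ≤ r
      · rw [if_pos h1]
        by_cases h2 : O B ω
        · rw [if_neg (fun hh => hh.2 h2), if_neg (fun hh => hh.2 h2)]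
        · by_cases h3 : ((F.D j).ang I).nu B ω = 0
          · simp [h3]
          · have h4 := gbn_nu_supp F j I B ω h3
            have h5 : ((F.D j).ang I).inStr σ.lev σ ω := by
              show (F.D j).sinS I.Cs σ.lev σ ((F.D j).anc σ.lev ω)
              rw [hσ]
              exact hσ' ω (h4.trans hB.1) h1
            rw [if_pos ⟨hB, h2⟩, if_pos ⟨h5, h2⟩]
      · rw [if_neg h1]
        split_ifs
        · exact TAng.tgx_nu_nonneg (𝔄 := (F.D j).ang I) h B ω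
        · exact le_rfl
    · rw [if_neg hB]
      exact le_of_eq (Finset.sum_eq_zero fun ω _ => if_neg (fun hh => hB hh.1))
  have h3 : (0 : ℝ) < 3 ^ (k + 1) := by positivity
  calc _ ≤ ((3 : ℝ) ^ (k + 1))⁻¹ * ∑ B : (F.D j).BBt I.lam I.Sd, (if gbAdj F j I g B then tt i else 0) :=
        mul_le_mul_of_nonneg_left (Finset.sum_le_sum fun B _ => key B) (by positivity)
    _ = ((3 : ℝ) ^ (k + 1))⁻¹ * (((Finset.univ.filter fun B : (F.D j).BBt I.lam I.Sd => gbAdj F j I g B).card : ℕ) * tt i) := by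
        rw [← Finset.sum_filter, Finset.sum_const, nsmul_eq_mul]
    _ ≤ ((3 : ℝ) ^ (k + 1))⁻¹ * (3 ^ (k + 1) * tt i) :=
        mul_le_mul_of_nonneg_left (mul_le_mul_of_nonneg_right (gbn_card F j I g) (htt i)) (by positivity)
    _ = tt i := by
        field_simp

end

end Claimed.Agent.R257.FR3
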