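import Claimed.Agent.R257.FR2.AngTop
import Claimed.Agent.R257.FR2.Broad

/-!
# ROW 257, package FR3, GBLK, unit NUM, file 1: THE NUMERICAL HYPOTHESES OF `tgx_main`, ABSTRACT FORM      (helper37)

PROVED, no sorry.   Everything which is a "norm loss" is `≤ K`, everything "polynomial" is `≤ X`, the range is `≥ X^m`.
* `gbn_pow_le`     `K^m ≤ Λ`, `E ≤ m c`  ⟹  `K^E ≤ Λ^c`
* `gbn_const`      a constant is `≤ K^M` for all `K ≥ 2`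
* `gbn_cq`         the common form of `TAng.cQ` and `TAng.bndQ`:   `≤ K D (W g)^{q/q'}`
* `gbn_R_core`, `gbn_hR`, `gbn_hR'`    the range conditions
* `gbn_hsmall`     low path mass
* `gbn_hgain`      the omissions are cheap
-/

set_option autoImplicit false

namespace Claimed.Agent.R257.FR3

open scoped BigOperators Classical
open Claimed.Agent.R257 Claimed.Agent.R257.FR2

noncomputable section

/-- `K^m ≤ Λ`, `E ≤ m c` ⟹ `K^E ≤ Λ^c` -/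
theorem gbn_pow_le {K Λ : ℝ} {m : ℕ} (hK : 1 ≤ K) (hKΛ : K ^ m ≤ Λ) {E c : ℝ} (hc : 0 ≤ c) (hE : E ≤ m * c) : K ^ E ≤ Λ ^ c := by
  have hK0 : 0 < K := by linarith
  calc K ^ E ≤ K ^ ((m : ℝ) * c) := Real.rpow_le_rpow_of_exponent_le hK hE
    _ = (K ^ m) ^ c := by rw [Real.rpow_mul hK0.le, Real.rpow_natCast]
    _ ≤ Λ ^ c := Real.rpow_le_rpow (by positivity) hKΛ hc

/-- a constant is `≤ K^M` for all `K ≥ 2` -/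
theorem gbn_const (C : ℝ) : ∃ M : ℕ, ∀ K : ℝ, 2 ≤ K → C ≤ K ^ (M : ℝ) := by
  obtain ⟨M, hM⟩ := pow_unbounded_of_one_lt C (one_lt_two : (1 : ℝ) < 2)
  refine ⟨M, fun K hK => ?_⟩
  rw [Real.rpow_natCast]
  exact hM.le.trans (pow_le_pow_left₀ (by norm_num) hK M)

/-- the common form of `cQ` and `bndQ` -/
theorem gbn_cq {q q' N0 Lp C KD rk rl g W : ℝ} (hq : 0 < q) (hqq : q < q') (hN0 : 0 ≤ N0) (hLp : 0 ≤ Lp) (hC : 0 ≤ C) (hKD : 0 < KD) (hrk : 0 < rk) (hrl : 0 < rl)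
    (hg : N0 * (rk / rl) ^ (q' - q) ≤ g) (hW : Lp * C * 2 ^ (q' - q) ≤ W) :
    (N0 * Lp * (C * (2 * rk) ^ (q' - q) * KD)) ^ (q / q') * (KD / rl ^ q) ^ (1 - q / q') ≤ KD * (W * g) ^ (q / q') := by
  have hq' : 0 < q' := hq.trans hqq
  obtain ⟨s, hs⟩ : ∃ s, s = q / q' := ⟨_, rfl⟩
  have hs0 : 0 < s := by rw [hs]; positivity
  rw [← hs]
  obtain ⟨a, ha⟩ : ∃ a, a = N0 * Lp * C * (2 * rk) ^ (q' - q) := ⟨_, rfl⟩
  have ha0 : 0 ≤ a := by rw [ha]; positivity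
  have e1 : N0 * Lp * (C * (2 * rk) ^ (q' - q) * KD) = a * KD := by rw [ha]; ring
  have e2 : (rl ^ q) ^ (1 - s) = (rl ^ (q' - q)) ^ s := by
    rw [← Real.rpow_mul hrl.le, ← Real.rpow_mul hrl.le]
    congr 1
    rw [hs]
    field_simp
  have e3 : KD ^ s * KD ^ (1 - s) = KD := by
    rw [← Real.rpow_add hKD]
    simp
  have hrp : 0 < rl ^ (q' - q) := Real.rpow_pos_of_pos hrl _
  have e4 : (a * KD) ^ s * (KD / rl ^ q) ^ (1 - s) = KD * (a / rl ^ (q' - q)) ^ s := by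
    rw [Real.mul_rpow ha0 hKD.le, Real.div_rpow hKD.le (Real.rpow_pos_of_pos hrl _).le, e2, Real.div_rpow ha0 hrp.le]
    calc a ^ s * KD ^ s * (KD ^ (1 - s) / (rl ^ (q' - q)) ^ s) = (KD ^ s * KD ^ (1 - s)) * (a ^ s / (rl ^ (q' - q)) ^ s) := by ring
      _ = _ := by rw [e3]
  rw [e1, e4]
  refine mul_le_mul_of_nonneg_left (Real.rpow_le_rpow (by positivity) ?_ hs0.le) hKD.le
  have e5 : a / rl ^ (q' - q) = (Lp * C * 2 ^ (q' - q)) * (N0 * (rk / rl) ^ (q' - q)) := by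
    rw [ha, Real.mul_rpow (by norm_num) hrk.le, Real.div_rpow hrk.le hrl.le]
    ring
  rw [e5]
  exact mul_le_mul hW hg (by positivity) ((by positivity : (0:ℝ) ≤ Lp * C * 2 ^ (q' - q)).trans hW)

variable {𝔖 : TSys} {p : TPar}

/-- products of the Cauchy constants -/
theorem gbn_prod_le (h : 𝔖.Ok p) {X : ℝ} (hΓ : ∀ i, i < 𝔖.ℓ → p.Γ i ≤ X) (s : Finset ℕ) (hs : ∀ i ∈ s, i < 𝔖.ℓ) : ∏ m ∈ s, p.Γ m ≤ X ^ s.card := by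
  rw [← Finset.prod_const]
  exact Finset.prod_le_prod (fun i _ => zero_le_one.trans (h.one_le_Γ i)) fun i hi => hΓ i (hs i hi)

/-- the range condition, core -/
theorem gbn_R_core {A K X Rm P : ℝ} {m n : ℕ} (hA : 0 < A) (hK : 2 ≤ K) (hKX : K ≤ X) (hRm : X ^ m ≤ Rm) (hP : P ≤ X ^ n * A ^ 2) (hm : n + 4 ≤ 2 * m) :
    P ≤ (Rm * (A / (2 * K))) ^ 2 := by
  have hX : 1 ≤ X := by linarith
  have hX0 : 0 < X := by linarith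
  have h1 : (2 * K) ^ 2 ≤ X ^ 4 := by
    have : 2 * K ≤ X ^ 2 := by nlinarith
    calc (2 * K) ^ 2 ≤ (X ^ 2) ^ 2 := pow_le_pow_left₀ (by linarith) this 2
      _ = X ^ 4 := by ring
  have h2 : X ^ n * X ^ 4 ≤ Rm ^ 2 := by
    calc X ^ n * X ^ 4 = X ^ (n + 4) := by rw [pow_add]
      _ ≤ X ^ (2 * m) := pow_le_pow_right₀ hX hm
      _ = (X ^ m) ^ 2 := by rw [← pow_mul, mul_comm]
      _ ≤ Rm ^ 2 := pow_le_pow_left₀ (by positivity) hRm 2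
  have h3 : X ^ n * (2 * K) ^ 2 ≤ Rm ^ 2 := (mul_le_mul_of_nonneg_left h1 (by positivity)).trans h2
  refine hP.trans ?_
  have e : (Rm * (A / (2 * K))) ^ 2 = Rm ^ 2 * A ^ 2 / (2 * K) ^ 2 := by
    rw [mul_pow, div_pow]
    ring
  rw [e, le_div_iff₀ (by positivity)]
  calc X ^ n * A ^ 2 * (2 * K) ^ 2 = (X ^ n * (2 * K) ^ 2) * A ^ 2 := by ring
    _ ≤ Rm ^ 2 * A ^ 2 := mul_le_mul_of_nonneg_right h3 (by positivity)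

/-- `hR` of `tgx_main` -/
theorem gbn_hR (h : 𝔖.Ok p) {A K X c0 : ℝ} {m lam : ℕ} (hlam : lam ≤ 𝔖.ℓ) (hA : 0 < A) (hK : 2 ≤ K) (hKX : K ≤ X) (hΓ : ∀ i, i < 𝔖.ℓ → p.Γ i ≤ X)
    (hΓr : p.Γr 𝔖.ℓ ≤ X * A ^ 2) (hϖ0 : p.ϖ0 ≤ K) (hRm : X ^ m ≤ p.Rm) (hc0 : 0 ≤ c0) (hc0X : c0 ≤ X ^ 2) (hm : 𝔖.ℓ + 8 ≤ 2 * m) :
    (c0 * ∏ m ∈ Finset.range lam, p.Γ m) * 𝔖.GamProd p lam * p.Γr 𝔖.ℓ * p.ϖ0 ≤ (p.Rm * (A / (2 * K))) ^ 2 := by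
  have hX : 1 ≤ X := by linarith
  have hX0 : 0 < X := by linarith
  refine gbn_R_core (n := 𝔖.ℓ + 4) hA hK hKX hRm ?_ (by omega)
  have h1 : ∏ m ∈ Finset.range lam, p.Γ m ≤ X ^ lam := by
    have := gbn_prod_le h hΓ (Finset.range lam) (fun i hi => lt_of_lt_of_le (Finset.mem_range.1 hi) hlam)
    rwa [Finset.card_range] at this
  have h2 : 𝔖.GamProd p lam ≤ X ^ (𝔖.ℓ - lam) := by
    have := gbn_prod_le h hΓ (Finset.Ico lam 𝔖.ℓ) (fun i hi => (Finset.mem_Ico.1 hi).2)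
    rwa [Nat.card_Ico] at this
  have n1 : 0 ≤ ∏ m ∈ Finset.range lam, p.Γ m := zero_le_one.trans (TSys.tsl_one_le_prod h _)
  have n2 : 0 ≤ 𝔖.GamProd p lam := zero_le_one.trans (TSys.tsl_one_le_prod h _)
  have n3 : 0 ≤ p.Γr 𝔖.ℓ := zero_le_one.trans (h.one_le_Γr _)
  have n4 : 0 ≤ p.ϖ0 := zero_le_one.trans h.one_le_ϖ0
  calc (c0 * ∏ m ∈ Finset.range lam, p.Γ m) * 𝔖.GamProd p lam * p.Γr 𝔖.ℓ * p.ϖ0
      ≤ (X ^ 2 * X ^ lam) * X ^ (𝔖.ℓ - lam) * (X * A ^ 2) * X := by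
        refine mul_le_mul (mul_le_mul (mul_le_mul (mul_le_mul hc0X h1 n1 (by positivity)) h2 n2 (by positivity)) hΓr n3 (by positivity)) (hϖ0.trans hKX) n4 (by positivity)
    _ = X ^ (2 + lam + (𝔖.ℓ - lam) + 1 + 1) * A ^ 2 := by
        rw [pow_add, pow_add, pow_add, pow_add]
        ring
    _ = X ^ (𝔖.ℓ + 4) * A ^ 2 := by
        congr 2
        omega

/-- `hR'` of `tgx_main` -/
theorem gbn_hR' (h : 𝔖.Ok p) {A K X ϖl : ℝ} {m : ℕ} (hA : 0 < A) (hK : 2 ≤ K) (hKX : K ≤ X) (hΓ : ∀ i, i < 𝔖.ℓ → p.Γ i ≤ X)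
    (hΓr : p.Γr 𝔖.ℓ ≤ X * A ^ 2) (hRm : X ^ m ≤ p.Rm) (hϖ : 0 ≤ ϖl) (hϖ1 : ϖl ≤ 1) (hm : 𝔖.ℓ + 5 ≤ 2 * m) :
    (∏ m ∈ Finset.range 𝔖.ℓ, p.Γ m) * p.Γr 𝔖.ℓ * ϖl ≤ (p.Rm * (A / (2 * K))) ^ 2 := by
  have hX : 1 ≤ X := by linarith
  have hX0 : 0 < X := by linarith
  refine gbn_R_core (n := 𝔖.ℓ + 1) hA hK hKX hRm ?_ (by omega)
  have h1 : ∏ m ∈ Finset.range 𝔖.ℓ, p.Γ m ≤ X ^ 𝔖.ℓ := by
    have := gbn_prod_le h hΓ (Finset.range 𝔖.ℓ) (fun i hi => Finset.mem_range.1 hi)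
    rwa [Finset.card_range] at this
  have n1 : 0 ≤ ∏ m ∈ Finset.range 𝔖.ℓ, p.Γ m := zero_le_one.trans (TSys.tsl_one_le_prod h _)
  have n3 : 0 ≤ p.Γr 𝔖.ℓ := zero_le_one.trans (h.one_le_Γr _)
  calc (∏ m ∈ Finset.range 𝔖.ℓ, p.Γ m) * p.Γr 𝔖.ℓ * ϖl ≤ X ^ 𝔖.ℓ * (X * A ^ 2) * 1 :=
        mul_le_mul (mul_le_mul h1 hΓr n3 (by positivity)) hϖ1 hϖ (by positivity)
    _ = X ^ (𝔖.ℓ + 1) * A ^ 2 := by
        rw [pow_succ]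
        ring

/-- `(A/(2K))^{-q} D ≤ K^{2q+1} #Y` -/
theorem gbn_thr {A K q Dd cd : ℝ} (hA : 0 < A) (hK : 2 ≤ K) (hq : 0 ≤ q) (hcd : 0 ≤ cd) (hbal : Dd ≤ K * (cd * A ^ q)) :
    (A / (2 * K)) ^ (-q) * Dd ≤ K ^ (2 * q + 1) * cd := by
  have hK0 : 0 < K := by linarith
  have e1 : (A / (2 * K)) ^ (-q) = (2 * K) ^ q * (A ^ q)⁻¹ := by
    rw [Real.rpow_neg (by positivity), Real.div_rpow hA.le (by positivity), inv_div, div_eq_mul_inv]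
  have h1 : (2 * K) ^ q ≤ K ^ (2 * q) := by
    rw [Real.rpow_mul hK0.le, Real.rpow_two]
    exact Real.rpow_le_rpow (by positivity) (by nlinarith) hq
  have hAq : 0 < A ^ q := Real.rpow_pos_of_pos hA _
  calc (A / (2 * K)) ^ (-q) * Dd ≤ (A / (2 * K)) ^ (-q) * (K * (cd * A ^ q)) := mul_le_mul_of_nonneg_left hbal (Real.rpow_nonneg (by positivity) _)
    _ = (2 * K) ^ q * K * cd := by
        rw [e1]
        field_simp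
    _ ≤ K ^ (2 * q) * K * cd := by gcongr
    _ = K ^ (2 * q + 1) * cd := by rw [Real.rpow_add hK0, Real.rpow_one]

/-- `hsmall` of `tgx_main` -/
theorem gbn_hsmall {A K q L0 L Lq CPsi Dd cd : ℝ} {d e b ℓ N : ℕ} (hA : 0 < A) (hK : 2 ≤ K) (hq : 2 < q) (hcd : 0 ≤ cd) (hD : 0 ≤ Dd) (hbal : Dd ≤ K * (cd * A ^ q))
    (hL0 : 0 ≤ L0) (hL0K : L0 ≤ K) (hL : 0 ≤ L) (hLK : L ≤ K) (hLq : 0 ≤ Lq) (hLqK : Lq ≤ K) (hC : 0 ≤ CPsi) (hCK : CPsi ≤ K) (hdeb : d + e + b = ℓ)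
    (hN : (ℓ : ℝ) + 5 + 2 * q ≤ N * (q / 2 - 1)) :
    L0 * (A / (2 * K)) ^ (-q) * ((K ^ N)⁻¹) ^ (q / 2 - 1) * (L ^ d * (Lq ^ e * (CPsi * (L ^ b * Dd)))) ≤ cd / 4 := by
  have hK0 : 0 < K := by linarith
  have hK1 : 1 ≤ K := by linarith
  have h1 := gbn_thr hA hK (by linarith : 0 ≤ q) hcd hbal
  have h2 : L ^ d * Lq ^ e * L ^ b ≤ K ^ ℓ := by
    calc L ^ d * Lq ^ e * L ^ b ≤ K ^ d * K ^ e * K ^ b := by gcongr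
      _ = K ^ ℓ := by rw [← pow_add, ← pow_add, hdeb]
  have e3 : ((K ^ N)⁻¹) ^ (q / 2 - 1) = K ^ (-((N : ℝ) * (q / 2 - 1))) := by
    rw [Real.inv_rpow (by positivity), ← Real.rpow_natCast, ← Real.rpow_mul hK0.le, Real.rpow_neg hK0.le]
  have hthr0 : 0 ≤ (A / (2 * K)) ^ (-q) := Real.rpow_nonneg (by positivity) _
  have h4 : (4 : ℝ) ≤ K ^ (2 : ℝ) := by
    rw [Real.rpow_two]
    nlinarith
  calc L0 * (A / (2 * K)) ^ (-q) * ((K ^ N)⁻¹) ^ (q / 2 - 1) * (L ^ d * (Lq ^ e * (CPsi * (L ^ b * Dd))))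
      = L0 * CPsi * (L ^ d * Lq ^ e * L ^ b) * ((K ^ N)⁻¹) ^ (q / 2 - 1) * ((A / (2 * K)) ^ (-q) * Dd) := by ring
    _ ≤ K * K * K ^ ℓ * ((K ^ N)⁻¹) ^ (q / 2 - 1) * (K ^ (2 * q + 1) * cd) := by
        have n1 : 0 ≤ ((K ^ N)⁻¹) ^ (q / 2 - 1) := Real.rpow_nonneg (by positivity) _
        gcongr
    _ = K ^ ((ℓ : ℝ) + 3 + 2 * q - (N : ℝ) * (q / 2 - 1)) * cd := by
        rw [e3, ← Real.rpow_natCast K ℓ]
        have : K * K * K ^ (ℓ : ℝ) * K ^ (-((N : ℝ) * (q / 2 - 1))) * (K ^ (2 * q + 1) * cd)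
            = (K ^ (1 : ℝ) * K ^ (1 : ℝ) * K ^ (ℓ : ℝ) * K ^ (-((N : ℝ) * (q / 2 - 1))) * K ^ (2 * q + 1)) * cd := by
          rw [Real.rpow_one]
          ring
        rw [this, ← Real.rpow_add hK0, ← Real.rpow_add hK0, ← Real.rpow_add hK0, ← Real.rpow_add hK0]
        congr 2
        ring
    _ ≤ K ^ (-(2 : ℝ)) * cd := by
        refine mul_le_mul_of_nonneg_right (Real.rpow_le_rpow_of_exponent_le hK1 (by linarith)) hcd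
    _ ≤ cd / 4 := by
        rw [Real.rpow_neg hK0.le, div_eq_inv_mul]
        refine mul_le_mul_of_nonneg_right ?_ hcd
        exact inv_anti₀ (by norm_num) h4

/-- `hgain` of `tgx_main` -/
theorem gbn_hgain {A K q L0 L ϖ0 Dd cd Z β₀ : ℝ} {d ℓ : ℕ} {Ms : Finset ℕ} {cq : ℕ → ℝ} (hA : 0 < A) (hK : 2 ≤ K) (hq : 2 < q) (hcd : 0 ≤ cd) (hD : 0 ≤ Dd)
    (hbal : Dd ≤ K * (cd * A ^ q)) (hL0 : 0 ≤ L0) (hL0K : L0 ≤ K) (hL : 0 ≤ L) (hLK : L ≤ K) (hϖ : 0 ≤ ϖ0) (hϖK : ϖ0 ≤ K) (hd : d ≤ ℓ) (hMs : Ms.card ≤ ℓ)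
    (hZ0 : 0 ≤ Z) (hcq : ∀ i ∈ Ms, cq i ≤ K * Dd * Z) (hβ : β₀ ≤ K * Dd * Z)
    (hZ : 2 * ((ℓ : ℝ) ^ q + 1) * K ^ ((ℓ : ℝ) + 2 + 5 * q / 2) * Z ≤ 1) :
    2 * (L0 * L ^ d * ϖ0 ^ (q / 2 - 1) * (A / (2 * K)) ^ (-q) * ((Ms.card : ℝ) ^ (q - 1) * ∑ i ∈ Ms, cq i + β₀)) ≤ cd := by
  have hK0 : 0 < K := by linarith
  have hK1 : 1 ≤ K := by linarith
  have h1 := gbn_thr hA hK (by linarith : 0 ≤ q) hcd hbal
  have hthr0 : 0 ≤ (A / (2 * K)) ^ (-q) := Real.rpow_nonneg (by positivity) _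
  have hKDZ : 0 ≤ K * Dd * Z := by positivity
  have hc : (Ms.card : ℝ) ≤ ℓ := by exact_mod_cast hMs
  have h2 : (Ms.card : ℝ) ^ (q - 1) * ∑ i ∈ Ms, cq i + β₀ ≤ ((ℓ : ℝ) ^ q + 1) * (K * Dd * Z) := by
    have a1 : ∑ i ∈ Ms, cq i ≤ Ms.card * (K * Dd * Z) := by
      have := Finset.sum_le_card_nsmul Ms cq (K * Dd * Z) hcq
      rwa [nsmul_eq_mul] at this
    have a2 : (Ms.card : ℝ) ^ (q - 1) * ((Ms.card : ℝ) * (K * Dd * Z)) ≤ (ℓ : ℝ) ^ q * (K * Dd * Z) := by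
      rw [← mul_assoc]
      refine mul_le_mul_of_nonneg_right ?_ hKDZ
      rcases Nat.eq_zero_or_pos Ms.card with h0 | h0
      · rw [h0]
        simp only [Nat.cast_zero, mul_zero]
        positivity
      · have hc0 : (0 : ℝ) < Ms.card := by exact_mod_cast h0
        calc (Ms.card : ℝ) ^ (q - 1) * (Ms.card : ℝ) = (Ms.card : ℝ) ^ q := by
              rw [Real.rpow_sub_one hc0.ne']
              field_simp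
          _ ≤ (ℓ : ℝ) ^ q := Real.rpow_le_rpow hc0.le hc (by linarith)
    have a3 : (Ms.card : ℝ) ^ (q - 1) * ∑ i ∈ Ms, cq i ≤ (Ms.card : ℝ) ^ (q - 1) * ((Ms.card : ℝ) * (K * Dd * Z)) :=
      mul_le_mul_of_nonneg_left a1 (Real.rpow_nonneg (Nat.cast_nonneg _) _)
    nlinarith
  have h3 : L ^ d ≤ K ^ (ℓ : ℝ) := by
    rw [Real.rpow_natCast]
    calc L ^ d ≤ K ^ d := pow_le_pow_left₀ hL hLK d
      _ ≤ K ^ ℓ := pow_le_pow_right₀ hK1 hd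
  have h4 : ϖ0 ^ (q / 2 - 1) ≤ K ^ (q / 2 - 1) := Real.rpow_le_rpow hϖ hϖK (by linarith)
  have hℓq : 0 ≤ (ℓ : ℝ) ^ q + 1 := by positivity
  calc 2 * (L0 * L ^ d * ϖ0 ^ (q / 2 - 1) * (A / (2 * K)) ^ (-q) * ((Ms.card : ℝ) ^ (q - 1) * ∑ i ∈ Ms, cq i + β₀))
      ≤ 2 * (L0 * L ^ d * ϖ0 ^ (q / 2 - 1) * (A / (2 * K)) ^ (-q) * (((ℓ : ℝ) ^ q + 1) * (K * Dd * Z))) := by
        have n1 : 0 ≤ ϖ0 ^ (q / 2 - 1) := Real.rpow_nonneg hϖ _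
        gcongr
    _ = 2 * ((ℓ : ℝ) ^ q + 1) * (L0 * L ^ d * ϖ0 ^ (q / 2 - 1) * K) * Z * ((A / (2 * K)) ^ (-q) * Dd) := by ring
    _ ≤ 2 * ((ℓ : ℝ) ^ q + 1) * (K * K ^ (ℓ : ℝ) * K ^ (q / 2 - 1) * K) * Z * (K ^ (2 * q + 1) * cd) := by
        have n1 : 0 ≤ ϖ0 ^ (q / 2 - 1) := Real.rpow_nonneg hϖ _
        gcongr
    _ = (2 * ((ℓ : ℝ) ^ q + 1) * K ^ ((ℓ : ℝ) + 2 + 5 * q / 2) * Z) * cd := by
        have : K * K ^ (ℓ : ℝ) * K ^ (q / 2 - 1) * K * K ^ (2 * q + 1) = K ^ ((ℓ : ℝ) + 2 + 5 * q / 2) := by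
          have e : K * K ^ (ℓ : ℝ) * K ^ (q / 2 - 1) * K * K ^ (2 * q + 1) = K ^ (1 : ℝ) * K ^ (ℓ : ℝ) * K ^ (q / 2 - 1) * K ^ (1 : ℝ) * K ^ (2 * q + 1) := by
            rw [Real.rpow_one]
          rw [e, ← Real.rpow_add hK0, ← Real.rpow_add hK0, ← Real.rpow_add hK0, ← Real.rpow_add hK0]
          congr 1
          ring
        rw [← this]
        ring
    _ ≤ 1 * cd := mul_le_mul_of_nonneg_right hZ hcd
    _ = cd := one_mul _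

end

end Claimed.Agent.R257.FR3
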