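import Claimed.Agent.R257.FR3.InflTree
import Claimed.Agent.R257.Tree.Ok

/-!
# ROW 257, package FR3, unit INFL (`f:inflation`, H frame.tex l.1142-1255), file 4: THE COUNT OF THE BROAD ACTIVE CELLS IN AN ISOTROPIC BALL      (architect helper271)          CONTRACT

Every `sorry` is a leaf `L-257-FI-C*` (name in the docstring).   Statements are frozen; auxiliary lemmas directly above your theorem; edit only your block.   You may cite every (also sorried) lemma of `Tree/*`, `FR2/*`, `Infl*`.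
DATA: a concrete tree `D : TDat c` with a frozen selection `(S, r)`; heights `bot ≤ mu < lam ≤ ℓ` (`lam` = cap parameter `l`, `mu` = `l + v₀`, `bot` = `l + v`); a cap `τ : D.Lb lam`; a tuple of groups `Gr j : D.Lb mu` under `τ`.
* `D.fiM S mu G h`     the cells of the mask `S h` whose label lies under the group `G`  (`h = mu`: `= grp S mu G` of `FR2/Broad`).
* `D.fiCfg …`          the abstract chain (`InflAbs`) of these data, order `c.P`, frame of `τ`.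
* `D.FiTr … Q`         transversality `Transv Q` (in the frame of `τ`) of all the tuples of labels under the groups, at all the heights of the block.
* `Cb`                  THE BACKGROUND CONSTANT: hypothesis `fiB lam τ bot (lat Tj) ≤ Cb bb(Tj)²` at the witness cells (`b_T² ≳` the background).   PROVIDER: `InflOcc.lean` (`fi_bg_wit`: cells near an OCCUPIED cell, `Cb = C (1 + G_lam + Rw)^{2P}`; no hypothesis on the windows beyond `Good.win`).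
* **EXIT `fi_tree_count`**:  `#U (thr r_lam)^{p_k} ≤ C (Q^M)^s (Cb (κ_mu/κ_lam)^k (1+Rw)^Q)^{(k+1)/k} (κ_bot/κ_lam)^{k+1} r_bot^{p_k}`;  `C` depends only on the class `c` (and `K2`, `Cm`); `M` only on `k`; `s` = number of nodes of the chain.
  `U` = cells of the cap `τ` with lattice centre in a ball of radius `κ_bot/κ_lam` having, for every `j`, a witness cell `T_j` within `Rw` with `thr r_lam b(T_j) ≤` amplitude of the ORIGINAL contribution of the group `Gr j` (`= TAng.aG`).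
-/

set_option autoImplicit false

namespace Claimed.Agent.R257

open MeasureTheory Metric Set
open Claimed.Agent.R257.Tree Claimed.Agent.R257.FR2
open scoped ENNReal BigOperators BoundedContinuousFunction Classical

noncomputable section

variable {k : ℕ} {c : TCls k}

namespace Tree.TDat

variable (D : TDat c)

/-- the cells of the mask of height `h` under the group `G` -/
def fiM (S : ∀ i, Finset (D.Cl i)) (mu : ℕ) (G : D.Lb mu) (h : ℕ) : Finset (D.Cl h) := (S h).filter fun T => D.Und mu G h T.1.1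

/-- the abstract chain of a tuple of groups -/
def fiCfg (S : ∀ i, Finset (D.Cl i)) (lam mu bot : ℕ) (τ : D.Lb lam) (Gr : Fin (k + 1) → D.Lb mu) : FiCfg k where
  bot := bot
  top := mu
  κ := fun h => D.κ h / D.κ lam
  E := fun j h X => ENNReal.ofReal (D.fiE (D.κ lam) (D.fr lam τ) c.P h (D.fiM S mu (Gr j) h) (D.sys.am S h) X)

/-- transversality of the tuple of groups on all its descendants, in the frame of `τ` -/
def FiTr (lam mu bot : ℕ) (τ : D.Lb lam) (Gr : Fin (k + 1) → D.Lb mu) (Q : ℝ) : Prop :=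
  ∀ h, bot ≤ h → h ≤ mu → ∀ v : Fin (k + 1) → D.Lb h, (∀ j, D.Und mu (Gr j) h (v j)) → Transv Q (fun j => D.κ lam • (D.fr h (v j) - D.fr lam τ))

end Tree.TDat

/-- **LEAF L-257-FI-C1** (50 l.)  relative labels are bounded by `ℓ Cc`.   PLAN: `fi_und_near`, `norm_smul`, `abs_of_pos`, `mul_div_cancel…`; `(lam : ℝ) ≤ ℓ`. -/
theorem fi_lab_le (hc : c.Ok) (D : TDat c) (hD : D.Good) (lam : ℕ) (hl : lam ≤ c.ℓ) (τ : D.Lb lam) (h : ℕ) (hh : h ≤ lam) (v : D.Lb h) (hv : D.Und lam τ h v) :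
    ‖D.fr h v - D.fr lam τ‖ ≤ c.ℓ * c.Cc / D.κ lam ∧ ‖D.κ lam • (D.fr h v - D.fr lam τ)‖ ≤ c.ℓ * c.Cc := by
  have hCc : 0 ≤ c.Cc := by linarith [hc.one_le_Cc]
  have hκ : 0 < D.κ lam := D.κ_pos hD lam
  have key : ∀ d h (v : D.Lb h), h + d = lam → D.Und lam τ h v → ‖D.fr h v - D.fr lam τ‖ ≤ d * c.Cc / D.κ lam := by
    intro d
    induction d with
    | zero =>
      intro h v he hv
      have he' : h = lam := by omega
      subst he'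
      rw [fi_und_top] at hv
      rw [hv]
      simp
    | succ d ih =>
      intro h v he hv
      rw [fi_und_step D lam τ h (by omega)] at hv
      have h1 := ih (h + 1) _ (by omega) hv
      have h2 := hD.par_near h v
      have h3 : c.Cc / D.κ (h + 1) ≤ c.Cc / D.κ lam := div_le_div_of_nonneg_left hCc hκ (D.κ_le hD (by omega))
      have e : D.fr h v - D.fr lam τ = (D.fr h v - D.fr (h + 1) (D.par h v)) + (D.fr (h + 1) (D.par h v) - D.fr lam τ) := by abel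
      rw [e]
      refine (norm_add_le _ _).trans ?_
      have e2 : ((d + 1 : ℕ) : ℝ) * c.Cc / D.κ lam = c.Cc / D.κ lam + d * c.Cc / D.κ lam := by push_cast; ring
      rw [e2]
      linarith
  have h1 := key (lam - h) h v (by omega) hv
  have h2 : ((lam - h : ℕ) : ℝ) * c.Cc / D.κ lam ≤ c.ℓ * c.Cc / D.κ lam := by
    apply div_le_div_of_nonneg_right _ hκ.le
    apply mul_le_mul_of_nonneg_right _ hCc
    exact_mod_cast (by omega : lam - h ≤ c.ℓ)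
  have h3 := h1.trans h2
  refine ⟨h3, ?_⟩
  rw [norm_smul, Real.norm_eq_abs, abs_of_pos hκ]
  calc D.κ lam * ‖D.fr h v - D.fr lam τ‖ ≤ D.κ lam * (c.ℓ * c.Cc / D.κ lam) := mul_le_mul_of_nonneg_left h3 hκ.le
    _ = c.ℓ * c.Cc := by field_simp

/-- **LEAF L-257-FI-C2: `FiCfg.Ok` FOR THE TREE** (200 l.)
PLAN.  `F = D.fiCfg …`; all the projections `F.bot`, `F.top`, `F.κ`, `F.E` are `rfl` (`show`/`unfold TDat.fiCfg`; `FiCfg.G` unfolds to the product).   `κ_pos`: `div_pos` (`TDat.κ_pos`); `κ_anti`: `div_le_div_of_nonneg_right (hD.κ_anti h)`.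
`l2` (`bot ≤ h < mu`): `fi_env_l2 hL2 D hD p hO S h _ (κ lam) (fr lam τ) _ _ (V := fun v => D.Und mu (Gr j) (h+1) v) _ cc X' hX`; `K0 = κ lam ≤ κ (h+1)` (`TDat.κ_le`, `h + 1 ≤ lam`);
   `(S h).filter (fun T' => Und mu G (h+1) (par h T'.1.1)) = fiM S mu G h` (`Finset.filter_congr`, `fi_und_step`);  `hlab`: `fi_und_step`, `fi_und_trans`, `fi_lab_le`.
`peetre`: `fi_E_peetre` (`B = ℓ Cc`, `1 ≤ κ h/κ lam`: `TDat.one_le_ratio`, labels: `fi_und_trans` + `fi_lab_le`), `ENNReal.ofReal_le_ofReal`, `ENNReal.ofReal_mul`.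
`kak`: `fi_env_kak hMK D h' (κ lam) (fr lam τ) _ (fun j => fiM S mu (Gr j) h') (am S h') (κ h/κ lam) Q …`; `κ h'/κ lam ≤ κ h/κ lam` (`h < h'`); `htr h' … (fun j => (t j).1.1)`. -/
theorem fi_tree_ok (hc : c.Ok) {K2 Cm : ℝ} {Mm : ℕ} (hK2 : 0 ≤ K2) (hCm : 0 ≤ Cm) (hL2 : FiL2At c c.P (c.ℓ * c.Cc) K2) (hMK : FiMKAt k (c.ℓ * c.Cc) c.P Cm Mm)
    (D : TDat c) (hD : D.Good) (p : TPar) (hO : D.sys.Ok p) (S : ∀ i, Finset (D.Cl i)) (lam mu bot : ℕ) (hbm : bot ≤ mu) (hml : mu < lam) (hl : lam ≤ c.ℓ)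
    (τ : D.Lb lam) (Gr : Fin (k + 1) → D.Lb mu) (hGr : ∀ j, D.Und lam τ mu (Gr j)) (Q : ℝ) (hQ : 1 ≤ Q) (htr : D.FiTr lam mu bot τ Gr Q) :
    (D.fiCfg S lam mu bot τ Gr).Ok K2 ((1 + 2 * (c.ℓ * c.Cc)) ^ c.P) c.P (Cm * Q ^ Mm) (2 + 4 * (c.ℓ * c.Cc)) := by
  have hCc : 0 ≤ c.Cc := by linarith [hc.one_le_Cc]
  have hk0 : (0 : ℝ) ≤ k := Nat.cast_nonneg k
  have hP : 0 ≤ c.P := by linarith [hc.P_gt]
  have hlc : 0 ≤ (c.ℓ : ℝ) * c.Cc := by positivity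
  have hκ0 : ∀ i, 0 < D.κ i := fun i => D.κ_pos hD i
  have hund : ∀ (j : Fin (k + 1)) (h : ℕ), h ≤ mu → ∀ v : D.Lb h, D.Und mu (Gr j) h v → D.Und lam τ h v :=
    fun j h hh v hv => fi_und_trans D lam mu hml.le τ (Gr j) (hGr j) h hh v hv
  have hlab : ∀ (j : Fin (k + 1)) (h : ℕ), h ≤ mu → ∀ T ∈ D.fiM S mu (Gr j) h, ‖D.κ lam • (D.fr h T.1.1 - D.fr lam τ)‖ ≤ c.ℓ * c.Cc := by
    intro j h hh T hT
    exact (fi_lab_le hc D hD lam hl τ h (by omega) _ (hund j h hh _ (Finset.mem_filter.1 hT).2)).2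
  refine ⟨hc.k_pos, hbm, hK2, Real.rpow_nonneg (by positivity) _, hP, by positivity, by positivity, ?_, ?_, ?_, ?_, ?_⟩
  · intro h
    exact div_pos (hκ0 h) (hκ0 lam)
  · intro h
    exact div_le_div_of_nonneg_right (hD.κ_anti h) (hκ0 lam).le
  · intro h hb ht j cc X' hX
    have hb' : bot ≤ h := hb
    have ht' : h < mu := ht
    have hX' : ‖X' - cc‖ ≤ D.κ h / D.κ lam := hX
    have h1 := fi_env_l2 hL2 D hD p hO S h (by omega) (D.κ lam) (D.fr lam τ) (hκ0 lam) (D.κ_le hD (by omega))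
      (fun v => D.Und mu (Gr j) (h + 1) v)
      (by
        intro T' _ hV
        have h2 : D.Und mu (Gr j) h T'.1.1 := (fi_und_step D mu (Gr j) h ht' _).2 hV
        exact (fi_lab_le hc D hD lam hl τ h (by omega) _ (hund j h ht'.le _ h2)).1) cc X' hX'
    have e : ((S h).filter fun T' => D.Und mu (Gr j) (h + 1) (D.par h T'.1.1)) = D.fiM S mu (Gr j) h := by
      unfold TDat.fiM
      refine Finset.filter_congr fun T' _ => ?_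
      exact (fi_und_step D mu (Gr j) h ht' _).symm
    rw [e] at h1
    exact h1
  · intro h hb ht j X X'
    have ht' : h ≤ mu := ht
    have h1 := fi_E_peetre D (D.fr lam τ) hP hlc h (D.one_le_ratio hD (by omega)) (D.fiM S mu (Gr j) h) (D.sys.am S h) (hlab j h ht') X X'
    show ENNReal.ofReal (D.fiE (D.κ lam) (D.fr lam τ) c.P h (D.fiM S mu (Gr j) h) (D.sys.am S h) X)
      ≤ ENNReal.ofReal ((1 + 2 * (c.ℓ * c.Cc)) ^ c.P * (1 + ‖X - X'‖ / (D.κ h / D.κ lam)) ^ c.P)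
        * ENNReal.ofReal (D.fiE (D.κ lam) (D.fr lam τ) c.P h (D.fiM S mu (Gr j) h) (D.sys.am S h) X')
    rw [← ENNReal.ofReal_mul (by
      have : 0 < D.κ h / D.κ lam := div_pos (hκ0 h) (hκ0 lam)
      positivity)]
    exact ENNReal.ofReal_le_ofReal h1
  · intro h h' hb hhh ht hκ cc
    have hb' : bot ≤ h := hb
    have ht' : h' ≤ mu := ht
    have hκ' : D.κ h / D.κ lam ≤ (D.κ h' / D.κ lam) ^ 2 := hκ
    exact fi_env_kak hMK D h' (D.κ lam) (D.fr lam τ) (div_pos (hκ0 h') (hκ0 lam)) (fun j => D.fiM S mu (Gr j) h') (D.sys.am S h')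
      (D.κ h / D.κ lam) Q (div_le_div_of_nonneg_right (D.κ_le hD hhh.le) (hκ0 lam).le) hκ' hQ (fun j T hT => hlab j h' ht' T hT)
      (fun t ht2 => htr h' (by omega) ht' (fun j => (t j).1.1) (fun j => (Finset.mem_filter.1 (ht2 j)).2)) cc

/-- **LEAF L-257-FI-C3** (60 l.)  Peetre for the background.   PLAN: `TDat.fiB`, `fi_E_peetre` with `B = ℓ Cc` (`fi_lab_le`; membership in the filter gives `Und`), `1 ≤ κ bot/κ lam` (`TDat.one_le_ratio`). -/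
theorem fi_B_peetre (hc : c.Ok) (D : TDat c) (hD : D.Good) (bot lam : ℕ) (hbl : bot ≤ lam) (hl : lam ≤ c.ℓ) (τ : D.Lb lam) (X X' : ST k) :
    D.fiB lam τ bot X ≤ (1 + 2 * (c.ℓ * c.Cc)) ^ c.P * (1 + ‖X - X'‖ / (D.κ bot / D.κ lam)) ^ c.P * D.fiB lam τ bot X' := by
  have hk0 : (0 : ℝ) ≤ k := Nat.cast_nonneg k
  have hP : 0 ≤ c.P := by linarith [hc.P_gt]
  have hB : 0 ≤ (c.ℓ : ℝ) * c.Cc := mul_nonneg (Nat.cast_nonneg _) (zero_le_one.trans hc.one_le_Cc)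
  exact fi_E_peetre D (D.fr lam τ) hP hB bot (D.one_le_ratio hD hbl) _ _
    (fun T hT => (fi_lab_le hc D hD lam hl τ bot hbl T.1.1 (Finset.mem_filter.1 hT).2).2) X X'

/-- **LEAF L-257-FI-C4: THE WITNESS INEQUALITY WITH THE BACKGROUND** (150 l.)   (H l.1172-1183)
PLAN.  `C = Kp 3^P C_wit (k+2)^Q`, `Kp = (1 + 2ℓCc)^P`, `C_wit` of `fi_wit`.    `β = fiB lam τ bot c0`.
(1) `β ≤ Kp 3^P fiB lam τ bot (lat Tj.1.2)` (`fi_B_peetre`; `‖c0 - lat Tj‖ ≤ Rb + Rw ≤ 2 Rb`, `Rb = κ bot/κ lam > 0`);  (2) `fiB … (lat Tj.1.2) ≤ Cb bb(Tj)²` (hypothesis);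
(3) `(thr r_lam bb(Tj))² ≤ am²` (`pow_le_pow_left₀`; `0 ≤ thr r_lam bb`: `hF.r_pos`, `hO.b_nonneg lam Tj`);  (4) `fi_wit … (Pm := fiM S mu G mu)` (its cells are under `τ`: `fi_und_trans`), at the point `X`;
`1 + ‖X - lat Tj‖ ≤ (k+2)(1+Rw)` (triangle), `Real.rpow_le_rpow`, `Real.mul_rpow`;  (5) `fi_E_anti` (`c.P ≤ c.Q`). -/
theorem fi_tree_W (hc : c.Ok) : ∃ C : ℝ, 1 ≤ C ∧ ∀ D : TDat c, D.Good → ∀ (p : TPar), D.sys.Ok p → ∀ {q A₀ K G : ℝ} {S : ∀ i, Finset (D.Cl i)} {r : ℕ → ℝ} {Yf : Finset D.Y},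
    D.sys.Frozen q A₀ K G S r Yf → ∀ (lam mu bot : ℕ), bot ≤ mu → mu < lam → lam ≤ c.ℓ → ∀ (τ : D.Lb lam) (Gg : D.Lb mu), D.Und lam τ mu Gg →
    ∀ (thr Rw Cb : ℝ), 0 < thr → 0 ≤ Rw → Rw ≤ D.κ bot / D.κ lam → 1 ≤ Cb → ∀ (c0 X : ST k) (T Tj : D.Cl lam), ‖lat T.1.2 - c0‖ ≤ D.κ bot / D.κ lam → ‖X - lat T.1.2‖ ≤ (k : ℝ) + 1 →
    Tj.1.1 = τ → ‖lat Tj.1.2 - lat T.1.2‖ ≤ Rw → thr * r lam * D.bb lam Tj ≤ D.sys.am (D.sys.upd S mu (D.fiM S mu Gg mu)) lam Tj → D.fiB lam τ bot (lat Tj.1.2) ≤ Cb * D.bb lam Tj ^ 2 →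
    (thr * r lam) ^ 2 * D.fiB lam τ bot c0
      ≤ C * (Cb * ((D.κ mu / D.κ lam) ^ k * (1 + Rw) ^ c.Q)) * D.fiE (D.κ lam) (D.fr lam τ) c.P mu (D.fiM S mu Gg mu) (D.sys.am S mu) X := by
  obtain ⟨Cw, hCw, Hw⟩ := fi_wit hc
  have hCc : 0 ≤ c.Cc := by linarith [hc.one_le_Cc]
  have hk0 : (0 : ℝ) ≤ k := Nat.cast_nonneg k
  have hℓ0 : (0 : ℝ) ≤ c.ℓ := Nat.cast_nonneg _
  have hP : 0 ≤ c.P := by linarith [hc.P_gt]
  have hQ : 0 ≤ c.Q := by linarith [hc.P_lt]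
  have hlc : 0 ≤ (c.ℓ : ℝ) * c.Cc := by positivity
  set Kp : ℝ := (1 + 2 * (c.ℓ * c.Cc)) ^ c.P with hKp
  have hKp1 : 1 ≤ Kp := Real.one_le_rpow (by linarith) hP
  have h3 : (1 : ℝ) ≤ 3 ^ c.P := Real.one_le_rpow (by norm_num) hP
  have hk2 : (1 : ℝ) ≤ ((k : ℝ) + 2) ^ c.Q := Real.one_le_rpow (by linarith) hQ
  refine ⟨Kp * 3 ^ c.P * Cw * ((k : ℝ) + 2) ^ c.Q, ?_, ?_⟩
  · exact one_le_mul_of_one_le_of_one_le (one_le_mul_of_one_le_of_one_le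
      (one_le_mul_of_one_le_of_one_le hKp1 h3) hCw) hk2
  intro D hD p hO q A₀ K G S r Yf hF lam mu bot hbm hml hl τ Gg hG thr Rw Cb hthr hRw hRw' hCb c0 X T Tj hTc hXT hTj hTT hthrb hfull
  have hκ0 : ∀ i, 0 < D.κ i := fun i => D.κ_pos hD i
  set Rb : ℝ := D.κ bot / D.κ lam with hRb
  have hRb1 : 1 ≤ Rb := D.one_le_ratio hD (by omega)
  have hRb0 : 0 < Rb := by linarith
  have hrl := hF.r_pos lam
  have hbb : 0 ≤ D.bb lam Tj := hO.b_nonneg lam Tj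
  -- (1)
  have s1 : D.fiB lam τ bot c0 ≤ Kp * 3 ^ c.P * D.fiB lam τ bot (lat Tj.1.2) := by
    refine (fi_B_peetre hc D hD bot lam (by omega) hl τ c0 (lat Tj.1.2)).trans ?_
    have hB0 : 0 ≤ D.fiB lam τ bot (lat Tj.1.2) := fi_E_nonneg D _ _ _ _ _ _ _
    refine mul_le_mul_of_nonneg_right (mul_le_mul_of_nonneg_left ?_ (by positivity)) hB0
    refine Real.rpow_le_rpow (by positivity) ?_ hP
    have h1 : ‖c0 - lat Tj.1.2‖ ≤ 2 * Rb := by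
      have e : c0 - lat Tj.1.2 = -(lat T.1.2 - c0) - (lat Tj.1.2 - lat T.1.2) := by abel
      rw [e]
      refine (norm_sub_le _ _).trans ?_
      rw [norm_neg]
      linarith
    have h2 : ‖c0 - lat Tj.1.2‖ / Rb ≤ 2 := by
      rw [div_le_iff₀ hRb0]
      exact h1
    have h2' : ‖c0 - lat Tj.1.2‖ / (D.κ bot / D.κ lam) ≤ 2 := h2
    linarith
  -- (2)
  have s2 : D.fiB lam τ bot (lat Tj.1.2) ≤ Cb * D.bb lam Tj ^ 2 := hfull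
  -- (3)
  have s3 : (thr * r lam * D.bb lam Tj) ^ 2 ≤ D.sys.am (D.sys.upd S mu (D.fiM S mu Gg mu)) lam Tj ^ 2 :=
    pow_le_pow_left₀ (by positivity) hthrb 2
  -- (4)
  have hPm : ∀ T' ∈ D.fiM S mu Gg mu, D.Und lam τ mu T'.1.1 := by
    intro T' hT'
    have := (Finset.mem_filter.1 hT').2
    exact fi_und_trans D lam mu hml.le τ Gg hG mu le_rfl _ this
  have s4 := Hw D hD p hO S mu lam hml hl τ (D.fiM S mu Gg mu) hPm Tj hTj X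
  have hE0 : 0 ≤ D.fiE (D.κ lam) (D.fr lam τ) c.Q mu (D.fiM S mu Gg mu) (D.sys.am S mu) X := fi_E_nonneg D _ _ _ _ _ _ _
  have s5 : D.fiE (D.κ lam) (D.fr lam τ) c.Q mu (D.fiM S mu Gg mu) (D.sys.am S mu) X
      ≤ D.fiE (D.κ lam) (D.fr lam τ) c.P mu (D.fiM S mu Gg mu) (D.sys.am S mu) X := fi_E_anti D _ _ hc.P_lt.le _ _ _ _
  have s6 : (1 + ‖X - lat Tj.1.2‖) ^ c.Q ≤ ((k : ℝ) + 2) ^ c.Q * (1 + Rw) ^ c.Q := by
    rw [← Real.mul_rpow (by positivity) (by positivity)]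
    refine Real.rpow_le_rpow (by positivity) ?_ hQ
    have h1 : ‖X - lat Tj.1.2‖ ≤ (k : ℝ) + 1 + Rw := by
      have e : X - lat Tj.1.2 = (X - lat T.1.2) - (lat Tj.1.2 - lat T.1.2) := by abel
      rw [e]
      exact (norm_sub_le _ _).trans (by linarith)
    nlinarith
  set ra : ℝ := (D.κ mu / D.κ lam) ^ k with hra
  have hra0 : 0 ≤ ra := by
    have h1 : 0 < D.κ mu / D.κ lam := div_pos (hκ0 _) (hκ0 _)
    positivity
  set EP := D.fiE (D.κ lam) (D.fr lam τ) c.P mu (D.fiM S mu Gg mu) (D.sys.am S mu) X with hEP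
  have hEP0 : 0 ≤ EP := fi_E_nonneg D _ _ _ _ _ _ _
  have hR0 : 0 ≤ (1 + Rw) ^ c.Q := Real.rpow_nonneg (by linarith) _
  have s7 : D.sys.am (D.sys.upd S mu (D.fiM S mu Gg mu)) lam Tj ^ 2 ≤ Cw * ra * (((k : ℝ) + 2) ^ c.Q * (1 + Rw) ^ c.Q) * EP := by
    refine s4.trans ?_
    exact mul_le_mul (mul_le_mul_of_nonneg_left s6 (by positivity)) s5 hE0 (by positivity)
  calc (thr * r lam) ^ 2 * D.fiB lam τ bot c0
      ≤ (thr * r lam) ^ 2 * (Kp * 3 ^ c.P * (Cb * D.bb lam Tj ^ 2)) :=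
        mul_le_mul_of_nonneg_left (s1.trans (mul_le_mul_of_nonneg_left s2 (by positivity))) (by positivity)
    _ = Kp * 3 ^ c.P * Cb * (thr * r lam * D.bb lam Tj) ^ 2 := by ring
    _ ≤ Kp * 3 ^ c.P * Cb * (Cw * ra * (((k : ℝ) + 2) ^ c.Q * (1 + Rw) ^ c.Q) * EP) :=
        mul_le_mul_of_nonneg_left (s3.trans s7) (by positivity)
    _ = _ := by ring

/-- **LEAF L-257-FI-C5: THE TERMINAL BOUND WITH THE BACKGROUND** (80 l.)   (H l.1239-1242)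
PLAN: `fi_term` (`A = c.P`, `M = fiM S mu Gg bot`: `Finset.mem_filter`, `fi_und_trans`), `fi_B_peetre X c0`, `‖X - c0‖ ≤ (k+1) ρ'` (`fi_Q_ball`, `mem_closedBall`, `dist_eq_norm`), `ρ' ≤ n Rb`, `Real.rpow_le_rpow`. -/
theorem fi_tree_T (hc : c.Ok) (D : TDat c) (hD : D.Good) (p : TPar) (hO : D.sys.Ok p) {q A₀ K G : ℝ} {S : ∀ i, Finset (D.Cl i)} {r : ℕ → ℝ} {Yf : Finset D.Y}
    (hF : D.sys.Frozen q A₀ K G S r Yf) (lam mu bot : ℕ) (hbm : bot ≤ mu) (hml : mu < lam) (hl : lam ≤ c.ℓ) (τ : D.Lb lam) (Gg : D.Lb mu) (hG : D.Und lam τ mu Gg)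
    (c0 X : ST k) (ρ' n : ℝ) (hρ0 : 0 ≤ ρ') (hρ : ρ' ≤ n * (D.κ bot / D.κ lam)) (hX : X ∈ fiQ c0 ρ') :
    D.fiE (D.κ lam) (D.fr lam τ) c.P bot (D.fiM S mu Gg bot) (D.sys.am S bot) X
      ≤ 4 * r bot ^ 2 * ((1 + 2 * (c.ℓ * c.Cc)) ^ c.P * (1 + ((k : ℝ) + 1) * n) ^ c.P) * D.fiB lam τ bot c0 := by
  have hCc : 0 ≤ c.Cc := by linarith [hc.one_le_Cc]
  have hP : 0 ≤ c.P := by
    have h1 := hc.P_gt
    have h2 : (0 : ℝ) ≤ k := Nat.cast_nonneg k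
    linarith
  have hRb : 1 ≤ D.κ bot / D.κ lam := D.one_le_ratio hD (by omega)
  have hRb0 : 0 < D.κ bot / D.κ lam := by linarith
  have h1 := fi_term D p hO hF bot lam (by omega) τ (le_refl c.P) (D.fiM S mu Gg bot) (by
    intro T' hT'
    unfold TDat.fiM at hT'
    rw [Finset.mem_filter] at hT'
    exact ⟨hT'.1, fi_und_trans D lam mu hml.le τ Gg hG bot hbm _ hT'.2⟩) X
  have h2 := fi_B_peetre hc D hD bot lam (by omega) hl τ X c0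
  have h3 : ‖X - c0‖ ≤ ((k : ℝ) + 1) * ρ' := by
    have := (fi_Q_ball c0 ρ' hρ0).2 hX
    rwa [mem_closedBall, dist_eq_norm] at this
  have h4 : ‖X - c0‖ / (D.κ bot / D.κ lam) ≤ ((k : ℝ) + 1) * n := by
    rw [div_le_iff₀ hRb0]
    calc ‖X - c0‖ ≤ ((k : ℝ) + 1) * ρ' := h3
      _ ≤ ((k : ℝ) + 1) * (n * (D.κ bot / D.κ lam)) := mul_le_mul_of_nonneg_left hρ (by positivity)
      _ = ((k : ℝ) + 1) * n * (D.κ bot / D.κ lam) := by ring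
  have h5 : (1 + ‖X - c0‖ / (D.κ bot / D.κ lam)) ^ c.P ≤ (1 + ((k : ℝ) + 1) * n) ^ c.P :=
    Real.rpow_le_rpow (by positivity) (by linarith) hP
  have hB0 : 0 ≤ D.fiB lam τ bot c0 := by
    unfold TDat.fiB TDat.fiE
    exact Finset.sum_nonneg fun T _ => mul_nonneg (sq_nonneg _) (fi_W_pos D _ _ _ _ _ _).le
  have hK : 0 ≤ (1 + 2 * ((c.ℓ : ℝ) * c.Cc)) ^ c.P := Real.rpow_nonneg (by positivity) _
  have hr : 0 ≤ 4 * r bot ^ 2 := by positivity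
  calc D.fiE (D.κ lam) (D.fr lam τ) c.P bot (D.fiM S mu Gg bot) (D.sys.am S bot) X ≤ 4 * r bot ^ 2 * D.fiB lam τ bot X := h1
    _ ≤ 4 * r bot ^ 2 * ((1 + 2 * (c.ℓ * c.Cc)) ^ c.P * (1 + ‖X - c0‖ / (D.κ bot / D.κ lam)) ^ c.P * D.fiB lam τ bot c0) := mul_le_mul_of_nonneg_left h2 hr
    _ ≤ 4 * r bot ^ 2 * ((1 + 2 * (c.ℓ * c.Cc)) ^ c.P * (1 + ((k : ℝ) + 1) * n) ^ c.P * D.fiB lam τ bot c0) := by
        apply mul_le_mul_of_nonneg_left _ hr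
        apply mul_le_mul_of_nonneg_right _ hB0
        exact mul_le_mul_of_nonneg_left h5 hK
    _ = 4 * r bot ^ 2 * ((1 + 2 * (c.ℓ * c.Cc)) ^ c.P * (1 + ((k : ℝ) + 1) * n) ^ c.P) * D.fiB lam τ bot c0 := by ring

/-- **LEAF L-257-FI-C6** (60 l., paper-free)  products of `k + 1` equal bounds.
PLAN: `Finset.prod_le_prod'`/`Finset.prod_le_prod''` with `ENNReal.rpow_le_rpow (ENNReal.ofReal_le_ofReal _)`; `Finset.prod_const`, `Finset.card_fin`; `(ofReal a ^ (1/k)) ^ (k+1) = ofReal (a ^ ((k+1)/k))`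
(`ENNReal.ofReal_rpow_of_nonneg`, `← ENNReal.ofReal_pow`, `← Real.rpow_natCast`, `← Real.rpow_mul`; see `fi_prod_rpow` in `InflAbs`). -/
theorem fi_prod_bounds (hk : 1 ≤ k) (a : ℝ) (ha : 0 ≤ a) (e : Fin (k + 1) → ℝ) :
    ((∀ j, a ≤ e j) → ENNReal.ofReal (a ^ (((k : ℝ) + 1) / k)) ≤ ∏ j, ENNReal.ofReal (e j) ^ (1 / (k : ℝ))) ∧
    ((∀ j, e j ≤ a) → ∏ j, ENNReal.ofReal (e j) ^ (1 / (k : ℝ)) ≤ ENNReal.ofReal (a ^ (((k : ℝ) + 1) / k))) := by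
  have hk0 : (0 : ℝ) ≤ 1 / (k : ℝ) := by positivity
  have key : ∏ _j : Fin (k + 1), ENNReal.ofReal a ^ (1 / (k : ℝ)) = ENNReal.ofReal (a ^ (((k : ℝ) + 1) / k)) := by
    have h := fi_prod_rpow k a ha (fun _ => 1)
    simpa only [mul_one, ENNReal.one_rpow, Finset.prod_const_one] using h
  refine ⟨fun h => ?_, fun h => ?_⟩
  · rw [← key]
    exact Finset.prod_le_prod' fun j _ => ENNReal.rpow_le_rpow (ENNReal.ofReal_le_ofReal (h j)) hk0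
  · rw [← key]
    exact Finset.prod_le_prod' fun j _ => ENNReal.rpow_le_rpow (ENNReal.ofReal_le_ofReal (h j)) hk0

theorem fi_K4_le_K3 (k : ℕ) (K2 Kp P Cmk : ℝ) (hKp : 0 ≤ Kp) (hP : 0 ≤ P) (hCmk : 0 ≤ Cmk) {n L : ℕ} (h : n ≤ L) :
    0 ≤ fiK3 k n K2 Kp P Cmk ∧ fiK3 k n K2 Kp P Cmk ≤ fiK3 k L K2 Kp P Cmk := by
  have hn : (n : ℝ) ≤ L := by exact_mod_cast h
  have hn0 : (0 : ℝ) ≤ n := Nat.cast_nonneg n
  have h1 : (1 : ℝ) ≤ max 1 (fiK2 k K2) := le_max_left _ _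
  constructor
  · show 0 ≤ max 1 (fiK2 k K2) ^ n * (2 * (Cmk + n)) ^ (k + 1) * (Kp * (2 + ((k : ℝ) + 1) * (Cmk + n)) ^ P)
    positivity
  · show max 1 (fiK2 k K2) ^ n * (2 * (Cmk + n)) ^ (k + 1) * (Kp * (2 + ((k : ℝ) + 1) * (Cmk + n)) ^ P)
      ≤ max 1 (fiK2 k K2) ^ L * (2 * (Cmk + L)) ^ (k + 1) * (Kp * (2 + ((k : ℝ) + 1) * (Cmk + L)) ^ P)
    gcongr

/-- **LEAF L-257-FI-C7** (90 l., paper-free)  the constants of the chain: the only factor which is not a constant of the class is `(Q^M)^s`.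
PLAN: `fiK4 k n K2 Kp P (Cm Q^M) Cmk = Q^M * (Cm (k+1)^{k+1} fiK3 k n …^{(k+1)/k})` (`unfold fiK4; ring`), `mul_pow`; `fiK3 k n … ≤ fiK3 k L …` for `n ≤ L` (`pow_le_pow_right₀ (le_max_left 1 _)`, `pow_le_pow_left₀`, `Real.rpow_le_rpow`, all factors `≥ 0`);
`x^s ≤ (max 1 x)^L` for `s ≤ L`.    `C = max 1 (Cm (k+1)^{k+1} fiK3 k L …^{(k+1)/k}) ^ L`. -/
theorem fi_K4_le (k L : ℕ) (K2 Kp P Cm Cmk : ℝ) (hK2 : 0 ≤ K2) (hKp : 0 ≤ Kp) (hP : 0 ≤ P) (hCm : 0 ≤ Cm) (hCmk : 0 ≤ Cmk) : ∃ C : ℝ, 1 ≤ C ∧ ∀ (n s M : ℕ) (Q : ℝ), n ≤ L → s ≤ L → 1 ≤ Q →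
    fiK4 k n K2 Kp P (Cm * Q ^ M) Cmk ^ s ≤ C * (Q ^ M) ^ s := by
  have h1 : (1 : ℝ) ≤ max 1 (Cm * ((k : ℝ) + 1) ^ (k + 1) * fiK3 k L K2 Kp P Cmk ^ (((k : ℝ) + 1) / k)) := le_max_left _ _
  refine ⟨max 1 (Cm * ((k : ℝ) + 1) ^ (k + 1) * fiK3 k L K2 Kp P Cmk ^ (((k : ℝ) + 1) / k)) ^ L, one_le_pow₀ h1, ?_⟩
  intro n s M Q hn hs hQ
  obtain ⟨h30, h3⟩ := fi_K4_le_K3 k K2 Kp P Cmk hKp hP hCmk hn
  have he : (0 : ℝ) ≤ ((k : ℝ) + 1) / k := by positivity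
  have hB0 : 0 ≤ Cm * ((k : ℝ) + 1) ^ (k + 1) * fiK3 k n K2 Kp P Cmk ^ (((k : ℝ) + 1) / k) := by positivity
  have hB : Cm * ((k : ℝ) + 1) ^ (k + 1) * fiK3 k n K2 Kp P Cmk ^ (((k : ℝ) + 1) / k)
      ≤ max 1 (Cm * ((k : ℝ) + 1) ^ (k + 1) * fiK3 k L K2 Kp P Cmk ^ (((k : ℝ) + 1) / k)) := by
    refine le_trans ?_ (le_max_right _ _)
    gcongr
  have hQM : 0 ≤ (Q ^ M) ^ s := by positivity
  calc fiK4 k n K2 Kp P (Cm * Q ^ M) Cmk ^ s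
      = (Cm * ((k : ℝ) + 1) ^ (k + 1) * fiK3 k n K2 Kp P Cmk ^ (((k : ℝ) + 1) / k)) ^ s * (Q ^ M) ^ s := by
        rw [← mul_pow]
        congr 1
        show Cm * Q ^ M * ((k : ℝ) + 1) ^ (k + 1) * fiK3 k n K2 Kp P Cmk ^ (((k : ℝ) + 1) / k) = _
        ring
    _ ≤ max 1 (Cm * ((k : ℝ) + 1) ^ (k + 1) * fiK3 k L K2 Kp P Cmk ^ (((k : ℝ) + 1) / k)) ^ s * (Q ^ M) ^ s := by
        gcongr
    _ ≤ _ := by
        gcongr

/-- **LEAF L-257-FI-C8** (70 l.)  the unit cubes of the counted cells.   PLAN: `fiCor 1 m = lat m` (`Prod.ext`, `one_mul`); `fi_cube_basic`, `fi_cube_Q`: `cubeS 1 m ⊆ fiQ (lat m) 1`; `fi_Q_ball`: `lat m ∈ closedBall c0 R ⊆ fiQ c0 R`, `fiQ (lat m) 1 ⊆ closedBall (lat m) (k+1)`; `fi_Q_tri`. -/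
theorem fi_unit_cube (m : Lat k) (c0 : ST k) (R : ℝ) (hR : 0 ≤ R) (hm : ‖lat m - c0‖ ≤ R) :
    (cubeS 1 m : Set (ST k)) ⊆ fiQ c0 (R + 1) ∧ ∀ X ∈ (cubeS 1 m : Set (ST k)), ‖X - lat m‖ ≤ (k : ℝ) + 1 := by
  have hcor : fiCor 1 m = lat m := by
    unfold fiCor lat
    simp only [one_mul]
  have hmem : lat m ∈ (cubeS 1 m : Set (ST k)) := by
    rw [← hcor]
    exact (fi_cube_basic (k := k) 1 one_pos).2.2.2 m
  have hsub : (cubeS 1 m : Set (ST k)) ⊆ fiQ (lat m) 1 := fi_cube_Q 1 one_pos m (lat m) hmem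
  have hlat : lat m ∈ fiQ c0 R := (fi_Q_ball c0 R hR).1 (by rw [mem_closedBall, dist_eq_norm]; exact hm)
  refine ⟨fun X hX => fi_Q_tri hlat (hsub hX), fun X hX => ?_⟩
  have h1 := (fi_Q_ball (lat m) 1 zero_le_one).2 (hsub hX)
  rw [mem_closedBall, dist_eq_norm, mul_one] at h1
  exact h1

theorem fi_count_nd {s mu : ℕ} {nd : ℕ → ℕ} (h0 : nd 0 = mu) (hnd : ∀ a, a < s → nd (a + 1) < nd a) : ∀ a, a ≤ s → nd a + a ≤ mu := by
  intro a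
  induction a with
  | zero => intro _; omega
  | succ a ih =>
    intro ha
    have h1 := ih (by omega)
    have h2 := hnd a (by omega)
    omega

/-- **LEAF L-257-FI-C9: the count in `ℝ≥0∞`-free form, with the background `β`** (200 l.)
PLAN.  `F = D.fiCfg S lam mu bot τ Gr`, `hFok = fi_tree_ok …`, `Rb = κ bot/κ lam ≥ 1`, `β = fiB lam τ bot c0 ≥ 0`, `CW` of `fi_tree_W`, `KW = CW ((κ mu/κ lam)^k (1+Rw)^Q) > 0`, `CT = Kp (1 + (k+1)(ℓ+2))^P`.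
`Y = U.image fun T => T.1.2`, `Y.card = U.card` (`Finset.card_image_of_injOn`: `T.1.1 = τ` for both, `Subtype.ext`, `Prod.ext`).   `fi_abs_count hFok s nd h0 hs hnd hκ c0 (Rb + 1) _ Y ϑ t`, `ϑ = ofReal (a^e)`, `a = (thr r_lam)² β / KW`, `t = ofReal (b^e)`, `b = 4 r_bot² CT β`, `e = (k+1)/k`:
 `hY`, and `‖X - lat m‖ ≤ k+1`: `fi_unit_cube`;   `hW`: `fi_prod_bounds.1` with `fi_tree_W` for every `j` (`div_le_iff₀`);   `hT`: `fi_prod_bounds.2` with `fi_tree_T` (`n = ℓ + 2`: `Rb + 1 + s Rb ≤ (ℓ+2) Rb` since `s ≤ mu - bot ≤ ℓ`: prove `nd a + a ≤ mu` by induction).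
Back to `ℝ`: `(U.card : ℝ≥0∞) * ofReal x = ofReal (U.card * x)` (`ENNReal.ofReal_mul`, `ENNReal.ofReal_natCast`), `ENNReal.ofReal_le_ofReal_iff`.    `(2 (Rb + 1 + s Rb))^{k+1} ≤ (2(ℓ+2))^{k+1} Rb^{k+1}`. -/
theorem fi_tree_count_bg (hc : c.Ok) {K2 Cm : ℝ} {Mm : ℕ} (hK2 : 0 ≤ K2) (hCm : 0 ≤ Cm) (hL2 : FiL2At c c.P (c.ℓ * c.Cc) K2) (hMK : FiMKAt k (c.ℓ * c.Cc) c.P Cm Mm) :
    ∃ CW CT : ℝ, 1 ≤ CW ∧ 1 ≤ CT ∧ ∀ D : TDat c, D.Good → ∀ (p : TPar), D.sys.Ok p → ∀ {q A₀ K G : ℝ} {S : ∀ i, Finset (D.Cl i)} {r : ℕ → ℝ} {Yf : Finset D.Y},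
    D.sys.Frozen q A₀ K G S r Yf → ∀ (lam mu bot : ℕ), bot ≤ mu → mu < lam → lam ≤ c.ℓ → ∀ (τ : D.Lb lam) (Gr : Fin (k + 1) → D.Lb mu), (∀ j, D.Und lam τ mu (Gr j)) →
    ∀ Q : ℝ, 1 ≤ Q → D.FiTr lam mu bot τ Gr Q → ∀ (s : ℕ) (nd : ℕ → ℕ), nd 0 = mu → nd s = bot → (∀ a, a < s → nd (a + 1) < nd a) →
    (∀ a, a < s → D.κ (nd (a + 1)) / D.κ lam ≤ (D.κ (nd a) / D.κ lam) ^ 2) → ∀ (thr Rw Cb : ℝ), 0 < thr → 0 ≤ Rw → Rw ≤ D.κ bot / D.κ lam → 1 ≤ Cb → ∀ (c0 : ST k) (U : Finset (D.Cl lam)),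
    (∀ T ∈ U, T.1.1 = τ ∧ ‖lat T.1.2 - c0‖ ≤ D.κ bot / D.κ lam ∧ ∀ j, ∃ Tj : D.Cl lam, Tj.1.1 = τ ∧ ‖lat Tj.1.2 - lat T.1.2‖ ≤ Rw ∧ D.bb lam Tj ≠ 0 ∧
      thr * r lam * D.bb lam Tj ≤ D.sys.am (D.sys.upd S mu (D.fiM S mu (Gr j) mu)) lam Tj ∧ D.fiB lam τ bot (lat Tj.1.2) ≤ Cb * D.bb lam Tj ^ 2) →
    (U.card : ℝ) * ((thr * r lam) ^ 2 * D.fiB lam τ bot c0 / (CW * (Cb * ((D.κ mu / D.κ lam) ^ k * (1 + Rw) ^ c.Q)))) ^ (((k : ℝ) + 1) / k)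
      ≤ fiK4 k (mu - bot) K2 ((1 + 2 * (c.ℓ * c.Cc)) ^ c.P) c.P (Cm * Q ^ Mm) (2 + 4 * (c.ℓ * c.Cc)) ^ s * ((2 * ((c.ℓ : ℝ) + 2)) ^ (k + 1) * (D.κ bot / D.κ lam) ^ (k + 1))
        * (4 * r bot ^ 2 * CT * D.fiB lam τ bot c0) ^ (((k : ℝ) + 1) / k) := by
  obtain ⟨CW, hCW, HW⟩ := fi_tree_W hc
  have hCc : 0 ≤ c.Cc := by linarith [hc.one_le_Cc]
  have hk0' : (0 : ℝ) ≤ k := Nat.cast_nonneg k
  have hℓ0 : (0 : ℝ) ≤ c.ℓ := Nat.cast_nonneg _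
  have hP : 0 ≤ c.P := by
    have := hc.P_gt
    linarith
  have hlc : 0 ≤ (c.ℓ : ℝ) * c.Cc := by positivity
  have hKp1 : 1 ≤ (1 + 2 * (c.ℓ * c.Cc)) ^ c.P := Real.one_le_rpow (by linarith) hP
  have hn1 : 1 ≤ (1 + ((k : ℝ) + 1) * ((c.ℓ : ℝ) + 2)) ^ c.P := by
    apply Real.one_le_rpow _ hP
    have : 0 ≤ ((k : ℝ) + 1) * ((c.ℓ : ℝ) + 2) := by positivity
    linarith
  refine ⟨CW, (1 + 2 * (c.ℓ * c.Cc)) ^ c.P * (1 + ((k : ℝ) + 1) * ((c.ℓ : ℝ) + 2)) ^ c.P, hCW, one_le_mul_of_one_le_of_one_le hKp1 hn1, ?_⟩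
  intro D hD p hO q A₀ K G S r Yf hF lam mu bot hbm hml hl τ Gr hGr Q hQ htr s nd h0 hs hnd hκ thr Rw Cb hthr hRw hRw' hCb c0 U hU
  have hFok := fi_tree_ok hc hK2 hCm hL2 hMK D hD p hO S lam mu bot hbm hml hl τ Gr hGr Q hQ htr
  set CT : ℝ := (1 + 2 * (c.ℓ * c.Cc)) ^ c.P * (1 + ((k : ℝ) + 1) * ((c.ℓ : ℝ) + 2)) ^ c.P with hCT
  set Rb : ℝ := D.κ bot / D.κ lam with hRb
  have hRb1 : 1 ≤ Rb := D.one_le_ratio hD (by omega)
  set β : ℝ := D.fiB lam τ bot c0 with hβ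
  have hβ0 : 0 ≤ β := fi_E_nonneg D _ _ _ _ _ _ _
  have hκ0 : ∀ i, 0 < D.κ i := fun i => D.κ_pos hD i
  set W : ℝ := Cb * ((D.κ mu / D.κ lam) ^ k * (1 + Rw) ^ c.Q) with hW
  have hW0 : 0 < W := by
    have h1 : 0 < D.κ mu / D.κ lam := div_pos (hκ0 _) (hκ0 _)
    have h2 : 0 < (1 + Rw) ^ c.Q := Real.rpow_pos_of_pos (by linarith) _
    positivity
  have hKW : 0 < CW * W := by positivity
  have hrl := hF.r_pos lam
  have hrb := hF.r_pos bot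
  set e : ℝ := ((k : ℝ) + 1) / k with he
  set a : ℝ := (thr * r lam) ^ 2 * β / (CW * W) with ha
  have ha0 : 0 ≤ a := by positivity
  set b : ℝ := 4 * r bot ^ 2 * CT * β with hb
  have hCT0 : 0 ≤ CT := by positivity
  have hb0 : 0 ≤ b := by positivity
  have hsl : (s : ℝ) ≤ c.ℓ := by
    have := fi_count_nd h0 hnd s le_rfl
    exact_mod_cast (by omega : s ≤ c.ℓ)
  set Y : Finset (Lat k) := U.image fun T => T.1.2 with hY
  have hcard : Y.card = U.card := by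
    apply Finset.card_image_of_injOn
    intro T hT T' hT' hTT
    have h1 := (hU T hT).1
    have h2 := (hU T' hT').1
    exact Subtype.ext (Prod.ext (h1.trans h2.symm) hTT)
  have hρ' : Rb + 1 + s * Rb ≤ ((c.ℓ : ℝ) + 2) * Rb := by
    have : (s : ℝ) * Rb ≤ c.ℓ * Rb := mul_le_mul_of_nonneg_right hsl (by linarith)
    nlinarith
  have main := fi_abs_count hFok s nd h0 hs hnd hκ c0 (Rb + 1) (by linarith) Y (ENNReal.ofReal (a ^ e)) (ENNReal.ofReal (b ^ e))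
    (by
      intro m hm
      obtain ⟨T, hT, rfl⟩ := Finset.mem_image.1 hm
      exact (fi_unit_cube T.1.2 c0 Rb (by linarith) (hU T hT).2.1).1)
    (by
      intro m hm X hX
      obtain ⟨T, hT, rfl⟩ := Finset.mem_image.1 hm
      obtain ⟨hTτ, hTc, hTj⟩ := hU T hT
      have hXT := (fi_unit_cube T.1.2 c0 Rb (by linarith) hTc).2 X hX
      refine (fi_prod_bounds hc.k_pos a ha0 (fun j => D.fiE (D.κ lam) (D.fr lam τ) c.P mu (D.fiM S mu (Gr j) mu) (D.sys.am S mu) X)).1 ?_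
      intro j
      obtain ⟨Tj, h1, h2, -, h4, h5⟩ := hTj j
      have := HW D hD p hO hF lam mu bot hbm hml hl τ (Gr j) (hGr j) thr Rw Cb hthr hRw hRw' hCb c0 X T Tj hTc hXT h1 h2 h4 h5
      rw [ha, div_le_iff₀ hKW]
      calc (thr * r lam) ^ 2 * β ≤ CW * W * D.fiE (D.κ lam) (D.fr lam τ) c.P mu (D.fiM S mu (Gr j) mu) (D.sys.am S mu) X := this
        _ = _ := mul_comm _ _)
    (by
      intro X hX
      refine (fi_prod_bounds hc.k_pos b hb0 (fun j => D.fiE (D.κ lam) (D.fr lam τ) c.P bot (D.fiM S mu (Gr j) bot) (D.sys.am S bot) X)).2 ?_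
      intro j
      have := fi_tree_T hc D hD p hO hF lam mu bot hbm hml hl τ (Gr j) (hGr j) c0 X (Rb + 1 + s * Rb) ((c.ℓ : ℝ) + 2) (by positivity) hρ' hX
      rw [hb]
      exact this)
  have hK4 := fi_K4_nonneg hFok (mu - bot)
  have hK4s : 0 ≤ fiK4 k (mu - bot) K2 ((1 + 2 * (c.ℓ * c.Cc)) ^ c.P) c.P (Cm * Q ^ Mm) (2 + 4 * (c.ℓ * c.Cc)) ^ s := pow_nonneg hK4 s
  have hae : 0 ≤ a ^ e := Real.rpow_nonneg ha0 _
  have hbe : 0 ≤ b ^ e := Real.rpow_nonneg hb0 _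
  have hρ0 : 0 ≤ Rb + 1 + s * Rb := by positivity
  have main' : (U.card : ℝ) * a ^ e ≤ fiK4 k (mu - bot) K2 ((1 + 2 * (c.ℓ * c.Cc)) ^ c.P) c.P (Cm * Q ^ Mm) (2 + 4 * (c.ℓ * c.Cc)) ^ s * (2 * (Rb + 1 + s * Rb)) ^ (k + 1) * b ^ e := by
    rw [hcard, ← ENNReal.ofReal_natCast, ← ENNReal.ofReal_mul (Nat.cast_nonneg _), ← ENNReal.ofReal_mul (by positivity)] at main
    exact (ENNReal.ofReal_le_ofReal_iff (by positivity)).1 main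
  refine main'.trans ?_
  have h6 : (2 * (Rb + 1 + s * Rb)) ^ (k + 1) ≤ (2 * ((c.ℓ : ℝ) + 2)) ^ (k + 1) * Rb ^ (k + 1) := by
    rw [← mul_pow]
    apply pow_le_pow_left₀ (by positivity)
    nlinarith
  exact mul_le_mul_of_nonneg_right (mul_le_mul_of_nonneg_left h6 hK4s) hbe

theorem fi_count_alg {N x β CW W e K G V y CT : ℝ} (hx : 0 ≤ x) (hβ : 0 < β) (hCW : 0 < CW) (hW : 0 < W)
    (hy : 0 ≤ y) (hCT : 0 ≤ CT)
    (H : N * (x ^ 2 * β / (CW * W)) ^ e ≤ K * (G * V) * (4 * y ^ 2 * CT * β) ^ e) :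
    N * x ^ (2 * e) ≤ K * G * (4 * CT * CW) ^ e * W ^ e * V * y ^ (2 * e) := by
  have sq : ∀ t : ℝ, 0 ≤ t → (t ^ 2) ^ e = t ^ (2 * e) := by
    intro t ht
    rw [← Real.rpow_natCast t 2, ← Real.rpow_mul ht]
    norm_num
  have e1 : (x ^ 2 * β / (CW * W)) ^ e = x ^ (2 * e) * β ^ e / (CW ^ e * W ^ e) := by
    rw [Real.div_rpow (by positivity) (by positivity), Real.mul_rpow (by positivity) hβ.le,
      Real.mul_rpow hCW.le hW.le, sq x hx]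
  have e2 : (4 * y ^ 2 * CT * β) ^ e = 4 ^ e * y ^ (2 * e) * CT ^ e * β ^ e := by
    rw [Real.mul_rpow (by positivity) hβ.le, Real.mul_rpow (by positivity) hCT,
      Real.mul_rpow (by norm_num) (by positivity), sq y hy]
  have e3 : (4 * CT * CW) ^ e = 4 ^ e * CT ^ e * CW ^ e := by
    rw [Real.mul_rpow (by positivity) hCW.le, Real.mul_rpow (by norm_num) hCT]
  rw [e1, e2] at H
  rw [e3]
  have hb : 0 < β ^ e := Real.rpow_pos_of_pos hβ _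
  have hcw : 0 < CW ^ e := Real.rpow_pos_of_pos hCW _
  have hw : 0 < W ^ e := Real.rpow_pos_of_pos hW _
  generalize x ^ (2 * e) = a at *
  generalize β ^ e = b at *
  generalize CW ^ e = cw at *
  generalize W ^ e = w at *
  generalize (4 : ℝ) ^ e = f at *
  generalize y ^ (2 * e) = yy at *
  generalize CT ^ e = ct at *
  have h1 : N * a = (N * (a * b / (cw * w))) * (cw * w / b) := by
    field_simp
  have h2 : K * (G * V) * (f * yy * ct * b) * (cw * w / b) = K * G * (f * ct * cw) * w * V * yy := by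
    field_simp
  rw [h1, ← h2]
  exact mul_le_mul_of_nonneg_right H (by positivity)

/-- **LEAF L-257-FI-C10: EXIT OF INFL** (150 l.)  removal of the background, constants.
PLAN.  `CW, CT` of `fi_tree_count_bg`, `C4` of `fi_K4_le k ℓ K2 Kp P Cm Cmk`;  `C = C4 (2(ℓ+2))^{k+1} (4 CT CW)^e`, `e = (k+1)/k`.     `U = ∅`: the left side is `0`, the right side `≥ 0`.    Else `β = fiB lam τ bot c0 > 0` (`fi_bg_pos` with a witness cell `Tj`, `bot ≤ lam`).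
`Real.div_rpow`, `Real.mul_rpow` (all factors `≥ 0`): `((thr r)² β / KW)^e = (thr r)^{p_k} β^e / KW^e` with `((thr r)²)^e = (thr r)^{2e}` (`← Real.rpow_natCast`, `← Real.rpow_mul`), `2 e = pk' k` (`unfold pk'`, `field_simp`); the same for `(r bot ^ 2)^e`;
cancel `β^e > 0` (`Real.rpow_pos_of_pos`), multiply by `KW^e`;  `fi_K4_le` (`mu - bot ≤ ℓ`, `s ≤ ℓ`). -/
theorem fi_tree_count (hc : c.Ok) {K2 Cm : ℝ} {Mm : ℕ} (hK2 : 0 ≤ K2) (hCm : 0 ≤ Cm) (hL2 : FiL2At c c.P (c.ℓ * c.Cc) K2) (hMK : FiMKAt k (c.ℓ * c.Cc) c.P Cm Mm) :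
    ∃ C : ℝ, 1 ≤ C ∧ ∀ D : TDat c, D.Good → ∀ (p : TPar), D.sys.Ok p → ∀ {q A₀ K G : ℝ} {S : ∀ i, Finset (D.Cl i)} {r : ℕ → ℝ} {Yf : Finset D.Y},
    D.sys.Frozen q A₀ K G S r Yf → ∀ (lam mu bot : ℕ), bot ≤ mu → mu < lam → lam ≤ c.ℓ → ∀ (τ : D.Lb lam) (Gr : Fin (k + 1) → D.Lb mu), (∀ j, D.Und lam τ mu (Gr j)) →
    ∀ Q : ℝ, 1 ≤ Q → D.FiTr lam mu bot τ Gr Q → ∀ (s : ℕ) (nd : ℕ → ℕ), nd 0 = mu → nd s = bot → (∀ a, a < s → nd (a + 1) < nd a) →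
    (∀ a, a < s → D.κ (nd (a + 1)) / D.κ lam ≤ (D.κ (nd a) / D.κ lam) ^ 2) → ∀ (thr Rw Cb : ℝ), 0 < thr → 0 ≤ Rw → Rw ≤ D.κ bot / D.κ lam → 1 ≤ Cb → ∀ (c0 : ST k) (U : Finset (D.Cl lam)),
    (∀ T ∈ U, T.1.1 = τ ∧ ‖lat T.1.2 - c0‖ ≤ D.κ bot / D.κ lam ∧ ∀ j, ∃ Tj : D.Cl lam, Tj.1.1 = τ ∧ ‖lat Tj.1.2 - lat T.1.2‖ ≤ Rw ∧ D.bb lam Tj ≠ 0 ∧
      thr * r lam * D.bb lam Tj ≤ D.sys.am (D.sys.upd S mu (D.fiM S mu (Gr j) mu)) lam Tj ∧ D.fiB lam τ bot (lat Tj.1.2) ≤ Cb * D.bb lam Tj ^ 2) →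
    (U.card : ℝ) * (thr * r lam) ^ pk' k
      ≤ C * (Q ^ Mm) ^ s * (Cb * ((D.κ mu / D.κ lam) ^ k * (1 + Rw) ^ c.Q)) ^ (((k : ℝ) + 1) / k) * (D.κ bot / D.κ lam) ^ (k + 1) * r bot ^ pk' k := by
  obtain ⟨CW, CT, hCW, hCT, Hbg⟩ := fi_tree_count_bg hc hK2 hCm hL2 hMK
  have hCc : 0 ≤ c.Cc := by linarith [hc.one_le_Cc]
  have hP : 0 ≤ c.P := by
    have := hc.P_gt
    have hk : (0 : ℝ) ≤ k := Nat.cast_nonneg k
    linarith
  have hlc : 0 ≤ (c.ℓ : ℝ) * c.Cc := by positivity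
  obtain ⟨C4, hC4, H4⟩ := fi_K4_le k c.ℓ K2 ((1 + 2 * (c.ℓ * c.Cc)) ^ c.P) c.P Cm (2 + 4 * (c.ℓ * c.Cc)) hK2
    (Real.rpow_nonneg (by positivity) _) hP hCm (by positivity)
  have hk0 : (0 : ℝ) < k := by exact_mod_cast hc.k_pos
  set e : ℝ := ((k : ℝ) + 1) / k with he
  have he0 : 0 ≤ e := by positivity
  have hpk : pk' k = 2 * e := by
    unfold pk'
    rw [he]
    ring
  have hG1 : (1 : ℝ) ≤ (2 * ((c.ℓ : ℝ) + 2)) ^ (k + 1) := by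
    apply one_le_pow₀
    have : (0 : ℝ) ≤ c.ℓ := Nat.cast_nonneg _
    linarith
  have hE1 : (1 : ℝ) ≤ (4 * CT * CW) ^ e := by
    apply Real.one_le_rpow _ he0
    nlinarith
  refine ⟨C4 * (2 * ((c.ℓ : ℝ) + 2)) ^ (k + 1) * (4 * CT * CW) ^ e, ?_, ?_⟩
  · have := one_le_mul_of_one_le_of_one_le hC4 hG1
    exact one_le_mul_of_one_le_of_one_le this hE1
  intro D hD p hO q A₀ K G S r Yf hF lam mu bot hbm hml hl τ Gr hGr Q hQ htr s nd h0 hs hnd hκ thr Rw Cb hthr hRw hRw' hCb c0 U hU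
  have hκ0 : ∀ i, 0 < D.κ i := fun i => by linarith [hD.one_le_κ i]
  have hW : 0 < Cb * ((D.κ mu / D.κ lam) ^ k * (1 + Rw) ^ c.Q) := by
    have h1 : 0 < D.κ mu / D.κ lam := div_pos (hκ0 _) (hκ0 _)
    have h2 : 0 < (1 + Rw) ^ c.Q := Real.rpow_pos_of_pos (by linarith) _
    positivity
  have hV : 0 ≤ (D.κ bot / D.κ lam) ^ (k + 1) := by
    have h1 : 0 < D.κ bot / D.κ lam := div_pos (hκ0 _) (hκ0 _)
    positivity
  have hrl := hF.r_pos lam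
  have hrb := hF.r_pos bot
  have hQM : 0 ≤ (Q ^ Mm) ^ s := by positivity
  rcases U.eq_empty_or_nonempty with hUe | ⟨T, hT⟩
  · rw [hUe]
    simp only [Finset.card_empty, Nat.cast_zero, zero_mul]
    have h1 : 0 ≤ (Cb * ((D.κ mu / D.κ lam) ^ k * (1 + Rw) ^ c.Q)) ^ e := Real.rpow_nonneg hW.le _
    have h2 : 0 ≤ r bot ^ pk' k := Real.rpow_nonneg hrb.le _
    positivity
  obtain ⟨-, -, hj⟩ := hU T hT
  obtain ⟨Tj, hTj, -, hbb, -, -⟩ := hj 0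
  have hβ : 0 < D.fiB lam τ bot c0 := fi_bg_pos D bot lam (by omega) τ Tj hTj hbb c0
  have H := Hbg D hD p hO hF lam mu bot hbm hml hl τ Gr hGr Q hQ htr s nd h0 hs hnd hκ thr Rw Cb hthr hRw hRw' hCb c0 U hU
  have hsl : s ≤ c.ℓ := by
    have := fi_count_nd h0 hnd s le_rfl
    omega
  have hK := H4 (mu - bot) s Mm Q (by omega) hsl hQ
  have H' := fi_count_alg (N := (U.card : ℝ)) (x := thr * r lam) (e := e) (by positivity) hβ (by linarith) hW hrb.le (by linarith) H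
  rw [hpk]
  refine H'.trans ?_
  have hpos : 0 ≤ (2 * ((c.ℓ : ℝ) + 2)) ^ (k + 1) * (4 * CT * CW) ^ e * (Cb * ((D.κ mu / D.κ lam) ^ k * (1 + Rw) ^ c.Q)) ^ e * (D.κ bot / D.κ lam) ^ (k + 1) * r bot ^ (2 * e) := by
    have h1 : 0 ≤ (Cb * ((D.κ mu / D.κ lam) ^ k * (1 + Rw) ^ c.Q)) ^ e := Real.rpow_nonneg hW.le _
    have h2 : 0 ≤ r bot ^ (2 * e) := Real.rpow_nonneg hrb.le _
    positivity
  calc fiK4 k (mu - bot) K2 ((1 + 2 * (c.ℓ * c.Cc)) ^ c.P) c.P (Cm * Q ^ Mm) (2 + 4 * (c.ℓ * c.Cc)) ^ s * (2 * ((c.ℓ : ℝ) + 2)) ^ (k + 1) * (4 * CT * CW) ^ e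
        * (Cb * ((D.κ mu / D.κ lam) ^ k * (1 + Rw) ^ c.Q)) ^ e * (D.κ bot / D.κ lam) ^ (k + 1) * r bot ^ (2 * e)
      = fiK4 k (mu - bot) K2 ((1 + 2 * (c.ℓ * c.Cc)) ^ c.P) c.P (Cm * Q ^ Mm) (2 + 4 * (c.ℓ * c.Cc)) ^ s * ((2 * ((c.ℓ : ℝ) + 2)) ^ (k + 1) * (4 * CT * CW) ^ e
        * (Cb * ((D.κ mu / D.κ lam) ^ k * (1 + Rw) ^ c.Q)) ^ e * (D.κ bot / D.κ lam) ^ (k + 1) * r bot ^ (2 * e)) := by ring
    _ ≤ C4 * (Q ^ Mm) ^ s * ((2 * ((c.ℓ : ℝ) + 2)) ^ (k + 1) * (4 * CT * CW) ^ e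
        * (Cb * ((D.κ mu / D.κ lam) ^ k * (1 + Rw) ^ c.Q)) ^ e * (D.κ bot / D.κ lam) ^ (k + 1) * r bot ^ (2 * e)) := mul_le_mul_of_nonneg_right hK hpos
    _ = _ := by ring

end

end Claimed.Agent.R257
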