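import Claimed.Agent.R257.FR3.BlkNu
import Claimed.Agent.R257.FR3.InflMain
import Claimed.Agent.R257.Tree.AngFin
import Claimed.Agent.R257.FR2.Broad

/-!
# ROW 257, package FR3, GBLK: THE PARAMETERS OF THE BLOCK PACKAGE      (helper266)          DEFINITIONS ONLY (nothing sorried)

ALL the units of GBLK (NUM-A, NUM-B, `gba_ang`, DOM + STRIP, CNT, FiFull, final glue) type against this file.   Paper: H `frame.tex` l.1010-1255.
`F : FCfg k`, field `j`, cap height `lam`, `D = F.D j`;  `π : GbP` = the real parameters;  `v₀ : D.Lb lam` = junk label of `TAIn` (exists: `S lam ≠ ∅`).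
* `F.vv j lam i = s_i - s_lam`  (`κ_i / κ_lam = Λ^{vv i}`, antitone in `i`, `vv lam = 0`);     `F.nod j lam t` = the LEAST height `i` with `vv i ≤ t`  (under `Mesh μ0`, `0 ≤ t ≤ V u`:  `nod ≤ lam`, `t - μ0 ≤ vv (nod t) ≤ t`)
* ORDERS of both angular instances (`gbI`):  `Ew = k + 2`, `Q2 = Q + (k+2) k / 2`, `Cs = 2^{k+3} (ℓ+1) Cc`;  exponent `q' = tia_qa k`;  constants `gbAp = D.ap Cp εp q'`  (so `L' = Lq = (tp j).L ≤ K`, `CPsi = Cp ≤ K`)
* ANG instance `gbIa`:   `bot = gbBot = nod u`,  `Sd = Λ^{5u}`;   mesh `gbMs = {i | bot ≤ i < lam, θ u ≤ vv i}`,  thresholds `gbT i = Λ^{-2 η vv i}`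
* BROAD instance `gbIb`: `bot = mu = gbMu = nod (θ0 u)`,  `Sd = gbSb = (1 + 2 ℓ Cc) (κ_mu/κ_lam)²`;  `gbnG = Cm^ℓ (κ_mu/κ_lam)^k`,  `gbThr = 1/(4 nG)`,
                         `gbBr 𝒢` = "`𝒢` contains a tuple `Gr` with `FiTr lam mu 0 (lam-ancestor of Gr 0) Gr (4 κ_mu/κ_lam)`"  (transverse on ALL the descendants, in the frame of the cap)
* `gbP1` = `bcell` (the broad active cells: `P₀` of `tgx_main`, `β₀ = gbβ0 = bndQ`);    **`gbP0` = the cells of `gbP1` WITH A WITNESS** (`∃ z, inc lam z T`) = the field `P0`   (`Jn (RO S gbP0 O) = Jn (RO S gbP1 O)`: only near paths count; CNT needs the witness for the full windows)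
* `gbϖ = K^{-N}` = `ϖl` of `tgx_main`;   `gbR O = RO S gbP0 O`,  `J = Jn (gbR O)`,  `ν = gbNu F j gbIa O` (helper212);   `gbDat O Y' : BlkDat F j lam`
* `gbRw = G_lam + 2 (k+1) gbSb`:  cells of one BROAD macro box are within `2 (k+1) gbSb`;  the witness of `T` is within `gbRw` of every cell of the macro box of `T`
* EXPONENTS (chosen in the glue, in this order):  `q = qk k`, `q' = tia_qa k`;  `η = gbEta k x = x (q' - q)/(4 q')`,  `γ = 2 η`;   given `e`:  `θ = min (1/2) (e/(4γ))`,  `(θ0, n)` with `θ0 ≤ 1/8`, `5 ≤ (3/2)^n θ0`, `θ0 (E0 + Mm (n+1)) ≤ e/2`;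
  `e1 = x min θ θ0 / 4`,  `V = 6`;   given `u`:  `μ0 = min θ θ0 · u / 4`;   given the class:  `N = (ℓ + 5) k + 2 (k + 2)`,  then `m0`.
  GAIN:  for `i ∈ gbMs` and for `i = mu`:   `(1/t_i)^{q'-1} (r_i/r_lam)^{q'-q} ≤ Λ^{-cg}`,  `cg = (q' - q) x min θ θ0 · u / 4`   (`t_mu := 1`).
-/

set_option autoImplicit false

namespace Claimed.Agent.R257.FR3

open scoped BigOperators
open Classical Matrix
open Claimed.Agent.R255 Claimed.Agent.R257 Claimed.Agent.R257.FR2 Claimed.Agent.R257.Tree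

noncomputable section

variable {k : ℕ}

/-- the enlargement of the strips of both angular instances -/
def gbCs (c : TCls k) : ℝ := 2 ^ (k + 3) * ((c.ℓ : ℝ) + 1) * c.Cc

/-- the parameters of an angular instance of a block: only `bot` and the side `Sd` vary -/
def gbI {c : TCls k} (D : TDat c) (lam bot : ℕ) (v₀ : D.Lb lam) (Sd : ℝ) : TAIn D where
  lam := lam
  bot := bot
  v₀ := v₀
  Sd := Sd
  Ew := (k : ℝ) + 2
  Q2 := c.Q + ((k : ℝ) + 2) * k / 2
  Cs := gbCs c

/-- **what GBLK needs from ANG-INST on a configuration** (= the new field `ang` of `FCfg.Ok`; producer: `ft_freeze` with `tia_main`, `Cp ≥` its constant for `ε = εp`) -/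
def FCfg.AngOk (F : FCfg k) : Prop :=
  ∀ (j : Fin (k + 1)) (I : TAIn (F.D j)), I.Ew = (k : ℝ) + 2 → I.Q2 = F.c.Q + ((k : ℝ) + 2) * k / 2 → I.Cs = gbCs F.c → I.Ok →
    ((F.D j).ang I).Ok (F.tp j) ((F.D j).ap F.Cp F.εp (tia_qa k))

/-- the real parameters of the block package -/
structure GbP where
  /-- the block length -/
  u : ℝ
  /-- `t i = Λ^{-2 η v_i}` -/
  η : ℝ
  /-- the mesh heights of ANG: `θ u ≤ v_i ≤ u` -/
  θ : ℝ
  /-- the broad precision `v₀ = θ0 u` -/
  θ0 : ℝ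
  /-- `ϖl = K^{-N}` -/
  N : ℕ

/-- the strip exponent `η(x, k)` -/
def gbEta (k : ℕ) (x : ℝ) : ℝ := x * (tia_qa k - qk k) / (4 * tia_qa k)

namespace FCfg

variable (F : FCfg k) (j : Fin (k + 1)) (lam : ℕ)

/-- the parameter of the height `i` relative to the cap height: `κ_i / κ_lam = Λ^{vv i}` -/
def vv (i : ℕ) : ℝ := F.s j i - F.s j lam

/-- the least height with `vv ≤ t` -/
def nod (t : ℝ) : ℕ := sInf {i : ℕ | F.vv j lam i ≤ t}

end FCfg

section

variable (F : FCfg k) (j : Fin (k + 1)) (lam : ℕ) (π : GbP)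

/-- the lowest mesh height of ANG -/
def gbBot : ℕ := F.nod j lam π.u

/-- the height of the groups of BROAD -/
def gbMu : ℕ := F.nod j lam (π.θ0 * π.u)

/-- the mesh of ANG -/
def gbMs : Finset ℕ := (Finset.Ico (gbBot F j lam π) lam).filter fun i => π.θ * π.u ≤ F.vv j lam i

/-- the thresholds of ANG -/
def gbT (i : ℕ) : ℝ := F.Λ ^ (-(2 * π.η * F.vv j lam i))

/-- the constants of both angular instances -/
def gbAp : TAPar := (F.D j).ap F.Cp F.εp (tia_qa k)

/-- the ratio `κ_mu / κ_lam` -/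
def gbY : ℝ := (F.D j).κ (gbMu F j lam π) / (F.D j).κ lam

/-- the side of the macro boxes of BROAD -/
def gbSb : ℝ := (1 + 2 * F.c.ℓ * F.c.Cc) * gbY F j lam π ^ 2

/-- the bound of the number of groups under one cap -/
def gbnG : ℝ := F.c.Cm ^ F.c.ℓ * gbY F j lam π ^ k

/-- the marking threshold -/
def gbThr : ℝ := 1 / (4 * gbnG F j lam π)

/-- the transversality constant -/
def gbQb : ℝ := 4 * gbY F j lam π

/-- distance (native, height `lam`) from the witness of a cell to the cells of its BROAD macro box -/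
def gbRw : ℝ := (F.D j).G lam + 2 * ((k : ℝ) + 1) * gbSb F j lam π

/-- `ϖl` -/
def gbϖ : ℝ := (F.K ^ π.N)⁻¹

variable (v₀ : (F.D j).Lb lam)

/-- the ANG instance -/
def gbIa : TAIn (F.D j) := gbI (F.D j) lam (gbBot F j lam π) v₀ (F.Λ ^ (5 * π.u))

/-- the BROAD instance -/
def gbIb : TAIn (F.D j) := gbI (F.D j) lam (gbMu F j lam π) v₀ (gbSb F j lam π)

/-- "the set of groups contains a tuple which is transverse on all its descendants" -/
def gbBr (𝒢 : Finset ((F.D j).Lb (gbMu F j lam π))) : Prop :=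
  ∃ Gr : Fin (k + 1) → (F.D j).Lb (gbMu F j lam π), (∀ a, Gr a ∈ 𝒢) ∧
    (F.D j).FiTr lam (gbMu F j lam π) 0 ((F.D j).upL lam v₀ (gbMu F j lam π) (Gr 0)) Gr (gbQb F j lam π)

/-- the broad active cells (`P₀` of `tgx_main`) -/
def gbP1 : Finset ((F.D j).Cl lam) :=
  ((F.D j).ang (gbIb F j lam π v₀)).bcell (F.S j) (F.r j) (gbMu F j lam π) (gbThr F j lam π) (gbBr F j lam π v₀)

/-- **the retained cells**: the broad active cells with a witness -/
def gbP0 : Finset ((F.D j).Cl lam) := (gbP1 F j lam π v₀).filter fun T => ∃ z : (F.D j).Y, (F.D j).near lam ((F.D j).pt z) T.1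

/-- `β₀` of `tgx_main` -/
def gbβ0 : ℝ := ((F.D j).ang (gbIb F j lam π v₀)).bndQ (F.tp j) (gbAp F j) F.K (F.r j) (gbMu F j lam π)

variable (O : (F.D j).BBt lam (F.Λ ^ (5 * π.u)) → (F.D j).Lb 0 → Prop)

/-- the restriction of the frozen tree -/
def gbR : (F.D j).geo.Restr := ((F.D j).ang (gbIa F j lam π v₀)).RO (F.S j) (gbP0 F j lam π v₀) O

/-- **the data of the block package** -/
def gbDat (Y' : Finset (F.D j).Y) : BlkDat F j lam where
  P0 := gbP0 F j lam π v₀
  R := gbR F j lam π v₀ O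
  J := (F.D j).geo.Jn (gbR F j lam π v₀ O)
  Y' := Y'
  ν := gbNu F j (gbIa F j lam π v₀) O

end

end

end Claimed.Agent.R257.FR3
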