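import Claimed.Agent.R255.Ent.Basic

/-!
# ROW 257, package FR3, file `EntKit`: GENERIC ENTROPY LEMMAS ON FINITE LAWS      (architect helper121)

PAPER-FREE.  Language and API: `R255/Base/Law.lean`, `R255/Ent/Basic.lean` (read only, all proved).  Prefix `ek_`.  Used by the units BIN, MID of FR3 (plan: report 919).
-/

set_option autoImplicit false

namespace Claimed.Agent.R257

open scoped BigOperators
open Classical
open Claimed.Agent.R255 Claimed.Agent.R255.FLaw

variable {Ω : Type} [Fintype Ω] {α β γ δ : Type}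

/-- LEAF `L-F3-K1`  **a label which is a function of `(X, Y)`**: `H(B | Y) = H(X | Y) - H(X | B, Y)`.
PLAN. unfold `entC`; `P.ent (pair X (pair B Y)) = P.ent (pair X Y)` by `ent_congr_ker`. -/
theorem ek_label (P : FLaw Ω) (X : Ω → α) (B : Ω → β) (Y : Ω → γ)
    (h : ∀ ω ω', P.p ω ≠ 0 → P.p ω' ≠ 0 → X ω = X ω' → Y ω = Y ω' → B ω = B ω') :
    P.entC B Y = P.entC X Y - P.entC X (pair B Y) := by
  have e : P.ent (pair X (pair B Y)) = P.ent (pair X Y) := by
    refine ent_congr_ker P _ _ fun ω ω' h1 h2 => ?_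
    simp only [pair, Prod.mk.injEq]
    constructor
    · rintro ⟨a, -, c⟩
      exact ⟨a, c⟩
    · rintro ⟨a, c⟩
      exact ⟨a, h ω ω' h1 h2 a c, c⟩
  unfold entC
  rw [e]
  ring

/-- LEAF `L-F3-K1` (b)  adding a label with `≤ N` values over `Y` costs at most `log N`.   PLAN. `ek_label` + `ent_entC_le_log_nval`. -/
theorem ek_label_nval (P : FLaw Ω) (X : Ω → α) (B : Ω → β) (Y : Ω → γ) {N : ℝ}
    (h : ∀ ω ω', P.p ω ≠ 0 → P.p ω' ≠ 0 → X ω = X ω' → Y ω = Y ω' → B ω = B ω')
    (hN : P.NVal (fun _ => True) B Y N) : P.entC X Y - Real.log N ≤ P.entC X (pair B Y) := by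
  have h1 := ek_label P X B Y h
  have h2 := ent_entC_le_log_nval P B Y hN
  linarith

/-- LEAF `L-F3-K1` (c)  comparison of two conditionings `Y`, `Y'`, both functions of `(X, W)`, when `Y'` has `≤ N` values over `(Y, W)`:  `H(X | Y, W) ≤ H(X | Y', W) + log N`.
PLAN. `H(X|Y,W) ≤ H(X|Y',Y,W) + log N` (`ek_label_nval` with `B = Y'`, conditioning `pair Y W`) and `H(X|Y',Y,W) ≤ H(X|Y',W)` (`ent_entC_anti`). -/
theorem ek_compare (P : FLaw Ω) (X : Ω → α) (Y : Ω → β) (Y' : Ω → γ) (W : Ω → δ) {N : ℝ}
    (h : ∀ ω ω', P.p ω ≠ 0 → P.p ω' ≠ 0 → X ω = X ω' → W ω = W ω' → Y' ω = Y' ω')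
    (hN : P.NVal (fun _ => True) Y' (pair Y W) N) : P.entC X (pair Y W) ≤ P.entC X (pair Y' W) + Real.log N := by
  have h1 := ek_label_nval P X Y' (pair Y W) (fun ω ω' a b c d => h ω ω' a b c (by
    simp only [pair, Prod.mk.injEq] at d
    exact d.2)) hN
  have h2 : P.entC X (pair Y' (pair Y W)) ≤ P.entC X (pair Y' W) := by
    refine ent_entC_anti P X _ _ fun ω ω' _ _ d => ?_
    simp only [pair, Prod.mk.injEq] at d ⊢
    exact ⟨d.1, d.2.2⟩
  linarith

/-- LEAF `L-F3-K2`  **subadditivity for tuples.**   PLAN. induction on `m` (`Fin.consEquiv`/`Fin.cons`, or `Fin.snoc`): the tuple of length `m+1` has the same kernel as `pair (X 0) (tail)` (`ent_entC_congr`), `ent_entC_pair_le_add`. -/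
theorem ek_pi_le (P : FLaw Ω) (m : ℕ) (X : Fin m → Ω → α) (C : Ω → γ) :
    P.entC (fun ω => fun j => X j ω) C ≤ ∑ j, P.entC (X j) C := by
  induction m with
  | zero =>
    rw [ent_entC_eq_zero P _ C fun ω ω' _ _ _ => funext fun i => i.elim0]
    simp
  | succ m ih =>
    have h1 : P.entC (fun ω => fun j => X j ω) C ≤ P.entC (pair (X 0) (fun ω => fun j : Fin m => X j.succ ω)) C := by
      refine ent_entC_mono P _ _ C fun ω ω' _ _ hp _ => ?_
      simp only [pair, Prod.mk.injEq] at hp
      funext i
      refine Fin.cases hp.1 (fun i => congrFun hp.2 i) i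
    have h2 := ent_entC_pair_le_add P (X 0) (fun ω => fun j : Fin m => X j.succ ω) C
    have h3 := ih (fun i => X i.succ)
    rw [Fin.sum_univ_succ]
    linarith

/-- LEAF `L-F3-K3`  **Han's inequality** (Shearer for the sets "all but one"), unconditional form; `a0` = the value written at the forgotten place.
PLAN.  Chain rule along `i = 0, …, m`: with `X_{<i}` = the tuple truncated at `i` (`fun j => if j.val < i then X j ω else a0`), `H(X) = ∑_i H(X_i | X_{<i})` (induction, `ent_entC_chain`/`ent_pair_eq`), and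
`H(X_{-j}) = ∑_{i ≠ j} H(X_i | X_{<i, ≠ j}) ≥ ∑_{i ≠ j} H(X_i | X_{<i})` (`ent_entC_anti`).  Sum over `j`: each `i` is counted `m` times.
ALTERNATIVE (shorter): induction on `m` from `ent_submod`. -/
theorem ek_han (P : FLaw Ω) (m : ℕ) (X : Fin (m + 1) → Ω → α) (a0 : α) :
    (m : ℝ) * P.ent (fun ω => fun j => X j ω) ≤ ∑ j, P.ent (fun ω => Function.update (fun i => X i ω) j a0) := by
  obtain ⟨Tr, hTr⟩ : ∃ Tr : ℕ → Ω → (Fin (m + 1) → α), Tr = fun i ω k => if k.val < i then X k ω else a0 := ⟨_, rfl⟩
  have hTrv : ∀ i ω k, Tr i ω k = if k.val < i then X k ω else a0 := by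
    intro i ω k
    rw [hTr]
  -- the chain rule
  have step : ∀ j : Fin (m + 1), P.entC (X j) (Tr j.val) = P.ent (Tr (j.val + 1)) - P.ent (Tr j.val) := by
    intro j
    have e : P.ent (Tr (j.val + 1)) = P.ent (pair (X j) (Tr j.val)) := by
      refine ent_congr_ker P _ _ fun ω ω' _ _ => ?_
      simp only [pair, Prod.mk.injEq]
      constructor
      · intro hh
        constructor
        · have h1 := congrFun hh j
          rw [hTrv, hTrv, if_pos (Nat.lt_succ_self _), if_pos (Nat.lt_succ_self _)] at h1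
          exact h1
        · funext k
          rw [hTrv, hTrv]
          by_cases hk : k.val < j.val
          · have h1 := congrFun hh k
            rw [hTrv, hTrv, if_pos (Nat.lt_succ_of_lt hk), if_pos (Nat.lt_succ_of_lt hk)] at h1
            rw [if_pos hk, if_pos hk]
            exact h1
          · rw [if_neg hk, if_neg hk]
      · rintro ⟨h1, h2⟩
        funext k
        rw [hTrv, hTrv]
        by_cases hk : k.val < j.val
        · have h3 := congrFun h2 k
          rw [hTrv, hTrv, if_pos hk, if_pos hk] at h3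
          rw [if_pos (Nat.lt_succ_of_lt hk), if_pos (Nat.lt_succ_of_lt hk)]
          exact h3
        · by_cases hk2 : k = j
          · subst hk2
            rw [if_pos (Nat.lt_succ_self _), if_pos (Nat.lt_succ_self _)]
            exact h1
          · have hk3 : ¬ k.val < j.val + 1 := by
              intro h4
              apply hk2
              apply Fin.ext
              omega
            rw [if_neg hk3, if_neg hk3]
    rw [e, ent_pair_eq]
    ring
  have hfull : P.ent (Tr (m + 1)) = P.ent (fun ω => fun j => X j ω) := by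
    congr 1
    funext ω k
    rw [hTrv, if_pos k.isLt]
  have hzero : P.ent (Tr 0) = 0 := by
    have e : Tr 0 = fun _ => fun _ => a0 := by
      funext ω k
      rw [hTrv, if_neg (Nat.not_lt_zero _)]
    rw [e]
    exact ent_const P _
  have hchain : ∑ j : Fin (m + 1), P.entC (X j) (Tr j.val) = P.ent (fun ω => fun j => X j ω) := by
    rw [Finset.sum_congr rfl fun j _ => step j, Fin.sum_univ_eq_sum_range (fun i => P.ent (Tr (i + 1)) - P.ent (Tr i)) (m + 1),
      Finset.sum_range_sub (fun i => P.ent (Tr i)), hfull, hzero, sub_zero]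
  -- one coordinate is forgotten
  have del : ∀ j : Fin (m + 1), P.ent (fun ω => fun j => X j ω)
      ≤ P.ent (fun ω => Function.update (fun i => X i ω) j a0) + P.entC (X j) (Tr j.val) := by
    intro j
    have e : P.ent (fun ω => fun j => X j ω) = P.ent (pair (X j) (fun ω => Function.update (fun i => X i ω) j a0)) := by
      refine ent_congr_ker P _ _ fun ω ω' _ _ => ?_
      simp only [pair, Prod.mk.injEq]
      constructor
      · intro hh
        exact ⟨congrFun hh j, by rw [hh]⟩
      · rintro ⟨h1, h2⟩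
        funext k
        by_cases hk : k = j
        · subst hk
          exact h1
        · have h3 := congrFun h2 k
          rw [Function.update_of_ne hk, Function.update_of_ne hk] at h3
          exact h3
    have a1 : P.entC (X j) (fun ω => Function.update (fun i => X i ω) j a0) ≤ P.entC (X j) (Tr j.val) := by
      refine ent_entC_anti P (X j) _ _ fun ω ω' _ _ hh => ?_
      funext k
      rw [hTrv, hTrv]
      by_cases hk : k.val < j.val
      · have hkj : k ≠ j := by
          intro h4
          rw [h4] at hk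
          exact lt_irrefl _ hk
        have h3 := congrFun hh k
        rw [Function.update_of_ne hkj, Function.update_of_ne hkj] at h3
        rw [if_pos hk, if_pos hk]
        exact h3
      · rw [if_neg hk, if_neg hk]
    rw [e, ent_pair_eq]
    linarith
  have hsum : ∑ _j : Fin (m + 1), P.ent (fun ω => fun j => X j ω)
      ≤ ∑ j : Fin (m + 1), (P.ent (fun ω => Function.update (fun i => X i ω) j a0) + P.entC (X j) (Tr j.val)) :=
    Finset.sum_le_sum fun j _ => del j
  rw [Finset.sum_add_distrib, hchain, Finset.sum_const, Finset.card_univ, Fintype.card_fin, nsmul_eq_mul] at hsum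
  push_cast at hsum
  linarith

/-- LEAF `L-F3-K4`  **positive part of the excess surprise**: `E (surC B A - log N)_+ ≤ 1` if `B` has `≤ N` values over `A`.
PLAN.  `(log y)_+ ≤ y` for `y > 0`, with `y = 1/(N p)`, `p = P(B | A)` at the sample: `E[(s - log N)_+] ≤ E[1/(N P(B|A))] ≤ 1`: `fp_ev_div_fib`-type computation: `E[1/P(B|A)] = ∑_{a} P(a) #{b : P(a,b) > 0} ≤ N`
(`ent_ev_tower` on `A`, or sum over the image of `pair B A`; `NVal`). -/
theorem ek_excess (P : FLaw Ω) (B : Ω → β) (A : Ω → α) {N : ℝ} (hN : 0 < N) (h : P.NVal (fun _ => True) B A N) :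
    P.ev (fun ω => max (P.surC B A ω - Real.log N) 0) ≤ 1 := by
  have h1 := ent_aux_nval_ev P B A h
  calc P.ev (fun ω => max (P.surC B A ω - Real.log N) 0)
      ≤ P.ev (fun ω => (1 / N) * (P.fib A ω / P.fib (pair B A) ω)) := by
        refine ent_ev_mono P fun ω hω => ?_
        have a1 := ent_fib_pos P A hω
        have a2 := ent_fib_pos P (pair B A) hω
        have hy : 0 < (1 / N) * (P.fib A ω / P.fib (pair B A) ω) := by positivity
        have e : P.surC B A ω - Real.log N = Real.log ((1 / N) * (P.fib A ω / P.fib (pair B A) ω)) := by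
          rw [ent_surC_eq_sub P B A hω, Real.log_mul (by positivity) (by positivity), Real.log_div a1.ne' a2.ne', one_div,
            Real.log_inv]
          ring
        rw [e]
        exact max_le ((Real.log_le_sub_one_of_pos hy).trans (by linarith)) hy.le
    _ = (1 / N) * P.ev (fun ω => P.fib A ω / P.fib (pair B A) ω) := ent_ev_mul_left P _ _
    _ ≤ (1 / N) * N := mul_le_mul_of_nonneg_left h1 (by positivity)
    _ = 1 := by field_simp

/-- LEAF `L-F3-K5`  **saturation ⟹ typical lower bound of the surprise.**   `B` has `≤ N` values over `A` and `H(B | A) ≥ log N - η`.  Then `P(surC B A < log N - a) ≤ (η + 1)/a`.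
PLAN.  `U = log N - s`; `E U ≤ η` (`ent_entC_eq_ev`), `E U_- ≤ 1` (`ek_excess`), so `E U_+ ≤ η + 1` (`max (x) 0 = x + max (-x) 0`); `ent_markov`. -/
theorem ek_saturated (P : FLaw Ω) (B : Ω → β) (A : Ω → α) {N η a : ℝ} (hN : 0 < N) (h : P.NVal (fun _ => True) B A N)
    (hη : Real.log N - η ≤ P.entC B A) (ha : 0 < a) :
    P.pr (fun ω => P.surC B A ω < Real.log N - a) ≤ (η + 1) / a := by
  have h1 := ek_excess P B A hN h
  have h2 : P.ev (fun ω => max (Real.log N - P.surC B A ω) 0) ≤ η + 1 := by
    have e : P.ev (fun ω => max (Real.log N - P.surC B A ω) 0)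
        = P.ev (fun ω => (Real.log N - P.surC B A ω) + max (P.surC B A ω - Real.log N) 0) := by
      refine ent_ev_congr P fun ω _ => ?_
      rcases le_total (P.surC B A ω) (Real.log N) with h | h
      · rw [max_eq_left (by linarith), max_eq_right (by linarith)]
        ring
      · rw [max_eq_right (by linarith), max_eq_left (by linarith)]
        ring
    rw [e, ent_ev_add, ent_ev_sub, ent_ev_const, ← ent_entC_eq_ev]
    linarith
  calc P.pr (fun ω => P.surC B A ω < Real.log N - a) ≤ P.pr (fun ω => a ≤ max (Real.log N - P.surC B A ω) 0) :=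
        ent_pr_mono P fun ω _ hω => le_max_of_le_left (by linarith)
    _ ≤ P.ev (fun ω => max (Real.log N - P.surC B A ω) 0) / a := ent_markov P (fun ω _ => le_max_right _ _) ha
    _ ≤ (η + 1) / a := div_le_div_of_nonneg_right h2 ha.le

/-- LEAF `L-F3-K6`  **upper tail from the mean and the lower tail.**  `f ≥ 0`, `E f ≤ c + e`, `P(f < c - a) ≤ p`, `0 ≤ c`:  `P(f ≥ c + b) ≤ (e + a + c p)/(a + b)`.
PLAN.  `g = max (f - c + a) 0 ≤ (f - c + a) + c 1[f < c - a]`  (on `f < c - a`: `0 ≤ f - c + a + c` because `f ≥ 0`, `a ≥ 0`); `E g ≤ e + a + c p`; `ent_markov` at the level `a + b`. -/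
theorem ek_upper_tail (P : FLaw Ω) (f : Ω → ℝ) {c e a b p : ℝ} (hf : ∀ ω, P.p ω ≠ 0 → 0 ≤ f ω) (hc : 0 ≤ c) (ha : 0 ≤ a) (hb : 0 < b)
    (hE : P.ev f ≤ c + e) (hp : P.pr (fun ω => f ω < c - a) ≤ p) :
    P.pr (fun ω => c + b ≤ f ω) ≤ (e + a + c * p) / (a + b) := by
  have hab : 0 < a + b := by linarith
  have h1 : P.ev (fun ω => max (f ω - c + a) 0) ≤ e + a + c * p := by
    calc P.ev (fun ω => max (f ω - c + a) 0)
        ≤ P.ev (fun ω => (f ω + (a - c)) + c * (if f ω < c - a then 1 else 0)) := by
          refine ent_ev_mono P fun ω hω => ?_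
          have h0 := hf ω hω
          split_ifs with h2
          · exact max_le (by linarith) (by linarith)
          · have h3 := not_lt.1 h2
            exact max_le (by linarith) (by linarith)
      _ = P.ev f + (a - c) + c * P.pr (fun ω => f ω < c - a) := by
          rw [ent_ev_add, ent_ev_add, ent_ev_const, ent_ev_mul_left, ← ent_pr_eq_ev]
      _ ≤ e + a + c * p := by
          have := mul_le_mul_of_nonneg_left hp hc
          linarith
  calc P.pr (fun ω => c + b ≤ f ω) ≤ P.pr (fun ω => a + b ≤ max (f ω - c + a) 0) :=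
        ent_pr_mono P fun ω _ hω => le_max_of_le_left (by linarith)
    _ ≤ P.ev (fun ω => max (f ω - c + a) 0) / (a + b) := ent_markov P (fun ω _ => le_max_right _ _) hab
    _ ≤ (e + a + c * p) / (a + b) := div_le_div_of_nonneg_right h1 hab.le

/-- LEAF `L-F3-K7`  **entropy on the cells with a bad event that is measurable with respect to the conditioning.**   If on the good cells `H_cell(X) ≤ g(cell)` and on the bad cells `X` has `≤ N` values, then
`H(X | C) ≤ E[g 1_good] + P(Bad) log N`.   Stated with a function `g : Ω → ℝ`, `g ≥ 0`.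
PLAN.  `ent_entC_eq_avg`; pointwise: good `ω`: hypothesis; bad `ω`: `(P.cfib C ω).ent X ≤ log N` (`ent_le_log_card` on the cell: support of `cfib` = `ent_cnd_supp`); `P.ev` of `g + 1_Bad log N` (`ent_ev_add`, `ent_pr_eq_ev`). -/
theorem ek_bad_cells (P : FLaw Ω) (X : Ω → α) (C : Ω → γ) (Bad : Ω → Prop) (g : Ω → ℝ) {N : ℝ} (hN : 1 ≤ N)
    (hg : ∀ ω, 0 ≤ g ω) (h1 : ∀ ω, P.p ω ≠ 0 → ¬ Bad ω → (P.cfib C ω).ent X ≤ g ω) (h2 : P.NVal (fun _ => True) X C N) :
    P.entC X C ≤ P.ev g + P.pr Bad * Real.log N := by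
  have hlogN : 0 ≤ Real.log N := Real.log_nonneg hN
  rw [ent_entC_eq_avg]
  calc P.ev (fun ω => (P.cfib C ω).ent X) ≤ P.ev (fun ω => g ω + Real.log N * (if Bad ω then 1 else 0)) := by
        refine ent_ev_mono P fun ω hω => ?_
        split_ifs with hB
        · obtain ⟨S, hS, hS2⟩ := h2 ω
          have hpos : 0 < P.pr (fun ω' => C ω' = C ω) := ent_fib_pos P C hω
          have a1 : (P.cfib C ω).ent X ≤ Real.log S.card := by
            refine ent_le_log_card _ X S fun ω' hω' => ?_
            have h3 := (ent_cnd_supp P (fun ω' => C ω' = C ω) hpos).1 hω'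
            exact hS2 ω' h3.2 trivial h3.1
          have a2 : 0 < S.card := Finset.card_pos.2 ⟨X ω, hS2 ω hω trivial rfl⟩
          have a3 : Real.log S.card ≤ Real.log N := Real.log_le_log (by exact_mod_cast a2) hS
          have := hg ω
          linarith
        · have := h1 ω hω hB
          linarith
    _ = P.ev g + P.pr Bad * Real.log N := by
        rw [ent_ev_add, ent_ev_mul_left, ← ent_pr_eq_ev]
        ring

end Claimed.Agent.R257
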