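import Claimed.Agent.R257.FR3.Fin
import Claimed.Agent.R257.FR3.Top
import Claimed.Agent.R257.Tree.Ok

/-!
# ROW 257, package FR3, unit FIN, file 2: THE GRID-LEVEL TEST (F)      (architect helper41)

`ffa_test : GTestF k` from `ff_main` (abstract final incidence count, `FR3/Fin.lean`), the instance `ffa_hyp` of `FinHyp` on the concrete trees (`t = tr`, `near z T` = "`‖X tr T z‖ ≤ g`", `g = Λ^η`, `wl` = kernel of order `P`) and numerology.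
CHOICES: `η = c1 / (8 P)`, `d = η (Q - P)`, `tol = min (c1 / (4 (q + 2))) (d / 4)`.
LEAVES `L-257-FA-*`: prove IN PLACE, statements verbatim (defect: one line to helper41), auxiliary lemmas with prefix `ffa_` directly above.
-/

set_option autoImplicit false

namespace Claimed.Agent.R257.FR3

open scoped BigOperators Classical
open Claimed.Agent.R257 Claimed.Agent.R257.FR2 Claimed.Agent.R257.FR2.TSys Claimed.Agent.R257.Tree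

noncomputable section

variable {k : ℕ}

/-- L-257-FA-HYP, **the instance of `FinHyp`** at the transition height.
PLAN.  `Cs` from `ti_sqP_le hc`.   `t_le`: `hc.tr_le`.   `ev_le`: `D.sys.ev tr T f z = D.msk tr T.1.1 (D.pt z) * f (D.pt z)` (`rfl`), `msk tr = 1` (`unfold TDat.msk; rw [if_neg (lt_irrefl _)]`), `ti_pk_le`, `pw ≤ 1` (`Real.rpow_le_one_of_one_le_of_nonpos`), `ti_pk_nonneg`.
`far`: `D.sys.w tr T z = D.ker c.Q tr T.1 (D.pt z) = D.wA c.Q tr ..` (`tg_ker_ge`), `tg_gain hc.P_lt.le hg (le_of_lt (not_le.1 h))`.   `wl_nonneg`: `tg_wA_nonneg`.   `sql_le`: `ti_sqP_le` at `i = tr` with `tg_ker_ge` (`D.sys.b = D.bb` by `rfl`).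
`near_le`: termwise `(if near then b² else 0) ≤ (1 + g)^P * (b² * wA P)`: if `near`, `1 ≤ (1 + g)^P * (1 + d)^{-P}` because `d ≤ g` (`Real.rpow_le_rpow`, `Real.rpow_neg`); then `Finset.mul_sum`, `sql_le`. -/
theorem ffa_hyp {c : TCls k} (hc : c.Ok) : ∃ Cs : ℝ, 1 ≤ Cs ∧ ∀ D : TDat c, D.Good → ∀ g : ℝ, 0 ≤ g → ∀ (ao : D.sys.C c.tr → ℝ) (σ Ke : ℝ), 0 ≤ σ → (∀ T, σ ≤ ao T) →
    D.sys.vol c.tr * ∑ T, ao T ^ 2 ≤ Ke * D.sys.D →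
    FinHyp D.sys c.tr (fun z T => ‖D.X c.tr T.1 (D.pt z)‖ ≤ g) (fun T z => D.wA c.P c.tr T.1 (D.pt z)) ao 1 ((1 + g) ^ (-(c.Q - c.P))) (Cs * D.ϖ) ((1 + g) ^ c.P * (Cs * D.ϖ)) σ Ke := by
  obtain ⟨Cs, hCs, H⟩ := ti_sqP_le hc
  refine ⟨Cs, hCs, fun D hD g hg ao σ Ke hσ hao hen => ?_⟩
  have hk0 : (0 : ℝ) ≤ k := Nat.cast_nonneg k
  have hP0 : 0 ≤ c.P := by linarith [hc.P_gt]
  have hM0 : 0 ≤ c.M := by linarith [hc.P_gt, hc.P_lt, hc.M_gt]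
  have hsq : ∀ z : D.sys.Y, ∑ T : D.sys.C c.tr, D.sys.b c.tr T ^ 2 * D.wA c.P c.tr T.1 (D.pt z) ≤ Cs * D.ϖ := by
    intro z
    have h1 := H D hD c.tr hc.tr_le z
    refine le_trans (le_of_eq ?_) h1
    refine Finset.sum_congr rfl fun T _ => ?_
    rw [tg_ker_ge D c.P (lt_irrefl _)]
    rfl
  refine ⟨hc.tr_le, zero_le_one, Real.rpow_nonneg (by linarith) _, hσ, ?_, ?_, ?_, hsq, ?_, hao, hen⟩
  · intro T a (f : BoundedContinuousFunction (ST k) ℂ) z hpk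
    have hpk' : IsPk (c.ρ c.tr) c.M (D.κ c.tr) (D.fr c.tr T.1.1) (lat T.1.2) a f := hpk
    have e1 : D.sys.ev c.tr T f z = D.msk c.tr T.1.1 (D.pt z) * f (D.pt z) := rfl
    have e2 : D.msk c.tr T.1.1 (D.pt z) = 1 := by
      unfold TDat.msk
      rw [if_neg (lt_irrefl _)]
    rw [e1, e2, one_mul, one_mul]
    refine (ti_pk_le hpk' (D.pt z)).trans ?_
    have ha := ti_pk_nonneg hpk'
    have h1 : pw c.M (D.κ c.tr) (D.fr c.tr T.1.1) (lat T.1.2) (D.pt z) ≤ 1 := by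
      unfold pw
      exact Real.rpow_le_one_of_one_le_of_nonpos (by linarith [norm_nonneg (natX (D.κ c.tr) (D.fr c.tr T.1.1) (D.pt z) - lat T.1.2)]) (by linarith)
    calc a * pw c.M (D.κ c.tr) (D.fr c.tr T.1.1) (lat T.1.2) (D.pt z) ≤ a * 1 := mul_le_mul_of_nonneg_left h1 ha
      _ = a := mul_one a
  · intro T z hn
    have e1 : D.sys.w c.tr T z = D.ker c.Q c.tr T.1 (D.pt z) := rfl
    rw [e1, tg_ker_ge D c.Q (lt_irrefl _)]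
    exact tg_gain hc.P_lt.le hg (le_of_lt (not_le.1 hn))
  · intro T z
    exact tg_wA_nonneg D _ _ _ _
  · intro z
    have h1g : 0 < 1 + g := by linarith
    calc (∑ T : D.sys.C c.tr, if ‖D.X c.tr T.1 (D.pt z)‖ ≤ g then D.sys.b c.tr T ^ 2 else 0)
        ≤ ∑ T : D.sys.C c.tr, (1 + g) ^ c.P * (D.sys.b c.tr T ^ 2 * D.wA c.P c.tr T.1 (D.pt z)) := by
          refine Finset.sum_le_sum fun T _ => ?_
          have hw := tg_wA_nonneg D c.P c.tr T.1 (D.pt z)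
          split_ifs with h
          · have h2 : 1 ≤ (1 + g) ^ c.P * D.wA c.P c.tr T.1 (D.pt z) := by
              unfold TDat.wA
              have h3 : 0 < 1 + ‖D.X c.tr T.1 (D.pt z)‖ := by positivity
              rw [Real.rpow_neg h3.le, ← div_eq_mul_inv, le_div_iff₀ (Real.rpow_pos_of_pos h3 _), one_mul]
              exact Real.rpow_le_rpow h3.le (by linarith) hP0
            calc D.sys.b c.tr T ^ 2 = D.sys.b c.tr T ^ 2 * 1 := (mul_one _).symm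
              _ ≤ D.sys.b c.tr T ^ 2 * ((1 + g) ^ c.P * D.wA c.P c.tr T.1 (D.pt z)) := mul_le_mul_of_nonneg_left h2 (sq_nonneg _)
              _ = _ := by ring
          · have := Real.rpow_nonneg h1g.le c.P
            positivity
      _ = (1 + g) ^ c.P * ∑ T : D.sys.C c.tr, D.sys.b c.tr T ^ 2 * D.wA c.P c.tr T.1 (D.pt z) := by rw [Finset.mul_sum]
      _ ≤ (1 + g) ^ c.P * (Cs * D.ϖ) := mul_le_mul_of_nonneg_left (hsq z) (Real.rpow_nonneg h1g.le _)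

/-- L-257-FA-SMALL (reals only): constants and fixed powers of the loss are small powers of the base.
PLAN: `m0 ≥ 2 a / e` and `(m0 : ℝ) + 3 ≥ C^{2/e}` (`Nat.ceil`): `K^a = (K^m)^{a/m} ≤ Λ^{a/m} ≤ Λ^{e/2}` (`Real.rpow_natCast`, `Real.rpow_mul`, `Real.rpow_le_rpow_of_exponent_le`), `C ≤ (C^{2/e})^{e/2} ≤ Λ^{e/2}`; `Real.rpow_add`. -/
theorem ffa_small (C e : ℝ) (a : ℕ) (he : 0 < e) : ∃ m0 : ℕ, ∀ m, m0 ≤ m → ∀ Λ K : ℝ, (m : ℝ) + 3 ≤ Λ → 2 ≤ K → K ^ m ≤ Λ → C * K ^ a ≤ Λ ^ e := by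
  obtain ⟨C', hC'⟩ : ∃ C' : ℝ, C' = max C 1 := ⟨_, rfl⟩
  have hC1 : 1 ≤ C' := hC' ▸ le_max_right _ _
  have hCC : C ≤ C' := hC' ▸ le_max_left _ _
  refine ⟨⌈2 * (a : ℝ) / e⌉₊ + ⌈C' ^ (2 / e)⌉₊ + 1, fun m hm Λ K hΛ hK hKm => ?_⟩
  have hm1 : (2 * (a : ℝ) / e : ℝ) ≤ m := (Nat.le_ceil _).trans (by exact_mod_cast (by omega : ⌈2 * (a:ℝ) / e⌉₊ ≤ m))
  have hm2 : C' ^ (2 / e) ≤ m := (Nat.le_ceil _).trans (by exact_mod_cast (by omega : ⌈C' ^ (2 / e)⌉₊ ≤ m))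
  have hm0 : (1:ℝ) ≤ m := by exact_mod_cast (by omega : 1 ≤ m)
  have hΛ1 : 1 ≤ Λ := by linarith
  have hΛ0 : 0 < Λ := by linarith
  have hK0 : 0 < K := by linarith
  have h1 : K ^ a ≤ Λ ^ (e / 2) := by
    have h3 : K ^ a = (K ^ m) ^ ((a : ℝ) / m) := by
      rw [← Real.rpow_natCast K m, ← Real.rpow_mul hK0.le, mul_div_cancel₀ _ (by positivity), Real.rpow_natCast]
    rw [h3]
    calc (K ^ m) ^ ((a : ℝ) / m) ≤ Λ ^ ((a : ℝ) / m) := Real.rpow_le_rpow (by positivity) hKm (by positivity)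
      _ ≤ Λ ^ (e / 2) := Real.rpow_le_rpow_of_exponent_le hΛ1 (by
          rw [div_le_iff₀ (by linarith)]
          rw [div_le_iff₀ he] at hm1
          linarith)
  have h2 : C' ≤ Λ ^ (e / 2) := by
    have h3 : C' = (C' ^ (2 / e)) ^ (e / 2) := by
      rw [← Real.rpow_mul (by linarith), div_mul_div_comm, mul_comm 2 e, div_self (by positivity), Real.rpow_one]
    rw [h3]
    exact Real.rpow_le_rpow (by positivity) (by linarith) (by positivity)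
  calc C * K ^ a ≤ C' * K ^ a := mul_le_mul_of_nonneg_right hCC (by positivity)
    _ ≤ Λ ^ (e / 2) * Λ ^ (e / 2) := mul_le_mul h2 h1 (by positivity) (by positivity)
    _ = Λ ^ e := by rw [← Real.rpow_add hΛ0]; congr 1; ring

/-- L-257-FA-KAP: `κ_tr^k ≤ K A²`.   PLAN: `x = κ^k`, `y = K A²`, exponent `s = (k+2)/k ≥ 1`: `x^s = κ^{k+2} ≤ K A^q = K (A²)^s ≤ K^s (A²)^s = y^s` (`qk k = 2 (k+2)/k`: `unfold qk`; `Real.rpow_natCast`, `← Real.rpow_mul`, `Real.mul_rpow`, `Real.self_le_rpow_of_one_le`);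
`Real.rpow_le_rpow_iff`. -/
theorem ffa_kap (hk : 1 ≤ k) {κ K A : ℝ} (hκ : 0 < κ) (hK : 1 ≤ K) (hA : 1 ≤ A) (h : κ ^ (k + 2) ≤ K * A ^ qk k) : κ ^ k ≤ K * A ^ 2 := by
  have hk0 : (1 : ℝ) ≤ k := by exact_mod_cast hk
  have hk' : (0 : ℝ) < k := by linarith
  have hs : 0 < ((k : ℝ) + 2) / k := by positivity
  have hs1 : 1 ≤ ((k : ℝ) + 2) / k := by
    rw [le_div_iff₀ hk']
    linarith
  have hA0 : 0 < A := by linarith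
  have hK0 : 0 < K := by linarith
  refine (Real.rpow_le_rpow_iff (by positivity) (by positivity) hs).1 ?_
  have e1 : (κ ^ k) ^ (((k : ℝ) + 2) / k) = κ ^ (k + 2) := by
    rw [← Real.rpow_natCast κ k, ← Real.rpow_mul hκ.le, mul_div_cancel₀ _ hk'.ne', ← Real.rpow_natCast κ (k + 2)]
    congr 1
    push_cast
    ring
  have e2 : (K * A ^ 2) ^ (((k : ℝ) + 2) / k) = K ^ (((k : ℝ) + 2) / k) * A ^ qk k := by
    rw [Real.mul_rpow hK0.le (by positivity), ← Real.rpow_natCast A 2, ← Real.rpow_mul hA0.le]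
    congr 2
    unfold qk
    push_cast
    ring
  rw [e1, e2]
  refine h.trans (mul_le_mul_of_nonneg_right ?_ (by positivity))
  exact Real.self_le_rpow_of_one_le hK hs1

/-- L-257-FA-N1 (reals only): the range conditions `hR`, `hη` of `ff_main`.
PLAN: `m0 = ℓ + 8`.   `K ≤ Λ ≤ X`, `r ≤ X`, `4 ≤ X`, `(ℓ : ℝ) ≤ X`.   First: `LHS ≤ 4 X² X^ℓ (X A²) X = 4 X^{ℓ+4} A²`, `RHS = Rm² A² / (64 K²) ≥ X^{2m} A² / (64 X²)`, `256 ≤ X^4`.   Second: `ηp ≤ 1 / X^m`, `LHS ≤ ℓ² 4 X^{ℓ+3} / X^{2m}`, `RHS ≥ 1 / (64 X²)`. -/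
theorem ffa_num1 (ℓ : ℕ) : ∃ m0 : ℕ, ∀ m, m0 ≤ m → ∀ Λ X K r A Rm ηp GP Γ ϖ0 : ℝ, (m : ℝ) + 3 ≤ Λ → Λ ≤ X → 2 ≤ K → K ≤ Λ → 0 < r → r ≤ Λ → 1 ≤ A → 0 ≤ GP → GP ≤ X ^ ℓ → 0 ≤ Γ → Γ ≤ X * A ^ 2 →
    0 ≤ ϖ0 → ϖ0 ≤ K → X ^ m ≤ Rm → 0 ≤ ηp → ηp * X ^ m ≤ 1 →
    (2 * r) ^ 2 * GP * Γ * ϖ0 ≤ (Rm * (A / (4 * K)) / 2) ^ 2 ∧ (ηp * ℓ) ^ 2 * ((2 * r) ^ 2 * GP * ϖ0) ≤ (A / (4 * K) / 2) ^ 2 := by
  refine ⟨ℓ + 8, fun m hm Λ X K r A Rm ηp GP Γ ϖ0 hΛ hΛX hK hKΛ hr hrΛ hA hGP0 hGP hΓ0 hΓ hϖ0 hϖ hRm hη0 hη => ?_⟩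
  have hm' : ((ℓ : ℝ) + 8) ≤ m := by exact_mod_cast hm
  have hℓ0 : (0 : ℝ) ≤ ℓ := Nat.cast_nonneg ℓ
  have hX4 : 4 ≤ X := by linarith
  have hX0 : 0 < X := by linarith
  have hX1 : 1 ≤ X := by linarith
  have hK0 : 0 < K := by linarith
  have hKX : K ≤ X := hKΛ.trans hΛX
  have hrX : r ≤ X := hrΛ.trans hΛX
  have hℓX : (ℓ : ℝ) ≤ X := by linarith
  have hA0 : 0 < A := by linarith
  have h256 : (256 : ℝ) ≤ X ^ 4 := by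
    calc (256 : ℝ) = 4 ^ 4 := by norm_num
      _ ≤ X ^ 4 := pow_le_pow_left₀ (by norm_num) hX4 4
  have hlow : A / (4 * X) ≤ A / (4 * K) := div_le_div_of_nonneg_left hA0.le (by positivity) (by linarith)
  constructor
  · have h1 : (2 * r) ^ 2 * GP * Γ * ϖ0 ≤ (2 * X) ^ 2 * X ^ ℓ * (X * A ^ 2) * X := by
      gcongr
      exact hϖ.trans hKX
    have h2 : (X ^ m * (A / (4 * X)) / 2) ^ 2 ≤ (Rm * (A / (4 * K)) / 2) ^ 2 := by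
      have hRm0 : 0 ≤ Rm := le_trans (by positivity) hRm
      refine pow_le_pow_left₀ (by positivity) ?_ 2
      gcongr
    refine h1.trans (le_trans ?_ h2)
    have h3 : 256 * X ^ (ℓ + 6) ≤ X ^ (2 * m) := by
      calc 256 * X ^ (ℓ + 6) ≤ X ^ 4 * X ^ (ℓ + 6) := by gcongr
        _ = X ^ (ℓ + 10) := by ring
        _ ≤ X ^ (2 * m) := pow_le_pow_right₀ hX1 (by omega)
    have e1 : (X ^ m * (A / (4 * X)) / 2) ^ 2 = X ^ (2 * m) * A ^ 2 / (64 * X ^ 2) := by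
      field_simp
      ring
    rw [e1, le_div_iff₀ (by positivity)]
    calc (2 * X) ^ 2 * X ^ ℓ * (X * A ^ 2) * X * (64 * X ^ 2) = (256 * X ^ (ℓ + 6)) * A ^ 2 := by ring
      _ ≤ X ^ (2 * m) * A ^ 2 := by gcongr
  · have h1 : (ηp * ℓ) ^ 2 * ((2 * r) ^ 2 * GP * ϖ0) ≤ (ηp * X) ^ 2 * ((2 * X) ^ 2 * X ^ ℓ * X) := by
      gcongr
      exact hϖ.trans hKX
    have h2 : (1 / (4 * X) / 2) ^ 2 ≤ (A / (4 * K) / 2) ^ 2 := by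
      refine pow_le_pow_left₀ (by positivity) ?_ 2
      have : 1 / (4 * X) ≤ A / (4 * X) := by gcongr
      linarith
    refine h1.trans (le_trans ?_ h2)
    have h3 : 256 * X ^ (ℓ + 7) ≤ X ^ (2 * m) := by
      calc 256 * X ^ (ℓ + 7) ≤ X ^ 4 * X ^ (ℓ + 7) := by gcongr
        _ = X ^ (ℓ + 11) := by ring
        _ ≤ X ^ (2 * m) := pow_le_pow_right₀ hX1 (by omega)
    have e1 : (1 / (4 * X) / 2) ^ 2 = 1 / (64 * X ^ 2) := by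
      field_simp
      ring
    rw [e1, le_div_iff₀ (by positivity)]
    calc (ηp * X) ^ 2 * ((2 * X) ^ 2 * X ^ ℓ * X) * (64 * X ^ 2) = ηp ^ 2 * (256 * X ^ (ℓ + 7)) := by ring
      _ ≤ ηp ^ 2 * X ^ (2 * m) := by gcongr
      _ = (ηp * X ^ m) ^ 2 := by ring
      _ ≤ 1 := pow_le_one₀ (by positivity) hη

/-- L-257-FA-N2 (reals only): the far tails (`hδ` of `ff_main`).
PLAN (`g = Λ^η`, `d = η e`): `(1 + g)^{-e} ≤ g^{-e} = Λ^{-d}` (`Real.rpow_le_rpow_of_nonpos`/`Real.rpow_neg`, `← Real.rpow_mul`); `LHS ≤ K (K A²) (4 r²) Λ^{-d} Cs K`; `r² ≤ Λ^{d/2}`; `ffa_small (64 Cs) (d/2) 5`: `64 Cs K^5 ≤ Λ^{d/2}`; `Λ^{d/2} Λ^{d/2} Λ^{-d} = 1`. -/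
theorem ffa_num2 (Cs η e : ℝ) (hCs : 1 ≤ Cs) (hη : 0 < η) (he : 0 < e) : ∃ m0 : ℕ, ∀ m, m0 ≤ m → ∀ Λ K r A Cp κk ϖ : ℝ, (m : ℝ) + 3 ≤ Λ → 2 ≤ K → K ^ m ≤ Λ → 0 < r → r ≤ Λ ^ (η * e / 4) → 1 ≤ A →
    0 ≤ Cp → Cp ≤ K → 0 ≤ κk → κk ≤ K * A ^ 2 → 0 ≤ ϖ → ϖ ≤ K →
    Cp * κk * ((2 * r) ^ 2 * ((1 + Λ ^ η) ^ (-e) * (Cs * ϖ))) ≤ (A / (4 * K)) ^ 2 := by
  obtain ⟨m0, hm0⟩ := ffa_small (64 * Cs) (η * e / 2) 5 (by positivity)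
  refine ⟨m0, fun m hm Λ K r A Cp κk ϖ hΛ hK hKm hr hrΛ hA hCp0 hCp hκ0 hκ hϖ0 hϖ => ?_⟩
  have hs := hm0 m hm Λ K hΛ hK hKm
  have hm' : (0 : ℝ) ≤ m := Nat.cast_nonneg m
  have hΛ0 : 0 < Λ := by linarith
  have hK0 : 0 < K := by linarith
  have hA0 : 0 < A := by linarith
  have hg0 : 0 < Λ ^ η := Real.rpow_pos_of_pos hΛ0 _
  have h1 : (1 + Λ ^ η) ^ (-e) ≤ Λ ^ (-(η * e)) := by
    calc (1 + Λ ^ η) ^ (-e) ≤ (Λ ^ η) ^ (-e) := Real.rpow_le_rpow_of_nonpos hg0 (by linarith) (by linarith)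
      _ = Λ ^ (-(η * e)) := by rw [← Real.rpow_mul hΛ0.le]; congr 1; ring
  have h2 : r ^ 2 ≤ Λ ^ (η * e / 2) := by
    calc r ^ 2 ≤ (Λ ^ (η * e / 4)) ^ 2 := pow_le_pow_left₀ hr.le hrΛ 2
      _ = Λ ^ (η * e / 2) := by rw [← Real.rpow_natCast, ← Real.rpow_mul hΛ0.le]; congr 1; push_cast; ring
  have h3 : Λ ^ (η * e / 2) * Λ ^ (η * e / 2) * Λ ^ (-(η * e)) = 1 := by
    rw [← Real.rpow_add hΛ0, ← Real.rpow_add hΛ0]
    have : η * e / 2 + η * e / 2 + -(η * e) = 0 := by ring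
    rw [this, Real.rpow_zero]
  have hp : 0 < (1 + Λ ^ η) ^ (-e) := Real.rpow_pos_of_pos (by linarith) _
  have hd0 : 0 < Λ ^ (-(η * e)) := Real.rpow_pos_of_pos hΛ0 _
  have hh0 : 0 < Λ ^ (η * e / 2) := Real.rpow_pos_of_pos hΛ0 _
  have h4 : Cp * κk * ((2 * r) ^ 2 * ((1 + Λ ^ η) ^ (-e) * (Cs * ϖ))) ≤ K * (K * A ^ 2) * ((4 * Λ ^ (η * e / 2)) * (Λ ^ (-(η * e)) * (Cs * K))) := by
    have h5 : (2 * r) ^ 2 ≤ 4 * Λ ^ (η * e / 2) := by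
      calc (2 * r) ^ 2 = 4 * r ^ 2 := by ring
        _ ≤ _ := by linarith
    gcongr
  refine h4.trans ?_
  have e1 : (A / (4 * K)) ^ 2 = A ^ 2 / (16 * K ^ 2) := by
    field_simp
    ring
  rw [e1, le_div_iff₀ (by positivity)]
  calc K * (K * A ^ 2) * ((4 * Λ ^ (η * e / 2)) * (Λ ^ (-(η * e)) * (Cs * K))) * (16 * K ^ 2)
      = A ^ 2 * ((64 * Cs * K ^ 5) * Λ ^ (η * e / 2) * Λ ^ (-(η * e))) := by ring
    _ ≤ A ^ 2 * (Λ ^ (η * e / 2) * Λ ^ (η * e / 2) * Λ ^ (-(η * e))) := by gcongr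
    _ = A ^ 2 := by rw [h3, mul_one]

/-- L-257-FA-N3 (reals only): the conclusion of `ff_main` contradicts the excess.
PLAN.  Divide by `vol`: `A^q / vol ≤ K`.   `(A/(4K))^{-q} vol = (4K)^q A^{-q} vol ≤ (4K)^q K` (`Real.div_rpow`, `Real.rpow_neg`).   `x^q ≤ x^6`, `x^{q/2-1} ≤ x^2` for `x ≥ 1` (`Real.rpow_le_rpow_of_exponent_le`, `Real.rpow_natCast`).   `L^{ℓ-t} ≤ K^ℓ`.
`ϖn = (1 + Λ^η)^P Cs ϖ ≤ (2 Λ^η)^P Cs K = 2^P Cs K Λ^{c1/8}` (`η P = c1/8`).   So `σ² A² ≤ C K^a r^{q+2} Λ^{c1/4}` with `C = C(q, P, Cs)`, `a = ℓ + 30` (any bound);   `r^{q+2} ≤ Λ^{c1/4}`;   `ffa_small C (c1/4) a`;   `Λ^{3 c1/4} < Λ^{c1}` (`Real.rpow_lt_rpow_of_exponent_lt`). -/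
theorem ffa_num3 (q P c1 Cs : ℝ) (ℓ : ℕ) (hq : 2 < q) (hq6 : q ≤ 6) (hP : 0 < P) (hc1 : 0 < c1) (hCs : 1 ≤ Cs) : ∃ m0 : ℕ, ∀ m, m0 ≤ m → ∀ (Λ K A vol σ r L0 L ϖ0 ϖ : ℝ) (t : ℕ),
    (m : ℝ) + 3 ≤ Λ → 2 ≤ K → K ^ m ≤ Λ → 1 ≤ A → 0 < vol → A ^ q ≤ K * vol → vol ≤ K * A ^ q → 0 < r → r ≤ Λ ^ (c1 / (4 * (q + 2))) → 1 ≤ L0 → L0 ≤ K → 1 ≤ L → L ≤ K → 1 ≤ ϖ0 → ϖ0 ≤ K → 1 ≤ ϖ → ϖ ≤ K →
    vol * σ ^ 2 * A ^ 2 ≤ 32 * K ^ 3 * (1 : ℝ) ^ 2 * r ^ 2 * ((1 + Λ ^ (c1 / (8 * P))) ^ P * (Cs * ϖ)) *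
      (2 * K * (2 ^ q * L0 * L ^ (ℓ - t) * ϖ0 ^ (q / 2 - 1) * (A / (4 * K)) ^ (-q) * (vol * (2 * r) ^ q * ((1 + Λ ^ (c1 / (8 * P))) ^ P * (Cs * ϖ))))) * K * K * A ^ q →
    σ ^ 2 * A ^ 2 < Λ ^ c1 := by
  obtain ⟨m0, hm0⟩ := ffa_small (64 * 64 * 64 * 4096 * (4 ^ P * Cs ^ 2)) (c1 / 4) (ℓ + 17) (by positivity)
  refine ⟨m0, fun m hm Λ K A vol σ r L0 L ϖ0 ϖ t hΛ hK hKm hA hvol _ _ hr hrΛ hL0 hL0K hL hLK hϖ0 hϖ0K hϖ hϖK hyp => ?_⟩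
  have hs := hm0 m hm Λ K hΛ hK hKm
  have hm' : (0 : ℝ) ≤ m := Nat.cast_nonneg m
  have hΛ0 : 0 < Λ := by linarith
  have hΛ1 : 1 < Λ := by linarith
  have hK0 : 0 < K := by linarith
  have hK1 : 1 ≤ K := by linarith
  have hA0 : 0 < A := by linarith
  have hCs0 : 0 < Cs := by linarith
  obtain ⟨W, hW⟩ : ∃ W : ℝ, W = (1 + Λ ^ (c1 / (8 * P))) ^ P := ⟨_, rfl⟩
  rw [← hW] at hyp
  have hg1 : 1 ≤ Λ ^ (c1 / (8 * P)) := Real.one_le_rpow hΛ1.le (by positivity)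
  have hW0 : 0 < W := by rw [hW]; exact Real.rpow_pos_of_pos (by linarith) _
  have hWle : W ^ 2 ≤ 4 ^ P * Λ ^ (c1 / 4) := by
    have h1 : W ≤ 2 ^ P * Λ ^ (c1 / 8) := by
      rw [hW]
      calc (1 + Λ ^ (c1 / (8 * P))) ^ P ≤ (2 * Λ ^ (c1 / (8 * P))) ^ P := Real.rpow_le_rpow (by linarith) (by linarith) hP.le
        _ = 2 ^ P * Λ ^ (c1 / 8) := by
            rw [Real.mul_rpow (by norm_num) (by linarith), ← Real.rpow_mul hΛ0.le]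
            congr 2
            field_simp
    calc W ^ 2 ≤ (2 ^ P * Λ ^ (c1 / 8)) ^ 2 := pow_le_pow_left₀ hW0.le h1 2
      _ = (2 ^ P) ^ 2 * (Λ ^ (c1 / 8)) ^ 2 := by ring
      _ = 4 ^ P * Λ ^ (c1 / 4) := by
          congr 1
          · rw [← Real.rpow_natCast, ← Real.rpow_mul (by norm_num), mul_comm, Real.rpow_mul (by norm_num)]
            norm_num
          · rw [← Real.rpow_natCast, ← Real.rpow_mul hΛ0.le]
            congr 1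
            push_cast
            ring
  have hu : (A / (4 * K)) ^ (-q) * A ^ q = (4 * K) ^ q := by
    rw [Real.div_rpow hA0.le (by positivity), Real.rpow_neg hA0.le, Real.rpow_neg (by positivity)]
    have h1 : 0 < A ^ q := Real.rpow_pos_of_pos hA0 _
    have h2 : 0 < (4 * K) ^ q := Real.rpow_pos_of_pos (by positivity) _
    field_simp
  have e1 : 32 * K ^ 3 * (1 : ℝ) ^ 2 * r ^ 2 * (W * (Cs * ϖ)) *
      (2 * K * (2 ^ q * L0 * L ^ (ℓ - t) * ϖ0 ^ (q / 2 - 1) * (A / (4 * K)) ^ (-q) * (vol * (2 * r) ^ q * (W * (Cs * ϖ))))) * K * K * A ^ q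
      = vol * (64 * K ^ 6 * (r ^ 2 * (2 * r) ^ q) * (W ^ 2 * Cs ^ 2 * ϖ ^ 2) * 2 ^ q * L0 * L ^ (ℓ - t) * ϖ0 ^ (q / 2 - 1) * ((A / (4 * K)) ^ (-q) * A ^ q)) := by ring
  rw [e1, hu, mul_assoc vol] at hyp
  have hyp2 := le_of_mul_le_mul_left hyp hvol
  have b3 : (2 : ℝ) ^ q ≤ 64 := by
    calc (2 : ℝ) ^ q ≤ 2 ^ (6 : ℝ) := Real.rpow_le_rpow_of_exponent_le (by norm_num) hq6
      _ = 64 := by norm_num
  have b1 : r ^ 2 * (2 * r) ^ q ≤ 64 * Λ ^ (c1 / 4) := by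
    have h1 : r ^ 2 * r ^ q ≤ Λ ^ (c1 / 4) := by
      calc r ^ 2 * r ^ q = r ^ (q + 2) := by
            rw [Real.rpow_add hr, mul_comm]
            congr 1
            exact (Real.rpow_natCast r 2).symm
        _ ≤ (Λ ^ (c1 / (4 * (q + 2)))) ^ (q + 2) := Real.rpow_le_rpow hr.le hrΛ (by linarith)
        _ = Λ ^ (c1 / 4) := by
            rw [← Real.rpow_mul hΛ0.le]
            congr 1
            have : q + 2 ≠ 0 := by linarith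
            field_simp
    have h0 : 0 ≤ r ^ 2 * r ^ q := by positivity
    calc r ^ 2 * (2 * r) ^ q = 2 ^ q * (r ^ 2 * r ^ q) := by
          rw [Real.mul_rpow (by norm_num) hr.le]; ring
      _ ≤ 64 * Λ ^ (c1 / 4) := mul_le_mul b3 h1 h0 (by norm_num)
  have b2 : W ^ 2 * Cs ^ 2 * ϖ ^ 2 ≤ (4 ^ P * Λ ^ (c1 / 4)) * Cs ^ 2 * K ^ 2 := by
    gcongr
  have b5 : L ^ (ℓ - t) ≤ K ^ ℓ := by
    calc L ^ (ℓ - t) ≤ K ^ (ℓ - t) := pow_le_pow_left₀ (by linarith) hLK _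
      _ ≤ K ^ ℓ := pow_le_pow_right₀ hK1 (Nat.sub_le _ _)
  have b6 : ϖ0 ^ (q / 2 - 1) ≤ K ^ 2 := by
    calc ϖ0 ^ (q / 2 - 1) ≤ K ^ (q / 2 - 1) := Real.rpow_le_rpow (by linarith) hϖ0K (by linarith)
      _ ≤ K ^ (2 : ℝ) := Real.rpow_le_rpow_of_exponent_le hK1 (by linarith)
      _ = K ^ 2 := by norm_num
  have b7 : (4 * K) ^ q ≤ 4096 * K ^ 6 := by
    calc (4 * K) ^ q ≤ (4 * K) ^ (6 : ℝ) := Real.rpow_le_rpow_of_exponent_le (by linarith) hq6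
      _ = (4 * K) ^ 6 := by norm_num
      _ = 4096 * K ^ 6 := by ring
  have hq0 : 0 < Λ ^ (c1 / 4) := Real.rpow_pos_of_pos hΛ0 _
  have hP4 : (0 : ℝ) < 4 ^ P := Real.rpow_pos_of_pos (by norm_num) _
  have hB : 64 * K ^ 6 * (r ^ 2 * (2 * r) ^ q) * (W ^ 2 * Cs ^ 2 * ϖ ^ 2) * 2 ^ q * L0 * L ^ (ℓ - t) * ϖ0 ^ (q / 2 - 1) * (4 * K) ^ q
      ≤ 64 * K ^ 6 * (64 * Λ ^ (c1 / 4)) * ((4 ^ P * Λ ^ (c1 / 4)) * Cs ^ 2 * K ^ 2) * 64 * K * K ^ ℓ * K ^ 2 * (4096 * K ^ 6) := by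
    gcongr
  calc σ ^ 2 * A ^ 2 ≤ _ := hyp2
    _ ≤ _ := hB
    _ = (64 * 64 * 64 * 4096 * (4 ^ P * Cs ^ 2) * K ^ (ℓ + 17)) * Λ ^ (c1 / 4) * Λ ^ (c1 / 4) := by ring
    _ ≤ Λ ^ (c1 / 4) * Λ ^ (c1 / 4) * Λ ^ (c1 / 4) := by gcongr
    _ = Λ ^ (3 * c1 / 4) := by
        rw [← Real.rpow_add hΛ0, ← Real.rpow_add hΛ0]
        congr 1
        ring
    _ < Λ ^ c1 := Real.rpow_lt_rpow_of_exponent_lt hΛ1 (by linarith)

/-- `2 < q ≤ 6` -/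
theorem ffa_qk (hk : 1 ≤ k) : 2 < qk k ∧ qk k ≤ 6 := by
  have hk0 : (1 : ℝ) ≤ k := by exact_mod_cast hk
  unfold qk
  constructor
  · rw [lt_div_iff₀ (by linarith)]
    linarith
  · rw [div_le_iff₀ (by linarith)]
    linarith

/-- **the grid-level test (F)** -/
theorem ffa_test (k : ℕ) : GTestF k := by
  intro o _ c1 hc1
  by_cases ho : 0 < o.P ∧ o.P < o.Q ∧ 1 ≤ k
  swap
  · refine ⟨1, one_pos, fun c cx hco => ⟨0, fun F hFc _ h _ => absurd ?_ ho⟩⟩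
    subst hFc
    have hP := h.cls.P_gt
    have hk0 : (0 : ℝ) ≤ k := Nat.cast_nonneg k
    rw [← hco]
    exact ⟨by show 0 < F.c.P; linarith, h.cls.P_lt, h.cls.k_pos⟩
  obtain ⟨hP, hPQ, hk⟩ := ho
  obtain ⟨hq2, hq6⟩ := ffa_qk hk
  set η : ℝ := c1 / (8 * o.P) with hη
  have hη0 : 0 < η := by positivity
  have he0 : 0 < o.Q - o.P := by linarith
  have ht1 : 0 < c1 / (4 * (qk k + 2)) := by positivity
  have ht2 : 0 < η * (o.Q - o.P) / 4 := by positivity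
  refine ⟨min (min (c1 / (4 * (qk k + 2))) (η * (o.Q - o.P) / 4)) 1, lt_min (lt_min ht1 ht2) one_pos, fun c cx hco => ?_⟩
  by_cases hc : c.Ok
  swap
  · exact ⟨0, fun F hFc _ h _ => absurd (hFc ▸ h.cls) hc⟩
  have hcP : c.P = o.P := congrArg TOrd.P hco
  have hcQ : c.Q = o.Q := congrArg TOrd.Q hco
  obtain ⟨Cs, hCs, hH⟩ := ffa_hyp hc
  obtain ⟨m1, hm1⟩ := ffa_num1 c.ℓ
  obtain ⟨m2, hm2⟩ := ffa_num2 Cs η (o.Q - o.P) hCs hη0 he0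
  obtain ⟨m3, hm3⟩ := ffa_num3 (qk k) o.P c1 Cs c.ℓ hq2 hq6 hP hc1 hCs
  refine ⟨m1 + m2 + m3 + 1, fun F hFc _ h hexc => ?_⟩
  subst hFc
  by_contra hcon
  rw [not_lt] at hcon
  set m := m1 + m2 + m3 + 1 with hm
  set j := F.j0 with hj
  have hsys := h.sys j
  have hfr := h.frozen j
  have hgood := h.good j
  have hΛ := h.Λ_ge
  have hΛ1 : 1 < F.Λ := ft_one_lt_Λ h
  have hΛ0 : 0 < F.Λ := by linarith
  have hK2 := h.two_le_K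
  have hK0 : 0 < F.K := by linarith
  have hKm : F.K ^ m ≤ F.Λ := ft_K_le h (by omega)
  have hKΛ : F.K ≤ F.Λ := (le_self_pow₀ (by linarith) (by omega)).trans hKm
  have hA1 := h.one_le_A j
  have hA0 : 0 < F.A j := by linarith
  have hr0 : 0 < F.r j F.c.tr := hfr.r_pos _
  have hrle : ∀ e : ℝ, min (min (c1 / (4 * (qk k + 2))) (η * (o.Q - o.P) / 4)) 1 ≤ e → F.r j F.c.tr ≤ F.Λ ^ e := fun e he =>
    (Real.logb_le_iff_le_rpow hΛ1 hr0).1 (hcon.trans he)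
  have hr1 := hrle _ ((min_le_left _ _).trans (min_le_left _ _))
  have hr2 := hrle _ ((min_le_left _ _).trans (min_le_right _ _))
  have hr3 : F.r j F.c.tr ≤ F.Λ := by simpa using hrle 1 (min_le_right _ _)
  have hΛX : F.Λ ≤ F.X := le_self_pow₀ hΛ1.le (by have := h.cx_pos; omega)
  have hκ : 0 < (F.D j).κ F.c.tr := (F.D j).κ_pos hgood _
  have hkap := ffa_kap hk hκ (by linarith) hA1 (h.vol_tr j)
  have hϖ1 := hgood.one_le_ϖ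
  have hCp1 : 1 ≤ F.Cp := hsys.one_le_Γ2
  have hϖK : (F.D j).ϖ ≤ F.K := by
    refine le_trans ?_ (h.ϖ0_le j)
    show (F.D j).ϖ ≤ F.Cp * (F.D j).ϖ
    nlinarith
  have hg0 : 0 ≤ F.Λ ^ η := (Real.rpow_pos_of_pos hΛ0 _).le
  have hFin := hH (F.D j) hgood (F.Λ ^ η) hg0 F.ao F.σo F.K h.σo_nonneg h.ao_ge h.ao_en
  have hGP0 : 0 ≤ (F.D j).sys.GamProd (F.tp j) F.c.tr := Finset.prod_nonneg fun i _ => le_trans zero_le_one (hsys.one_le_Γ i)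
  have hGP : (F.D j).sys.GamProd (F.tp j) F.c.tr ≤ F.X ^ F.c.ℓ := by
    have hX1 : 1 ≤ F.X := hΛ1.le.trans hΛX
    calc (F.D j).sys.GamProd (F.tp j) F.c.tr ≤ ∏ _i ∈ Finset.Ico F.c.tr F.c.ℓ, F.X :=
          Finset.prod_le_prod (fun i _ => le_trans zero_le_one (hsys.one_le_Γ i)) fun i hi => h.Γ_le j i (Finset.mem_Ico.1 hi).2
      _ = F.X ^ (F.c.ℓ - F.c.tr) := by simp
      _ ≤ F.X ^ F.c.ℓ := pow_le_pow_right₀ hX1 (Nat.sub_le _ _)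
  obtain ⟨hR, hηη⟩ := hm1 m (by omega) F.Λ F.X F.K (F.r j F.c.tr) (F.A j) F.Rm (F.tp j).η ((F.D j).sys.GamProd (F.tp j) F.c.tr) ((F.tp j).Γr F.c.ℓ) (F.tp j).ϖ0
    hΛ hΛX hK2 hKΛ hr0 hr3 hA1 hGP0 hGP (le_trans zero_le_one (hsys.one_le_Γr _)) (h.Γr_le j _ le_rfl) (le_trans zero_le_one hsys.one_le_ϖ0) (h.ϖ0_le j) h.Rm_ge hsys.η_nonneg (h.η_le j)
  have hδ := hm2 m (by omega) F.Λ F.K (F.r j F.c.tr) (F.A j) F.Cp ((F.D j).κ F.c.tr ^ k) (F.D j).ϖ hΛ hK2 hKm hr0 hr2 hA1 (by linarith) h.Cp_le (by positivity) hkap (by linarith) hϖK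
  have hcard : Fintype.card (F.D j).sys.Y = Fintype.card F.Qc := (Fintype.card_congr (F.e j)).symm
  have hbal : (F.D j).sys.D ≤ F.K * (Fintype.card (F.D j).sys.Y * F.A j ^ (F.tp j).q) := by
    rw [hcard]
    exact h.bal j
  have hV0 : 0 < 2 * F.K * (2 ^ (F.tp j).q * (F.tp j).L0 * (F.tp j).L ^ ((F.D j).sys.ℓ - F.c.tr) * (F.tp j).ϖ0 ^ ((F.tp j).q / 2 - 1) * (F.A j / (4 * F.K)) ^ (-(F.tp j).q) *
      ((F.D j).sys.vol F.c.tr * (2 * F.r j F.c.tr) ^ (F.tp j).q * ((1 + F.Λ ^ η) ^ F.c.P * (Cs * (F.D j).ϖ)))) := by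
    have h1 := lt_of_lt_of_le one_pos hsys.one_le_L0
    have h2 := lt_of_lt_of_le one_pos hsys.one_le_L
    have h3 := lt_of_lt_of_le one_pos hsys.one_le_ϖ0
    have h4 := hsys.vol_pos F.c.tr
    have h5 : 0 < (F.D j).ϖ := by linarith
    have h6 : 0 < Cs := by linarith
    have h7 : 0 < 1 + F.Λ ^ η := by linarith
    positivity
  have key := ff_main hsys hfr hA0 hK0 (ft_univ_ne h j) hFin _ F.K hV0 hK0.le hK0.le hbal hR hηη (by rw [hcQ, hcP]; exact hδ) le_rfl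
  rw [hcP] at key
  have hfin := hm3 m (by omega) F.Λ F.K (F.A j) ((F.D j).sys.vol F.c.tr) F.σo (F.r j F.c.tr) (F.tp j).L0 (F.tp j).L (F.tp j).ϖ0 (F.D j).ϖ F.c.tr hΛ hK2 hKm hA1 (hsys.vol_pos _)
    (h.tr_vol j) (h.vol_tr j) hr0 hr1 hsys.one_le_L0 (h.L0_le j) hsys.one_le_L (h.L_le j) hsys.one_le_ϖ0 (h.ϖ0_le j) hϖ1 hϖK key
  exact absurd hexc (not_le.2 hfin)

end

end Claimed.Agent.R257.FR3
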