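import Claimed.Agent.R257.Infra.Defs

/-!
# ROW 257, package FR3, unit INFL (`f:inflation`, H frame.tex l.1142-1255), file 1: THE ABSTRACT INFLATION CHAIN      (architect helper271)          CONTRACT

PAPER-FREE.  Mathlib + `Infra/Defs` (`ST k = E k × ℝ`, sup norm, product volume, `cubeS a m`) only.   Every `sorry` is a leaf `L-257-FI-A*` (name in the docstring).  Statements are frozen; put auxiliary lemmas directly above your theorem; edit only your block.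
TEAM: 271 = this chain + adapter on the concrete tree (`InflTree*.lean`), 162 = local multilinear Kakeya (`InflMK.lean`, gives the field `kak`), 87 = the ONE-STEP `L²` fact (`L2s*.lean`, gives the field `l2`).

EVERYTHING LIVES IN THE NATIVE COORDINATES OF THE CAP `τ_l`.    Levels are ABSOLUTE HEIGHTS `h` of the tree (`bot ≤ h ≤ top`; `top` = height of `l + v₀`, `bot` = height of `l + v`): the scale `κ h` DECREASES when `h` increases.
* `F.E j h X`   the envelope `∑_T a_T² w_T(X)` of the `j`-th broad group at the height `h`  (`ℝ≥0∞`-valued);     `F.G h X = ∏_j (E j h X)^{1/k}`.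
* `Ok.l2`       ONE tree step of the `L²` fact (H l.1199-1231): the integral of `E j (h+1)` over a ball of radius `κ h` is `≤ K2 (κ h)^{k+1} E j h X'` for every `X'` of the ball.      SKIPPED MASKS = iteration of this (`fi_l2_iter`): costs only `K2^{#heights}`.
* `Ok.peetre`   the envelope of the height `h` varies polynomially at its own scale.
* `Ok.kak`      (f:one-inflation) before the `L²` step = local multilinear Kakeya, from `h'` to a ball of radius `κ h ≤ (κ h')²`.   USED ONLY AT THE `s` NODES of the chain (`s = O(log (v/v₀))`): the loss `Kmk = C ϑ^{-M}` is a power of `Λ^{v₀}`.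
* EXIT `fi_abs_count`.
-/

set_option autoImplicit false

namespace Claimed.Agent.R257

open MeasureTheory Metric Set
open scoped ENNReal BigOperators

variable {k : ℕ}

/-- closed coordinate cube of half side `ρ` -/
def fiQ (c : ST k) (ρ : ℝ) : Set (ST k) := {z | (∀ i, |z.1 i - c.1 i| ≤ ρ) ∧ |z.2 - c.2| ≤ ρ}

/-- the corner of the cube `cubeS a m` -/
noncomputable def fiCor (a : ℝ) (m : (Fin k → ℤ) × ℤ) : ST k := (WithLp.toLp 2 (fun i => a * (m.1 i : ℝ)), a * (m.2 : ℝ))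

/-! ## cubes -/

theorem fi_cube_iff (a : ℝ) (ha : 0 < a) (m : (Fin k → ℤ) × ℤ) (z : ST k) :
    z ∈ cubeS a m ↔ (∀ i, ⌊z.1 i / a⌋ = m.1 i) ∧ ⌊z.2 / a⌋ = m.2 := by
  have key : ∀ (x : ℝ) (n : ℤ), (a * (n : ℝ) ≤ x ∧ x < a * ((n : ℝ) + 1)) ↔ ⌊x / a⌋ = n := by
    intro x n
    rw [Int.floor_eq_iff, le_div_iff₀ ha, div_lt_iff₀ ha, mul_comm a, mul_comm a]
  unfold cubeS
  simp only [Set.mem_ofPred_eq, key]

theorem fi_box_meas (S : Fin k → Set ℝ) (T : Set ℝ) (hS : ∀ i, MeasurableSet (S i)) (hT : MeasurableSet T) :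
    MeasurableSet {z : ST k | (∀ i, z.1 i ∈ S i) ∧ z.2 ∈ T} := by
  have hc : ∀ i : Fin k, Measurable fun z : ST k => z.1 i := fun i =>
    ((EuclideanSpace.proj i : E k →L[ℝ] ℝ).continuous.comp continuous_fst).measurable
  have h1 : MeasurableSet {z : ST k | ∀ i, z.1 i ∈ S i} := by
    rw [Set.ofPred_forall]
    exact MeasurableSet.iInter fun i => hc i (hS i)
  exact h1.inter (measurable_snd hT)

theorem fi_box_vol (S : Fin k → Set ℝ) (T : Set ℝ) :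
    volume {z : ST k | (∀ i, z.1 i ∈ S i) ∧ z.2 ∈ T} = (∏ i, volume (S i)) * volume T := by
  have e : {z : ST k | (∀ i, z.1 i ∈ S i) ∧ z.2 ∈ T} = ((MeasurableEquiv.toLp 2 (Fin k → ℝ)).symm ⁻¹' (Set.pi univ S)) ×ˢ T := by
    ext z
    simp only [Set.mem_ofPred_eq, Set.mem_prod, Set.mem_preimage, Set.mem_pi, Set.mem_univ, forall_true_left]
    rfl
  rw [e, Measure.volume_eq_prod, Measure.prod_prod,
    (EuclideanSpace.volume_preserving_symm_measurableEquiv_toLp (Fin k)).measure_preimage_equiv, volume_pi_pi]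

/-- **LEAF L-257-FI-A1** (60 l.)  the cubes of side `a` are measurable, pairwise disjoint and cover.
PLAN: `z ∈ cubeS a m ↔ (∀ i, ⌊z.1 i / a⌋ = m.1 i) ∧ ⌊z.2 / a⌋ = m.2` (`Int.floor_eq_iff`, `le_div_iff₀`, `div_lt_iff₀`); measurability: finite intersection of half spaces, `(EuclideanSpace.proj i).continuous.comp continuous_fst`. -/
theorem fi_cube_basic (a : ℝ) (ha : 0 < a) :
    (∀ m : (Fin k → ℤ) × ℤ, MeasurableSet (cubeS a m : Set (ST k))) ∧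
    (Pairwise fun m m' : (Fin k → ℤ) × ℤ => Disjoint (cubeS a m : Set (ST k)) (cubeS a m')) ∧
    (∀ z : ST k, ∃ m : (Fin k → ℤ) × ℤ, z ∈ cubeS a m) ∧ (∀ m : (Fin k → ℤ) × ℤ, fiCor a m ∈ (cubeS a m : Set (ST k))) := by
  refine ⟨fun m => ?_, fun m m' hne => ?_, fun z => ?_, fun m => ?_⟩
  · exact fi_box_meas (fun i => Ico (a * (m.1 i : ℝ)) (a * ((m.1 i : ℝ) + 1))) (Ico (a * (m.2 : ℝ)) (a * ((m.2 : ℝ) + 1)))
      (fun _ => measurableSet_Ico) measurableSet_Ico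
  · change Disjoint (cubeS a m : Set (ST k)) (cubeS a m')
    rw [Set.disjoint_left]
    intro z hz hz'
    rw [fi_cube_iff a ha] at hz hz'
    apply hne
    refine Prod.ext (funext fun i => ?_) ?_
    · rw [← hz.1 i, ← hz'.1 i]
    · rw [← hz.2, ← hz'.2]
  · exact ⟨(fun i => ⌊z.1 i / a⌋, ⌊z.2 / a⌋), (fi_cube_iff a ha _ z).2 ⟨fun _ => rfl, rfl⟩⟩
  · refine ⟨fun i => ⟨le_refl _, ?_⟩, le_refl _, ?_⟩
    · change a * (m.1 i : ℝ) < a * ((m.1 i : ℝ) + 1)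
      nlinarith
    · change a * (m.2 : ℝ) < a * ((m.2 : ℝ) + 1)
      nlinarith

/-- **LEAF L-257-FI-A2** (80 l.)  volume of a cube.
PLAN: `cubeS a m = (preimage under the measurable equivalence `E k ≃ (Fin k → ℝ)` of `Set.pi univ fun i => Ico (a m_i) (a (m_i + 1))`) ×ˢ Ico (a m.2) (a (m.2+1))`; `Measure.volume_eq_prod`, `Measure.prod_prod`,
`EuclideanSpace.volume_preserving_measurableEquiv` (`MeasurePreserving.measure_preimage`), `Real.volume_pi_Ico`/`Real.volume_Ico`, `ENNReal.ofReal_prod_of_nonneg`, `pow_succ`. -/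
theorem fi_cube_vol (a : ℝ) (ha : 0 < a) (m : (Fin k → ℤ) × ℤ) : volume (cubeS a m : Set (ST k)) = ENNReal.ofReal (a ^ (k + 1)) := by
  have h := fi_box_vol (k := k) (fun i => Ico (a * (m.1 i : ℝ)) (a * ((m.1 i : ℝ) + 1))) (Ico (a * (m.2 : ℝ)) (a * ((m.2 : ℝ) + 1)))
  have e : (cubeS a m : Set (ST k)) = {z : ST k | (∀ i, z.1 i ∈ Ico (a * (m.1 i : ℝ)) (a * ((m.1 i : ℝ) + 1))) ∧
      z.2 ∈ Ico (a * (m.2 : ℝ)) (a * ((m.2 : ℝ) + 1))} := rfl
  rw [e, h]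
  simp only [Real.volume_Ico]
  have e1 : ∀ n : ℤ, a * ((n : ℝ) + 1) - a * (n : ℝ) = a := fun n => by ring
  simp only [e1, Finset.prod_const, Finset.card_univ, Fintype.card_fin]
  rw [pow_succ, ENNReal.ofReal_mul (by positivity), ENNReal.ofReal_pow ha.le]

/-- **LEAF L-257-FI-A3** (80 l.)  volume of a closed coordinate cube (same proof with `Icc`). -/
theorem fi_Q_vol (c : ST k) (ρ : ℝ) (hρ : 0 ≤ ρ) : volume (fiQ c ρ) = ENNReal.ofReal ((2 * ρ) ^ (k + 1)) := by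
  have h := fi_box_vol (k := k) (fun i => Icc (c.1 i - ρ) (c.1 i + ρ)) (Icc (c.2 - ρ) (c.2 + ρ))
  have e : fiQ c ρ = {z : ST k | (∀ i, z.1 i ∈ Icc (c.1 i - ρ) (c.1 i + ρ)) ∧ z.2 ∈ Icc (c.2 - ρ) (c.2 + ρ)} := by
    ext z
    unfold fiQ
    simp only [Set.mem_ofPred_eq, Set.mem_Icc, abs_le]
    constructor
    · rintro ⟨h1, h2⟩
      exact ⟨fun i => ⟨by linarith [(h1 i).1], by linarith [(h1 i).2]⟩, by linarith [h2.1], by linarith [h2.2]⟩
    · rintro ⟨h1, h2⟩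
      exact ⟨fun i => ⟨by linarith [(h1 i).1], by linarith [(h1 i).2]⟩, by linarith [h2.1], by linarith [h2.2]⟩
  rw [e, h]
  simp only [Real.volume_Icc]
  have e1 : ∀ x : ℝ, x + ρ - (x - ρ) = 2 * ρ := fun x => by ring
  simp only [e1, Finset.prod_const, Finset.card_univ, Fintype.card_fin]
  rw [pow_succ, ENNReal.ofReal_mul (p := (2 * ρ) ^ k) (by positivity), ENNReal.ofReal_pow (by positivity)]

/-- **LEAF L-257-FI-A4** (60 l.)  cubes and balls.   PLAN: `Prod.norm_def`; `|x i| ≤ ‖x‖` (`PiLp.norm_apply_le`), `‖x‖ ≤ ∑ |x i| ≤ k ρ` (`EuclideanSpace.norm_eq`, `Real.sqrt_le_...` or `PiLp.norm_le_sum`-type bound: `‖x‖² = ∑ x_i² ≤ (∑ |x_i|)²`). -/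
theorem fi_Q_ball (c : ST k) (ρ : ℝ) (hρ : 0 ≤ ρ) : closedBall c ρ ⊆ fiQ c ρ ∧ fiQ c ρ ⊆ closedBall c (((k : ℝ) + 1) * ρ) := by
  constructor
  · intro z hz
    rw [mem_closedBall, Prod.dist_eq] at hz
    refine ⟨fun i => ?_, ?_⟩
    · have h1 : ‖(z.1 - c.1) i‖ ≤ ‖z.1 - c.1‖ := PiLp.norm_apply_le _ i
      rw [← dist_eq_norm, Real.norm_eq_abs] at h1
      exact h1.trans ((le_max_left _ _).trans hz)
    · rw [← Real.dist_eq]
      exact (le_max_right _ _).trans hz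
  · intro z hz
    have hk : (0 : ℝ) ≤ k := Nat.cast_nonneg k
    rw [mem_closedBall, Prod.dist_eq]
    refine max_le ?_ ?_
    · rw [EuclideanSpace.dist_eq]
      have h1 : ∑ i, dist (z.1 i) (c.1 i) ^ 2 ≤ (((k : ℝ) + 1) * ρ) ^ 2 := by
        calc ∑ i, dist (z.1 i) (c.1 i) ^ 2 ≤ ∑ _i : Fin k, ρ ^ 2 := by
              refine Finset.sum_le_sum fun i _ => ?_
              rw [Real.dist_eq]
              exact pow_le_pow_left₀ (abs_nonneg _) (hz.1 i) 2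
          _ = k * ρ ^ 2 := by simp
          _ ≤ (((k : ℝ) + 1) * ρ) ^ 2 := by
              rw [mul_pow]
              refine mul_le_mul_of_nonneg_right ?_ (by positivity)
              nlinarith
      exact Real.sqrt_le_iff.2 ⟨by positivity, h1⟩
    · rw [Real.dist_eq]
      refine hz.2.trans ?_
      nlinarith

/-- **LEAF L-257-FI-A5** (40 l.)  a cube of side `a` lies in the coordinate cube of half side `a` around each of its points; coordinate cubes are monotone; triangle inequality for coordinate cubes. -/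
theorem fi_cube_Q (a : ℝ) (ha : 0 < a) (m : (Fin k → ℤ) × ℤ) (z : ST k) (hz : z ∈ cubeS a m) : (cubeS a m : Set (ST k)) ⊆ fiQ z a := by
  intro y hy
  refine ⟨fun i => ?_, ?_⟩
  · have h1 := hy.1 i
    have h2 := hz.1 i
    rw [abs_le]
    constructor <;> nlinarith [h1.1, h1.2, h2.1, h2.2]
  · have h1 := hy.2
    have h2 := hz.2
    rw [abs_le]
    constructor <;> nlinarith [h1.1, h1.2, h2.1, h2.2]

theorem fi_Q_mono (c : ST k) {ρ ρ' : ℝ} (h : ρ ≤ ρ') : fiQ c ρ ⊆ fiQ c ρ' := fun _ hz =>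
  ⟨fun i => (hz.1 i).trans h, hz.2.trans h⟩

theorem fi_Q_tri {c z : ST k} {ρ a : ℝ} (hz : z ∈ fiQ c ρ) : fiQ z a ⊆ fiQ c (ρ + a) := by
  intro y hy
  refine ⟨fun i => ?_, ?_⟩
  · have h1 := hy.1 i
    have h2 := hz.1 i
    have e : y.1 i - c.1 i = (y.1 i - z.1 i) + (z.1 i - c.1 i) := by ring
    rw [e]
    exact (abs_add_le _ _).trans (by linarith)
  · have h1 := hy.2
    have h2 := hz.2
    have e : y.2 - c.2 = (y.2 - z.2) + (z.2 - c.2) := by ring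
    rw [e]
    exact (abs_add_le _ _).trans (by linarith)

/-- **LEAF L-257-FI-A6: THE GRID LEMMA** (100 l.)  an inequality on all the cubes of side `a` passes to coordinate cubes, at the price of the enlargement `a`.   NO measurability of `f`, `g`.
PLAN: `I = {m | (cubeS a m ∩ fiQ c ρ).Nonempty}` (countable: `Set.to_countable`), `U = ⋃ m ∈ I, cubeS a m`.  `fiQ c ρ ⊆ U` (cover), `U ⊆ fiQ c (ρ + a)` (`fi_cube_Q`, `fi_Q_tri`).
`lintegral_mono_set`, `lintegral_biUnion` (measurable, pairwise disjoint: `fi_cube_basic`) for `f` and for `g`, `ENNReal.tsum_le_tsum`, `ENNReal.tsum_mul_left`. -/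
theorem fi_grid (f g : ST k → ℝ≥0∞) (a : ℝ) (ha : 0 < a) (K : ℝ≥0∞)
    (h : ∀ m : (Fin k → ℤ) × ℤ, ∫⁻ z in cubeS a m, f z ≤ K * ∫⁻ z in cubeS a m, g z) (c : ST k) (ρ : ℝ) :
    ∫⁻ z in fiQ c ρ, f z ≤ K * ∫⁻ z in fiQ c (ρ + a), g z := by
  obtain ⟨b1, b2, b3, -⟩ := fi_cube_basic (k := k) a ha
  obtain ⟨I, hI⟩ : ∃ I : Set ((Fin k → ℤ) × ℤ), I = {m | ((cubeS a m : Set (ST k)) ∩ fiQ c ρ).Nonempty} := ⟨_, rfl⟩
  have hIc : I.Countable := Set.to_countable I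
  have hsub1 : fiQ c ρ ⊆ ⋃ m ∈ I, (cubeS a m : Set (ST k)) := by
    intro z hz
    obtain ⟨m, hm⟩ := b3 z
    simp only [mem_iUnion]
    refine ⟨m, ?_, hm⟩
    rw [hI]
    exact ⟨z, hm, hz⟩
  have hsub2 : (⋃ m ∈ I, (cubeS a m : Set (ST k))) ⊆ fiQ c (ρ + a) := by
    intro z hz
    simp only [mem_iUnion] at hz
    obtain ⟨m, hm, hzm⟩ := hz
    rw [hI] at hm
    obtain ⟨w, hw1, hw2⟩ := hm
    exact fi_Q_tri hw2 (fi_cube_Q a ha m w hw1 hzm)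
  have hd : I.PairwiseDisjoint fun m => (cubeS a m : Set (ST k)) := fun m _ m' _ hne => b2 hne
  calc ∫⁻ z in fiQ c ρ, f z ≤ ∫⁻ z in ⋃ m ∈ I, (cubeS a m : Set (ST k)), f z := lintegral_mono_set hsub1
    _ = ∑' m : I, ∫⁻ z in cubeS a (m : (Fin k → ℤ) × ℤ), f z := lintegral_biUnion hIc (fun m _ => b1 m) hd f
    _ ≤ ∑' m : I, K * ∫⁻ z in cubeS a (m : (Fin k → ℤ) × ℤ), g z := ENNReal.tsum_le_tsum fun m => h m
    _ = K * ∑' m : I, ∫⁻ z in cubeS a (m : (Fin k → ℤ) × ℤ), g z := ENNReal.tsum_mul_left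
    _ = K * ∫⁻ z in ⋃ m ∈ I, (cubeS a m : Set (ST k)), g z := by rw [lintegral_biUnion hIc (fun m _ => b1 m) hd g]
    _ ≤ K * ∫⁻ z in fiQ c (ρ + a), g z := mul_le_mul_right (lintegral_mono_set hsub2) _

/-- **LEAF L-257-FI-A7** (60 l.)  from "the integral of `f` over the cube is `≤ K a^{k+1} g(X')` for EVERY point `X'` of the cube" to the inequality between the integrals.
PLAN: `I := ∫⁻ z in cubeS a m, f z`.  `∫⁻ X' in cubeS a m, I = I * volume (cubeS a m)` (`setLIntegral_const`), `≤ ∫⁻ X' in cubeS a m, ofReal (K a^{k+1}) * g X'` (`setLIntegral_mono'` with `fi_cube_basic`), `lintegral_const_mul'` (constant `≠ ∞`);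
`fi_cube_vol`; cancel `ofReal (a^{k+1})` (`≠ 0`, `≠ ∞`; `ENNReal.ofReal_mul`, `ENNReal.mul_le_mul_right`-type lemma / `ENNReal.le_div_iff_mul_le`). -/
theorem fi_cube_avg (f g : ST k → ℝ≥0∞) (a : ℝ) (ha : 0 < a) (K : ℝ) (hK : 0 ≤ K) (m : (Fin k → ℤ) × ℤ)
    (h : ∀ X' ∈ (cubeS a m : Set (ST k)), ∫⁻ z in cubeS a m, f z ≤ ENNReal.ofReal (K * a ^ (k + 1)) * g X') :
    ∫⁻ z in cubeS a m, f z ≤ ENNReal.ofReal K * ∫⁻ z in cubeS a m, g z := by
  obtain ⟨b1, -⟩ := fi_cube_basic (k := k) a ha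
  obtain ⟨I, hI⟩ : ∃ I : ℝ≥0∞, I = ∫⁻ z in cubeS a m, f z := ⟨_, rfl⟩
  rw [← hI] at h ⊢
  have hv0 : ENNReal.ofReal (a ^ (k + 1)) ≠ 0 := by
    rw [Ne, ENNReal.ofReal_eq_zero, not_le]
    positivity
  have h1 : I * ENNReal.ofReal (a ^ (k + 1)) ≤ ENNReal.ofReal (K * a ^ (k + 1)) * ∫⁻ z in cubeS a m, g z := by
    calc I * ENNReal.ofReal (a ^ (k + 1)) = ∫⁻ _X' in (cubeS a m : Set (ST k)), I := by
          rw [setLIntegral_const, fi_cube_vol a ha m]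
      _ ≤ ∫⁻ X' in (cubeS a m : Set (ST k)), ENNReal.ofReal (K * a ^ (k + 1)) * g X' := setLIntegral_mono' (b1 m) h
      _ = ENNReal.ofReal (K * a ^ (k + 1)) * ∫⁻ z in cubeS a m, g z := lintegral_const_mul' _ _ ENNReal.ofReal_ne_top
  rw [ENNReal.ofReal_mul hK, mul_assoc, mul_comm (ENNReal.ofReal (a ^ (k + 1))), ← mul_assoc] at h1
  exact (ENNReal.mul_le_mul_iff_left hv0 ENNReal.ofReal_ne_top).1 h1

/-! ## the configuration -/

/-- the data of the abstract inflation chain -/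
structure FiCfg (k : ℕ) where
  /-- lowest height (largest scale, `l + v`) -/
  bot : ℕ
  /-- highest height (smallest scale, `l + v₀`) -/
  top : ℕ
  /-- relative scales -/
  κ : ℕ → ℝ
  /-- envelopes of the `k + 1` groups -/
  E : Fin (k + 1) → ℕ → ST k → ℝ≥0∞

namespace FiCfg

variable (F : FiCfg k)

/-- the product `∏_j E_j^{1/k}` -/
noncomputable def G (h : ℕ) (X : ST k) : ℝ≥0∞ := ∏ j, F.E j h X ^ (1 / (k : ℝ))

/-- **the hypotheses of the chain** -/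
structure Ok (K2 Kp P Kmk Cmk : ℝ) : Prop where
  k_pos : 1 ≤ k
  bot_le : F.bot ≤ F.top
  K2_nonneg : 0 ≤ K2
  Kp_nonneg : 0 ≤ Kp
  P_nonneg : 0 ≤ P
  Kmk_nonneg : 0 ≤ Kmk
  Cmk_nonneg : 0 ≤ Cmk
  κ_pos : ∀ h, 0 < F.κ h
  κ_anti : ∀ h, F.κ (h + 1) ≤ F.κ h
  l2 : ∀ h, F.bot ≤ h → h < F.top → ∀ j (c X' : ST k), ‖X' - c‖ ≤ F.κ h →
    ∫⁻ X in closedBall c (F.κ h), F.E j (h + 1) X ≤ ENNReal.ofReal (K2 * F.κ h ^ (k + 1)) * F.E j h X'
  peetre : ∀ h, F.bot ≤ h → h ≤ F.top → ∀ j (X X' : ST k), F.E j h X ≤ ENNReal.ofReal (Kp * (1 + ‖X - X'‖ / F.κ h) ^ P) * F.E j h X'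
  kak : ∀ h h', F.bot ≤ h → h < h' → h' ≤ F.top → F.κ h ≤ F.κ h' ^ 2 → ∀ c : ST k,
    ∫⁻ X in closedBall c (F.κ h), F.G h' X ≤ ENNReal.ofReal (Kmk * F.κ h ^ (k + 1)) *
      ∏ j, (ENNReal.ofReal ((F.κ h ^ (k + 1))⁻¹) * ∫⁻ X in closedBall c (Cmk * F.κ h), F.E j h' X) ^ (1 / (k : ℝ))

end FiCfg

/-- constant of one `L²` step on cubes -/
noncomputable def fiK2 (k : ℕ) (K2 : ℝ) : ℝ := K2 * ((k : ℝ) + 1) ^ (k + 1)

/-- constant of the `L²` fact over `≤ n` heights on a ball of radius `Cmk κ` -/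
noncomputable def fiK3 (k n : ℕ) (K2 Kp P Cmk : ℝ) : ℝ :=
  max 1 (fiK2 k K2) ^ n * (2 * (Cmk + n)) ^ (k + 1) * (Kp * (2 + ((k : ℝ) + 1) * (Cmk + n)) ^ P)

/-- constant of one node of the chain -/
noncomputable def fiK4 (k n : ℕ) (K2 Kp P Kmk Cmk : ℝ) : ℝ :=
  Kmk * ((k : ℝ) + 1) ^ (k + 1) * fiK3 k n K2 Kp P Cmk ^ (((k : ℝ) + 1) / k)

variable {F : FiCfg k} {K2 Kp P Kmk Cmk : ℝ}

theorem fi_κ_anti (hF : F.Ok K2 Kp P Kmk Cmk) (h d : ℕ) : F.κ (h + d) ≤ F.κ h := by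
  induction d with
  | zero => exact le_rfl
  | succ d ih => exact (hF.κ_anti (h + d)).trans ih

/-- a cube of side `κ/(k+1)` lies in the ball of radius `κ` about its corner -/
theorem fi_cube_ball (κ : ℝ) (hκ : 0 < κ) (m : (Fin k → ℤ) × ℤ) :
    (cubeS (κ / ((k : ℝ) + 1)) m : Set (ST k)) ⊆ closedBall (fiCor (κ / ((k : ℝ) + 1)) m) κ := by
  have hk : (0 : ℝ) < (k : ℝ) + 1 := by positivity
  have ha : 0 < κ / ((k : ℝ) + 1) := by positivity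
  have h1 := fi_cube_Q _ ha m _ ((fi_cube_basic (k := k) _ ha).2.2.2 m)
  have h2 := (fi_Q_ball (fiCor (κ / ((k : ℝ) + 1)) m) _ ha.le).2
  have e : ((k : ℝ) + 1) * (κ / ((k : ℝ) + 1)) = κ := by field_simp
  rw [e] at h2
  exact h1.trans h2

theorem fi_K2_nonneg (hF : F.Ok K2 Kp P Kmk Cmk) : 0 ≤ fiK2 k K2 := by
  unfold fiK2
  have := hF.K2_nonneg
  positivity

/-- **LEAF L-257-FI-A8** (50 l.)  one `L²` step on the cubes of side `κ h / (k+1)`.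
PLAN: `a = κ h/(k+1)`, `z₀ = fiCor a m ∈ cubeS a m`; `cubeS a m ⊆ fiQ z₀ a ⊆ closedBall z₀ ((k+1) a) = closedBall z₀ (κ h)` (`fi_cube_Q`, `fi_Q_ball`); for `X'` in the cube `‖X' - z₀‖ ≤ κ h` (`mem_closedBall`, `dist_eq_norm`);
`lintegral_mono_set` + `hF.l2 h _ _ j z₀ X'`; `K2 (κ h)^{k+1} = fiK2 k K2 * a^{k+1}` (`div_pow`, `field_simp`); `fi_cube_avg`. -/
theorem fi_l2_cube (hF : F.Ok K2 Kp P Kmk Cmk) (h : ℕ) (hb : F.bot ≤ h) (ht : h < F.top) (j : Fin (k + 1)) (m : (Fin k → ℤ) × ℤ) :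
    ∫⁻ X in cubeS (F.κ h / ((k : ℝ) + 1)) m, F.E j (h + 1) X ≤ ENNReal.ofReal (fiK2 k K2) * ∫⁻ X in cubeS (F.κ h / ((k : ℝ) + 1)) m, F.E j h X := by
  have hk : (0 : ℝ) < (k : ℝ) + 1 := by positivity
  have hκ := hF.κ_pos h
  have ha : 0 < F.κ h / ((k : ℝ) + 1) := by positivity
  refine fi_cube_avg _ _ _ ha _ (fi_K2_nonneg hF) m fun X' hX' => ?_
  have hsub := fi_cube_ball (F.κ h) hκ m
  have hX : ‖X' - fiCor (F.κ h / ((k : ℝ) + 1)) m‖ ≤ F.κ h := by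
    rw [← dist_eq_norm]
    exact hsub hX'
  refine (lintegral_mono_set hsub).trans ((hF.l2 h hb ht j _ X' hX).trans (le_of_eq ?_))
  congr 2
  unfold fiK2
  rw [div_pow]
  field_simp

/-- **LEAF L-257-FI-A9: SKIPPED MASKS** (70 l.)  iteration of the one-step `L²` fact.
PLAN: induction on `d`.  Step: `fi_grid` with `fi_l2_cube` at the height `h + d` (`a = κ (h+d)/(k+1) ≤ κ h`: `fi_κ_anti`, `div_le_self`), `fi_Q_mono` + `lintegral_mono_set` to enlarge the region to `ρ + κ h`, then the induction hypothesis with `ρ + κ h`;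
`ENNReal.ofReal_mul`/`ofReal_pow`, `pow_succ`; `fiK2 ≤ max 1 (fiK2)`. -/
theorem fi_l2_iter (hF : F.Ok K2 Kp P Kmk Cmk) (h : ℕ) (hb : F.bot ≤ h) (d : ℕ) (ht : h + d ≤ F.top) (j : Fin (k + 1)) (c : ST k) (ρ : ℝ) :
    ∫⁻ X in fiQ c ρ, F.E j (h + d) X ≤ ENNReal.ofReal (max 1 (fiK2 k K2) ^ d) * ∫⁻ X in fiQ c (ρ + d * F.κ h), F.E j h X := by
  induction d generalizing ρ with
  | zero => simp
  | succ d ih =>
    have hk : (0 : ℝ) < (k : ℝ) + 1 := by positivity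
    have hκd := hF.κ_pos (h + d)
    have ha : 0 < F.κ (h + d) / ((k : ℝ) + 1) := by positivity
    have hale : F.κ (h + d) / ((k : ℝ) + 1) ≤ F.κ h := by
      refine le_trans ?_ (fi_κ_anti hF h d)
      exact div_le_self hκd.le (by linarith [(Nat.cast_nonneg k : (0 : ℝ) ≤ k)])
    have h1 := fi_grid (F.E j (h + d + 1)) (F.E j (h + d)) _ ha (ENNReal.ofReal (fiK2 k K2))
      (fun m => fi_l2_cube hF (h + d) (by omega) (by omega) j m) c ρ
    have h2 : ∫⁻ z in fiQ c (ρ + F.κ (h + d) / ((k : ℝ) + 1)), F.E j (h + d) z ≤ ∫⁻ z in fiQ c (ρ + F.κ h), F.E j (h + d) z :=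
      lintegral_mono_set (fi_Q_mono c (by linarith))
    have h3 := ih (by omega) (ρ + F.κ h)
    have e : ρ + F.κ h + d * F.κ h = ρ + ((d + 1 : ℕ) : ℝ) * F.κ h := by
      push_cast
      ring
    rw [e] at h3
    have hM : (0 : ℝ) ≤ max 1 (fiK2 k K2) := le_trans zero_le_one (le_max_left _ _)
    calc ∫⁻ X in fiQ c ρ, F.E j (h + (d + 1)) X
        ≤ ENNReal.ofReal (fiK2 k K2) * ∫⁻ z in fiQ c (ρ + F.κ (h + d) / ((k : ℝ) + 1)), F.E j (h + d) z := h1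
      _ ≤ ENNReal.ofReal (max 1 (fiK2 k K2)) * (ENNReal.ofReal (max 1 (fiK2 k K2) ^ d) *
            ∫⁻ X in fiQ c (ρ + ((d + 1 : ℕ) : ℝ) * F.κ h), F.E j h X) :=
          mul_le_mul' (ENNReal.ofReal_le_ofReal (le_max_right _ _)) (h2.trans h3)
      _ = ENNReal.ofReal (max 1 (fiK2 k K2) ^ (d + 1)) * ∫⁻ X in fiQ c (ρ + ((d + 1 : ℕ) : ℝ) * F.κ h), F.E j h X := by
          rw [← mul_assoc, ← ENNReal.ofReal_mul hM, pow_succ, mul_comm (max 1 (fiK2 k K2))]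

theorem fi_Q_meas (c : ST k) (ρ : ℝ) : MeasurableSet (fiQ c ρ) := by
  have e : fiQ c ρ = {z : ST k | (∀ i, z.1 i ∈ Icc (c.1 i - ρ) (c.1 i + ρ)) ∧ z.2 ∈ Icc (c.2 - ρ) (c.2 + ρ)} := by
    ext z
    unfold fiQ
    simp only [Set.mem_ofPred_eq, Set.mem_Icc, abs_le]
    constructor
    · rintro ⟨h1, h2⟩
      exact ⟨fun i => ⟨by linarith [(h1 i).1], by linarith [(h1 i).2]⟩, by linarith [h2.1], by linarith [h2.2]⟩
    · rintro ⟨h1, h2⟩
      exact ⟨fun i => ⟨by linarith [(h1 i).1], by linarith [(h1 i).2]⟩, by linarith [h2.1], by linarith [h2.2]⟩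
  rw [e]
  exact fi_box_meas _ _ (fun _ => measurableSet_Icc) measurableSet_Icc

theorem fi_ofReal3 (a b c : ℝ) (ha : 0 ≤ a) (hb : 0 ≤ b) (e : ℝ≥0∞) :
    ENNReal.ofReal a * (ENNReal.ofReal b * e * ENNReal.ofReal c) = ENNReal.ofReal (a * (b * c)) * e := by
  rw [ENNReal.ofReal_mul ha, ENNReal.ofReal_mul hb]
  ring

/-- the numerical part of `fi_avg_le` -/
theorem fi_K3_mono (k d n : ℕ) (hd : d ≤ n) (K2 Kp P Cmk κ : ℝ) (hKp : 0 ≤ Kp) (hP : 0 ≤ P) (hC : 0 ≤ Cmk) (hκ : 0 < κ) :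
    max 1 (fiK2 k K2) ^ d * (Kp * (2 + ((k : ℝ) + 1) * (Cmk + d)) ^ P * (2 * (Cmk * κ + d * κ)) ^ (k + 1))
      ≤ fiK3 k n K2 Kp P Cmk * κ ^ (k + 1) := by
  have hdn : (d : ℝ) ≤ n := by exact_mod_cast hd
  have hd0 : (0 : ℝ) ≤ d := Nat.cast_nonneg d
  have hk0 : (0 : ℝ) ≤ k := Nat.cast_nonneg k
  have h1 : max 1 (fiK2 k K2) ^ d ≤ max 1 (fiK2 k K2) ^ n := pow_le_pow_right₀ (le_max_left _ _) hd
  have h2 : (2 + ((k : ℝ) + 1) * (Cmk + d)) ^ P ≤ (2 + ((k : ℝ) + 1) * (Cmk + n)) ^ P := by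
    refine Real.rpow_le_rpow (by positivity) ?_ hP
    have : ((k : ℝ) + 1) * (Cmk + d) ≤ ((k : ℝ) + 1) * (Cmk + n) := mul_le_mul_of_nonneg_left (by linarith) (by positivity)
    linarith
  have h3 : (2 * (Cmk + d)) ^ (k + 1) ≤ (2 * (Cmk + n)) ^ (k + 1) := pow_le_pow_left₀ (by positivity) (by linarith) _
  have e : (2 * (Cmk * κ + d * κ)) ^ (k + 1) = (2 * (Cmk + d)) ^ (k + 1) * κ ^ (k + 1) := by
    rw [← mul_pow]
    congr 1
    ring
  have hM0 : (0 : ℝ) ≤ max 1 (fiK2 k K2) := le_trans zero_le_one (le_max_left _ _)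
  have hA0 : 0 ≤ (2 + ((k : ℝ) + 1) * (Cmk + d)) ^ P := Real.rpow_nonneg (by positivity) _
  have hA0' : 0 ≤ (2 + ((k : ℝ) + 1) * (Cmk + n)) ^ P := Real.rpow_nonneg (by positivity) _
  rw [e]
  unfold fiK3
  calc max 1 (fiK2 k K2) ^ d * (Kp * (2 + ((k : ℝ) + 1) * (Cmk + d)) ^ P * ((2 * (Cmk + d)) ^ (k + 1) * κ ^ (k + 1)))
      ≤ max 1 (fiK2 k K2) ^ n * (Kp * (2 + ((k : ℝ) + 1) * (Cmk + n)) ^ P * ((2 * (Cmk + n)) ^ (k + 1) * κ ^ (k + 1))) := by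
        refine mul_le_mul h1 ?_ (by positivity) (by positivity)
        refine mul_le_mul (mul_le_mul_of_nonneg_left h2 hKp) (mul_le_mul_of_nonneg_right h3 (by positivity)) (by positivity)
          (by positivity)
    _ = max 1 (fiK2 k K2) ^ n * (2 * (Cmk + n)) ^ (k + 1) * (Kp * (2 + ((k : ℝ) + 1) * (Cmk + n)) ^ P) * κ ^ (k + 1) := by ring

/-- **LEAF L-257-FI-A10** (80 l.)  the `L²` fact over `d ≤ n` heights on the ball of radius `Cmk κ h`.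
PLAN: `closedBall c (Cmk κ) ⊆ fiQ c (Cmk κ)` (`fi_Q_ball`), `fi_l2_iter`; on `fiQ c ρ''`, `ρ'' = (Cmk + d) κ`: `‖X - X'‖ ≤ (k+1) ρ'' + κ` (`fi_Q_ball`, triangle), so `hF.peetre` gives `E j h X ≤ ofReal (Kp (2 + (k+1)(Cmk+d))^P) E j h X'` (`Real.rpow_le_rpow`);
`setLIntegral_mono'`/`lintegral_mono` + `setLIntegral_const` + `fi_Q_vol`; monotonicity in `d ≤ n` (`pow_le_pow_right₀`, `pow_le_pow_left₀`, `Real.rpow_le_rpow`); `(2 ρ'')^{k+1} = (2 (Cmk+d))^{k+1} κ^{k+1}`. -/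
theorem fi_avg_le (hF : F.Ok K2 Kp P Kmk Cmk) (h : ℕ) (hb : F.bot ≤ h) (d n : ℕ) (hd : d ≤ n) (ht : h + d ≤ F.top) (j : Fin (k + 1)) (c X' : ST k) (hX : ‖X' - c‖ ≤ F.κ h) :
    ∫⁻ X in closedBall c (Cmk * F.κ h), F.E j (h + d) X ≤ ENNReal.ofReal (fiK3 k n K2 Kp P Cmk * F.κ h ^ (k + 1)) * F.E j h X' := by
  obtain ⟨κ, hκdef⟩ : ∃ κ : ℝ, κ = F.κ h := ⟨_, rfl⟩
  have hκ : 0 < κ := by rw [hκdef]; exact hF.κ_pos h
  rw [← hκdef] at hX ⊢
  have hC := hF.Cmk_nonneg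
  have hKp := hF.Kp_nonneg
  have hP := hF.P_nonneg
  have hd0 : (0 : ℝ) ≤ d := Nat.cast_nonneg d
  have hk0 : (0 : ℝ) ≤ k := Nat.cast_nonneg k
  have hρ : 0 ≤ Cmk * κ + d * κ := by positivity
  have s1 : ∫⁻ X in closedBall c (Cmk * κ), F.E j (h + d) X ≤ ∫⁻ X in fiQ c (Cmk * κ), F.E j (h + d) X :=
    lintegral_mono_set (fi_Q_ball c _ (by positivity)).1
  have s2 := fi_l2_iter hF h hb d ht j c (Cmk * κ)
  rw [← hκdef] at s2
  have s3 : ∀ X ∈ fiQ c (Cmk * κ + d * κ), F.E j h X ≤ ENNReal.ofReal (Kp * (2 + ((k : ℝ) + 1) * (Cmk + d)) ^ P) * F.E j h X' := by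
    intro X hXQ
    have hXb := (fi_Q_ball c _ hρ).2 hXQ
    rw [mem_closedBall, dist_eq_norm] at hXb
    have htri : ‖X - X'‖ ≤ ((k : ℝ) + 1) * (Cmk * κ + d * κ) + κ := by
      have : X - X' = (X - c) - (X' - c) := by abel
      rw [this]
      exact (norm_sub_le _ _).trans (add_le_add hXb hX)
    refine (hF.peetre h hb (by omega) j X X').trans (mul_le_mul_left (ENNReal.ofReal_le_ofReal ?_) _)
    refine mul_le_mul_of_nonneg_left (Real.rpow_le_rpow (by rw [← hκdef]; positivity) ?_ hP) hKp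
    rw [← hκdef]
    have : ‖X - X'‖ / κ ≤ ((k : ℝ) + 1) * (Cmk + d) + 1 := by
      rw [div_le_iff₀ hκ]
      refine htri.trans (le_of_eq ?_)
      ring
    linarith
  have s4 : ∫⁻ X in fiQ c (Cmk * κ + d * κ), F.E j h X
      ≤ ENNReal.ofReal (Kp * (2 + ((k : ℝ) + 1) * (Cmk + d)) ^ P) * F.E j h X' * ENNReal.ofReal ((2 * (Cmk * κ + d * κ)) ^ (k + 1)) := by
    refine (setLIntegral_mono' (fi_Q_meas c _) s3).trans (le_of_eq ?_)
    rw [setLIntegral_const, fi_Q_vol c _ hρ]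
  have hM0 : (0 : ℝ) ≤ max 1 (fiK2 k K2) := le_trans zero_le_one (le_max_left _ _)
  have hA0 : 0 ≤ (2 + ((k : ℝ) + 1) * (Cmk + d)) ^ P := Real.rpow_nonneg (by positivity) _
  calc ∫⁻ X in closedBall c (Cmk * κ), F.E j (h + d) X
      ≤ ENNReal.ofReal (max 1 (fiK2 k K2) ^ d) * (ENNReal.ofReal (Kp * (2 + ((k : ℝ) + 1) * (Cmk + d)) ^ P) * F.E j h X' *
          ENNReal.ofReal ((2 * (Cmk * κ + d * κ)) ^ (k + 1))) := s1.trans (s2.trans (mul_le_mul_right s4 _))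
    _ = ENNReal.ofReal (max 1 (fiK2 k K2) ^ d * (Kp * (2 + ((k : ℝ) + 1) * (Cmk + d)) ^ P * (2 * (Cmk * κ + d * κ)) ^ (k + 1))) * F.E j h X' := by
        exact fi_ofReal3 _ _ _ (by positivity) (by positivity) _
    _ ≤ ENNReal.ofReal (fiK3 k n K2 Kp P Cmk * κ ^ (k + 1)) * F.E j h X' :=
        mul_le_mul_left (ENNReal.ofReal_le_ofReal (fi_K3_mono k d n hd K2 Kp P Cmk κ hKp hP hC hκ)) _

theorem fi_K3_nonneg (hF : F.Ok K2 Kp P Kmk Cmk) (n : ℕ) : 0 ≤ fiK3 k n K2 Kp P Cmk := by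
  have hC := hF.Cmk_nonneg
  have hKp := hF.Kp_nonneg
  have hM0 : (0 : ℝ) ≤ max 1 (fiK2 k K2) := le_trans zero_le_one (le_max_left _ _)
  have hA0 : 0 ≤ (2 + ((k : ℝ) + 1) * (Cmk + n)) ^ P := Real.rpow_nonneg (by positivity) _
  unfold fiK3
  positivity

theorem fi_K4_nonneg (hF : F.Ok K2 Kp P Kmk Cmk) (n : ℕ) : 0 ≤ fiK4 k n K2 Kp P Kmk Cmk := by
  have h1 := hF.Kmk_nonneg
  have h2 : 0 ≤ fiK3 k n K2 Kp P Cmk ^ (((k : ℝ) + 1) / k) := Real.rpow_nonneg (fi_K3_nonneg hF n) _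
  unfold fiK4
  positivity

/-- product of the bounds of the factors -/
theorem fi_prod_rpow (k : ℕ) (K3 : ℝ) (hK3 : 0 ≤ K3) (e : Fin (k + 1) → ℝ≥0∞) :
    ∏ j, (ENNReal.ofReal K3 * e j) ^ (1 / (k : ℝ)) = ENNReal.ofReal (K3 ^ (((k : ℝ) + 1) / k)) * ∏ j, e j ^ (1 / (k : ℝ)) := by
  have hk : (0 : ℝ) ≤ 1 / (k : ℝ) := by positivity
  simp only [ENNReal.mul_rpow_of_nonneg _ _ hk]
  rw [Finset.prod_mul_distrib, Finset.prod_const, Finset.card_univ, Fintype.card_fin]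
  congr 1
  rw [← ENNReal.rpow_natCast, ← ENNReal.rpow_mul, ENNReal.ofReal_rpow_of_nonneg hK3 (by positivity)]
  congr 2
  push_cast
  ring

/-- **LEAF L-257-FI-A11: ONE NODE OF THE CHAIN on cubes** (100 l.)  (f:one-inflation) + `L²`.
PLAN: `a = κ h/(k+1)`, `z₀ = fiCor a m`; as in `fi_l2_cube` the cube lies in `closedBall z₀ (κ h)`; `hF.kak h (h+d) …  z₀`; for `X'` in the cube `fi_avg_le` bounds every factor:
`ofReal ((κ^{k+1})⁻¹) * ∫ ≤ ofReal (fiK3) * E j h X'` (`ENNReal.ofReal_mul`, `inv_mul_cancel₀`); `ENNReal.rpow_le_rpow`, `ENNReal.mul_rpow_of_nonneg`, `Finset.prod_mul_distrib`, `Finset.prod_const`, `Finset.card_fin`: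
`∏_j (ofReal K3)^{1/k} = ofReal (K3^{(k+1)/k})` (`ENNReal.ofReal_rpow_of_nonneg`, `← ENNReal.rpow_natCast`, `← ENNReal.rpow_mul`).   Then `fi_cube_avg`. -/
theorem fi_node_cube (hF : F.Ok K2 Kp P Kmk Cmk) (h : ℕ) (hb : F.bot ≤ h) (d n : ℕ) (hd0 : 0 < d) (hd : d ≤ n) (ht : h + d ≤ F.top) (hκ : F.κ h ≤ F.κ (h + d) ^ 2)
    (m : (Fin k → ℤ) × ℤ) :
    ∫⁻ X in cubeS (F.κ h / ((k : ℝ) + 1)) m, F.G (h + d) X ≤ ENNReal.ofReal (fiK4 k n K2 Kp P Kmk Cmk) * ∫⁻ X in cubeS (F.κ h / ((k : ℝ) + 1)) m, F.G h X := by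
  have hk : (0 : ℝ) < (k : ℝ) + 1 := by positivity
  have hκ0 := hF.κ_pos h
  have ha : 0 < F.κ h / ((k : ℝ) + 1) := by positivity
  refine fi_cube_avg _ _ _ ha _ (fi_K4_nonneg hF n) m fun X' hX' => ?_
  have hsub := fi_cube_ball (F.κ h) hκ0 m
  obtain ⟨z₀, hz₀⟩ : ∃ z₀ : ST k, z₀ = fiCor (F.κ h / ((k : ℝ) + 1)) m := ⟨_, rfl⟩
  rw [← hz₀] at hsub
  have hX : ‖X' - z₀‖ ≤ F.κ h := by
    rw [← dist_eq_norm]
    exact hsub hX'
  have hK3 := fi_K3_nonneg hF n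
  have hv : 0 < F.κ h ^ (k + 1) := by positivity
  have hfac : ∀ j, (ENNReal.ofReal ((F.κ h ^ (k + 1))⁻¹) * ∫⁻ X in closedBall z₀ (Cmk * F.κ h), F.E j (h + d) X) ^ (1 / (k : ℝ))
      ≤ (ENNReal.ofReal (fiK3 k n K2 Kp P Cmk) * F.E j h X') ^ (1 / (k : ℝ)) := by
    intro j
    refine ENNReal.rpow_le_rpow ?_ (by positivity)
    refine (mul_le_mul_right (fi_avg_le hF h hb d n hd ht j z₀ X' hX) _).trans (le_of_eq ?_)
    rw [← mul_assoc, ← ENNReal.ofReal_mul (by positivity)]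
    congr 2
    field_simp
  calc ∫⁻ X in cubeS (F.κ h / ((k : ℝ) + 1)) m, F.G (h + d) X
      ≤ ∫⁻ X in closedBall z₀ (F.κ h), F.G (h + d) X := lintegral_mono_set hsub
    _ ≤ ENNReal.ofReal (Kmk * F.κ h ^ (k + 1)) *
          ∏ j, (ENNReal.ofReal ((F.κ h ^ (k + 1))⁻¹) * ∫⁻ X in closedBall z₀ (Cmk * F.κ h), F.E j (h + d) X) ^ (1 / (k : ℝ)) :=
        hF.kak h (h + d) hb (by omega) ht hκ z₀
    _ ≤ ENNReal.ofReal (Kmk * F.κ h ^ (k + 1)) * ∏ j, (ENNReal.ofReal (fiK3 k n K2 Kp P Cmk) * F.E j h X') ^ (1 / (k : ℝ)) :=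
        mul_le_mul_right (Finset.prod_le_prod' fun j _ => hfac j) _
    _ = ENNReal.ofReal (fiK4 k n K2 Kp P Kmk Cmk * (F.κ h / ((k : ℝ) + 1)) ^ (k + 1)) * F.G h X' := by
        rw [fi_prod_rpow k _ hK3, ← mul_assoc, ← ENNReal.ofReal_mul (mul_nonneg hF.Kmk_nonneg hv.le)]
        unfold FiCfg.G
        congr 2
        unfold fiK4
        rw [div_pow]
        field_simp

/-- **LEAF L-257-FI-A12: THE CHAIN** (90 l.)   `nd 0 = top > nd 1 > … > nd s = bot`, `κ (nd (a+1)) ≤ κ (nd a)²`.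
PLAN: prove by induction on `a ≤ s`:  `∫_{fiQ c ρ} G top ≤ ofReal (K4^a) ∫_{fiQ c (ρ + a κ bot)} G (nd a)`.   Step: `nd a = nd (a+1) + d` with `d = nd a - nd (a+1) > 0`, `d ≤ top - bot` (`nd` antitone between `bot` and `top`: prove `bot ≤ nd a ≤ top` for `a ≤ s` first, from `hnd`);
`fi_grid` with `fi_node_cube` (`n = top - bot`), side `κ (nd (a+1))/(k+1) ≤ κ bot` (`fi_κ_anti` with `nd (a+1) = bot + _`), `fi_Q_mono`. -/
theorem fi_chain (hF : F.Ok K2 Kp P Kmk Cmk) (s : ℕ) (nd : ℕ → ℕ) (h0 : nd 0 = F.top) (hs : nd s = F.bot) (hnd : ∀ a, a < s → nd (a + 1) < nd a)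
    (hκ : ∀ a, a < s → F.κ (nd (a + 1)) ≤ F.κ (nd a) ^ 2) (c : ST k) (ρ : ℝ) :
    ∫⁻ X in fiQ c ρ, F.G F.top X ≤ ENNReal.ofReal (fiK4 k (F.top - F.bot) K2 Kp P Kmk Cmk ^ s) * ∫⁻ X in fiQ c (ρ + s * F.κ F.bot), F.G F.bot X := by
  have htop : ∀ a, a ≤ s → nd a ≤ F.top := by
    intro a
    induction a with
    | zero => intro _; exact h0.le
    | succ a ih => intro ha; exact (hnd a (by omega)).le.trans (ih (by omega))
  have hanti : ∀ a b, a + b ≤ s → nd (a + b) ≤ nd a := by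
    intro a b
    induction b with
    | zero => intro _; exact le_rfl
    | succ b ih => intro hab; exact (hnd (a + b) (by omega)).le.trans (ih (by omega))
  have hbot : ∀ a, a ≤ s → F.bot ≤ nd a := by
    intro a ha
    have := hanti a (s - a) (by omega)
    rw [show a + (s - a) = s by omega, hs] at this
    exact this
  have hK4 := fi_K4_nonneg hF (F.top - F.bot)
  have key : ∀ a, a ≤ s → ∫⁻ X in fiQ c ρ, F.G F.top X ≤ ENNReal.ofReal (fiK4 k (F.top - F.bot) K2 Kp P Kmk Cmk ^ a) *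
      ∫⁻ X in fiQ c (ρ + a * F.κ F.bot), F.G (nd a) X := by
    intro a
    induction a with
    | zero =>
      intro _
      simp [h0]
    | succ a ih =>
      intro ha
      have ih' := ih (by omega)
      obtain ⟨h, hh⟩ : ∃ h, h = nd (a + 1) := ⟨_, rfl⟩
      obtain ⟨d, hd⟩ : ∃ d, d = nd a - nd (a + 1) := ⟨_, rfl⟩
      have hlt := hnd a (by omega)
      have hsum : nd a = h + d := by omega
      have hbh : F.bot ≤ h := by rw [hh]; exact hbot _ ha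
      have hta : nd a ≤ F.top := htop a (by omega)
      have hk : (0 : ℝ) < (k : ℝ) + 1 := by positivity
      have hκh := hF.κ_pos h
      have hside : 0 < F.κ h / ((k : ℝ) + 1) := by positivity
      have hκ' : F.κ h ≤ F.κ (h + d) ^ 2 := by
        rw [← hsum, hh]
        exact hκ a (by omega)
      have hle : F.κ h / ((k : ℝ) + 1) ≤ F.κ F.bot := by
        have h1 : F.κ h ≤ F.κ F.bot := by
          have := fi_κ_anti hF F.bot (h - F.bot)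
          rwa [show F.bot + (h - F.bot) = h by omega] at this
        refine le_trans ?_ h1
        exact div_le_self hκh.le (by linarith [(Nat.cast_nonneg k : (0 : ℝ) ≤ k)])
      have g1 := fi_grid (F.G (h + d)) (F.G h) _ hside (ENNReal.ofReal (fiK4 k (F.top - F.bot) K2 Kp P Kmk Cmk))
        (fun m => fi_node_cube hF h hbh d (F.top - F.bot) (by omega) (by omega) (by omega) hκ' m) c (ρ + a * F.κ F.bot)
      have g2 : ∫⁻ z in fiQ c (ρ + a * F.κ F.bot + F.κ h / ((k : ℝ) + 1)), F.G h z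
          ≤ ∫⁻ z in fiQ c (ρ + ((a + 1 : ℕ) : ℝ) * F.κ F.bot), F.G h z := by
        refine lintegral_mono_set (fi_Q_mono c ?_)
        push_cast
        linarith
      rw [hsum] at ih'
      rw [← hh]
      calc ∫⁻ X in fiQ c ρ, F.G F.top X
          ≤ ENNReal.ofReal (fiK4 k (F.top - F.bot) K2 Kp P Kmk Cmk ^ a) * (ENNReal.ofReal (fiK4 k (F.top - F.bot) K2 Kp P Kmk Cmk) *
              ∫⁻ z in fiQ c (ρ + ((a + 1 : ℕ) : ℝ) * F.κ F.bot), F.G h z) :=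
            ih'.trans (mul_le_mul_right (g1.trans (mul_le_mul_right g2 _)) _)
        _ = ENNReal.ofReal (fiK4 k (F.top - F.bot) K2 Kp P Kmk Cmk ^ (a + 1)) *
              ∫⁻ z in fiQ c (ρ + ((a + 1 : ℕ) : ℝ) * F.κ F.bot), F.G h z := by
            rw [← mul_assoc, ← ENNReal.ofReal_mul (by positivity), pow_succ]
  have := key s le_rfl
  rwa [hs] at this

/-- **LEAF L-257-FI-A13: EXIT OF THE ABSTRACT PART, the count** (80 l.)
`Y` = lattice labels of the counted unit cells; `ϑ` = lower bound of `G top` on these cells (witness inequality); `t` = upper bound of `G bot` on the enlarged cube (terminal bound).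
PLAN: `#Y ϑ = ∑_{m ∈ Y} ϑ vol(cubeS 1 m) ≤ ∑_{m ∈ Y} ∫_{cubeS 1 m} G top = ∫_{⋃ m ∈ Y} G top ≤ ∫_{fiQ c ρ} G top` (`fi_cube_vol`, `setLIntegral_const`, `setLIntegral_mono'`, `lintegral_biUnion_finset`, `fi_cube_basic`, `lintegral_mono_set`);
`fi_chain`;  `∫_{fiQ c ρ'} G bot ≤ t vol (fiQ c ρ')` (`fi_Q_vol`). -/
theorem fi_abs_count (hF : F.Ok K2 Kp P Kmk Cmk) (s : ℕ) (nd : ℕ → ℕ) (h0 : nd 0 = F.top) (hs : nd s = F.bot) (hnd : ∀ a, a < s → nd (a + 1) < nd a)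
    (hκ : ∀ a, a < s → F.κ (nd (a + 1)) ≤ F.κ (nd a) ^ 2) (c : ST k) (ρ : ℝ) (hρ : 0 ≤ ρ) (Y : Finset ((Fin k → ℤ) × ℤ)) (ϑ t : ℝ≥0∞)
    (hY : ∀ m ∈ Y, (cubeS 1 m : Set (ST k)) ⊆ fiQ c ρ) (hW : ∀ m ∈ Y, ∀ X ∈ (cubeS 1 m : Set (ST k)), ϑ ≤ F.G F.top X)
    (hT : ∀ X ∈ fiQ c (ρ + s * F.κ F.bot), F.G F.bot X ≤ t) :
    (Y.card : ℝ≥0∞) * ϑ ≤ ENNReal.ofReal (fiK4 k (F.top - F.bot) K2 Kp P Kmk Cmk ^ s * (2 * (ρ + s * F.κ F.bot)) ^ (k + 1)) * t := by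
  obtain ⟨b1, b2, -, -⟩ := fi_cube_basic (k := k) 1 one_pos
  have hK4 := fi_K4_nonneg hF (F.top - F.bot)
  have hρ' : 0 ≤ ρ + s * F.κ F.bot := by
    have := hF.κ_pos F.bot
    positivity
  have s1 : ∀ m ∈ Y, ϑ ≤ ∫⁻ X in (cubeS 1 m : Set (ST k)), F.G F.top X := by
    intro m hm
    calc ϑ = ∫⁻ _X in (cubeS 1 m : Set (ST k)), ϑ := by
          rw [setLIntegral_const, fi_cube_vol 1 one_pos m]
          simp
      _ ≤ ∫⁻ X in (cubeS 1 m : Set (ST k)), F.G F.top X := setLIntegral_mono' (b1 m) (hW m hm)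
  have s2 : ∑ m ∈ Y, ∫⁻ X in (cubeS 1 m : Set (ST k)), F.G F.top X = ∫⁻ X in ⋃ m ∈ Y, (cubeS 1 m : Set (ST k)), F.G F.top X :=
    (lintegral_biUnion_finset (fun m _ m' _ hne => b2 hne) (fun m _ => b1 m) _).symm
  have s3 : ∫⁻ X in ⋃ m ∈ Y, (cubeS 1 m : Set (ST k)), F.G F.top X ≤ ∫⁻ X in fiQ c ρ, F.G F.top X :=
    lintegral_mono_set (iUnion₂_subset hY)
  have s4 := fi_chain hF s nd h0 hs hnd hκ c ρ
  have s5 : ∫⁻ X in fiQ c (ρ + s * F.κ F.bot), F.G F.bot X ≤ t * ENNReal.ofReal ((2 * (ρ + s * F.κ F.bot)) ^ (k + 1)) := by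
    refine (setLIntegral_mono' (fi_Q_meas c _) hT).trans (le_of_eq ?_)
    rw [setLIntegral_const, fi_Q_vol c _ hρ']
  calc (Y.card : ℝ≥0∞) * ϑ = ∑ _m ∈ Y, ϑ := by rw [Finset.sum_const, nsmul_eq_mul]
    _ ≤ ∑ m ∈ Y, ∫⁻ X in (cubeS 1 m : Set (ST k)), F.G F.top X := Finset.sum_le_sum s1
    _ ≤ ENNReal.ofReal (fiK4 k (F.top - F.bot) K2 Kp P Kmk Cmk ^ s) * (t * ENNReal.ofReal ((2 * (ρ + s * F.κ F.bot)) ^ (k + 1))) := by
        rw [s2]
        exact s3.trans (s4.trans (mul_le_mul_right s5 _))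
    _ = ENNReal.ofReal (fiK4 k (F.top - F.bot) K2 Kp P Kmk Cmk ^ s * (2 * (ρ + s * F.κ F.bot)) ^ (k + 1)) * t := by
        rw [ENNReal.ofReal_mul (by positivity)]
        ring

end Claimed.Agent.R257
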