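import Claimed.Agent.R257.FR3.InflMK
import Claimed.Agent.R257.Tree.Defs

/-!
# ROW 257, package FR3, file `InflMKTree`: LOCAL MULTILINEAR KAKEYA FOR THE WEIGHTS `Tree.pw` OF THE CONCRETE TREE      (helper162)

NOTHING is sorried.   `Tree.pw A N v u z = (1 + |natX N v z - u|)^{-A}` is the weight of `InflMK` with intercept `y = N u.1` and native time centre `u.2` (`fi3_pw_eq`).
* `fi3_mk_pw`     REAL nonnegative coefficients, envelope `ofReal (∑_T c_T pw P S (v T) (u T) z)`;   conclusion = literally the shape of the field `kak` of `FiCfg.Ok` (`InflAbs.lean`) with `Kmk = C Q^M`, `Cmk = 2 + 4 B`;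
* `fi3_mk_pw'`    consumer form without inverses;
* `fi3_mk_pw_exp`, `fi3_mk_pw'_exp`   the same with the EXPLICIT exponent `M = (k+1)((k+1)²+(k+1))` of `Q`.
Transversality = `Transv Q` (determinant free, the notion of `Frame/Stmt`, `Lib/BD/Geo.bdg_Trans`, `MK.mk_graph`).
-/

set_option autoImplicit false

namespace Claimed.Agent.R257

open MeasureTheory Metric Set
open scoped ENNReal BigOperators

theorem fi3_pw_eq {k : ℕ} (A N : ℝ) (hN : N ≠ 0) (v : E k) (u z : ST k) :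
    Tree.pw A N v u z = (1 + ‖chart N v (N • u.1) u.2 z‖) ^ (-A) := by
  unfold Tree.pw natX chart
  congr 3
  refine Prod.ext ?_ rfl
  show N⁻¹ • (z.1 - (2 * z.2) • v) - u.1 = N⁻¹ • (z.1 - N • u.1 - (2 * z.2) • v)
  rw [smul_sub, smul_sub, smul_sub, inv_smul_smul₀ hN]
  abel

theorem fi3_pw_env {k : ℕ} {ι : Type*} (S P : ℝ) (hS : 0 < S) (s : Finset ι) (v : ι → E k) (u : ι → ST k) (c : ι → ℝ) (hc : ∀ T ∈ s, 0 ≤ c T) (z : ST k) :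
    ENNReal.ofReal (∑ T ∈ s, c T * Tree.pw P S (v T) (u T) z)
      = fi3EnvR S P s v (fun T => S • (u T).1) (fun T => (u T).2) (fun T => ENNReal.ofReal (c T)) z := by
  unfold fi3EnvR
  rw [ENNReal.ofReal_sum_of_nonneg fun T hT => mul_nonneg (hc T hT) (by unfold Tree.pw; positivity)]
  refine Finset.sum_congr rfl fun T hT => ?_
  rw [ENNReal.ofReal_mul (hc T hT), fi3_pw_eq P S hS.ne']

/-- **local multilinear Kakeya for the envelopes of the concrete tree, consumer form, EXPLICIT exponent of `Q` (independent of `B`, `P`).** -/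
theorem fi3_mk_pw'_exp.{u} (k : ℕ) (hk : 1 ≤ k) (B : ℝ) (hB : 0 ≤ B) (P : ℝ) (hP : 0 ≤ P) :
    ∃ C : ℝ, 0 < C ∧ ∀ (S R Q : ℝ), 0 < S → S ≤ R → R ≤ S ^ 2 → 1 ≤ Q →
    ∀ (ι : Type u) (s : Fin (k + 1) → Finset ι) (v : Fin (k + 1) → ι → E k) (u : Fin (k + 1) → ι → ST k) (c : Fin (k + 1) → ι → ℝ),
    (∀ i, ∀ T ∈ s i, 0 ≤ c i T) → (∀ i, ∀ T ∈ s i, ‖v i T‖ ≤ B) →
    (∀ T : Fin (k + 1) → ι, (∀ i, T i ∈ s i) → Transv Q (fun i => v i (T i))) →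
    ∀ (z₀ : ST k) (F : Fin (k + 1) → ℝ≥0∞),
    (∀ i, ∫⁻ z in closedBall z₀ ((2 + 4 * B) * R), ENNReal.ofReal (∑ T ∈ s i, c i T * Tree.pw P S (v i T) (u i T) z) ≤ ENNReal.ofReal (R ^ (k + 1)) * F i) →
    ∫⁻ z in closedBall z₀ R, ∏ i, ENNReal.ofReal (∑ T ∈ s i, c i T * Tree.pw P S (v i T) (u i T) z) ^ (1 / (k : ℝ))
      ≤ ENNReal.ofReal (C * Q ^ ((k + 1) * ((k + 1) ^ 2 + (k + 1))) * R ^ (k + 1)) * ∏ i, F i ^ (1 / (k : ℝ)) := by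
  obtain ⟨C, hC, H⟩ := fi3_mk_localR_exp.{u} k hk B hB P hP
  refine ⟨C, hC, fun S R Q hS hSR hRS hQ ι s v u c hc hv htr z₀ F hF => ?_⟩
  have e : ∀ i z, ENNReal.ofReal (∑ T ∈ s i, c i T * Tree.pw P S (v i T) (u i T) z)
      = fi3EnvR S P (s i) (v i) (fun T => S • (u i T).1) (fun T => (u i T).2) (fun T => ENNReal.ofReal (c i T)) z :=
    fun i z => fi3_pw_env S P hS (s i) (v i) (u i) (c i) (hc i) z
  simp only [e] at hF ⊢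
  exact H S R Q hS hSR hRS hQ ι s v _ _ _ hv htr z₀ F hF

/-- **local multilinear Kakeya for the envelopes of the concrete tree, averaged form** (= the field `kak` of `FiCfg.Ok`), EXPLICIT exponent of `Q`. -/
theorem fi3_mk_pw_exp.{u} (k : ℕ) (hk : 1 ≤ k) (B : ℝ) (hB : 0 ≤ B) (P : ℝ) (hP : 0 ≤ P) :
    ∃ C : ℝ, 0 < C ∧ ∀ (S R Q : ℝ), 0 < S → S ≤ R → R ≤ S ^ 2 → 1 ≤ Q →
    ∀ (ι : Type u) (s : Fin (k + 1) → Finset ι) (v : Fin (k + 1) → ι → E k) (u : Fin (k + 1) → ι → ST k) (c : Fin (k + 1) → ι → ℝ),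
    (∀ i, ∀ T ∈ s i, 0 ≤ c i T) → (∀ i, ∀ T ∈ s i, ‖v i T‖ ≤ B) →
    (∀ T : Fin (k + 1) → ι, (∀ i, T i ∈ s i) → Transv Q (fun i => v i (T i))) →
    ∀ (z₀ : ST k),
    ∫⁻ z in closedBall z₀ R, ∏ i, ENNReal.ofReal (∑ T ∈ s i, c i T * Tree.pw P S (v i T) (u i T) z) ^ (1 / (k : ℝ))
      ≤ ENNReal.ofReal (C * Q ^ ((k + 1) * ((k + 1) ^ 2 + (k + 1))) * R ^ (k + 1)) *
        ∏ i, (ENNReal.ofReal ((R ^ (k + 1))⁻¹) *
          ∫⁻ z in closedBall z₀ ((2 + 4 * B) * R), ENNReal.ofReal (∑ T ∈ s i, c i T * Tree.pw P S (v i T) (u i T) z)) ^ (1 / (k : ℝ)) := by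
  obtain ⟨C, hC, H⟩ := fi3_mk_pw'_exp.{u} k hk B hB P hP
  refine ⟨C, hC, fun S R Q hS hSR hRS hQ ι s v u c hc hv htr z₀ => ?_⟩
  refine H S R Q hS hSR hRS hQ ι s v u c hc hv htr z₀ _ fun i => ?_
  have hR : 0 < R ^ (k + 1) := pow_pos (hS.trans_le hSR) _
  rw [← mul_assoc, ← ENNReal.ofReal_mul hR.le, mul_inv_cancel₀ hR.ne', ENNReal.ofReal_one, one_mul]

theorem fi3_mk_pw'.{u} (k : ℕ) (hk : 1 ≤ k) (B : ℝ) (hB : 0 ≤ B) (P : ℝ) (hP : 0 ≤ P) :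
    ∃ C : ℝ, ∃ M : ℕ, 0 < C ∧ ∀ (S R Q : ℝ), 0 < S → S ≤ R → R ≤ S ^ 2 → 1 ≤ Q →
    ∀ (ι : Type u) (s : Fin (k + 1) → Finset ι) (v : Fin (k + 1) → ι → E k) (u : Fin (k + 1) → ι → ST k) (c : Fin (k + 1) → ι → ℝ),
    (∀ i, ∀ T ∈ s i, 0 ≤ c i T) → (∀ i, ∀ T ∈ s i, ‖v i T‖ ≤ B) →
    (∀ T : Fin (k + 1) → ι, (∀ i, T i ∈ s i) → Transv Q (fun i => v i (T i))) →
    ∀ (z₀ : ST k) (F : Fin (k + 1) → ℝ≥0∞),
    (∀ i, ∫⁻ z in closedBall z₀ ((2 + 4 * B) * R), ENNReal.ofReal (∑ T ∈ s i, c i T * Tree.pw P S (v i T) (u i T) z) ≤ ENNReal.ofReal (R ^ (k + 1)) * F i) →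
    ∫⁻ z in closedBall z₀ R, ∏ i, ENNReal.ofReal (∑ T ∈ s i, c i T * Tree.pw P S (v i T) (u i T) z) ^ (1 / (k : ℝ))
      ≤ ENNReal.ofReal (C * Q ^ M * R ^ (k + 1)) * ∏ i, F i ^ (1 / (k : ℝ)) := by
  obtain ⟨C, hC, H⟩ := fi3_mk_pw'_exp.{u} k hk B hB P hP
  exact ⟨C, _, hC, H⟩

theorem fi3_mk_pw.{u} (k : ℕ) (hk : 1 ≤ k) (B : ℝ) (hB : 0 ≤ B) (P : ℝ) (hP : 0 ≤ P) :
    ∃ C : ℝ, ∃ M : ℕ, 0 < C ∧ ∀ (S R Q : ℝ), 0 < S → S ≤ R → R ≤ S ^ 2 → 1 ≤ Q →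
    ∀ (ι : Type u) (s : Fin (k + 1) → Finset ι) (v : Fin (k + 1) → ι → E k) (u : Fin (k + 1) → ι → ST k) (c : Fin (k + 1) → ι → ℝ),
    (∀ i, ∀ T ∈ s i, 0 ≤ c i T) → (∀ i, ∀ T ∈ s i, ‖v i T‖ ≤ B) →
    (∀ T : Fin (k + 1) → ι, (∀ i, T i ∈ s i) → Transv Q (fun i => v i (T i))) →
    ∀ (z₀ : ST k),
    ∫⁻ z in closedBall z₀ R, ∏ i, ENNReal.ofReal (∑ T ∈ s i, c i T * Tree.pw P S (v i T) (u i T) z) ^ (1 / (k : ℝ))
      ≤ ENNReal.ofReal (C * Q ^ M * R ^ (k + 1)) *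
        ∏ i, (ENNReal.ofReal ((R ^ (k + 1))⁻¹) *
          ∫⁻ z in closedBall z₀ ((2 + 4 * B) * R), ENNReal.ofReal (∑ T ∈ s i, c i T * Tree.pw P S (v i T) (u i T) z)) ^ (1 / (k : ℝ)) := by
  obtain ⟨C, hC, H⟩ := fi3_mk_pw_exp.{u} k hk B hB P hP
  exact ⟨C, _, hC, H⟩

end Claimed.Agent.R257
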