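import Claimed.Agent.R257.FR3.InflAbs
import Claimed.Agent.R257.FR3.InflMKTree
import Claimed.Agent.R257.Tree.Ref
import Claimed.Agent.R257.FR2.Broad

/-!
# ROW 257, package FR3, unit INFL (`f:inflation`, H frame.tex l.1142-1255), file 2: THE CONCRETE TREE IN THE NATIVE COORDINATES OF A CAP; THE `L²` CONTRACT      (architect helper271)

Definitions only (nothing sorried).   Language: `Tree/Defs.lean` (helper155): `TCls`, `TDat`, `pw A N v u z = (1 + ‖natX N v z - u‖)^(-A)`, `lat`, `TDat.amp`, `TDat.Adm`, `TDat.bb`, `TDat.sys`.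
A FRAME is a pair `(K0, w0)`: scale and velocity of the cap `τ_l` (`K0 = κ lam`, `w0 = fr lam τ`).   Native variable `X = natX K0 w0 z`.
* `D.fiW K0 w0 A h T X`     the weight of the cell `T` of height `h` in the frame: `pw A (κ h / K0) (K0 • (fr h T.1 - w0)) (lat T.2) X`;   `fiW … (natX K0 w0 z) = D.wA A h T z` (`natX_resc`).
* `D.fiE K0 w0 A h M a X`   the envelope `∑_{T ∈ M} a_T² w_T(X)`.
* `D.Und top τ h v`         the label `v` of height `h ≤ top` lies under the label `τ` of height `top` (iterated assigned parents).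
* **`FiL2At c A Cd K2`**    THE ONE-STEP `L²` CONTRACT (H l.1199-1231; provider: unit L2STEP, helper87 + …).
-/

set_option autoImplicit false

namespace Claimed.Agent.R257

open MeasureTheory Metric Set
open Claimed.Agent.R257.Tree Claimed.Agent.R257.FR2
open scoped ENNReal BigOperators BoundedContinuousFunction

noncomputable section

variable {k : ℕ} {c : TCls k}

namespace Tree.TDat

variable (D : TDat c)

/-- the weight of a cell in the frame `(K0, w0)` -/
def fiW (K0 : ℝ) (w0 : E k) (A : ℝ) (h : ℕ) (T : D.Lb h × Lat k) (X : ST k) : ℝ :=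
  pw A (D.κ h / K0) (K0 • (D.fr h T.1 - w0)) (lat T.2) X

/-- the envelope `∑_{T ∈ M} a_T² w_T(X)` in the frame `(K0, w0)` -/
def fiE (K0 : ℝ) (w0 : E k) (A : ℝ) (h : ℕ) (M : Finset (D.Cl h)) (a : D.Cl h → ℝ) (X : ST k) : ℝ :=
  ∑ T ∈ M, a T ^ 2 * D.fiW K0 w0 A h T.1 X

/-- auxiliary: `d` steps of the assigned parents lead from `v` to `τ` -/
def undAux (top : ℕ) (τ : D.Lb top) : ℕ → ∀ h, D.Lb h → Prop
  | 0, h, v => ∃ e : h = top, e ▸ v = τ
  | d + 1, h, v => undAux top τ d (h + 1) (D.par h v)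

/-- the label `v` of height `h` lies under the label `τ` of height `top` -/
def Und (top : ℕ) (τ : D.Lb top) (h : ℕ) (v : D.Lb h) : Prop := D.undAux top τ (top - h) h v

end Tree.TDat

/-- **THE ONE-STEP `L²` CONTRACT** (H frame.tex l.1199-1231, ONE tree step `h → h+1`, no skipped mask).
`g` = ANY admissible family of height `h` (children, scale `κ h`) with amplitudes `a`, whose labels lie within `Cd / K0` of the velocity `w0` of the frame, `K0 ≤ κ (h+1)`.
The parents `T` of height `h+1` carry the FRESH amplitudes `amp h g T` (weighted suprema of the pre-cutoff fields).   In the frame: the integral of the parent envelope over a ball of radius `κ h / K0` (= the relative scale of the CHILDREN;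
physically: width `κ h`, duration `K0 κ h ≤ κ h²`, tilted by `w0`) is `≤ K2 (κ h / K0)^{k+1}` times the child envelope at ANY point `X'` of the ball.   SAME order `A` on both sides, NO power of `κ h / κ (h+1)`.
Only the heights `h < c.ℓ` (the Fourier radii `c.ρ h` grow with `h`: helper162).
[sanity: one child label, `a = 1`: both sides `≈ R^{k+1}`; all `N^k` child labels focusing at one point, `K0 = κ (h+1)`, `R = N`: both sides `≈ N^{2k+1}`.] -/
def FiL2At (c : TCls k) (A Cd K2 : ℝ) : Prop :=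
  ∀ D : TDat c, D.Good → ∀ (h : ℕ), h < c.ℓ → ∀ (g : D.Cl h → (ST k →ᵇ ℂ)) (a : D.Cl h → ℝ), D.Adm h g a →
    ∀ (K0 : ℝ) (w0 : E k), 0 < K0 → K0 ≤ D.κ (h + 1) → (∀ T', a T' ≠ 0 → ‖D.fr h T'.1.1 - w0‖ ≤ Cd / K0) →
    ∀ cc X' : ST k, ‖X' - cc‖ ≤ D.κ h / K0 →
      ∫⁻ X in closedBall cc (D.κ h / K0), ENNReal.ofReal (D.fiE K0 w0 A (h + 1) Finset.univ (D.amp h g) X)
        ≤ ENNReal.ofReal (K2 * (D.κ h / K0) ^ (k + 1) * D.fiE K0 w0 A h Finset.univ a X')

/-- the local multilinear Kakeya estimate for the weights `pw` with its constants (`fi3_mk_pw` of helper162 gives `∃ C M, FiMKAt k B P C M`; `M` depends only on `k, B, P`) -/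
def FiMKAt (k : ℕ) (B P C : ℝ) (M : ℕ) : Prop :=
  ∀ (S R Q : ℝ), 0 < S → S ≤ R → R ≤ S ^ 2 → 1 ≤ Q →
    ∀ (ι : Type) (s : Fin (k + 1) → Finset ι) (v : Fin (k + 1) → ι → E k) (u : Fin (k + 1) → ι → ST k) (cf : Fin (k + 1) → ι → ℝ),
    (∀ i, ∀ T ∈ s i, 0 ≤ cf i T) → (∀ i, ∀ T ∈ s i, ‖v i T‖ ≤ B) →
    (∀ T : Fin (k + 1) → ι, (∀ i, T i ∈ s i) → Transv Q (fun i => v i (T i))) →
    ∀ (z₀ : ST k),
    ∫⁻ z in closedBall z₀ R, ∏ i, ENNReal.ofReal (∑ T ∈ s i, cf i T * pw P S (v i T) (u i T) z) ^ (1 / (k : ℝ))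
      ≤ ENNReal.ofReal (C * Q ^ M * R ^ (k + 1)) *
        ∏ i, (ENNReal.ofReal ((R ^ (k + 1))⁻¹) *
          ∫⁻ z in closedBall z₀ ((2 + 4 * B) * R), ENNReal.ofReal (∑ T ∈ s i, cf i T * pw P S (v i T) (u i T) z)) ^ (1 / (k : ℝ))

theorem fi_mk_at (k : ℕ) (hk : 1 ≤ k) (B : ℝ) (hB : 0 ≤ B) (P : ℝ) (hP : 0 ≤ P) : ∃ C : ℝ, ∃ M : ℕ, 0 < C ∧ FiMKAt k B P C M := by
  obtain ⟨C, M, hC, H⟩ := fi3_mk_pw.{0} k hk B hB P hP
  exact ⟨C, M, hC, H⟩

end

end Claimed.Agent.R257
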