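import Claimed.Agent.Lib.MK.GraphExp
import Claimed.Agent.R257.Frame.Stmt

/-!
# ROW 257, package FR3, file `InflMK`: THE LOCAL WEIGHTED CYLINDER CONSEQUENCE OF MULTILINEAR KAKEYA      (helper162)

PAPER-FREE.  H frame.tex (f:one-inflation) l.1184-1197 and the display of l.1541-1555 (`f:cross-field-inflation`).  Prefix `fi3_`.   CONSUMERS: INFL chain (helper271), XF-B (helper15), INST.
`k + 1` families of polynomial tube envelopes of scale `S` (the packet weights `Arr.wt` of `Frame/Stmt`), frequencies bounded by `B`, `Transv Q` for all tuples, `S ≤ R ≤ S²`: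
  `∫_{B(z₀,R)} ∏_i E_i^{1/k} ≤ C Q^M R^{k+1} ∏_i (R^{-(k+1)} ∫_{B(z₀,(2+4B)R)} E_i)^{1/k}`,      `C = C(k,B,P)`, `M = M(k,B)`: NO loss in `R/S`, NO lower bound on `P`.
Balls of `ST k = E k × ℝ` (sup metric: ball = spatial ball × time interval).
* `fi3Env`        the envelope `∑_T c_T (1 + |chart S ω_T y_T τ_T z|)^{-P}`, coefficients in `ℝ≥0∞`;
* `fi3EnvR`, `fi3_mk_localR`, `fi3_mk_avgR`  the same with a REAL order `P ≥ 0` (`rpow`; weights `Tree.pw`: see `InflMKTree.lean`);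
* `fi3_mk_abs_exp`, `fi3_mk_localR_exp`  EXPLICIT exponent `M = (k+1)((k+1)²+(k+1))` of `Q` (independent of `B`, `P`);
* `fi3_mk_local`  consumer form without inverses (`∫_{C B} E_i ≤ R^{k+1} F_i` is exactly the exit of the `L²` step);      `fi3_mk_avg` the averaged form;      `fi3_mk_env` the form for `Arr.env`.
PROOF (no dyadic decomposition, no near/far splitting): `MK.mk_graph` is stated for tubes whose positions are distributed by an ARBITRARY measure.  On `|t - t₀| ≤ R ≤ S²` the time factor of the weight is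
frozen up to `2^P`: `w_T(x,t) ≈ G_T(x - 2tω)`, `G_T(a) = (1 + max(|a - y|/S, |t₀/S² - τ|))^{-P}`;  `G_T(c) ≤ 2^P |B_S|⁻¹ ∫_{B(c,S)} G_T`;  for `z ∈ B(z₀,R)` the ball `B(x - 2tω, S)` lies in
`A_T = B(x₀ - 2t₀ω, (2+2B)R)`, so `μ_T = c_T 4^P |B_S|⁻¹ G_T 1_{A_T} da` dominates;   its mass is `≤ c_T 8^P |B_S|⁻¹ (2R)⁻¹ ∫_{B(z₀,(2+4B)R)} w_T` (Tonelli + translation for every `|t - t₀| ≤ R`).
-/

set_option autoImplicit false

namespace Claimed.Agent.R257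

open MeasureTheory Metric Set
open scoped ENNReal BigOperators

/-- scalar comparison -/
theorem fi3_scal (P : ℝ) (hP : 0 ≤ P) {A A' : ℝ} (hA : 0 ≤ A) (hA' : 0 ≤ A') (h : A' ≤ A + 1) :
    (1 + A) ^ (-P) ≤ 2 ^ P * (1 + A') ^ (-P) := by
  rw [Real.rpow_neg (by positivity), Real.rpow_neg (by positivity)]
  have h1 : 0 < (1 + A) ^ P := by positivity
  have h2 : 0 < (1 + A') ^ P := by positivity
  rw [← div_eq_mul_inv, le_div_iff₀ h2, inv_mul_le_iff₀ h1, ← Real.mul_rpow (by positivity) (by positivity)]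
  exact Real.rpow_le_rpow (by positivity) (by linarith) hP

section abs

variable {V : Type*} [NormedAddCommGroup V] [NormedSpace ℝ V]

/-- the packet weight over an abstract space -/
noncomputable def fi3W (S : ℝ) (P : ℝ) (om y : V) (tc : ℝ) (z : V × ℝ) : ℝ :=
  (1 + ‖((S⁻¹ • (z.1 - y - (2 * z.2) • om), z.2 / S ^ 2 - tc) : V × ℝ)‖) ^ (-P)

/-- the weight with frozen time factor, as a function of the position of the tube -/
noncomputable def fi3G (S : ℝ) (P : ℝ) (y : V) (ρ : ℝ) (a : V) : ℝ :=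
  (1 + max ‖S⁻¹ • (a - y)‖ ρ) ^ (-P)

theorem fi3_W_cont (S : ℝ) (P : ℝ) (om y : V) (tc : ℝ) : Continuous (fi3W S P om y tc) := by
  unfold fi3W
  refine Continuous.rpow_const (by fun_prop) fun z => Or.inl ?_
  positivity

theorem fi3_G_cont (S : ℝ) (P : ℝ) (y : V) (ρ : ℝ) (hρ : 0 ≤ ρ) : Continuous (fi3G S P y ρ) := by
  unfold fi3G
  refine Continuous.rpow_const (by fun_prop) fun z => Or.inl ?_
  have : 0 ≤ max ‖S⁻¹ • (z - y)‖ ρ := le_max_of_le_right hρ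
  positivity

theorem fi3_time {S R t t₀ tc : ℝ} (hS : 0 < S) (hRS : R ≤ S ^ 2) (ht : |t - t₀| ≤ R) :
    |t / S ^ 2 - tc| ≤ |t₀ / S ^ 2 - tc| + 1 := by
  have hS2 : 0 < S ^ 2 := by positivity
  have h1 : t / S ^ 2 - tc = (t₀ / S ^ 2 - tc) + (t - t₀) / S ^ 2 := by ring
  rw [h1]
  refine (abs_add_le _ _).trans ?_
  have h2 : |(t - t₀) / S ^ 2| ≤ 1 := by
    rw [abs_div, abs_of_pos hS2, div_le_one hS2]
    exact ht.trans hRS
  gcongr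

theorem fi3_W_le_G {S R : ℝ} (P : ℝ) (hP : 0 ≤ P) (om y : V) (tc : ℝ) (hS : 0 < S) (hRS : R ≤ S ^ 2) (x : V) {t t₀ : ℝ} (ht : |t - t₀| ≤ R) :
    fi3W S P om y tc (x, t) ≤ 2 ^ P * fi3G S P y |t₀ / S ^ 2 - tc| (x + (2 * t) • (-om)) := by
  unfold fi3W fi3G
  rw [Prod.norm_def, Real.norm_eq_abs]
  have e : x + (2 * t) • (-om) - y = x - y - (2 * t) • om := by rw [smul_neg]; abel
  rw [e]
  refine fi3_scal P hP (le_max_of_le_left (norm_nonneg _)) (le_max_of_le_left (norm_nonneg _)) ?_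
  have h1 : |t₀ / S ^ 2 - tc| ≤ |t / S ^ 2 - tc| + 1 := fi3_time hS hRS (by rwa [abs_sub_comm])
  refine max_le ?_ ?_
  · exact (le_max_left _ _).trans (le_add_of_nonneg_right zero_le_one)
  · exact h1.trans (by gcongr; exact le_max_right _ _)

theorem fi3_G_le_W {S R : ℝ} (P : ℝ) (hP : 0 ≤ P) (om y : V) (tc : ℝ) (hS : 0 < S) (hRS : R ≤ S ^ 2) (x : V) {t t₀ : ℝ} (ht : |t - t₀| ≤ R) :
    fi3G S P y |t₀ / S ^ 2 - tc| (x + (2 * t) • (-om)) ≤ 2 ^ P * fi3W S P om y tc (x, t) := by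
  unfold fi3W fi3G
  rw [Prod.norm_def, Real.norm_eq_abs]
  have e : x + (2 * t) • (-om) - y = x - y - (2 * t) • om := by rw [smul_neg]; abel
  rw [e]
  refine fi3_scal P hP (le_max_of_le_left (norm_nonneg _)) (le_max_of_le_left (norm_nonneg _)) ?_
  have h1 : |t / S ^ 2 - tc| ≤ |t₀ / S ^ 2 - tc| + 1 := fi3_time hS hRS ht
  refine max_le ?_ ?_
  · exact (le_max_left _ _).trans (le_add_of_nonneg_right zero_le_one)
  · exact h1.trans (by gcongr; exact le_max_right _ _)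

theorem fi3_G_shift {S : ℝ} (P : ℝ) (hP : 0 ≤ P) (y : V) (ρ : ℝ) (hS : 0 < S) {a a' : V} (h : ‖a - a'‖ ≤ S) :
    fi3G S P y ρ a' ≤ 2 ^ P * fi3G S P y ρ a := by
  unfold fi3G
  refine fi3_scal P hP (le_max_of_le_left (norm_nonneg _)) (le_max_of_le_left (norm_nonneg _)) ?_
  have h1 : ‖S⁻¹ • (a - y)‖ ≤ ‖S⁻¹ • (a' - y)‖ + 1 := by
    have e : S⁻¹ • (a - y) = S⁻¹ • (a' - y) + S⁻¹ • (a - a') := by rw [← smul_add]; congr 1; abel
    rw [e]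
    refine (norm_add_le _ _).trans ?_
    have : ‖S⁻¹ • (a - a')‖ ≤ 1 := by
      rw [norm_smul, norm_inv, Real.norm_eq_abs, abs_of_pos hS, inv_mul_le_iff₀ hS, mul_one]
      exact h
    gcongr
  refine max_le ?_ ?_
  · exact h1.trans (by gcongr; exact le_max_left _ _)
  · exact (le_max_right _ _).trans (le_add_of_nonneg_right zero_le_one)

theorem fi3_G_nonneg (S : ℝ) (P : ℝ) (y : V) (ρ : ℝ) (a : V) : 0 ≤ fi3G S P y ρ a := by
  unfold fi3G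
  have : 0 ≤ max ‖S⁻¹ • (a - y)‖ ρ := le_max_of_le_left (norm_nonneg _)
  positivity

theorem fi3_W_nonneg (S : ℝ) (P : ℝ) (om y : V) (tc : ℝ) (z : V × ℝ) : 0 ≤ fi3W S P om y tc z := by
  unfold fi3W
  positivity

end abs

section meas

variable {V : Type*} [NormedAddCommGroup V] [InnerProductSpace ℝ V] [FiniteDimensional ℝ V] [MeasurableSpace V] [BorelSpace V]

/-- the measure of the positions of the tubes representing one polynomial weight -/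
noncomputable def fi3Nu (S : ℝ) (P : ℝ) (y : V) (ρ : ℝ) (A : Set V) : Measure V :=
  (volume.restrict A).withDensity fun a => ENNReal.ofReal (fi3G S P y ρ a)

theorem fi3_ptw {S R B : ℝ} (P : ℝ) (hP : 0 ≤ P) (om y : V) (tc : ℝ) (hS : 0 < S) (hSR : S ≤ R) (hRS : R ≤ S ^ 2) (hom : ‖om‖ ≤ B)
    (z₀ z : V × ℝ) (hz : z ∈ closedBall z₀ R) :
    ENNReal.ofReal (fi3W S P om y tc z) * volume (closedBall (0 : V) S) ≤
      ENNReal.ofReal (4 ^ P) * fi3Nu S P y |z₀.2 / S ^ 2 - tc| (closedBall (z₀.1 + (2 * z₀.2) • (-om)) ((2 + 2 * B) * R))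
        (closedBall (z.1 + (2 * z.2) • (-om)) S) := by
  have hR : 0 ≤ R := hS.le.trans hSR
  rw [← closedBall_prod_same, mem_prod, mem_closedBall, mem_closedBall, dist_eq_norm, Real.dist_eq] at hz
  obtain ⟨hz1, hz2⟩ := hz
  obtain ⟨c, hc⟩ : ∃ c : V, c = z.1 + (2 * z.2) • (-om) := ⟨_, rfl⟩
  rw [← hc]
  have hcc : ‖c - (z₀.1 + (2 * z₀.2) • (-om))‖ ≤ R + 2 * B * R := by
    have e : c - (z₀.1 + (2 * z₀.2) • (-om)) = (z.1 - z₀.1) + (2 * (z.2 - z₀.2)) • (-om) := by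
      rw [hc, mul_sub, sub_smul]; abel
    rw [e]
    refine (norm_add_le _ _).trans (add_le_add hz1 ?_)
    rw [norm_smul, norm_neg, Real.norm_eq_abs, abs_mul, abs_two]
    calc 2 * |z.2 - z₀.2| * ‖om‖ ≤ 2 * R * B := by gcongr
      _ = 2 * B * R := by ring
  have hsub : closedBall c S ⊆ closedBall (z₀.1 + (2 * z₀.2) • (-om)) ((2 + 2 * B) * R) := by
    refine closedBall_subset_closedBall' ?_
    rw [dist_eq_norm]
    nlinarith
  have h1 : fi3Nu S P y |z₀.2 / S ^ 2 - tc| (closedBall (z₀.1 + (2 * z₀.2) • (-om)) ((2 + 2 * B) * R)) (closedBall c S)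
      = ∫⁻ a in closedBall c S, ENNReal.ofReal (fi3G S P y |z₀.2 / S ^ 2 - tc| a) := by
    unfold fi3Nu
    rw [withDensity_apply _ isClosed_closedBall.measurableSet, Measure.restrict_restrict isClosed_closedBall.measurableSet,
      inter_eq_self_of_subset_left hsub]
  have h2 : ENNReal.ofReal (fi3G S P y |z₀.2 / S ^ 2 - tc| c / 2 ^ P) * volume (closedBall c S)
      ≤ ∫⁻ a in closedBall c S, ENNReal.ofReal (fi3G S P y |z₀.2 / S ^ 2 - tc| a) := by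
    rw [← setLIntegral_const]
    refine setLIntegral_mono' isClosed_closedBall.measurableSet fun a ha => ENNReal.ofReal_le_ofReal ?_
    rw [div_le_iff₀ (by positivity), mul_comm]
    refine fi3_G_shift P hP y _ hS ?_
    rwa [mem_closedBall, dist_eq_norm] at ha
  have h3 : fi3W S P om y tc z ≤ 4 ^ P * (fi3G S P y |z₀.2 / S ^ 2 - tc| c / 2 ^ P) := by
    have := fi3_W_le_G P hP om y tc hS hRS z.1 hz2
    rw [← hc] at this
    refine this.trans (le_of_eq ?_)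
    have : (4 : ℝ) ^ P = 2 ^ P * 2 ^ P := by rw [← Real.mul_rpow (by norm_num) (by norm_num)]; norm_num
    rw [this]
    field_simp
  rw [h1]
  calc ENNReal.ofReal (fi3W S P om y tc z) * volume (closedBall (0 : V) S)
      ≤ ENNReal.ofReal (4 ^ P * (fi3G S P y |z₀.2 / S ^ 2 - tc| c / 2 ^ P)) * volume (closedBall c S) := by
        rw [Measure.addHaar_closedBall_center volume c S]
        gcongr
    _ = ENNReal.ofReal (4 ^ P) * (ENNReal.ofReal (fi3G S P y |z₀.2 / S ^ 2 - tc| c / 2 ^ P) * volume (closedBall c S)) := by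
        rw [ENNReal.ofReal_mul (by positivity), mul_assoc]
    _ ≤ _ := by gcongr

theorem fi3_mass {S R B : ℝ} (P : ℝ) (hP : 0 ≤ P) (om y : V) (tc : ℝ) (hS : 0 < S) (hSR : S ≤ R) (hRS : R ≤ S ^ 2) (hB : 0 ≤ B) (hom : ‖om‖ ≤ B)
    (z₀ : V × ℝ) :
    ENNReal.ofReal (2 * R) * fi3Nu S P y |z₀.2 / S ^ 2 - tc| (closedBall (z₀.1 + (2 * z₀.2) • (-om)) ((2 + 2 * B) * R)) univ ≤
      ENNReal.ofReal (2 ^ P) * ∫⁻ z in closedBall z₀ ((2 + 4 * B) * R), ENNReal.ofReal (fi3W S P om y tc z) := by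
  have hR : 0 ≤ R := hS.le.trans hSR
  obtain ⟨ρ, hρ⟩ : ∃ ρ : ℝ, ρ = |z₀.2 / S ^ 2 - tc| := ⟨_, rfl⟩
  have hρ0 : 0 ≤ ρ := hρ ▸ abs_nonneg _
  obtain ⟨A, hA⟩ : ∃ A : Set V, A = closedBall (z₀.1 + (2 * z₀.2) • (-om)) ((2 + 2 * B) * R) := ⟨_, rfl⟩
  have hAm : MeasurableSet A := hA ▸ isClosed_closedBall.measurableSet
  have hGm : Measurable fun a => ENNReal.ofReal (fi3G S P y ρ a) := (fi3_G_cont S P y ρ hρ0).measurable.ennreal_ofReal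
  have hWm : Measurable fun z => ENNReal.ofReal (fi3W S P om y tc z) := (fi3_W_cont S P om y tc).measurable.ennreal_ofReal
  rw [← hρ, ← hA]
  have h1 : fi3Nu S P y ρ A univ = ∫⁻ a in A, ENNReal.ofReal (fi3G S P y ρ a) := by
    unfold fi3Nu
    rw [withDensity_apply _ MeasurableSet.univ, Measure.restrict_univ]
  rw [h1]
  have h2 : ∀ t ∈ closedBall z₀.2 R, ∫⁻ a in A, ENNReal.ofReal (fi3G S P y ρ a)
      ≤ ENNReal.ofReal (2 ^ P) * ∫⁻ x in closedBall z₀.1 ((2 + 4 * B) * R), ENNReal.ofReal (fi3W S P om y tc (x, t)) := by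
    intro t ht
    rw [mem_closedBall, Real.dist_eq] at ht
    rw [← (measurePreserving_add_right volume ((2 * t) • (-om))).setLIntegral_comp_preimage hAm hGm]
    have hsub : (fun x : V => x + (2 * t) • (-om)) ⁻¹' A ⊆ closedBall z₀.1 ((2 + 4 * B) * R) := by
      intro x hx
      rw [mem_preimage, hA, mem_closedBall, dist_eq_norm] at hx
      rw [mem_closedBall, dist_eq_norm]
      have e : x - z₀.1 = (x + (2 * t) • (-om) - (z₀.1 + (2 * z₀.2) • (-om))) + (2 * (t - z₀.2)) • om := by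
        rw [mul_sub, sub_smul, smul_neg, smul_neg]; abel
      rw [e]
      refine (norm_add_le _ _).trans ?_
      have : ‖(2 * (t - z₀.2)) • om‖ ≤ 2 * R * B := by
        rw [norm_smul, Real.norm_eq_abs, abs_mul, abs_two]
        gcongr
      nlinarith
    refine (lintegral_mono_set hsub).trans ?_
    have hWt : Measurable fun x : V => ENNReal.ofReal (fi3W S P om y tc (x, t)) := hWm.comp (measurable_id.prodMk measurable_const)
    rw [← lintegral_const_mul _ hWt]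
    refine lintegral_mono fun x => ?_
    rw [← ENNReal.ofReal_mul (by positivity)]
    refine ENNReal.ofReal_le_ofReal ?_
    rw [hρ]
    exact fi3_G_le_W P hP om y tc hS hRS x ht
  calc ENNReal.ofReal (2 * R) * ∫⁻ a in A, ENNReal.ofReal (fi3G S P y ρ a)
      = ∫⁻ _t in closedBall z₀.2 R, ∫⁻ a in A, ENNReal.ofReal (fi3G S P y ρ a) := by
        rw [setLIntegral_const, Real.volume_closedBall, mul_comm]
    _ ≤ ∫⁻ t in closedBall z₀.2 R, ENNReal.ofReal (2 ^ P) * ∫⁻ x in closedBall z₀.1 ((2 + 4 * B) * R), ENNReal.ofReal (fi3W S P om y tc (x, t)) :=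
        setLIntegral_mono' isClosed_closedBall.measurableSet h2
    _ = ENNReal.ofReal (2 ^ P) * ∫⁻ t in closedBall z₀.2 R, ∫⁻ x in closedBall z₀.1 ((2 + 4 * B) * R), ENNReal.ofReal (fi3W S P om y tc (x, t)) := by
        rw [lintegral_const_mul]
        exact hWm.lintegral_prod_left'
    _ = ENNReal.ofReal (2 ^ P) * ∫⁻ z in closedBall z₀.1 ((2 + 4 * B) * R) ×ˢ closedBall z₀.2 R, ENNReal.ofReal (fi3W S P om y tc z) := by
        rw [Measure.volume_eq_prod, ← Measure.prod_restrict, lintegral_prod_symm _ hWm.aemeasurable]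
    _ ≤ _ := by
        gcongr
        rw [← closedBall_prod_same]
        refine prod_mono le_rfl (closedBall_subset_closedBall ?_)
        nlinarith

/-- pointwise domination of one weight by the mass of the tubes through the point -/
theorem fi3_dom {S R B w : ℝ} {k : ℕ} (P : ℝ) (hP : 0 ≤ P) (om y : V) (tc : ℝ) (hS : 0 < S) (hSR : S ≤ R) (hRS : R ≤ S ^ 2) (hom : ‖om‖ ≤ B) (hw0 : 0 < w)
    (hvS : volume (closedBall (0 : V) S) = ENNReal.ofReal (S ^ k * w)) (z₀ z : V × ℝ) (hz : z ∈ closedBall z₀ R) (c : ℝ≥0∞) :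
    c * ENNReal.ofReal (fi3W S P om y tc z) ≤
      ((c * ENNReal.ofReal (4 ^ P * (S ^ k * w)⁻¹)) • fi3Nu S P y |z₀.2 / S ^ 2 - tc| (closedBall (z₀.1 + (2 * z₀.2) • (-om)) ((2 + 2 * B) * R)))
        (closedBall (z.1 + (2 * z.2) • (-om)) S) := by
  have h1 := fi3_ptw P hP om y tc hS hSR hRS hom z₀ z hz
  rw [hvS] at h1
  rw [Measure.smul_apply, smul_eq_mul, mul_assoc]
  gcongr
  have h2 : ENNReal.ofReal (S ^ k * w) * ENNReal.ofReal (S ^ k * w)⁻¹ = 1 := by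
    rw [← ENNReal.ofReal_mul (by positivity), mul_inv_cancel₀ (by positivity), ENNReal.ofReal_one]
  calc ENNReal.ofReal (fi3W S P om y tc z)
      = ENNReal.ofReal (fi3W S P om y tc z) * ENNReal.ofReal (S ^ k * w) * ENNReal.ofReal (S ^ k * w)⁻¹ := by
        rw [mul_assoc, h2, mul_one]
    _ ≤ ENNReal.ofReal (4 ^ P) * fi3Nu S P y |z₀.2 / S ^ 2 - tc| (closedBall (z₀.1 + (2 * z₀.2) • (-om)) ((2 + 2 * B) * R))
          (closedBall (z.1 + (2 * z.2) • (-om)) S) * ENNReal.ofReal (S ^ k * w)⁻¹ := by gcongr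
    _ = _ := by
        rw [ENNReal.ofReal_mul (by positivity)]
        ring

/-- the mass of the dominating measure -/
theorem fi3_mass' {S R B κ : ℝ} (P : ℝ) (hP : 0 ≤ P) (om y : V) (tc : ℝ) (hS : 0 < S) (hSR : S ≤ R) (hRS : R ≤ S ^ 2) (hB : 0 ≤ B) (hom : ‖om‖ ≤ B) (hκ0 : 0 < κ)
    (z₀ : V × ℝ) (c : ℝ≥0∞) :
    ((c * ENNReal.ofReal κ) • fi3Nu S P y |z₀.2 / S ^ 2 - tc| (closedBall (z₀.1 + (2 * z₀.2) • (-om)) ((2 + 2 * B) * R))) univ ≤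
      ENNReal.ofReal (κ * (2 * R)⁻¹ * 2 ^ P) * (c * ∫⁻ z in closedBall z₀ ((2 + 4 * B) * R), ENNReal.ofReal (fi3W S P om y tc z)) := by
  have hR : 0 < R := hS.trans_le hSR
  have h2R : ENNReal.ofReal (2 * R)⁻¹ * ENNReal.ofReal (2 * R) = 1 := by
    rw [← ENNReal.ofReal_mul (by positivity), inv_mul_cancel₀ (by positivity), ENNReal.ofReal_one]
  have h3 := fi3_mass P hP om y tc hS hSR hRS hB hom z₀
  rw [Measure.smul_apply, smul_eq_mul]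
  calc c * ENNReal.ofReal κ * fi3Nu S P y |z₀.2 / S ^ 2 - tc| (closedBall (z₀.1 + (2 * z₀.2) • (-om)) ((2 + 2 * B) * R)) univ
      = c * ENNReal.ofReal κ * (ENNReal.ofReal (2 * R)⁻¹ * (ENNReal.ofReal (2 * R) *
          fi3Nu S P y |z₀.2 / S ^ 2 - tc| (closedBall (z₀.1 + (2 * z₀.2) • (-om)) ((2 + 2 * B) * R)) univ)) := by
        rw [← mul_assoc (ENNReal.ofReal (2 * R)⁻¹), h2R, one_mul]
    _ ≤ c * ENNReal.ofReal κ * (ENNReal.ofReal (2 * R)⁻¹ * (ENNReal.ofReal (2 ^ P) *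
          ∫⁻ z in closedBall z₀ ((2 + 4 * B) * R), ENNReal.ofReal (fi3W S P om y tc z))) := by gcongr
    _ = _ := by
        rw [ENNReal.ofReal_mul (by positivity), ENNReal.ofReal_mul (by positivity)]
        ring

/-- the total mass of one family -/
theorem fi3_mass_sum {ι : Type*} {S R B w K₁ : ℝ} {k : ℕ} (P : ℝ) (hP : 0 ≤ P) (s : Finset ι) (om y : ι → V) (tc : ι → ℝ) (c : ι → ℝ≥0∞)
    (hS : 0 < S) (hSR : S ≤ R) (hRS : R ≤ S ^ 2) (hB : 0 ≤ B) (hom : ∀ j ∈ s, ‖om j‖ ≤ B) (hw0 : 0 < w) (hK₁ : K₁ = 8 ^ P / (2 * w))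
    (z₀ : V × ℝ) (F : ℝ≥0∞)
    (hF : ∫⁻ z in closedBall z₀ ((2 + 4 * B) * R), ∑ j ∈ s, c j * ENNReal.ofReal (fi3W S P (om j) (y j) (tc j) z) ≤ ENNReal.ofReal (R ^ (k + 1)) * F) :
    ∑ j ∈ s, ((c j * ENNReal.ofReal (4 ^ P * (S ^ k * w)⁻¹)) •
      fi3Nu S P (y j) |z₀.2 / S ^ 2 - tc j| (closedBall (z₀.1 + (2 * z₀.2) • (-om j)) ((2 + 2 * B) * R))) univ ≤ ENNReal.ofReal (K₁ * (R / S) ^ k) * F := by
  have hR : 0 < R := hS.trans_le hSR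
  refine (Finset.sum_le_sum fun j hj => fi3_mass' P hP (om j) (y j) (tc j) hS hSR hRS hB (hom j hj) (by positivity) z₀ (c j)).trans ?_
  rw [← Finset.mul_sum]
  have h4 : ∑ j ∈ s, c j * ∫⁻ z in closedBall z₀ ((2 + 4 * B) * R), ENNReal.ofReal (fi3W S P (om j) (y j) (tc j) z)
      = ∫⁻ z in closedBall z₀ ((2 + 4 * B) * R), ∑ j ∈ s, c j * ENNReal.ofReal (fi3W S P (om j) (y j) (tc j) z) := by
    rw [lintegral_finsetSum _ fun j _ => ((fi3_W_cont S P (om j) (y j) (tc j)).measurable.ennreal_ofReal).const_mul _]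
    refine Finset.sum_congr rfl fun j _ => ?_
    rw [lintegral_const_mul _ (fi3_W_cont S P (om j) (y j) (tc j)).measurable.ennreal_ofReal]
  rw [h4]
  refine (mul_le_mul_right hF _).trans (le_of_eq ?_)
  rw [← mul_assoc, ← ENNReal.ofReal_mul (by positivity)]
  congr 2
  have : (8 : ℝ) ^ P = 4 ^ P * 2 ^ P := by rw [← Real.mul_rpow (by norm_num) (by norm_num)]; norm_num
  rw [hK₁, this, div_pow, pow_succ]
  field_simp

end meas

/-- **the local estimate over an abstract space `V`** (`k = finrank V` as a free variable: no cast of `Fin (finrank V + 1)` is left to the consumer), EXPLICIT exponent of `Q` (independent of `B`, `P`) -/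
theorem fi3_mk_abs_exp.{u, v} (V : Type v) [NormedAddCommGroup V] [InnerProductSpace ℝ V] [FiniteDimensional ℝ V] [MeasurableSpace V] [BorelSpace V]
    (k : ℕ) (hfin : Module.finrank ℝ V = k) (hk : 1 ≤ k) (B : ℝ) (hB : 0 ≤ B) (P : ℝ) (hP : 0 ≤ P) :
    ∃ C : ℝ, 0 < C ∧ ∀ (S R Q : ℝ), 0 < S → S ≤ R → R ≤ S ^ 2 → 1 ≤ Q →
    ∀ (ι : Type u) (s : Fin (k + 1) → Finset ι) (om y : Fin (k + 1) → ι → V) (tc : Fin (k + 1) → ι → ℝ) (c : Fin (k + 1) → ι → ℝ≥0∞),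
    (∀ i, ∀ j ∈ s i, ‖om i j‖ ≤ B) →
    (∀ j : Fin (k + 1) → ι, (∀ i, j i ∈ s i) → ∀ t : Fin (k + 1) → ℝ, ∑ i, |t i| ≤ Q * (‖∑ i, t i • om i (j i)‖ + |∑ i, t i|)) →
    ∀ (z₀ : V × ℝ) (F : Fin (k + 1) → ℝ≥0∞),
    (∀ i, ∫⁻ z in closedBall z₀ ((2 + 4 * B) * R), ∑ j ∈ s i, c i j * ENNReal.ofReal (fi3W S P (om i j) (y i j) (tc i j) z)
      ≤ ENNReal.ofReal (R ^ (k + 1)) * F i) →
    ∫⁻ z in closedBall z₀ R, ∏ i, (∑ j ∈ s i, c i j * ENNReal.ofReal (fi3W S P (om i j) (y i j) (tc i j) z)) ^ (1 / (k : ℝ))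
      ≤ ENNReal.ofReal (C * Q ^ ((k + 1) * ((k + 1) ^ 2 + (k + 1))) * R ^ (k + 1)) * ∏ i, F i ^ (1 / (k : ℝ)) := by
  obtain ⟨C, hC, H⟩ := MK.mk_graph_exp.{u, v} V k hfin hk B hB
  obtain ⟨w, hw0, hw⟩ : ∃ w : ℝ, 0 < w ∧ volume (ball (0 : V) 1) = ENNReal.ofReal w := by
    refine ⟨(volume (ball (0 : V) 1)).toReal, ENNReal.toReal_pos (measure_ball_pos _ _ one_pos).ne' measure_ball_lt_top.ne, ?_⟩
    rw [ENNReal.ofReal_toReal measure_ball_lt_top.ne]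
  have hk0 : (0 : ℝ) < k := by exact_mod_cast hk
  have hγ : (0 : ℝ) ≤ 1 / (k : ℝ) := by positivity
  obtain ⟨K₁, hK₁⟩ : ∃ K₁ : ℝ, K₁ = 8 ^ P / (2 * w) := ⟨_, rfl⟩
  have hK₁0 : 0 < K₁ := by rw [hK₁]; positivity
  refine ⟨C * (K₁ ^ (1 / (k : ℝ))) ^ (k + 1), by positivity, ?_⟩
  intro S R Q hS hSR hRS hQ ι s om y tc c hom htr z₀ F hF
  have hR : 0 < R := hS.trans_le hSR
  have hvS : volume (closedBall (0 : V) S) = ENNReal.ofReal (S ^ k * w) := by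
    rw [Measure.addHaar_closedBall _ _ hS.le, hw, hfin, ← ENNReal.ofReal_mul (by positivity)]
  obtain ⟨μ, hμ⟩ : ∃ μ : Fin (k + 1) → ι → Measure V, μ = fun i j => (c i j * ENNReal.ofReal (4 ^ P * (S ^ k * w)⁻¹)) •
      fi3Nu S P (y i j) |z₀.2 / S ^ 2 - tc i j| (closedBall (z₀.1 + (2 * z₀.2) • (-om i j)) ((2 + 2 * B) * R)) := ⟨_, rfl⟩
  have hMK := H S Q hS hQ ι s (fun i j => -om i j) μ
    (fun i j hj => by rw [norm_neg]; exact hom i j hj)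
    (fun j hj t => by
      have := htr j hj t
      simpa only [smul_neg, Finset.sum_neg_distrib, norm_neg] using this)
  have hpt : ∀ z ∈ closedBall z₀ R, ∀ i, ∀ j ∈ s i, c i j * ENNReal.ofReal (fi3W S P (om i j) (y i j) (tc i j) z)
      ≤ μ i j (closedBall (z.1 + (2 * z.2) • (-om i j)) S) := by
    intro z hz i j hj
    rw [hμ]
    exact fi3_dom P hP (om i j) (y i j) (tc i j) hS hSR hRS (hom i j hj) hw0 hvS z₀ z hz (c i j)
  have hmass : ∀ i, ∑ j ∈ s i, μ i j univ ≤ ENNReal.ofReal (K₁ * (R / S) ^ k) * F i := by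
    intro i
    rw [hμ]
    exact fi3_mass_sum P hP (s i) (om i) (y i) (tc i) (c i) hS hSR hRS hB (hom i) hw0 hK₁ z₀ (F i) (hF i)
  have hpow : ENNReal.ofReal (K₁ * (R / S) ^ k) ^ (1 / (k : ℝ)) = ENNReal.ofReal (K₁ ^ (1 / (k : ℝ)) * (R / S)) := by
    rw [ENNReal.ofReal_rpow_of_pos (by positivity), Real.mul_rpow hK₁0.le (by positivity), one_div,
      Real.pow_rpow_inv_natCast (by positivity) (by omega)]
  have e1 : ∫⁻ z in closedBall z₀ R, ∏ i, (∑ j ∈ s i, c i j * ENNReal.ofReal (fi3W S P (om i j) (y i j) (tc i j) z)) ^ (1 / (k : ℝ))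
      ≤ ∫⁻ z in closedBall z₀ R, ∏ i, (∑ j ∈ s i, μ i j (closedBall (z.1 + (2 * z.2) • (-om i j)) S)) ^ (1 / (k : ℝ)) := by
    refine setLIntegral_mono' isClosed_closedBall.measurableSet fun z hz => ?_
    refine Finset.prod_le_prod' fun i _ => ?_
    exact ENNReal.rpow_le_rpow (Finset.sum_le_sum fun j hj => hpt z hz i j hj) hγ
  have e2 : ∫⁻ z in closedBall z₀ R, ∏ i, (∑ j ∈ s i, μ i j (closedBall (z.1 + (2 * z.2) • (-om i j)) S)) ^ (1 / (k : ℝ))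
      ≤ ∫⁻ z : V × ℝ, ∏ i, (∑ j ∈ s i, μ i j (closedBall (z.1 + (2 * z.2) • (-om i j)) S)) ^ (1 / (k : ℝ)) :=
    setLIntegral_le_lintegral _ _
  have e3 : ENNReal.ofReal (C * Q ^ ((k + 1) * ((k + 1) ^ 2 + (k + 1))) * S ^ (k + 1)) * ∏ i, (∑ j ∈ s i, μ i j univ) ^ (1 / (k : ℝ))
      ≤ ENNReal.ofReal (C * Q ^ ((k + 1) * ((k + 1) ^ 2 + (k + 1))) * S ^ (k + 1)) * ∏ i, (ENNReal.ofReal (K₁ ^ (1 / (k : ℝ)) * (R / S)) * F i ^ (1 / (k : ℝ))) := by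
    refine mul_le_mul_right (Finset.prod_le_prod' fun i _ => ?_) _
    rw [← hpow, ← ENNReal.mul_rpow_of_nonneg _ _ hγ]
    exact ENNReal.rpow_le_rpow (hmass i) hγ
  have e4 : ENNReal.ofReal (C * Q ^ ((k + 1) * ((k + 1) ^ 2 + (k + 1))) * S ^ (k + 1)) * ∏ i : Fin (k + 1), (ENNReal.ofReal (K₁ ^ (1 / (k : ℝ)) * (R / S)) * F i ^ (1 / (k : ℝ)))
      = ENNReal.ofReal (C * (K₁ ^ (1 / (k : ℝ))) ^ (k + 1) * Q ^ ((k + 1) * ((k + 1) ^ 2 + (k + 1))) * R ^ (k + 1)) * ∏ i, F i ^ (1 / (k : ℝ)) := by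
    rw [Finset.prod_mul_distrib, Finset.prod_const, Finset.card_univ, Fintype.card_fin, ← mul_assoc, ← ENNReal.ofReal_pow (by positivity),
      ← ENNReal.ofReal_mul (by positivity)]
    congr 2
    rw [mul_pow, div_pow]
    field_simp
  exact e1.trans (e2.trans (hMK.trans (e3.trans e4.le)))

theorem fi3_mk_abs.{u, v} (V : Type v) [NormedAddCommGroup V] [InnerProductSpace ℝ V] [FiniteDimensional ℝ V] [MeasurableSpace V] [BorelSpace V]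
    (k : ℕ) (hfin : Module.finrank ℝ V = k) (hk : 1 ≤ k) (B : ℝ) (hB : 0 ≤ B) (P : ℝ) (hP : 0 ≤ P) :
    ∃ C : ℝ, ∃ M : ℕ, 0 < C ∧ ∀ (S R Q : ℝ), 0 < S → S ≤ R → R ≤ S ^ 2 → 1 ≤ Q →
    ∀ (ι : Type u) (s : Fin (k + 1) → Finset ι) (om y : Fin (k + 1) → ι → V) (tc : Fin (k + 1) → ι → ℝ) (c : Fin (k + 1) → ι → ℝ≥0∞),
    (∀ i, ∀ j ∈ s i, ‖om i j‖ ≤ B) →
    (∀ j : Fin (k + 1) → ι, (∀ i, j i ∈ s i) → ∀ t : Fin (k + 1) → ℝ, ∑ i, |t i| ≤ Q * (‖∑ i, t i • om i (j i)‖ + |∑ i, t i|)) →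
    ∀ (z₀ : V × ℝ) (F : Fin (k + 1) → ℝ≥0∞),
    (∀ i, ∫⁻ z in closedBall z₀ ((2 + 4 * B) * R), ∑ j ∈ s i, c i j * ENNReal.ofReal (fi3W S P (om i j) (y i j) (tc i j) z)
      ≤ ENNReal.ofReal (R ^ (k + 1)) * F i) →
    ∫⁻ z in closedBall z₀ R, ∏ i, (∑ j ∈ s i, c i j * ENNReal.ofReal (fi3W S P (om i j) (y i j) (tc i j) z)) ^ (1 / (k : ℝ))
      ≤ ENNReal.ofReal (C * Q ^ M * R ^ (k + 1)) * ∏ i, F i ^ (1 / (k : ℝ)) := by
  obtain ⟨C, hC, H⟩ := fi3_mk_abs_exp.{u, v} V k hfin hk B hB P hP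
  exact ⟨C, _, hC, H⟩

/-- the polynomial tube envelope `∑_T c_T w_T(z)`, `w_T = (1 + |chart S ω_T y_T τ_T z|)^{-P}` (= `Arr.wt`) -/
noncomputable def fi3Env {k : ℕ} {ι : Type*} (S : ℝ) (P : ℕ) (s : Finset ι) (om y : ι → E k) (tc : ι → ℝ) (c : ι → ℝ≥0∞) (z : ST k) : ℝ≥0∞ :=
  ∑ j ∈ s, c j * ENNReal.ofReal ((1 + ‖chart S (om j) (y j) (tc j) z‖) ^ (-(P : ℤ)))

/-- the same envelope with a REAL order `P` (the weights `Tree.pw` of the concrete tree) -/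
noncomputable def fi3EnvR {k : ℕ} {ι : Type*} (S P : ℝ) (s : Finset ι) (om y : ι → E k) (tc : ι → ℝ) (c : ι → ℝ≥0∞) (z : ST k) : ℝ≥0∞ :=
  ∑ j ∈ s, c j * ENNReal.ofReal ((1 + ‖chart S (om j) (y j) (tc j) z‖) ^ (-P))

theorem fi3_env_cast {k : ℕ} {ι : Type*} (S : ℝ) (P : ℕ) (s : Finset ι) (om y : ι → E k) (tc : ι → ℝ) (c : ι → ℝ≥0∞) (z : ST k) :
    fi3Env S P s om y tc c z = fi3EnvR S (P : ℝ) s om y tc c z := by
  unfold fi3Env fi3EnvR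
  refine Finset.sum_congr rfl fun j _ => ?_
  rw [Real.rpow_neg (by positivity), Real.rpow_natCast, zpow_neg, zpow_natCast]

/-- **LOCAL MULTILINEAR KAKEYA FOR POLYNOMIAL TUBE ENVELOPES, real order, consumer form, EXPLICIT exponent of `Q`.** -/
theorem fi3_mk_localR_exp.{u} (k : ℕ) (hk : 1 ≤ k) (B : ℝ) (hB : 0 ≤ B) (P : ℝ) (hP : 0 ≤ P) :
    ∃ C : ℝ, 0 < C ∧ ∀ (S R Q : ℝ), 0 < S → S ≤ R → R ≤ S ^ 2 → 1 ≤ Q →
    ∀ (ι : Type u) (s : Fin (k + 1) → Finset ι) (om y : Fin (k + 1) → ι → E k) (tc : Fin (k + 1) → ι → ℝ) (c : Fin (k + 1) → ι → ℝ≥0∞),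
    (∀ i, ∀ j ∈ s i, ‖om i j‖ ≤ B) →
    (∀ j : Fin (k + 1) → ι, (∀ i, j i ∈ s i) → Transv Q (fun i => om i (j i))) →
    ∀ (z₀ : ST k) (F : Fin (k + 1) → ℝ≥0∞),
    (∀ i, ∫⁻ z in closedBall z₀ ((2 + 4 * B) * R), fi3EnvR S P (s i) (om i) (y i) (tc i) (c i) z ≤ ENNReal.ofReal (R ^ (k + 1)) * F i) →
    ∫⁻ z in closedBall z₀ R, ∏ i, (fi3EnvR S P (s i) (om i) (y i) (tc i) (c i) z) ^ (1 / (k : ℝ))
      ≤ ENNReal.ofReal (C * Q ^ ((k + 1) * ((k + 1) ^ 2 + (k + 1))) * R ^ (k + 1)) * ∏ i, F i ^ (1 / (k : ℝ)) := by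
  obtain ⟨C, hC, H⟩ := fi3_mk_abs_exp.{u, 0} (E k) k finrank_euclideanSpace_fin hk B hB P hP
  refine ⟨C, hC, fun S R Q hS hSR hRS hQ ι s om y tc c hom htr z₀ F hF => ?_⟩
  exact H S R Q hS hSR hRS hQ ι s om y tc c hom htr z₀ F hF

/-- **LOCAL MULTILINEAR KAKEYA FOR POLYNOMIAL TUBE ENVELOPES, real order, consumer form.** -/
theorem fi3_mk_localR.{u} (k : ℕ) (hk : 1 ≤ k) (B : ℝ) (hB : 0 ≤ B) (P : ℝ) (hP : 0 ≤ P) :
    ∃ C : ℝ, ∃ M : ℕ, 0 < C ∧ ∀ (S R Q : ℝ), 0 < S → S ≤ R → R ≤ S ^ 2 → 1 ≤ Q →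
    ∀ (ι : Type u) (s : Fin (k + 1) → Finset ι) (om y : Fin (k + 1) → ι → E k) (tc : Fin (k + 1) → ι → ℝ) (c : Fin (k + 1) → ι → ℝ≥0∞),
    (∀ i, ∀ j ∈ s i, ‖om i j‖ ≤ B) →
    (∀ j : Fin (k + 1) → ι, (∀ i, j i ∈ s i) → Transv Q (fun i => om i (j i))) →
    ∀ (z₀ : ST k) (F : Fin (k + 1) → ℝ≥0∞),
    (∀ i, ∫⁻ z in closedBall z₀ ((2 + 4 * B) * R), fi3EnvR S P (s i) (om i) (y i) (tc i) (c i) z ≤ ENNReal.ofReal (R ^ (k + 1)) * F i) →
    ∫⁻ z in closedBall z₀ R, ∏ i, (fi3EnvR S P (s i) (om i) (y i) (tc i) (c i) z) ^ (1 / (k : ℝ))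
      ≤ ENNReal.ofReal (C * Q ^ M * R ^ (k + 1)) * ∏ i, F i ^ (1 / (k : ℝ)) := by
  obtain ⟨C, hC, H⟩ := fi3_mk_localR_exp.{u} k hk B hB P hP
  exact ⟨C, _, hC, H⟩

/-- **averaged form, real order** (H (f:one-inflation); literally the field `kak` of `FiCfg.Ok`). -/
theorem fi3_mk_avgR.{u} (k : ℕ) (hk : 1 ≤ k) (B : ℝ) (hB : 0 ≤ B) (P : ℝ) (hP : 0 ≤ P) :
    ∃ C : ℝ, ∃ M : ℕ, 0 < C ∧ ∀ (S R Q : ℝ), 0 < S → S ≤ R → R ≤ S ^ 2 → 1 ≤ Q →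
    ∀ (ι : Type u) (s : Fin (k + 1) → Finset ι) (om y : Fin (k + 1) → ι → E k) (tc : Fin (k + 1) → ι → ℝ) (c : Fin (k + 1) → ι → ℝ≥0∞),
    (∀ i, ∀ j ∈ s i, ‖om i j‖ ≤ B) →
    (∀ j : Fin (k + 1) → ι, (∀ i, j i ∈ s i) → Transv Q (fun i => om i (j i))) →
    ∀ (z₀ : ST k),
    ∫⁻ z in closedBall z₀ R, ∏ i, (fi3EnvR S P (s i) (om i) (y i) (tc i) (c i) z) ^ (1 / (k : ℝ))
      ≤ ENNReal.ofReal (C * Q ^ M * R ^ (k + 1)) *
        ∏ i, (ENNReal.ofReal ((R ^ (k + 1))⁻¹) * ∫⁻ z in closedBall z₀ ((2 + 4 * B) * R), fi3EnvR S P (s i) (om i) (y i) (tc i) (c i) z) ^ (1 / (k : ℝ)) := by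
  obtain ⟨C, M, hC, H⟩ := fi3_mk_localR.{u} k hk B hB P hP
  refine ⟨C, M, hC, fun S R Q hS hSR hRS hQ ι s om y tc c hom htr z₀ => ?_⟩
  refine H S R Q hS hSR hRS hQ ι s om y tc c hom htr z₀ _ fun i => ?_
  have hR : 0 < R ^ (k + 1) := pow_pos (hS.trans_le hSR) _
  rw [← mul_assoc, ← ENNReal.ofReal_mul hR.le, mul_inv_cancel₀ hR.ne', ENNReal.ofReal_one, one_mul]

/-- **LOCAL MULTILINEAR KAKEYA FOR POLYNOMIAL TUBE ENVELOPES, consumer form.** -/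
theorem fi3_mk_local.{u} (k : ℕ) (hk : 1 ≤ k) (B : ℝ) (hB : 0 ≤ B) (P : ℕ) :
    ∃ C : ℝ, ∃ M : ℕ, 0 < C ∧ ∀ (S R Q : ℝ), 0 < S → S ≤ R → R ≤ S ^ 2 → 1 ≤ Q →
    ∀ (ι : Type u) (s : Fin (k + 1) → Finset ι) (om y : Fin (k + 1) → ι → E k) (tc : Fin (k + 1) → ι → ℝ) (c : Fin (k + 1) → ι → ℝ≥0∞),
    (∀ i, ∀ j ∈ s i, ‖om i j‖ ≤ B) →
    (∀ j : Fin (k + 1) → ι, (∀ i, j i ∈ s i) → Transv Q (fun i => om i (j i))) →
    ∀ (z₀ : ST k) (F : Fin (k + 1) → ℝ≥0∞),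
    (∀ i, ∫⁻ z in closedBall z₀ ((2 + 4 * B) * R), fi3Env S P (s i) (om i) (y i) (tc i) (c i) z ≤ ENNReal.ofReal (R ^ (k + 1)) * F i) →
    ∫⁻ z in closedBall z₀ R, ∏ i, (fi3Env S P (s i) (om i) (y i) (tc i) (c i) z) ^ (1 / (k : ℝ))
      ≤ ENNReal.ofReal (C * Q ^ M * R ^ (k + 1)) * ∏ i, F i ^ (1 / (k : ℝ)) := by
  obtain ⟨C, M, hC, H⟩ := fi3_mk_localR.{u} k hk B hB P P.cast_nonneg
  refine ⟨C, M, hC, fun S R Q hS hSR hRS hQ ι s om y tc c hom htr z₀ F hF => ?_⟩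
  simp only [fi3_env_cast] at hF ⊢
  exact H S R Q hS hSR hRS hQ ι s om y tc c hom htr z₀ F hF

/-- **averaged form** (H (f:one-inflation)). -/
theorem fi3_mk_avg.{u} (k : ℕ) (hk : 1 ≤ k) (B : ℝ) (hB : 0 ≤ B) (P : ℕ) :
    ∃ C : ℝ, ∃ M : ℕ, 0 < C ∧ ∀ (S R Q : ℝ), 0 < S → S ≤ R → R ≤ S ^ 2 → 1 ≤ Q →
    ∀ (ι : Type u) (s : Fin (k + 1) → Finset ι) (om y : Fin (k + 1) → ι → E k) (tc : Fin (k + 1) → ι → ℝ) (c : Fin (k + 1) → ι → ℝ≥0∞),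
    (∀ i, ∀ j ∈ s i, ‖om i j‖ ≤ B) →
    (∀ j : Fin (k + 1) → ι, (∀ i, j i ∈ s i) → Transv Q (fun i => om i (j i))) →
    ∀ (z₀ : ST k),
    ∫⁻ z in closedBall z₀ R, ∏ i, (fi3Env S P (s i) (om i) (y i) (tc i) (c i) z) ^ (1 / (k : ℝ))
      ≤ ENNReal.ofReal (C * Q ^ M * R ^ (k + 1)) *
        ∏ i, ((ENNReal.ofReal (R ^ (k + 1)))⁻¹ * ∫⁻ z in closedBall z₀ ((2 + 4 * B) * R), fi3Env S P (s i) (om i) (y i) (tc i) (c i) z) ^ (1 / (k : ℝ)) := by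
  obtain ⟨C, M, hC, H⟩ := fi3_mk_local.{u} k hk B hB P
  refine ⟨C, M, hC, fun S R Q hS hSR hRS hQ ι s om y tc c hom htr z₀ => ?_⟩
  refine H S R Q hS hSR hRS hQ ι s om y tc c hom htr z₀ _ fun i => ?_
  have hR : 0 < R ^ (k + 1) := pow_pos (hS.trans_le hSR) _
  rw [← mul_assoc, ENNReal.mul_inv_cancel (by simpa using hR) ENNReal.ofReal_ne_top, one_mul]

/-- the square envelope `Arr.env` of an array is a `fi3Env` -/
theorem fi3_env_eq {k : ℕ} {ι : Type} (A : Arr k ι) (s : Finset ι) (cf : ι → ℂ) (P : ℕ) (hL : 0 ≤ A.L) (z : ST k) :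
    ENNReal.ofReal (A.env s cf P z) = fi3Env A.L P s A.om A.y A.tc (fun α => ENNReal.ofReal (A.L ^ (-(k : ℝ)) * ‖cf α‖ ^ 2)) z := by
  unfold Arr.env Arr.wt fi3Env
  have hL' : 0 ≤ A.L ^ (-(k : ℝ)) := Real.rpow_nonneg hL _
  rw [Finset.mul_sum, ENNReal.ofReal_sum_of_nonneg fun α _ => by positivity]
  refine Finset.sum_congr rfl fun α _ => ?_
  rw [← mul_assoc, ENNReal.ofReal_mul (by positivity)]

/-- **the local estimate for the square envelopes of `k + 1` packet arrays of the same scale `S`.** -/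
theorem fi3_mk_env (k : ℕ) (hk : 1 ≤ k) (B : ℝ) (hB : 0 ≤ B) (P : ℕ) :
    ∃ C : ℝ, ∃ M : ℕ, 0 < C ∧ ∀ (S R Q : ℝ), 0 < S → S ≤ R → R ≤ S ^ 2 → 1 ≤ Q →
    ∀ (ι : Type) (A : Fin (k + 1) → Arr k ι) (s : Fin (k + 1) → Finset ι) (cf : Fin (k + 1) → ι → ℂ),
    (∀ i, (A i).L = S) → (∀ i, ∀ α ∈ s i, ‖(A i).om α‖ ≤ B) →
    (∀ lb : Fin (k + 1) → ι, (∀ i, lb i ∈ s i) → Transv Q (fun i => (A i).om (lb i))) →
    ∀ (z₀ : ST k) (F : Fin (k + 1) → ℝ≥0∞),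
    (∀ i, ∫⁻ z in closedBall z₀ ((2 + 4 * B) * R), ENNReal.ofReal ((A i).env (s i) (cf i) P z) ≤ ENNReal.ofReal (R ^ (k + 1)) * F i) →
    ∫⁻ z in closedBall z₀ R, ∏ i, ENNReal.ofReal ((A i).env (s i) (cf i) P z) ^ (1 / (k : ℝ))
      ≤ ENNReal.ofReal (C * Q ^ M * R ^ (k + 1)) * ∏ i, F i ^ (1 / (k : ℝ)) := by
  obtain ⟨C, M, hC, H⟩ := fi3_mk_local.{0} k hk B hB P
  refine ⟨C, M, hC, fun S R Q hS hSR hRS hQ ι A s cf hL hom htr z₀ F hF => ?_⟩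
  have e : ∀ i z, ENNReal.ofReal ((A i).env (s i) (cf i) P z)
      = fi3Env S P (s i) (A i).om (A i).y (A i).tc (fun α => ENNReal.ofReal (S ^ (-(k : ℝ)) * ‖cf i α‖ ^ 2)) z := by
    intro i z
    rw [fi3_env_eq (A i) (s i) (cf i) P (by rw [hL i]; exact hS.le) z, hL i]
  simp only [e] at hF ⊢
  exact H S R Q hS hSR hRS hQ ι s (fun i => (A i).om) (fun i => (A i).y) (fun i => (A i).tc) _ hom htr z₀ F hF

end Claimed.Agent.R257
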