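import Claimed.Agent.R257.FR3.InflMain
import Claimed.Agent.R257.FR2.PathDef

/-!
# ROW 257, package FR3, unit INFL, file 4b: THE BACKGROUND AT THE OCCUPIED CELLS      (architect helper271)

`b_T² ≳` background (H `frame.tex` l.1183 "the background is comparable over the larger test ball") WITHOUT any new hypothesis on the windows:
the windows are large AT THE WITNESSES (`TDat.Good.win`, `ηw ≤ 1/2`), so for every label of a height `≠ 0, tr` the window contains a cell within `R₀(c)` of every witness (`fi_win_near`);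
the path sum `bb` of a cell `T` is bounded below through the cells NEAR A WITNESS `y`; only the last edge sees the distance `‖X lam T (pt y)‖`:
* **`fi_bg_occ`**   `fiB lam τ bot (lat T) ≤ C (1 + ‖X lam T (pt y)‖)^{2P} bb(T)²`,  `C` depends only on the class.
* `fi_bg_wit`       the same for a cell `Tj` of the same cap within `Rw` of a cell `T` incident to a witness: `(1 + G_lam + Rw)^{2P}`.
* `fi_occ_Jn`       the near path masses `Jn R` do not see the cells which are not incident to a witness: the block package may take `P0` = the OCCUPIED broad cells.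
-/

set_option autoImplicit false

namespace Claimed.Agent.R257

open MeasureTheory Metric Set
open Claimed.Agent.R257.Tree Claimed.Agent.R257.FR2
open scoped ENNReal BigOperators BoundedContinuousFunction Classical

noncomputable section

variable {k : ℕ} {c : TCls k}

/-- one step DOWN of the lower bound of the reference weights, cells of the window within `R₀` of the point (copy of `fi_bg_step`) -/
theorem fi_bg_stepR (hc : c.Ok) (D : TDat c) (hD : D.Good) (lam : ℕ) (τ : D.Lb lam) (h : ℕ) (hh : h + 1 ≤ lam) (X : ST k) (R₀ : ℝ) (hR₀ : 0 ≤ R₀)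
    (hfull : ∀ v : D.Lb (h + 1), D.Und lam τ (h + 1) v → ∃ m : Lat k, (v, m) ∈ D.W (h + 1) ∧ ‖D.X (h + 1) (v, m) (natI (D.κ lam) (D.fr lam τ) X)‖ ≤ R₀) :
    D.fiB lam τ h X ≤ (1 + 2 * c.Cc) ^ c.P * (1 + R₀) ^ (2 * c.P) * D.fiB lam τ (h + 1) X := by
  have hκ : D.κ lam ≠ 0 := by
    have := hD.one_le_κ lam
    exact (by linarith : (0 : ℝ) < D.κ lam).ne'
  have hP : 0 ≤ c.P := by
    have := hc.P_gt
    have : (0 : ℝ) ≤ k := Nat.cast_nonneg k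
    linarith
  have hCc : 0 ≤ c.Cc := by linarith [hc.one_le_Cc]
  obtain ⟨z, hz⟩ : ∃ z, z = natI (D.κ lam) (D.fr lam τ) X := ⟨_, rfl⟩
  have hX : X = natX (D.κ lam) (D.fr lam τ) z := by rw [hz, natX_natI hκ]
  rw [← hz] at hfull
  obtain ⟨C, hC⟩ : ∃ C, C = (1 + 2 * c.Cc) ^ c.P * (1 + R₀) ^ (2 * c.P) := ⟨_, rfl⟩
  have hC0 : 0 ≤ C := by rw [hC]; positivity
  rw [← hC]
  have hw : ∀ (i : ℕ) (T : D.Lb i × Lat k), 0 < D.wA c.P i T z := fun i T => by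
    unfold TDat.wA
    positivity
  have he : ∀ (T' : D.Lb h × Lat k) (T : D.Lb (h + 1) × Lat k), 0 ≤ D.edge c.P h T' T := fun T' T => by
    unfold TDat.edge
    split_ifs
    · unfold TDat.wA
      positivity
    · exact le_rfl
  unfold TDat.fiB TDat.fiE
  simp only [hX, fi_W_nat D hκ]
  have hpt : ∀ T' ∈ Finset.univ.filter (fun T' : D.Cl h => D.Und lam τ h T'.1.1),
      D.bb h T' ^ 2 * D.wA c.P h T'.1 z ≤ C * ∑ T₁ ∈ Finset.univ.filter (fun T₁ : D.Cl (h + 1) => D.Und lam τ (h + 1) T₁.1.1),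
        D.bb h T' ^ 2 * D.edge c.P h T'.1 T₁.1 * D.wA c.P (h + 1) T₁.1 z := by
    intro T' hT'
    have hU := (Finset.mem_filter.1 hT').2
    rw [fi_und_step D lam τ h (by omega)] at hU
    obtain ⟨m, hmW, hmX⟩ := hfull _ hU
    have h1 := ti_edge_ge hc D hD hP h T'.1 (D.par h T'.1.1, m) rfl z
    have hk2 : (0 : ℝ) < 1 + R₀ := by positivity
    have h2 : (1 + ‖D.X (h + 1) (D.par h T'.1.1, m) z‖) ^ c.P ≤ (1 + R₀) ^ c.P :=
      Real.rpow_le_rpow (by positivity) (by linarith) hP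
    have h3 : 1 ≤ (1 + R₀) ^ c.P * D.wA c.P (h + 1) (D.par h T'.1.1, m) z := by
      unfold TDat.wA
      rw [Real.rpow_neg (by positivity), ← div_eq_mul_inv, one_le_div (by positivity)]
      exact h2
    have h4 : D.wA c.P h T'.1 z ≤ C * (D.edge c.P h T'.1 (D.par h T'.1.1, m) * D.wA c.P (h + 1) (D.par h T'.1.1, m) z) := by
      have e0 := he T'.1 (D.par h T'.1.1, m)
      calc D.wA c.P h T'.1 z ≤ (1 + 2 * c.Cc) ^ c.P * (1 + ‖D.X (h + 1) (D.par h T'.1.1, m) z‖) ^ c.P * D.edge c.P h T'.1 (D.par h T'.1.1, m) := h1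
        _ ≤ (1 + 2 * c.Cc) ^ c.P * (1 + R₀) ^ c.P * D.edge c.P h T'.1 (D.par h T'.1.1, m) := by
            refine mul_le_mul_of_nonneg_right ?_ e0
            exact mul_le_mul_of_nonneg_left h2 (by positivity)
        _ = (1 + 2 * c.Cc) ^ c.P * (1 + R₀) ^ c.P * D.edge c.P h T'.1 (D.par h T'.1.1, m) * 1 := (mul_one _).symm
        _ ≤ (1 + 2 * c.Cc) ^ c.P * (1 + R₀) ^ c.P * D.edge c.P h T'.1 (D.par h T'.1.1, m)
              * ((1 + R₀) ^ c.P * D.wA c.P (h + 1) (D.par h T'.1.1, m) z) :=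
            mul_le_mul_of_nonneg_left h3 (by positivity)
        _ = _ := by
            rw [hC, two_mul c.P, Real.rpow_add hk2]
            ring
    have h5 : D.bb h T' ^ 2 * D.edge c.P h T'.1 (D.par h T'.1.1, m) * D.wA c.P (h + 1) (D.par h T'.1.1, m) z
        ≤ ∑ T₁ ∈ Finset.univ.filter (fun T₁ : D.Cl (h + 1) => D.Und lam τ (h + 1) T₁.1.1),
          D.bb h T' ^ 2 * D.edge c.P h T'.1 T₁.1 * D.wA c.P (h + 1) T₁.1 z := by
      refine Finset.single_le_sum (f := fun T₁ : D.Cl (h + 1) => D.bb h T' ^ 2 * D.edge c.P h T'.1 T₁.1 * D.wA c.P (h + 1) T₁.1 z)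
        (fun T₁ _ => mul_nonneg (mul_nonneg (sq_nonneg _) (he _ _)) (hw _ _).le)
        (a := (⟨(D.par h T'.1.1, m), hmW⟩ : D.Cl (h + 1))) ?_
      exact Finset.mem_filter.2 ⟨Finset.mem_univ _, hU⟩
    calc D.bb h T' ^ 2 * D.wA c.P h T'.1 z
        ≤ D.bb h T' ^ 2 * (C * (D.edge c.P h T'.1 (D.par h T'.1.1, m) * D.wA c.P (h + 1) (D.par h T'.1.1, m) z)) :=
          mul_le_mul_of_nonneg_left h4 (sq_nonneg _)
      _ = C * (D.bb h T' ^ 2 * D.edge c.P h T'.1 (D.par h T'.1.1, m) * D.wA c.P (h + 1) (D.par h T'.1.1, m) z) := by ring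
      _ ≤ _ := mul_le_mul_of_nonneg_left h5 hC0
  refine (Finset.sum_le_sum hpt).trans ?_
  rw [← Finset.mul_sum, Finset.sum_comm]
  refine mul_le_mul_of_nonneg_left ?_ hC0
  refine Finset.sum_le_sum fun T₁ _ => ?_
  rw [D.bb_succ_sq, ← Finset.sum_mul]
  refine mul_le_mul_of_nonneg_right ?_ (hw _ _).le
  exact Finset.sum_le_sum_of_subset_of_nonneg (Finset.filter_subset _ _)
    fun T' _ _ => mul_nonneg (sq_nonneg _) (he _ _)

/-- **the windows contain a cell near every witness**, for every label of a height `≠ 0, tr` -/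
theorem fi_win_near (hc : c.Ok) : ∃ R₀ : ℝ, 1 ≤ R₀ ∧ ∀ D : TDat c, D.Good → D.ηw ≤ 1 / 2 → ∀ h, 1 ≤ h → h ≤ c.ℓ → h ≠ c.tr → ∀ (y : D.Y) (v : D.Lb h),
    ∃ m : Lat k, (v, m) ∈ D.W h ∧ ‖D.X h (v, m) (D.pt y)‖ ≤ R₀ := by
  have hk0 : (0 : ℝ) ≤ k := Nat.cast_nonneg k
  have hA : (k : ℝ) + 1 < c.M + c.C0 - 1 := by
    have h1 := hc.P_gt
    have h2 := hc.P_lt
    have h3 := hc.M_gt
    have h4 := hc.C0_ge
    linarith
  obtain ⟨Ca, hCa, Hs⟩ := ti_lat_sum (k := k) hA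
  have hχ := hc.one_le_Cχ
  refine ⟨2 * c.Cχ * Ca, by nlinarith, ?_⟩
  intro D hD hη h h1 hl htr y v
  by_contra hcon
  push Not at hcon
  obtain ⟨i, rfl⟩ : ∃ i, h = i + 1 := ⟨h - 1, by omega⟩
  have hw := hD.win i (by omega) htr y v
  obtain ⟨R₀, hR₀⟩ : ∃ R₀, R₀ = 2 * c.Cχ * Ca := ⟨_, rfl⟩
  rw [← hR₀] at hcon
  have hR1 : 1 ≤ R₀ := by rw [hR₀]; nlinarith
  -- upper bound of the sum of the localisers
  have hterm : ∀ T ∈ D.W (i + 1), ‖(if T.1 = v then D.loc (i + 1) T (D.pt y) else 0 : ℂ)‖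
      ≤ c.Cχ * (1 + R₀)⁻¹ * (if v = T.1 then (1 + ‖natX (D.κ (i + 1)) (D.fr (i + 1) v) (D.pt y) - lat T.2‖) ^ (-(c.M + c.C0 - 1)) else 0) := by
    intro T hT
    by_cases hv : T.1 = v
    · rw [if_pos hv, if_pos hv.symm, TDat.loc_apply]
      have hTe : T = (v, T.2) := Prod.ext hv rfl
      have hfar : R₀ < ‖D.X (i + 1) T (D.pt y)‖ := by
        have := hcon T.2 (by rw [← hTe]; exact hT)
        rwa [← hTe] at this
      have hXe : D.X (i + 1) T (D.pt y) = natX (D.κ (i + 1)) (D.fr (i + 1) v) (D.pt y) - lat T.2 := by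
        unfold TDat.X
        rw [hv]
      rw [← hXe]
      refine (hc.χ_dec _).trans ?_
      rw [mul_assoc]
      refine mul_le_mul_of_nonneg_left ?_ (by linarith)
      have hb : (0 : ℝ) < 1 + ‖D.X (i + 1) T (D.pt y)‖ := by positivity
      have e : (1 + ‖D.X (i + 1) T (D.pt y)‖) ^ (-(c.M + c.C0)) = (1 + ‖D.X (i + 1) T (D.pt y)‖)⁻¹ * (1 + ‖D.X (i + 1) T (D.pt y)‖) ^ (-(c.M + c.C0 - 1)) := by
        rw [← Real.rpow_neg_one, ← Real.rpow_add hb]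
        congr 1
        ring
      rw [e]
      refine mul_le_mul_of_nonneg_right ?_ (Real.rpow_nonneg hb.le _)
      exact inv_anti₀ (by positivity) (by linarith)
    · rw [if_neg hv, if_neg (fun h' => hv h'.symm), norm_zero, mul_zero]
  have hms : ‖D.ms (i + 1) v (D.pt y)‖ ≤ c.Cχ * (1 + R₀)⁻¹ * Ca := by
    unfold TDat.ms
    refine (norm_sum_le _ _).trans ?_
    refine (Finset.sum_le_sum hterm).trans ?_
    rw [← Finset.mul_sum, tg_fib (D.W (i + 1)) v (fun m => (1 + ‖natX (D.κ (i + 1)) (D.fr (i + 1) v) (D.pt y) - lat m‖) ^ (-(c.M + c.C0 - 1)))]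
    exact mul_le_mul_of_nonneg_left (Hs _ _) (by positivity)
  have hlt : c.Cχ * (1 + R₀)⁻¹ * Ca < 1 / 2 := by
    have h0 : (0 : ℝ) < 1 + R₀ := by positivity
    have e : c.Cχ * (1 + R₀)⁻¹ * Ca = c.Cχ * Ca / (1 + R₀) := by field_simp
    rw [e, div_lt_iff₀ h0]
    rw [hR₀]
    nlinarith
  have h5 : (1 : ℝ) ≤ ‖1 - D.ms (i + 1) v (D.pt y)‖ + ‖D.ms (i + 1) v (D.pt y)‖ := by
    have := norm_add_le (1 - D.ms (i + 1) v (D.pt y)) (D.ms (i + 1) v (D.pt y))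
    rw [sub_add_cancel, norm_one] at this
    exact this
  linarith

/-- **THE BACKGROUND AT A CELL NEAR A WITNESS** -/
theorem fi_bg_occ (hc : c.Ok) : ∃ C : ℝ, 1 ≤ C ∧ ∀ D : TDat c, D.Good → D.ηw ≤ 1 / 2 → ∀ (bot lam : ℕ), bot < lam → lam ≤ c.ℓ → (∀ h, bot < h → h < lam → h ≠ c.tr) →
    ∀ (T : D.Cl lam) (y : D.Y), D.fiB lam T.1.1 bot (lat T.1.2) ≤ C * (1 + ‖D.X lam T.1 (D.pt y)‖) ^ (2 * c.P) * D.bb lam T ^ 2 := by
  have hk0 : (0 : ℝ) ≤ k := Nat.cast_nonneg k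
  have hP : 0 ≤ c.P := by linarith [hc.P_gt]
  have hCc : 0 ≤ c.Cc := by linarith [hc.one_le_Cc]
  have hℓ0 : (0 : ℝ) ≤ c.ℓ := Nat.cast_nonneg _
  obtain ⟨R₀, hR₀, Hn⟩ := fi_win_near hc
  obtain ⟨C₁, hC₁⟩ : ∃ C₁, C₁ = (1 + 2 * c.Cc) ^ c.P * (1 + R₀) ^ (2 * c.P) := ⟨_, rfl⟩
  have hC1 : 1 ≤ C₁ := by
    rw [hC₁]
    have a1 : (1 : ℝ) ≤ (1 + 2 * c.Cc) ^ c.P := Real.one_le_rpow (by linarith) hP
    have a2 : (1 : ℝ) ≤ (1 + R₀) ^ (2 * c.P) := Real.one_le_rpow (by linarith) (by linarith)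
    nlinarith
  obtain ⟨Kp, hKp⟩ : ∃ Kp, Kp = (1 + 2 * ((c.ℓ : ℝ) * c.Cc)) ^ c.P := ⟨_, rfl⟩
  have hKp1 : 1 ≤ Kp := by
    rw [hKp]
    exact Real.one_le_rpow (by nlinarith) hP
  refine ⟨Kp * C₁ ^ c.ℓ * Kp, one_le_mul_of_one_le_of_one_le (one_le_mul_of_one_le_of_one_le hKp1 (one_le_pow₀ hC1)) hKp1, ?_⟩
  intro D hD hη bot lam hbl hl htr T y
  obtain ⟨h₀, rfl⟩ : ∃ h₀, lam = h₀ + 1 := ⟨lam - 1, by omega⟩
  have hκ : D.κ (h₀ + 1) ≠ 0 := (D.κ_pos hD _).ne'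
  obtain ⟨Xy, hXy⟩ : ∃ Xy, Xy = natX (D.κ (h₀ + 1)) (D.fr (h₀ + 1) T.1.1) (D.pt y) := ⟨_, rfl⟩
  have hI : natI (D.κ (h₀ + 1)) (D.fr (h₀ + 1) T.1.1) Xy = D.pt y := by rw [hXy, natI_natX hκ]
  obtain ⟨ρ, hρ⟩ : ∃ ρ, ρ = ‖D.X (h₀ + 1) T.1 (D.pt y)‖ := ⟨_, rfl⟩
  have hρ0 : 0 ≤ ρ := by rw [hρ]; exact norm_nonneg _
  have hd1 : ‖Xy - lat T.1.2‖ = ρ := by rw [hρ, hXy]; rfl
  have hd2 : ‖lat T.1.2 - Xy‖ = ρ := by rw [norm_sub_rev, hd1]
  rw [← hρ]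
  have key : ∀ d h, h + d = h₀ → bot ≤ h → D.fiB (h₀ + 1) T.1.1 h Xy ≤ C₁ ^ d * D.fiB (h₀ + 1) T.1.1 h₀ Xy := by
    intro d
    induction d with
    | zero =>
      intro h he _
      have he' : h = h₀ := by omega
      subst he'
      rw [pow_zero, one_mul]
    | succ d ih =>
      intro h he hb
      have h1 := fi_bg_stepR hc D hD (h₀ + 1) T.1.1 h (by omega) Xy R₀ (by linarith)
        (fun v _ => by
          rw [hI]
          exact Hn D hD hη (h + 1) (by omega) (by omega) (htr (h + 1) (by omega) (by omega)) y v)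
      rw [← hC₁] at h1
      have h2 := ih (h + 1) (by omega) (by omega)
      calc D.fiB (h₀ + 1) T.1.1 h Xy ≤ C₁ * D.fiB (h₀ + 1) T.1.1 (h + 1) Xy := h1
        _ ≤ C₁ * (C₁ ^ d * D.fiB (h₀ + 1) T.1.1 h₀ Xy) := mul_le_mul_of_nonneg_left h2 (by linarith)
        _ = _ := by ring
  have hB0 : ∀ h X, 0 ≤ D.fiB (h₀ + 1) T.1.1 h X := fun h X => fi_E_nonneg D _ _ _ _ _ _ _
  have hpe : ∀ h, h ≤ h₀ + 1 → ∀ X X' : ST k, ‖X - X'‖ = ρ → D.fiB (h₀ + 1) T.1.1 h X ≤ Kp * (1 + ρ) ^ c.P * D.fiB (h₀ + 1) T.1.1 h X' := by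
    intro h hh X X' hXX
    refine (fi_B_peetre hc D hD h (h₀ + 1) hh hl T.1.1 X X').trans ?_
    rw [← hKp]
    refine mul_le_mul_of_nonneg_right (mul_le_mul_of_nonneg_left ?_ (by linarith)) (hB0 _ _)
    have hrat := D.one_le_ratio hD hh
    refine Real.rpow_le_rpow (by positivity) ?_ hP
    rw [hXX]
    have := D.one_le_ratio hD hh
    have : ρ / (D.κ h / D.κ (h₀ + 1)) ≤ ρ := div_le_self hρ0 this
    linarith
  have s1 := hpe bot (by omega) (lat T.1.2) Xy hd2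
  have s2 := key (h₀ - bot) bot (by omega) le_rfl
  have s2' : D.fiB (h₀ + 1) T.1.1 bot Xy ≤ C₁ ^ c.ℓ * D.fiB (h₀ + 1) T.1.1 h₀ Xy :=
    s2.trans (mul_le_mul_of_nonneg_right (pow_le_pow_right₀ hC1 (by omega)) (hB0 _ _))
  have s3 := hpe h₀ (by omega) Xy (lat T.1.2) hd1
  rw [fi_bg_base D hD h₀ T] at s3
  have hr : 0 ≤ (1 + ρ) ^ c.P := Real.rpow_nonneg (by linarith) _
  have e2 : (1 + ρ) ^ (2 * c.P) = (1 + ρ) ^ c.P * (1 + ρ) ^ c.P := by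
    rw [two_mul, Real.rpow_add (by linarith)]
  calc D.fiB (h₀ + 1) T.1.1 bot (lat T.1.2) ≤ Kp * (1 + ρ) ^ c.P * D.fiB (h₀ + 1) T.1.1 bot Xy := s1
    _ ≤ Kp * (1 + ρ) ^ c.P * (C₁ ^ c.ℓ * (Kp * (1 + ρ) ^ c.P * D.bb (h₀ + 1) T ^ 2)) := by
        refine mul_le_mul_of_nonneg_left ?_ (by positivity)
        exact s2'.trans (mul_le_mul_of_nonneg_left s3 (by positivity))
    _ = _ := by rw [e2]; ring

/-- **the background at a witness cell `Tj` of an occupied cell `T`** (same cap, lattice distance `≤ Rw`) -/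
theorem fi_bg_wit (hc : c.Ok) : ∃ C : ℝ, 1 ≤ C ∧ ∀ D : TDat c, D.Good → D.ηw ≤ 1 / 2 → ∀ (bot lam : ℕ), bot < lam → lam ≤ c.ℓ → (∀ h, bot < h → h < lam → h ≠ c.tr) →
    ∀ (T Tj : D.Cl lam) (y : D.Y) (Rw : ℝ), Tj.1.1 = T.1.1 → ‖lat Tj.1.2 - lat T.1.2‖ ≤ Rw → D.sys.inc lam y T →
    D.fiB lam T.1.1 bot (lat Tj.1.2) ≤ C * (1 + D.G lam + Rw) ^ (2 * c.P) * D.bb lam Tj ^ 2 := by
  have hk0 : (0 : ℝ) ≤ k := Nat.cast_nonneg k
  have hP : 0 ≤ c.P := by linarith [hc.P_gt]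
  obtain ⟨C, hC, H⟩ := fi_bg_occ hc
  refine ⟨C, hC, ?_⟩
  intro D hD hη bot lam hbl hl htr T Tj y Rw hlab hTT hinc
  have h1 := H D hD hη bot lam hbl hl htr Tj y
  rw [hlab] at h1
  refine h1.trans ?_
  refine mul_le_mul_of_nonneg_right (mul_le_mul_of_nonneg_left ?_ (by linarith)) (sq_nonneg _)
  refine Real.rpow_le_rpow (by positivity) ?_ (by linarith)
  have hG : ‖D.X lam T.1 (D.pt y)‖ ≤ D.G lam := hinc.1
  have e : D.X lam Tj.1 (D.pt y) = D.X lam T.1 (D.pt y) - (lat Tj.1.2 - lat T.1.2) := by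
    unfold TDat.X
    rw [hlab]
    abel
  rw [e]
  have := norm_sub_le (D.X lam T.1 (D.pt y)) (lat Tj.1.2 - lat T.1.2)
  linarith

/-! ## the near path masses see only the occupied cells -/

/-- the restriction of `R` to the OCCUPIED cells (incident to some witness) -/
def fiOccR {𝔖 : TSys} (𝔊 : TGeo 𝔖) (R : 𝔊.Restr) : 𝔊.Restr := fun i ω => (R i ω).filter fun T => ∃ z, 𝔖.inc i z T

theorem fi_occ_sub {𝔖 : TSys} (𝔊 : TGeo 𝔖) (R : 𝔊.Restr) (i : ℕ) (ω : 𝔊.Dir) : fiOccR 𝔊 R i ω ⊆ R i ω := Finset.filter_subset _ _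

theorem fi_occ_mem {𝔖 : TSys} (𝔊 : TGeo 𝔖) (R : 𝔊.Restr) (i : ℕ) (ω : 𝔊.Dir) (T : 𝔖.C i) : T ∈ fiOccR 𝔊 R i ω ↔ T ∈ R i ω ∧ ∃ z, 𝔖.inc i z T := Finset.mem_filter

/-- **the near path masses do not change** -/
theorem fi_occ_Jn {𝔖 : TSys} (𝔊 : TGeo 𝔖) (R : 𝔊.Restr) (z : 𝔖.Y) (ω : 𝔊.Dir) : 𝔊.Jn (fiOccR 𝔊 R) z ω = 𝔊.Jn R z ω := by
  have hv : 𝔊.vx (fiOccR 𝔊 R) (fun i T => 𝔖.inc i z T) ω = 𝔊.vx R (fun i T => 𝔖.inc i z T) ω := by
    funext i T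
    cases i with
    | zero =>
      show (if T ∈ fiOccR 𝔊 R 0 ω ∧ 𝔊.dir T = ω ∧ 𝔖.inc 0 z T then 𝔖.b 0 T ^ 2 else 0) = if T ∈ R 0 ω ∧ 𝔊.dir T = ω ∧ 𝔖.inc 0 z T then 𝔖.b 0 T ^ 2 else 0
      refine if_congr ?_ rfl rfl
      rw [fi_occ_mem]
      exact ⟨fun h => ⟨h.1.1, h.2⟩, fun h => ⟨⟨h.1, z, h.2.2⟩, h.2⟩⟩
    | succ i =>
      show (if T ∈ fiOccR 𝔊 R (i + 1) ω ∧ 𝔖.inc (i + 1) z T then (1 : ℝ) else 0) = if T ∈ R (i + 1) ω ∧ 𝔖.inc (i + 1) z T then 1 else 0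
      refine if_congr ?_ rfl rfl
      rw [fi_occ_mem]
      exact ⟨fun h => ⟨h.1.1, h.2⟩, fun h => ⟨⟨h.1, z, h.2⟩, h.2⟩⟩
  unfold TGeo.Jn TGeo.fn
  rw [hv]

end

end Claimed.Agent.R257
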