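import Claimed.Agent.R257.FR3.InflDefs

/-!
# ROW 257, package FR3, unit INFL (`f:inflation`, H frame.tex l.1142-1255), file 3: THE FIELDS OF THE CHAIN ON THE CONCRETE TREE      (architect helper271)          CONTRACT

Every `sorry` is a leaf `L-257-FI-B*` (name in the docstring).   Statements are frozen; auxiliary lemmas directly above your theorem; edit only your block.   You may cite every (also sorried) lemma of `Tree/*.lean`, `FR2/*.lean`, `InflAbs`, `InflDefs` and of this file.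
Frame of the cap `τ : D.Lb lam`:  `K0 = κ lam`, `w0 = fr lam τ`.    Heights `bot ≤ h ≤ mu < lam ≤ ℓ`;  `mu` = height of the groups (`l + v₀`).
-/

set_option autoImplicit false

namespace Claimed.Agent.R257

open MeasureTheory Metric Set
open Claimed.Agent.R257.Tree Claimed.Agent.R257.FR2
open scoped ENNReal BigOperators BoundedContinuousFunction Classical

noncomputable section

variable {k : ℕ} {c : TCls k}

/-! ## 1. labels under a label -/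

theorem fi_und_top (D : TDat c) (top : ℕ) (τ v : D.Lb top) : D.Und top τ top v ↔ v = τ := by
  unfold TDat.Und
  rw [Nat.sub_self]
  constructor
  · rintro ⟨e, he⟩
    exact he
  · intro h
    exact ⟨rfl, h⟩

theorem fi_und_step (D : TDat c) (top : ℕ) (τ : D.Lb top) (h : ℕ) (hh : h < top) (v : D.Lb h) : D.Und top τ h v ↔ D.Und top τ (h + 1) (D.par h v) := by
  unfold TDat.Und
  have e : top - h = (top - (h + 1)) + 1 := by omega
  rw [e]
  rfl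

/-- **LEAF L-257-FI-B1** (40 l.)  transitivity.   PLAN: induction on `d` for `∀ d h v, h + d = mu → …` (generalise `h`, `v`): `d = 0`: `subst`, `fi_und_top`; step: `fi_und_step` at both levels (`h < mu ≤ lam`). -/
theorem fi_und_trans (D : TDat c) (lam mu : ℕ) (hml : mu ≤ lam) (τ : D.Lb lam) (G : D.Lb mu) (hG : D.Und lam τ mu G) (h : ℕ) (hh : h ≤ mu) (v : D.Lb h)
    (hv : D.Und mu G h v) : D.Und lam τ h v := by
  have key : ∀ d h (v : D.Lb h), h + d = mu → D.Und mu G h v → D.Und lam τ h v := by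
    intro d
    induction d with
    | zero =>
      intro h v he hv
      have he' : h = mu := by omega
      subst he'
      rw [fi_und_top] at hv
      rw [hv]
      exact hG
    | succ d ih =>
      intro h v he hv
      rw [fi_und_step D mu G h (by omega)] at hv
      rw [fi_und_step D lam τ h (by omega)]
      exact ih (h + 1) _ (by omega) hv
  exact key (mu - h) h v (by omega) hv

/-- **L-257-FI-B2**  a label under `τ` is within `top Cc / κ top` of `τ` (no hypothesis on the spacing of the nodes). -/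
theorem fi_und_near (hc : c.Ok) (D : TDat c) (hD : D.Good) (top : ℕ) (τ : D.Lb top) (h : ℕ) (hh : h ≤ top)
    (v : D.Lb h) (hv : D.Und top τ h v) : ‖D.fr h v - D.fr top τ‖ ≤ (top : ℝ) * c.Cc / D.κ top := by
  have hCc : 0 ≤ c.Cc := by linarith [hc.one_le_Cc]
  have hκ0 : ∀ i, 0 < D.κ i := fun i => by linarith [hD.one_le_κ i]
  have hanti : ∀ e i, D.κ (i + e) ≤ D.κ i := by
    intro e i
    induction e with
    | zero => exact le_rfl
    | succ e ih => exact (hD.κ_anti (i + e)).trans ih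
  have key : ∀ d h (v : D.Lb h), h + d = top → D.Und top τ h v → ‖D.fr h v - D.fr top τ‖ ≤ (d : ℝ) * c.Cc / D.κ top := by
    intro d
    induction d with
    | zero =>
      intro h v he hv
      have he' : h = top := by omega
      subst he'
      rw [fi_und_top] at hv
      rw [hv]
      simp
    | succ d ih =>
      intro h v he hv
      rw [fi_und_step D top τ h (by omega)] at hv
      have h1 := ih (h + 1) _ (by omega) hv
      have h2 := hD.par_near h v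
      have h3 : D.κ top ≤ D.κ (h + 1) := by
        have := hanti d (h + 1)
        rwa [show h + 1 + d = top by omega] at this
      have h4 : c.Cc / D.κ (h + 1) ≤ c.Cc / D.κ top := div_le_div_of_nonneg_left hCc (hκ0 _) h3
      have e : D.fr h v - D.fr top τ = (D.fr h v - D.fr (h + 1) (D.par h v)) + (D.fr (h + 1) (D.par h v) - D.fr top τ) := by abel
      rw [e]
      refine (norm_add_le _ _).trans ?_
      have h5 : ((d + 1 : ℕ) : ℝ) * c.Cc / D.κ top = c.Cc / D.κ top + (d : ℝ) * c.Cc / D.κ top := by push_cast; ring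
      rw [h5]
      linarith
  refine (key (top - h) h v (by omega) hv).trans ?_
  apply div_le_div_of_nonneg_right _ (hκ0 top).le
  apply mul_le_mul_of_nonneg_right _ hCc
  exact_mod_cast Nat.sub_le top h

/-! ## 2. the weights in the frame -/

theorem fi_W_nat (D : TDat c) {K0 : ℝ} (hK : K0 ≠ 0) (w0 : E k) (A : ℝ) (h : ℕ) (T : D.Lb h × Lat k) (z : ST k) :
    D.fiW K0 w0 A h T (natX K0 w0 z) = D.wA A h T z := by
  unfold TDat.fiW TDat.wA TDat.X pw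
  rw [natX_resc hK]

theorem fi_W_pos (D : TDat c) (K0 : ℝ) (w0 : E k) (A : ℝ) (h : ℕ) (T : D.Lb h × Lat k) (X : ST k) : 0 < D.fiW K0 w0 A h T X := by
  unfold TDat.fiW pw
  exact Real.rpow_pos_of_pos (by positivity) _

theorem fi_W_anti (D : TDat c) (K0 : ℝ) (w0 : E k) {A B : ℝ} (hAB : A ≤ B) (h : ℕ) (T : D.Lb h × Lat k) (X : ST k) : D.fiW K0 w0 B h T X ≤ D.fiW K0 w0 A h T X := by
  unfold TDat.fiW pw
  exact Real.rpow_le_rpow_of_exponent_le (by linarith [norm_nonneg (natX (D.κ h / K0) (K0 • (D.fr h T.1 - w0)) X - lat T.2)]) (by linarith)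

theorem fi_E_nonneg (D : TDat c) (K0 : ℝ) (w0 : E k) (A : ℝ) (h : ℕ) (M : Finset (D.Cl h)) (a : D.Cl h → ℝ) (X : ST k) : 0 ≤ D.fiE K0 w0 A h M a X :=
  Finset.sum_nonneg fun T _ => mul_nonneg (sq_nonneg _) (fi_W_pos D K0 w0 A h T.1 X).le

theorem fi_E_anti (D : TDat c) (K0 : ℝ) (w0 : E k) {A B : ℝ} (hAB : A ≤ B) (h : ℕ) (M : Finset (D.Cl h)) (a : D.Cl h → ℝ) (X : ST k) :
    D.fiE K0 w0 B h M a X ≤ D.fiE K0 w0 A h M a X :=
  Finset.sum_le_sum fun T _ => mul_le_mul_of_nonneg_left (fi_W_anti D K0 w0 hAB h T.1 X) (sq_nonneg _)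

theorem fi_natX_norm_le {N : ℝ} (hN : 1 ≤ N) (v : E k) (ζ : ST k) : ‖natX N v ζ‖ ≤ (1 + 2 * ‖v‖) * ‖ζ‖ / N := by
  have hN0 : 0 < N := by linarith
  have h1 : ‖ζ.1‖ ≤ ‖ζ‖ := norm_fst_le ζ
  have h2 : |ζ.2| ≤ ‖ζ‖ := by simpa using norm_snd_le ζ
  have hv := norm_nonneg v
  have hz := norm_nonneg ζ
  unfold natX
  rw [Prod.norm_def]
  apply max_le
  · simp only
    rw [norm_smul, norm_inv, Real.norm_of_nonneg hN0.le, inv_mul_eq_div]
    apply div_le_div_of_nonneg_right _ hN0.le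
    calc ‖ζ.1 - (2 * ζ.2) • v‖ ≤ ‖ζ.1‖ + ‖(2 * ζ.2) • v‖ := norm_sub_le _ _
      _ = ‖ζ.1‖ + 2 * |ζ.2| * ‖v‖ := by rw [norm_smul, Real.norm_eq_abs, abs_mul]; norm_num
      _ ≤ ‖ζ‖ + 2 * ‖ζ‖ * ‖v‖ := by gcongr
      _ = (1 + 2 * ‖v‖) * ‖ζ‖ := by ring
  · simp only
    rw [Real.norm_eq_abs, abs_div, abs_of_pos (by positivity : (0:ℝ) < N ^ 2)]
    have h3 : |ζ.2| / N ^ 2 ≤ ‖ζ‖ / N := by
      rw [div_le_div_iff₀ (by positivity) hN0]
      calc |ζ.2| * N ≤ ‖ζ‖ * N := by gcongr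
        _ ≤ ‖ζ‖ * N ^ 2 := by
          apply mul_le_mul_of_nonneg_left _ hz
          nlinarith
    refine h3.trans ?_
    apply div_le_div_of_nonneg_right _ hN0.le
    nlinarith

/-- **LEAF L-257-FI-B3** (70 l., paper-free)  Peetre at the own scale.
PLAN: `natX_sub`; `‖natX S v Δ‖ ≤ (1 + 2B) ‖Δ‖ / S` (`Prod.norm_def`, `max_le`; first component `S⁻¹ (‖Δ.1‖ + 2 |Δ.2| B)`, second `|Δ.2|/S² ≤ |Δ.2|/S` since `1 ≤ S`); so `1 + ‖natX X' - u‖ ≤ (1 + 2B)(1 + ‖X - X'‖/S)(1 + ‖natX X - u‖)`;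
`Real.rpow_le_rpow`, `Real.mul_rpow`, `Real.rpow_neg`, `inv_le…`. -/
theorem fi_pw_peetre {A S B : ℝ} (hA : 0 ≤ A) (hS : 1 ≤ S) (hB : 0 ≤ B) {v : E k} (hv : ‖v‖ ≤ B) (u X X' : ST k) :
    pw A S v u X ≤ (1 + 2 * B) ^ A * (1 + ‖X - X'‖ / S) ^ A * pw A S v u X' := by
  have hS0 : 0 < S := by linarith
  have h1 : ‖natX S v (X' - X)‖ ≤ (1 + 2 * B) * (‖X - X'‖ / S) := by
    refine (fi_natX_norm_le hS v _).trans ?_
    rw [norm_sub_rev X' X, mul_div_assoc]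
    gcongr
  have h2 : natX S v X' - u = (natX S v X - u) + natX S v (X' - X) := by rw [natX_sub]; abel
  set a := ‖natX S v X - u‖ with ha
  set b := ‖X - X'‖ / S with hb
  have ha0 : 0 ≤ a := norm_nonneg _
  have hb0 : 0 ≤ b := by positivity
  have h3 : 1 + ‖natX S v X' - u‖ ≤ (1 + 2 * B) * (1 + b) * (1 + a) := by
    rw [h2]
    have := norm_add_le (natX S v X - u) (natX S v (X' - X))
    have e : (1 + 2 * B) * (1 + b) * (1 + a) = 1 + a + (1 + 2 * B) * b + 2 * B * (1 + a) + (1 + 2 * B) * (b * a) := by ring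
    have p1 : 0 ≤ 2 * B * (1 + a) := by positivity
    have p2 : 0 ≤ (1 + 2 * B) * (b * a) := by positivity
    linarith
  unfold pw
  rw [← ha]
  have hp : 0 < 1 + a := by positivity
  have hp' : 0 < 1 + ‖natX S v X' - u‖ := by positivity
  rw [Real.rpow_neg hp.le, Real.rpow_neg hp'.le, ← div_eq_mul_inv, le_div_iff₀ (Real.rpow_pos_of_pos hp' _),
    inv_mul_le_iff₀ (Real.rpow_pos_of_pos hp _), ← Real.mul_rpow (by positivity) (by positivity),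
    ← Real.mul_rpow hp.le (by positivity)]
  refine Real.rpow_le_rpow hp'.le (h3.trans (le_of_eq ?_)) hA
  ring

/-- **LEAF L-257-FI-B4** (40 l.)  Peetre for an envelope (termwise `fi_pw_peetre`, `Finset.mul_sum`). -/
theorem fi_E_peetre (D : TDat c) {K0 A B : ℝ} (w0 : E k) (hA : 0 ≤ A) (hB : 0 ≤ B) (h : ℕ) (hS : 1 ≤ D.κ h / K0) (M : Finset (D.Cl h)) (a : D.Cl h → ℝ)
    (hM : ∀ T ∈ M, ‖K0 • (D.fr h T.1.1 - w0)‖ ≤ B) (X X' : ST k) :
    D.fiE K0 w0 A h M a X ≤ (1 + 2 * B) ^ A * (1 + ‖X - X'‖ / (D.κ h / K0)) ^ A * D.fiE K0 w0 A h M a X' := by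
  unfold TDat.fiE
  rw [Finset.mul_sum]
  refine Finset.sum_le_sum fun T hT => ?_
  have h1 : D.fiW K0 w0 A h T.1 X ≤ (1 + 2 * B) ^ A * (1 + ‖X - X'‖ / (D.κ h / K0)) ^ A * D.fiW K0 w0 A h T.1 X' := by
    unfold TDat.fiW
    exact fi_pw_peetre hA hS hB (hM T hT) _ X X'
  calc a T ^ 2 * D.fiW K0 w0 A h T.1 X ≤ a T ^ 2 * ((1 + 2 * B) ^ A * (1 + ‖X - X'‖ / (D.κ h / K0)) ^ A * D.fiW K0 w0 A h T.1 X') :=
        mul_le_mul_of_nonneg_left h1 (sq_nonneg _)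
    _ = _ := by ring

/-! ## 3. the witness inequality -/

/-- **LEAF L-257-FI-B5** (70 l.)  one step of Cauchy + convolution.   PLAN: `ti_cauchy hc`, `ti_wA_conv hc (A := c.Q)` (`hc.P_gt`, `hc.P_lt`); multiply by `wA ≥ 0`, `Finset.sum_comm`, `Finset.mul_sum`. -/
theorem fi_wit_step (hc : c.Ok) : ∃ C : ℝ, 1 ≤ C ∧ ∀ D : TDat c, D.Good → ∀ (i : ℕ) (g : D.Cl i → (ST k →ᵇ ℂ)) (a : D.Cl i → ℝ), D.Adm i g a → ∀ z : ST k,
    ∑ T : D.Cl (i + 1), D.amp i g T ^ 2 * D.wA c.Q (i + 1) T.1 z ≤ C * (D.κ i / D.κ (i + 1)) ^ k * ∑ T' : D.Cl i, a T' ^ 2 * D.wA c.Q i T'.1 z := by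
  obtain ⟨C₁, hC₁, H₁⟩ := ti_cauchy hc
  obtain ⟨C₂, hC₂, H₂⟩ := ti_wA_conv hc (A := c.Q) (by linarith [hc.P_gt, hc.P_lt])
  refine ⟨C₁ * C₂, by nlinarith, fun D hD i g a hg z => ?_⟩
  have hκ0 : ∀ i, 0 < D.κ i := fun i => by linarith [hD.one_le_κ i]
  have hw : ∀ (j : ℕ) (T : D.Lb j × Lat k), 0 ≤ D.wA c.Q j T z := fun j T => by
    unfold TDat.wA
    positivity
  have hr : 0 ≤ C₁ * (D.κ i / D.κ (i + 1)) ^ k := by
    have := hκ0 i
    have := hκ0 (i + 1)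
    positivity
  calc ∑ T : D.Cl (i + 1), D.amp i g T ^ 2 * D.wA c.Q (i + 1) T.1 z
      ≤ ∑ T : D.Cl (i + 1), (C₁ * (D.κ i / D.κ (i + 1)) ^ k * ∑ T' : D.Cl i, a T' ^ 2 * D.edge c.Q i T'.1 T.1) * D.wA c.Q (i + 1) T.1 z :=
        Finset.sum_le_sum fun T _ => mul_le_mul_of_nonneg_right (H₁ D hD i g a hg T) (hw _ _)
    _ = C₁ * (D.κ i / D.κ (i + 1)) ^ k * ∑ T' : D.Cl i, a T' ^ 2 * ∑ T : D.Cl (i + 1), D.edge c.Q i T'.1 T.1 * D.wA c.Q (i + 1) T.1 z := by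
        simp only [Finset.mul_sum, Finset.sum_mul]
        rw [Finset.sum_comm]
        refine Finset.sum_congr rfl fun T' _ => Finset.sum_congr rfl fun T _ => ?_
        ring
    _ ≤ C₁ * (D.κ i / D.κ (i + 1)) ^ k * ∑ T' : D.Cl i, a T' ^ 2 * (C₂ * D.wA c.Q i T'.1 z) := by
        apply mul_le_mul_of_nonneg_left _ hr
        exact Finset.sum_le_sum fun T' _ => mul_le_mul_of_nonneg_left (H₂ D hD i T'.1 z) (sq_nonneg _)
    _ = _ := by
        simp only [Finset.mul_sum]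
        refine Finset.sum_congr rfl fun T' _ => ?_
        ring

theorem fi_sum_resA (D : TDat c) (i : ℕ) (M : Finset (D.Cl i)) (a : D.Cl i → ℝ) (w : D.Cl i → ℝ) :
    ∑ T' : D.Cl i, D.sys.resA M a T' ^ 2 * w T' = ∑ T' ∈ M, a T' ^ 2 * w T' := by
  have h0 : ∀ T' : D.Cl i, D.sys.resA M a T' ^ 2 * w T' = if T' ∈ M then a T' ^ 2 * w T' else 0 := by
    intro T'
    by_cases h : T' ∈ M
    · have : D.sys.resA M a T' = a T' := by unfold TSys.resA; exact if_pos h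
      rw [this, if_pos h]
    · have : D.sys.resA M a T' = 0 := by unfold TSys.resA; exact if_neg h
      rw [this, if_neg h]
      ring
  simp only [h0]
  rw [Finset.sum_ite_mem, Finset.univ_inter]

/-- **LEAF L-257-FI-B6** (100 l.)  iteration through the masks `M` of a tree.
PLAN: `C` of `fi_wit_step`.  Induction on `d`.  `D.sys.am M (i+1) T = D.amp i (D.sys.res (M i) (D.sys.fld M i)) T` (`rfl`), admissible with the amplitudes `D.sys.resA (M i) (D.sys.am M i)` (`tpf_adm_sel h M i _`; `D.sys.Adm = D.Adm` by `rfl`, `D.sys.ℓ = c.ℓ` by `rfl`);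
`∑_{T'} (resA (M i) a T')² w = ∑_{T' ∈ M i} a² w ≤ ∑_{T'} a² w` (`TSys.resA`, `Finset.sum_ite_mem`/`Finset.sum_filter`);  `(κ mu/κ(mu+d+1))^k (κ(mu+d+1)/κ(mu+d+2))^k = (κ mu/κ(mu+d+2))^k` (`← mul_pow`, `div_mul_div_cancel₀`). -/
theorem fi_wit_iter (hc : c.Ok) : ∃ C : ℝ, 1 ≤ C ∧ ∀ D : TDat c, D.Good → ∀ (p : TPar), D.sys.Ok p → ∀ (M : ∀ i, Finset (D.Cl i)) (mu d : ℕ), mu + d + 1 ≤ c.ℓ → ∀ z : ST k,
    ∑ T : D.Cl (mu + d + 1), D.sys.am M (mu + d + 1) T ^ 2 * D.wA c.Q (mu + d + 1) T.1 z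
      ≤ C ^ (d + 1) * (D.κ mu / D.κ (mu + d + 1)) ^ k * ∑ T' ∈ M mu, D.sys.am M mu T' ^ 2 * D.wA c.Q mu T'.1 z := by
  obtain ⟨C, hC, H⟩ := fi_wit_step hc
  refine ⟨C, hC, fun D hD p hO M mu d => ?_⟩
  have hκ0 : ∀ i, 0 < D.κ i := fun i => by linarith [hD.one_le_κ i]
  have hw : ∀ (j : ℕ) (T : D.Lb j × Lat k) (z : ST k), 0 ≤ D.wA c.Q j T z := fun j T z => by
    unfold TDat.wA
    positivity
  have step : ∀ i, i ≤ c.ℓ → ∀ z : ST k, ∑ T : D.Cl (i + 1), D.sys.am M (i + 1) T ^ 2 * D.wA c.Q (i + 1) T.1 z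
      ≤ C * (D.κ i / D.κ (i + 1)) ^ k * ∑ T' ∈ M i, D.sys.am M i T' ^ 2 * D.wA c.Q i T'.1 z := by
    intro i hi z
    have h1 := H D hD i (D.sys.res (M i) (D.sys.fld M i)) (D.sys.resA (M i) (D.sys.am M i)) (TSys.tpf_adm_sel hO M i hi) z
    rw [fi_sum_resA D i (M i) (D.sys.am M i) (fun T' => D.wA c.Q i T'.1 z)] at h1
    exact h1
  induction d with
  | zero =>
    intro hd z
    have := step mu (by omega) z
    simpa using this
  | succ d ih =>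
    intro hd z
    have h1 := step (mu + d + 1) (by omega) z
    have h2 := ih (by omega) z
    have h3 : ∑ T' ∈ M (mu + d + 1), D.sys.am M (mu + d + 1) T' ^ 2 * D.wA c.Q (mu + d + 1) T'.1 z
        ≤ ∑ T' : D.Cl (mu + d + 1), D.sys.am M (mu + d + 1) T' ^ 2 * D.wA c.Q (mu + d + 1) T'.1 z :=
      Finset.sum_le_sum_of_subset_of_nonneg (Finset.subset_univ _) fun T' _ _ => mul_nonneg (sq_nonneg _) (hw _ _ _)
    have hr : 0 ≤ C * (D.κ (mu + d + 1) / D.κ (mu + d + 1 + 1)) ^ k := by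
      have := hκ0 (mu + d + 1)
      have := hκ0 (mu + d + 1 + 1)
      positivity
    show ∑ T : D.Cl (mu + d + 1 + 1), D.sys.am M (mu + d + 1 + 1) T ^ 2 * D.wA c.Q (mu + d + 1 + 1) T.1 z
      ≤ C ^ (d + 1 + 1) * (D.κ mu / D.κ (mu + d + 1 + 1)) ^ k * ∑ T' ∈ M mu, D.sys.am M mu T' ^ 2 * D.wA c.Q mu T'.1 z
    calc ∑ T : D.Cl (mu + d + 1 + 1), D.sys.am M (mu + d + 1 + 1) T ^ 2 * D.wA c.Q (mu + d + 1 + 1) T.1 z
        ≤ C * (D.κ (mu + d + 1) / D.κ (mu + d + 1 + 1)) ^ k * (C ^ (d + 1) * (D.κ mu / D.κ (mu + d + 1)) ^ k * ∑ T' ∈ M mu, D.sys.am M mu T' ^ 2 * D.wA c.Q mu T'.1 z) :=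
          h1.trans (mul_le_mul_of_nonneg_left (h3.trans h2) hr)
      _ = C ^ (d + 1 + 1) * ((D.κ mu / D.κ (mu + d + 1)) * (D.κ (mu + d + 1) / D.κ (mu + d + 1 + 1))) ^ k * ∑ T' ∈ M mu, D.sys.am M mu T' ^ 2 * D.wA c.Q mu T'.1 z := by
          rw [mul_pow, pow_succ C (d + 1)]
          ring
      _ = _ := by rw [div_mul_div_cancel₀ (hκ0 _).ne']

/-- **LEAF L-257-FI-B7: THE WITNESS INEQUALITY IN THE FRAME** (120 l.)   (H l.1172-1183)   `Pm` = the cells of the mask `S mu` in one group.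
PLAN.  `obtain ⟨d, rfl⟩ : ∃ d, lam = mu + d + 1`.  `z₀ = D.ctr lam T.1`: `D.wA c.Q lam T.1 z₀ = 1` (`TDat.X_ctr`, `norm_zero`, `Real.one_rpow`), so `am² ≤ ∑_{T₁} am² wA` (`Finset.single_le_sum`); `fi_wit_iter` with `M = D.sys.upd S mu Pm`; `tcg_upd_self`, `tcg_am_upd S le_rfl Pm`.
`z = natI (κ lam) (fr lam τ) X`: `ti_pw_peetre` (`K = κ lam`, `v = fr lam τ`, `K' = κ mu`, `Cc := 2 c.Cc`, `hv` = `fi_und_near`): `wA Q mu T' z₀ ≤ (1 + 4Cc)^Q (1 + ‖natX z - natX z₀‖)^Q wA Q mu T' z`; `natX_natI`: `natX z = X`, `natX z₀ = lat T.1.2` (`hT`);  `fi_W_nat`.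
Constant: `C_iter^ℓ (1 + 4 Cc)^Q` (`d + 1 ≤ ℓ`, `pow_le_pow_right₀`). -/
theorem fi_wit (hc : c.Ok) : ∃ C : ℝ, 1 ≤ C ∧ ∀ D : TDat c, D.Good → ∀ (p : TPar), D.sys.Ok p → ∀ (S : ∀ i, Finset (D.Cl i)) (mu lam : ℕ), mu < lam → lam ≤ c.ℓ →
    ∀ (τ : D.Lb lam) (Pm : Finset (D.Cl mu)), (∀ T' ∈ Pm, D.Und lam τ mu T'.1.1) → ∀ T : D.Cl lam, T.1.1 = τ → ∀ X : ST k,
    D.sys.am (D.sys.upd S mu Pm) lam T ^ 2
      ≤ C * (D.κ mu / D.κ lam) ^ k * (1 + ‖X - lat T.1.2‖) ^ c.Q * D.fiE (D.κ lam) (D.fr lam τ) c.Q mu Pm (D.sys.am S mu) X := by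
  obtain ⟨C, hC, H⟩ := fi_wit_iter hc
  have hCc : 0 ≤ c.Cc := by linarith [hc.one_le_Cc]
  have hQ : 0 ≤ c.Q := by
    have := hc.P_gt
    have := hc.P_lt
    have : (0 : ℝ) ≤ k := Nat.cast_nonneg k
    linarith
  have hlC : (0 : ℝ) ≤ (c.ℓ : ℝ) * c.Cc := by positivity
  have h14 : 1 ≤ (1 + 2 * ((c.ℓ : ℝ) * c.Cc)) ^ c.Q := Real.one_le_rpow (by linarith) hQ
  refine ⟨C ^ c.ℓ * (1 + 2 * ((c.ℓ : ℝ) * c.Cc)) ^ c.Q, by
    have := one_le_pow₀ hC (n := c.ℓ)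
    nlinarith, fun D hD p hO S mu lam hml hl τ Pm hPm T hT X => ?_⟩
  obtain ⟨d, rfl⟩ : ∃ d, lam = mu + d + 1 := ⟨lam - mu - 1, by omega⟩
  have hκ0 : ∀ i, 0 < D.κ i := fun i => by linarith [hD.one_le_κ i]
  have hw : ∀ (j : ℕ) (T : D.Lb j × Lat k) (z : ST k), 0 ≤ D.wA c.Q j T z := fun j T z => by
    unfold TDat.wA
    positivity
  set z₀ : ST k := D.ctr (mu + d + 1) T.1 with hz₀
  set z : ST k := natI (D.κ (mu + d + 1)) (D.fr (mu + d + 1) τ) X with hz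
  have h1 : D.wA c.Q (mu + d + 1) T.1 z₀ = 1 := by
    unfold TDat.wA
    rw [hz₀, TDat.X_ctr D hD, norm_zero, add_zero, Real.one_rpow]
  have h2 := H D hD p hO (D.sys.upd S mu Pm) mu d hl z₀
  have e1 : D.sys.upd S mu Pm mu = Pm := TSys.tcg_upd_self (𝔖 := D.sys) S mu Pm
  have e2 : D.sys.am (D.sys.upd S mu Pm) mu = D.sys.am S mu := TSys.tcg_am_upd (𝔖 := D.sys) S le_rfl Pm
  rw [e1, e2] at h2
  have h3 : D.sys.am (D.sys.upd S mu Pm) (mu + d + 1) T ^ 2 ≤ ∑ T₁ : D.Cl (mu + d + 1), D.sys.am (D.sys.upd S mu Pm) (mu + d + 1) T₁ ^ 2 * D.wA c.Q (mu + d + 1) T₁.1 z₀ := by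
    have := Finset.single_le_sum (f := fun T₁ : D.Cl (mu + d + 1) => D.sys.am (D.sys.upd S mu Pm) (mu + d + 1) T₁ ^ 2 * D.wA c.Q (mu + d + 1) T₁.1 z₀)
      (fun T₁ _ => mul_nonneg (sq_nonneg _) (hw _ _ _)) (Finset.mem_univ T)
    simp only [h1, mul_one] at this
    exact this
  have hX1 : natX (D.κ (mu + d + 1)) (D.fr (mu + d + 1) τ) z = X := natX_natI (hκ0 (mu + d + 1)).ne' _ _
  have hX2 : natX (D.κ (mu + d + 1)) (D.fr (mu + d + 1) τ) z₀ = lat T.1.2 := by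
    rw [hz₀, ← hT]
    exact natX_natI (hκ0 (mu + d + 1)).ne' _ _
  have hκle : D.κ (mu + d + 1) ≤ D.κ mu := by
    have : ∀ e, D.κ (mu + e) ≤ D.κ mu := by
      intro e
      induction e with
      | zero => exact le_rfl
      | succ e ih => exact (hD.κ_anti (mu + e)).trans ih
    exact this (d + 1)
  have h4 : ∀ T' ∈ Pm, D.wA c.Q mu T'.1 z₀ ≤ (1 + 2 * ((c.ℓ : ℝ) * c.Cc)) ^ c.Q * (1 + ‖X - lat T.1.2‖) ^ c.Q * D.fiW (D.κ (mu + d + 1)) (D.fr (mu + d + 1) τ) c.Q mu T'.1 X := by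
    intro T' hT'
    have hv : ‖D.fr mu T'.1.1 - D.fr (mu + d + 1) τ‖ ≤ (c.ℓ : ℝ) * c.Cc / D.κ (mu + d + 1) := by
      refine (fi_und_near hc D hD (mu + d + 1) τ mu hml.le T'.1.1 (hPm T' hT')).trans ?_
      apply div_le_div_of_nonneg_right _ (hκ0 _).le
      apply mul_le_mul_of_nonneg_right _ hCc
      exact_mod_cast hl
    have h5 := ti_pw_peetre (A := c.Q) (hκ0 (mu + d + 1)) hκle (by positivity : (0 : ℝ) ≤ (c.ℓ : ℝ) * c.Cc) hQ hv (lat T'.1.2) z z₀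
    rw [hX1, hX2] at h5
    have h6 : D.fiW (D.κ (mu + d + 1)) (D.fr (mu + d + 1) τ) c.Q mu T'.1 X = D.wA c.Q mu T'.1 z := by
      rw [← hX1, fi_W_nat D (hκ0 (mu + d + 1)).ne']
    rw [h6]
    exact h5
  have hr : 0 ≤ C ^ (d + 1) * (D.κ mu / D.κ (mu + d + 1)) ^ k := by
    have := hκ0 mu
    have := hκ0 (mu + d + 1)
    positivity
  have hE0 := fi_E_nonneg D (D.κ (mu + d + 1)) (D.fr (mu + d + 1) τ) c.Q mu Pm (D.sys.am S mu) X
  have hCd : C ^ (d + 1) ≤ C ^ c.ℓ := pow_le_pow_right₀ hC (by omega)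
  calc D.sys.am (D.sys.upd S mu Pm) (mu + d + 1) T ^ 2
      ≤ C ^ (d + 1) * (D.κ mu / D.κ (mu + d + 1)) ^ k * ∑ T' ∈ Pm, D.sys.am S mu T' ^ 2 * D.wA c.Q mu T'.1 z₀ := h3.trans h2
    _ ≤ C ^ (d + 1) * (D.κ mu / D.κ (mu + d + 1)) ^ k * ∑ T' ∈ Pm, D.sys.am S mu T' ^ 2 *
          ((1 + 2 * ((c.ℓ : ℝ) * c.Cc)) ^ c.Q * (1 + ‖X - lat T.1.2‖) ^ c.Q * D.fiW (D.κ (mu + d + 1)) (D.fr (mu + d + 1) τ) c.Q mu T'.1 X) := by
        apply mul_le_mul_of_nonneg_left _ hr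
        exact Finset.sum_le_sum fun T' hT' => mul_le_mul_of_nonneg_left (h4 T' hT') (sq_nonneg _)
    _ = C ^ (d + 1) * ((1 + 2 * ((c.ℓ : ℝ) * c.Cc)) ^ c.Q * (D.κ mu / D.κ (mu + d + 1)) ^ k * (1 + ‖X - lat T.1.2‖) ^ c.Q * D.fiE (D.κ (mu + d + 1)) (D.fr (mu + d + 1) τ) c.Q mu Pm (D.sys.am S mu) X) := by
        unfold TDat.fiE
        simp only [Finset.mul_sum]
        refine Finset.sum_congr rfl fun T' _ => ?_
        ring
    _ ≤ C ^ c.ℓ * ((1 + 2 * ((c.ℓ : ℝ) * c.Cc)) ^ c.Q * (D.κ mu / D.κ (mu + d + 1)) ^ k * (1 + ‖X - lat T.1.2‖) ^ c.Q * D.fiE (D.κ (mu + d + 1)) (D.fr (mu + d + 1) τ) c.Q mu Pm (D.sys.am S mu) X) := by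
        apply mul_le_mul_of_nonneg_right hCd
        have := hκ0 mu
        have := hκ0 (mu + d + 1)
        positivity
    _ = _ := by ring

/-! ## 4. the fields `l2` and `kak` -/

/-- **LEAF L-257-FI-B8** (50 l.)  the fresh amplitude of a parent sees only its own children.   PLAN: `TDat.amp`, `TDat.pre`: `pre h g v = pre h g' v` (`Finset.sum_congr`, `split_ifs`). -/
theorem fi_amp_congr (D : TDat c) (h : ℕ) (g g' : D.Cl h → (ST k →ᵇ ℂ)) (T : D.Cl (h + 1)) (hg : ∀ T' : D.Cl h, D.par h T'.1.1 = T.1.1 → g T' = g' T') :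
    D.amp h g T = D.amp h g' T := by
  have h1 : D.pre h g T.1.1 = D.pre h g' T.1.1 := by
    unfold TDat.pre
    refine Finset.sum_congr rfl fun T' _ => ?_
    split_ifs with h2
    · exact hg T' h2
    · rfl
  unfold TDat.amp
  rw [h1]

/-- **LEAF L-257-FI-B9: the field `l2`** (120 l.)   `V` = a set of labels of height `h+1` (the labels of one group).
PLAN.  `Mh = (S h).filter fun T' => V (par h T'.1.1)`, `g = D.sys.res Mh (D.sys.fld S h)`, `a = D.sys.resA Mh (D.sys.am S h)`: admissible (`tpf_adm_res hO (tpf_adm hO S h _) Mh`).   `hL2 D hD h g a _ K0 w0 … cc X' hX`.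
Left: for `T ∈ S (h+1)` with `V T.1.1`: `D.sys.am S (h+1) T = D.amp h (D.sys.res (S h) (D.sys.fld S h)) T` (`rfl`) `= D.amp h g T` (`fi_amp_congr`: for a child of `T`, `T' ∈ Mh ↔ T' ∈ S h`); so `fiE (h+1) (filter) (am) X ≤ fiE (h+1) univ (amp h g) X` (`Finset.sum_le_sum_of_subset_of_nonneg`);
`lintegral_mono`, `ENNReal.ofReal_le_ofReal`.    Right: `fiE h univ a X' = fiE h Mh (am S h) X'` (`TSys.resA`, `Finset.sum_ite_mem`-type). -/
theorem fi_env_l2 {A Cd K2 : ℝ} (hL2 : FiL2At c A Cd K2) (D : TDat c) (hD : D.Good) (p : TPar) (hO : D.sys.Ok p) (S : ∀ i, Finset (D.Cl i)) (h : ℕ) (hh : h + 1 ≤ c.ℓ)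
    (K0 : ℝ) (w0 : E k) (hK0 : 0 < K0) (hK : K0 ≤ D.κ (h + 1)) (V : D.Lb (h + 1) → Prop)
    (hlab : ∀ T' ∈ S h, V (D.par h T'.1.1) → ‖D.fr h T'.1.1 - w0‖ ≤ Cd / K0) (cc X' : ST k) (hX : ‖X' - cc‖ ≤ D.κ h / K0) :
    ∫⁻ X in closedBall cc (D.κ h / K0), ENNReal.ofReal (D.fiE K0 w0 A (h + 1) ((S (h + 1)).filter fun T => V T.1.1) (D.sys.am S (h + 1)) X)
      ≤ ENNReal.ofReal (K2 * (D.κ h / K0) ^ (k + 1)) * ENNReal.ofReal (D.fiE K0 w0 A h ((S h).filter fun T' => V (D.par h T'.1.1)) (D.sys.am S h) X') := by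
  set Mh : Finset (D.Cl h) := (S h).filter fun T' => V (D.par h T'.1.1) with hMh
  set g : D.Cl h → (ST k →ᵇ ℂ) := D.sys.res Mh (D.sys.fld S h) with hg
  set a : D.Cl h → ℝ := D.sys.resA Mh (D.sys.am S h) with ha
  have hadm : D.Adm h g a := TSys.tpf_adm_res hO (TSys.tpf_adm hO S h (by show h ≤ c.ℓ; omega)) Mh
  have hlab' : ∀ T', a T' ≠ 0 → ‖D.fr h T'.1.1 - w0‖ ≤ Cd / K0 := by
    intro T' hT'
    by_cases hm : T' ∈ Mh
    · rw [hMh, Finset.mem_filter] at hm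
      exact hlab T' hm.1 hm.2
    · exact absurd (by rw [ha]; unfold TSys.resA; exact if_neg hm) hT'
  have main := hL2 D hD h (by omega) g a hadm K0 w0 hK0 hK hlab' cc X' hX
  have hR : D.fiE K0 w0 A h Finset.univ a X' = D.fiE K0 w0 A h Mh (D.sys.am S h) X' := by
    unfold TDat.fiE
    exact fi_sum_resA D h Mh (D.sys.am S h) (fun T' => D.fiW K0 w0 A h T'.1 X')
  have hL : ∀ X, D.fiE K0 w0 A (h + 1) ((S (h + 1)).filter fun T => V T.1.1) (D.sys.am S (h + 1)) X ≤ D.fiE K0 w0 A (h + 1) Finset.univ (D.amp h g) X := by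
    intro X
    unfold TDat.fiE
    have h1 : ∀ T ∈ (S (h + 1)).filter fun T => V T.1.1, D.sys.am S (h + 1) T ^ 2 * D.fiW K0 w0 A (h + 1) T.1 X = D.amp h g T ^ 2 * D.fiW K0 w0 A (h + 1) T.1 X := by
      intro T hT
      rw [Finset.mem_filter] at hT
      have h2 : D.sys.am S (h + 1) T = D.amp h (D.sys.res (S h) (D.sys.fld S h)) T := rfl
      rw [h2, fi_amp_congr D h (D.sys.res (S h) (D.sys.fld S h)) g T]
      intro T' hT'
      rw [hg]
      unfold TSys.res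
      by_cases hm : T' ∈ S h
      · have hm' : T' ∈ Mh := by
          rw [hMh, Finset.mem_filter]
          exact ⟨hm, by rw [hT']; exact hT.2⟩
        exact (if_pos hm).trans (if_pos hm').symm
      · have hm' : T' ∉ Mh := by
          rw [hMh, Finset.mem_filter]
          exact fun h' => hm h'.1
        exact (if_neg hm).trans (if_neg hm').symm
    rw [Finset.sum_congr rfl h1]
    exact Finset.sum_le_sum_of_subset_of_nonneg (Finset.subset_univ _) fun T _ _ => mul_nonneg (sq_nonneg _) (fi_W_pos D K0 w0 A (h + 1) T.1 X).le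
  rw [hR, ENNReal.ofReal_mul' (fi_E_nonneg D K0 w0 A h Mh (D.sys.am S h) X')] at main
  exact (lintegral_mono fun X => ENNReal.ofReal_le_ofReal (hL X)).trans main

/-- the field `kak` (direct from `FiMKAt` = `fi3_mk_pw` of helper162) -/
theorem fi_env_kak {B A Cm : ℝ} {Mm : ℕ} (hMK : FiMKAt k B A Cm Mm) (D : TDat c) (h' : ℕ) (K0 : ℝ) (w0 : E k) (hS : 0 < D.κ h' / K0) (M : Fin (k + 1) → Finset (D.Cl h')) (a : D.Cl h' → ℝ)
    (R Q : ℝ) (hSR : D.κ h' / K0 ≤ R) (hRS : R ≤ (D.κ h' / K0) ^ 2) (hQ : 1 ≤ Q) (hB : ∀ j, ∀ T ∈ M j, ‖K0 • (D.fr h' T.1.1 - w0)‖ ≤ B)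
    (htr : ∀ t : Fin (k + 1) → D.Cl h', (∀ j, t j ∈ M j) → Transv Q (fun j => K0 • (D.fr h' (t j).1.1 - w0))) (z₀ : ST k) :
    ∫⁻ X in closedBall z₀ R, ∏ j, ENNReal.ofReal (D.fiE K0 w0 A h' (M j) a X) ^ (1 / (k : ℝ))
      ≤ ENNReal.ofReal (Cm * Q ^ Mm * R ^ (k + 1)) *
        ∏ j, (ENNReal.ofReal ((R ^ (k + 1))⁻¹) * ∫⁻ X in closedBall z₀ ((2 + 4 * B) * R), ENNReal.ofReal (D.fiE K0 w0 A h' (M j) a X)) ^ (1 / (k : ℝ)) :=
  hMK (D.κ h' / K0) R Q hS hSR hRS hQ (D.Cl h') M (fun _ T => K0 • (D.fr h' T.1.1 - w0)) (fun _ T => lat T.1.2) (fun _ T => a T ^ 2)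
    (fun _ _ _ => sq_nonneg _) hB htr z₀

/-! ## 5. the background -/

/-- the reference envelope of the cap `τ` at the height `h` (order `c.P`), in the frame of `τ` -/
def Tree.TDat.fiB (D : TDat c) (lam : ℕ) (τ : D.Lb lam) (h : ℕ) (X : ST k) : ℝ :=
  D.fiE (D.κ lam) (D.fr lam τ) c.P h (Finset.univ.filter fun T => D.Und lam τ h T.1.1) (D.bb h) X

/-- **LEAF L-257-FI-B12** (60 l.)  the height just below a cell: EQUALITY with the reference weight.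
PLAN: `TDat.bb_succ_sq`; `TDat.edge`: `edge P h T' T = if par h T'.1 = T.1 then wA P h T' (ctr (h+1) T) else 0`; `fi_und_step` + `fi_und_top`: `Und (h+1) T.1.1 h v ↔ par h v = T.1.1`; `Finset.sum_filter`;
`fi_W_nat` with `z = ctr (h+1) T.1` and `natX (κ (h+1)) (fr (h+1) T.1.1) (ctr (h+1) T.1) = lat T.1.2` (`TDat.ctr`, `natX_natI`, `κ ≠ 0` from `hD.one_le_κ`). -/
theorem fi_bg_base (D : TDat c) (hD : D.Good) (h : ℕ) (T : D.Cl (h + 1)) : D.fiB (h + 1) T.1.1 h (lat T.1.2) = D.bb (h + 1) T ^ 2 := by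
  have hκ : D.κ (h + 1) ≠ 0 := by
    have := hD.one_le_κ (h + 1)
    exact (by linarith : (0 : ℝ) < D.κ (h + 1)).ne'
  have hX : lat T.1.2 = natX (D.κ (h + 1)) (D.fr (h + 1) T.1.1) (D.ctr (h + 1) T.1) := by
    unfold TDat.ctr
    rw [natX_natI hκ]
  rw [D.bb_succ_sq]
  unfold TDat.fiB TDat.fiE
  rw [Finset.sum_filter]
  refine Finset.sum_congr rfl fun T' _ => ?_
  have hU : D.Und (h + 1) T.1.1 h T'.1.1 ↔ D.par h T'.1.1 = T.1.1 := by
    rw [fi_und_step D (h + 1) T.1.1 h (Nat.lt_succ_self h), fi_und_top]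
  unfold TDat.edge
  by_cases hp : D.par h T'.1.1 = T.1.1
  · rw [if_pos (hU.2 hp), if_pos hp, hX, fi_W_nat D hκ]
  · rw [if_neg (fun h' => hp (hU.1 h')), if_neg hp, mul_zero]

/-- **LEAF L-257-FI-B13** (150 l.)  one step DOWN of the lower bound of the reference weights: needs a cell of the window of height `h+1` near the point, for every label under `τ` (FULL WINDOWS).
PLAN.  `z = natI (κ lam) (fr lam τ) X`, `fi_W_nat`: everything in terms of `wA P · · z`.   For a label `v` of height `h+1` under `τ` let `T₁ v = ⟨(v, m v), _⟩` (choice from `hfull`).   For `T'` of height `h` under `τ`, `v = par h T'.1.1` (under `τ`: `fi_und_step`):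
`wA P h T' z ≤ (1+2Cc)^P (1 + ‖X (h+1) (T₁ v) z‖)^P edge P h T' (T₁ v) ≤ (1+2Cc)^P (k+2)^P edge` (`ti_edge_ge hc D hD`), and `1 ≤ (k+2)^P wA P (h+1) (T₁ v) z`.
So `∑_{T' under τ} bb² wA ≤ C ∑_{T'} bb_{T'}² edge P h T' (T₁ (par T')) wA P (h+1) (T₁ (par T')) z = C ∑_{v under τ} (∑_{T' : par T' = v} bb² edge P h T' (T₁ v)) wA(T₁ v)` (`Finset.sum_fiberwise`/`Finset.sum_comm'`), inner sum `= bb (h+1) (T₁ v)²` (`TDat.bb_succ_sq`; the other summands vanish);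
`v ↦ T₁ v` is injective: `≤ C ∑_{T₁ under τ} bb² wA` (`Finset.sum_image`/`sum_le_sum_of_subset_of_nonneg`).   `C = (1+2Cc)^P (k+2)^(2P)`. -/
theorem fi_bg_step (hc : c.Ok) (D : TDat c) (hD : D.Good) (lam : ℕ) (τ : D.Lb lam) (h : ℕ) (hh : h + 1 ≤ lam) (X : ST k)
    (hfull : ∀ v : D.Lb (h + 1), D.Und lam τ (h + 1) v → ∃ m : Lat k, (v, m) ∈ D.W (h + 1) ∧ ‖D.X (h + 1) (v, m) (natI (D.κ lam) (D.fr lam τ) X)‖ ≤ (k : ℝ) + 1) :
    D.fiB lam τ h X ≤ (1 + 2 * c.Cc) ^ c.P * ((k : ℝ) + 2) ^ (2 * c.P) * D.fiB lam τ (h + 1) X := by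
  have hκ : D.κ lam ≠ 0 := by
    have := hD.one_le_κ lam
    exact (by linarith : (0 : ℝ) < D.κ lam).ne'
  have hP : 0 ≤ c.P := by
    have := hc.P_gt
    have : (0 : ℝ) ≤ k := Nat.cast_nonneg k
    linarith
  have hCc : 0 ≤ c.Cc := by linarith [hc.one_le_Cc]
  obtain ⟨z, hz⟩ : ∃ z, z = natI (D.κ lam) (D.fr lam τ) X := ⟨_, rfl⟩
  have hX : X = natX (D.κ lam) (D.fr lam τ) z := by rw [hz, natX_natI hκ]
  rw [← hz] at hfull
  obtain ⟨C, hC⟩ : ∃ C, C = (1 + 2 * c.Cc) ^ c.P * ((k : ℝ) + 2) ^ (2 * c.P) := ⟨_, rfl⟩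
  have hC0 : 0 ≤ C := by rw [hC]; positivity
  rw [← hC]
  have hw : ∀ (i : ℕ) (T : D.Lb i × Lat k), 0 < D.wA c.P i T z := fun i T => by
    unfold TDat.wA
    positivity
  have he : ∀ (T' : D.Lb h × Lat k) (T : D.Lb (h + 1) × Lat k), 0 ≤ D.edge c.P h T' T := fun T' T => by
    unfold TDat.edge
    split_ifs
    · unfold TDat.wA
      positivity
    · exact le_rfl
  unfold TDat.fiB TDat.fiE
  simp only [hX, fi_W_nat D hκ]
  -- pointwise
  have hpt : ∀ T' ∈ Finset.univ.filter (fun T' : D.Cl h => D.Und lam τ h T'.1.1),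
      D.bb h T' ^ 2 * D.wA c.P h T'.1 z ≤ C * ∑ T₁ ∈ Finset.univ.filter (fun T₁ : D.Cl (h + 1) => D.Und lam τ (h + 1) T₁.1.1),
        D.bb h T' ^ 2 * D.edge c.P h T'.1 T₁.1 * D.wA c.P (h + 1) T₁.1 z := by
    intro T' hT'
    have hU := (Finset.mem_filter.1 hT').2
    rw [fi_und_step D lam τ h (by omega)] at hU
    obtain ⟨m, hmW, hmX⟩ := hfull _ hU
    have h1 := ti_edge_ge hc D hD hP h T'.1 (D.par h T'.1.1, m) rfl z
    have hk2 : (0 : ℝ) < (k : ℝ) + 2 := by positivity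
    have h2 : (1 + ‖D.X (h + 1) (D.par h T'.1.1, m) z‖) ^ c.P ≤ ((k : ℝ) + 2) ^ c.P :=
      Real.rpow_le_rpow (by positivity) (by linarith) hP
    have h3 : 1 ≤ ((k : ℝ) + 2) ^ c.P * D.wA c.P (h + 1) (D.par h T'.1.1, m) z := by
      unfold TDat.wA
      rw [Real.rpow_neg (by positivity), ← div_eq_mul_inv, one_le_div (by positivity)]
      exact h2
    have h4 : D.wA c.P h T'.1 z ≤ C * (D.edge c.P h T'.1 (D.par h T'.1.1, m) * D.wA c.P (h + 1) (D.par h T'.1.1, m) z) := by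
      have e0 := he T'.1 (D.par h T'.1.1, m)
      calc D.wA c.P h T'.1 z ≤ (1 + 2 * c.Cc) ^ c.P * (1 + ‖D.X (h + 1) (D.par h T'.1.1, m) z‖) ^ c.P * D.edge c.P h T'.1 (D.par h T'.1.1, m) := h1
        _ ≤ (1 + 2 * c.Cc) ^ c.P * ((k : ℝ) + 2) ^ c.P * D.edge c.P h T'.1 (D.par h T'.1.1, m) := by
            refine mul_le_mul_of_nonneg_right ?_ e0
            exact mul_le_mul_of_nonneg_left h2 (by positivity)
        _ = (1 + 2 * c.Cc) ^ c.P * ((k : ℝ) + 2) ^ c.P * D.edge c.P h T'.1 (D.par h T'.1.1, m) * 1 := (mul_one _).symm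
        _ ≤ (1 + 2 * c.Cc) ^ c.P * ((k : ℝ) + 2) ^ c.P * D.edge c.P h T'.1 (D.par h T'.1.1, m)
              * (((k : ℝ) + 2) ^ c.P * D.wA c.P (h + 1) (D.par h T'.1.1, m) z) :=
            mul_le_mul_of_nonneg_left h3 (by positivity)
        _ = _ := by
            rw [hC, two_mul c.P, Real.rpow_add hk2]
            ring
    have h5 : D.bb h T' ^ 2 * D.edge c.P h T'.1 (D.par h T'.1.1, m) * D.wA c.P (h + 1) (D.par h T'.1.1, m) z
        ≤ ∑ T₁ ∈ Finset.univ.filter (fun T₁ : D.Cl (h + 1) => D.Und lam τ (h + 1) T₁.1.1),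
          D.bb h T' ^ 2 * D.edge c.P h T'.1 T₁.1 * D.wA c.P (h + 1) T₁.1 z := by
      refine Finset.single_le_sum (f := fun T₁ : D.Cl (h + 1) => D.bb h T' ^ 2 * D.edge c.P h T'.1 T₁.1 * D.wA c.P (h + 1) T₁.1 z)
        (fun T₁ _ => mul_nonneg (mul_nonneg (sq_nonneg _) (he _ _)) (hw _ _).le)
        (a := (⟨(D.par h T'.1.1, m), hmW⟩ : D.Cl (h + 1))) ?_
      exact Finset.mem_filter.2 ⟨Finset.mem_univ _, hU⟩
    calc D.bb h T' ^ 2 * D.wA c.P h T'.1 z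
        ≤ D.bb h T' ^ 2 * (C * (D.edge c.P h T'.1 (D.par h T'.1.1, m) * D.wA c.P (h + 1) (D.par h T'.1.1, m) z)) :=
          mul_le_mul_of_nonneg_left h4 (sq_nonneg _)
      _ = C * (D.bb h T' ^ 2 * D.edge c.P h T'.1 (D.par h T'.1.1, m) * D.wA c.P (h + 1) (D.par h T'.1.1, m) z) := by ring
      _ ≤ _ := mul_le_mul_of_nonneg_left h5 hC0
  refine (Finset.sum_le_sum hpt).trans ?_
  rw [← Finset.mul_sum, Finset.sum_comm]
  refine mul_le_mul_of_nonneg_left ?_ hC0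
  refine Finset.sum_le_sum fun T₁ _ => ?_
  rw [D.bb_succ_sq, ← Finset.sum_mul]
  refine mul_le_mul_of_nonneg_right ?_ (hw _ _).le
  exact Finset.sum_le_sum_of_subset_of_nonneg (Finset.filter_subset _ _)
    fun T' _ _ => mul_nonneg (sq_nonneg _) (he _ _)

/-- **LEAF L-257-FI-B14: LOWER BOUND OF THE REFERENCE WEIGHT OF A CELL** (90 l.)  (H l.1183 "the background is comparable")
PLAN: `obtain ⟨h₀, rfl⟩ : ∃ h₀, lam = h₀ + 1`; `subst hT`;  prove `fiB lam τ (h₀ - d) X₀ ≤ C₁^d bb²` by induction on `d ≤ h₀ - bot` (or: `∀ d h, h + d = h₀ → bot ≤ h → fiB … h X₀ ≤ C₁^d * bb²`), base `fi_bg_base`, step `fi_bg_step` (`natI … (lat T.1.2) = ctr lam T.1` is `rfl`/`TDat.ctr`);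
`C = C₁^ℓ`, `C₁ = (1+2Cc)^P (k+2)^(2P) ≥ 1`. -/
theorem fi_bg_low (hc : c.Ok) : ∃ C : ℝ, 1 ≤ C ∧ ∀ D : TDat c, D.Good → ∀ (bot lam : ℕ), bot < lam → lam ≤ c.ℓ → ∀ (τ : D.Lb lam) (T : D.Cl lam), T.1.1 = τ →
    (∀ h, bot < h → h < lam → ∀ v : D.Lb h, D.Und lam τ h v → ∃ m : Lat k, (v, m) ∈ D.W h ∧ ‖D.X h (v, m) (D.ctr lam T.1)‖ ≤ (k : ℝ) + 1) →
    D.fiB lam τ bot (lat T.1.2) ≤ C * D.bb lam T ^ 2 := by
  have hP : 0 ≤ c.P := by
    have := hc.P_gt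
    have : (0 : ℝ) ≤ k := Nat.cast_nonneg k
    linarith
  have hCc : 0 ≤ c.Cc := by linarith [hc.one_le_Cc]
  obtain ⟨C₁, hC₁⟩ : ∃ C₁, C₁ = (1 + 2 * c.Cc) ^ c.P * ((k : ℝ) + 2) ^ (2 * c.P) := ⟨_, rfl⟩
  have hC1 : 1 ≤ C₁ := by
    rw [hC₁]
    have a1 : (1 : ℝ) ≤ (1 + 2 * c.Cc) ^ c.P := Real.one_le_rpow (by linarith) hP
    have a2 : (1 : ℝ) ≤ ((k : ℝ) + 2) ^ (2 * c.P) := Real.one_le_rpow (by
      have : (0 : ℝ) ≤ k := Nat.cast_nonneg k
      linarith) (by linarith)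
    nlinarith
  refine ⟨C₁ ^ c.ℓ, one_le_pow₀ hC1, ?_⟩
  intro D hD bot lam hbl hl τ T hT hfull
  obtain ⟨h₀, rfl⟩ : ∃ h₀, lam = h₀ + 1 := ⟨lam - 1, by omega⟩
  subst hT
  have key : ∀ d h, h + d = h₀ → bot ≤ h → D.fiB (h₀ + 1) T.1.1 h (lat T.1.2) ≤ C₁ ^ d * D.bb (h₀ + 1) T ^ 2 := by
    intro d
    induction d with
    | zero =>
      intro h he _
      have he' : h = h₀ := by omega
      subst he'
      rw [fi_bg_base D hD h T, pow_zero, one_mul]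
    | succ d ih =>
      intro h he hb
      have h1 := fi_bg_step hc D hD (h₀ + 1) T.1.1 h (by omega) (lat T.1.2)
        (fun v hv => hfull (h + 1) (by omega) (by omega) v hv)
      rw [← hC₁] at h1
      have h2 := ih (h + 1) (by omega) (by omega)
      calc D.fiB (h₀ + 1) T.1.1 h (lat T.1.2) ≤ C₁ * D.fiB (h₀ + 1) T.1.1 (h + 1) (lat T.1.2) := h1
        _ ≤ C₁ * (C₁ ^ d * D.bb (h₀ + 1) T ^ 2) := mul_le_mul_of_nonneg_left h2 (by linarith)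
        _ = _ := by ring
  refine (key (h₀ - bot) bot (by omega) le_rfl).trans ?_
  refine mul_le_mul_of_nonneg_right ?_ (sq_nonneg _)
  exact pow_le_pow_right₀ hC1 (by omega)

/-- **LEAF L-257-FI-B15** (80 l.)  positivity of the background.
PLAN: contrapositive.  If `fiB lam τ bot X ≤ 0` then (sum of nonnegative terms, `fi_W_pos`) `bb bot T' = 0` for all `T'` under `τ`.   Induction upwards (`∀ d, bot + d ≤ lam → ∀ T₁ : D.Cl (bot + d), Und … → bb (bot+d) T₁ = 0`): `TDat.bb_succ_sq`, every summand vanishes (`edge ≠ 0` forces `par T' = T₁.1.1`, so `T'` is under `τ` by `fi_und_step`); `pow_eq_zero_iff`.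
At `lam` (`obtain ⟨d, rfl⟩`): `fi_und_top`. -/
theorem fi_bg_pos (D : TDat c) (bot lam : ℕ) (hbl : bot ≤ lam) (τ : D.Lb lam) (T : D.Cl lam) (hT : T.1.1 = τ) (hb : D.bb lam T ≠ 0) (X : ST k) : 0 < D.fiB lam τ bot X := by
  have h0 : 0 ≤ D.fiB lam τ bot X := fi_E_nonneg D _ _ _ _ _ _ _
  rcases h0.eq_or_lt with h0 | h0
  swap
  · exact h0
  exfalso
  apply hb
  have hz : ∀ T' : D.Cl bot, D.Und lam τ bot T'.1.1 → D.bb bot T' = 0 := by
    intro T' hU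
    unfold TDat.fiB TDat.fiE at h0
    have h1 := (Finset.sum_eq_zero_iff_of_nonneg (fun T' _ => mul_nonneg (sq_nonneg _) (fi_W_pos D _ _ _ _ T'.1 X).le)).1 h0.symm
      T' (Finset.mem_filter.2 ⟨Finset.mem_univ _, hU⟩)
    rcases mul_eq_zero.1 h1 with h2 | h2
    · exact pow_eq_zero_iff (two_ne_zero) |>.1 h2
    · exact absurd h2 (fi_W_pos D _ _ _ _ T'.1 X).ne'
  obtain ⟨d, rfl⟩ := Nat.exists_eq_add_of_le hbl
  have key : ∀ d', bot + d' ≤ bot + d → ∀ T₁ : D.Cl (bot + d'), D.Und (bot + d) τ (bot + d') T₁.1.1 → D.bb (bot + d') T₁ = 0 := by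
    intro d'
    induction d' with
    | zero => intro _ T₁ hU; exact hz T₁ hU
    | succ d' ih =>
      intro hle T₁ hU
      have h1 : D.bb (bot + d' + 1) T₁ ^ 2 = 0 := by
        rw [D.bb_succ_sq]
        refine Finset.sum_eq_zero fun T' _ => ?_
        unfold TDat.edge
        by_cases hp : D.par (bot + d') T'.1.1 = T₁.1.1
        · have hU' : D.Und (bot + d) τ (bot + d') T'.1.1 := by
            rw [fi_und_step D (bot + d) τ (bot + d') (by omega), hp]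
            exact hU
          rw [ih (by omega) T' hU']
          simp
        · rw [if_neg hp, mul_zero]
      exact pow_eq_zero_iff (two_ne_zero) |>.1 h1
  exact key d le_rfl T ((fi_und_top D _ τ _).2 hT)

/-- **LEAF L-257-FI-B16: THE TERMINAL BOUND** (70 l.)  (H l.1239-1242)    PLAN: `hF.ratio bot _ T' _ : am ≤ 2 r b`, `0 ≤ am` (`tpf_am_nonneg`), squares (`pow_le_pow_left₀`, `mul_pow`); `fi_W_anti` (`c.P ≤ A`); `D.sys.b = D.bb` (`rfl`);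
`Finset.sum_le_sum_of_subset_of_nonneg`; `Finset.mul_sum`. -/
theorem fi_term (D : TDat c) (p : TPar) (hO : D.sys.Ok p) {q A₀ K G : ℝ} {S : ∀ i, Finset (D.Cl i)} {r : ℕ → ℝ} {Yf : Finset D.Y} (hF : D.sys.Frozen q A₀ K G S r Yf)
    (bot lam : ℕ) (hb : bot ≤ c.ℓ) (τ : D.Lb lam) {A : ℝ} (hA : c.P ≤ A) (M : Finset (D.Cl bot)) (hM : ∀ T' ∈ M, T' ∈ S bot ∧ D.Und lam τ bot T'.1.1) (X : ST k) :
    D.fiE (D.κ lam) (D.fr lam τ) A bot M (D.sys.am S bot) X ≤ 4 * r bot ^ 2 * D.fiB lam τ bot X := by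
  unfold TDat.fiB TDat.fiE
  rw [Finset.mul_sum]
  have h1 : ∀ T' ∈ M, D.sys.am S bot T' ^ 2 * D.fiW (D.κ lam) (D.fr lam τ) A bot T'.1 X
      ≤ 4 * r bot ^ 2 * (D.bb bot T' ^ 2 * D.fiW (D.κ lam) (D.fr lam τ) c.P bot T'.1 X) := by
    intro T' hT'
    obtain ⟨_, _, h3⟩ := hF.ratio bot hb T' (hM T' hT').1
    have h0 := TSys.tpf_am_nonneg hO S bot T'
    have h4 : D.sys.am S bot T' ^ 2 ≤ (2 * r bot * D.bb bot T') ^ 2 := pow_le_pow_left₀ h0 h3 2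
    have h5 := fi_W_anti D (D.κ lam) (D.fr lam τ) hA bot T'.1 X
    have h6 := (fi_W_pos D (D.κ lam) (D.fr lam τ) A bot T'.1 X).le
    calc D.sys.am S bot T' ^ 2 * D.fiW (D.κ lam) (D.fr lam τ) A bot T'.1 X
        ≤ (2 * r bot * D.bb bot T') ^ 2 * D.fiW (D.κ lam) (D.fr lam τ) c.P bot T'.1 X := mul_le_mul h4 h5 h6 (sq_nonneg _)
      _ = _ := by ring
  refine (Finset.sum_le_sum h1).trans ?_
  refine Finset.sum_le_sum_of_subset_of_nonneg ?_ ?_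
  · intro T' hT'
    exact Finset.mem_filter.2 ⟨Finset.mem_univ _, (hM T' hT').2⟩
  · intro T' _ _
    exact mul_nonneg (by positivity) (mul_nonneg (sq_nonneg _) (fi_W_pos D _ _ _ _ T'.1 X).le)

end

end Claimed.Agent.R257
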