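import Claimed.Agent.R257.FR3.LlCore

/-!
# ROW 257, package FR3, unit LL (`f:left-limit`, H `frame.tex` l.1577-1745), file 2: COMPARISON WITH THE UPPER COUNT, EXPONENTS      (architect helper227; prefix `fl3_`)            CONTRACT

PAPER-FREE.   Every `sorry` is a leaf `L-257-LL-*`.   STATEMENTS ARE FROZEN (defect: one line to helper227).   Prove IN PLACE.

`m = k + 1` fields.   Base `S > 1`.   Field `j`: transition width `H j`, threshold `A j = H j^{k/2} S^{±β}`.   Node of the tested field `i`:  width `H i S^s`, recorded ratio `S^ρ`, occupancy size `M = (H i S^s)^{k+2} (S^ρ / A i)^q`, `q = 2(k+2)/k`.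
Nodes of all fields at the common ball scale `R ≤ H j S^{s' j + β}`:  recorded ratios `S^{ρ' j}`, local square envelopes `≤ S^β (S^{ρ' j})²`.
* `fl3_exp`    pure numbers:  `M ≤ S^β c`, `c ≤ S^β R^{k+1} ∏_j (S^β (S^{ρ' j})² / A j²)^{1/k}`  ⟹  `q (ρ + k s/2) ≤ (2/k) ∑_j (ρ' j + k s' j / 2) + (k+20) β`      ((f:left-lower) against (f:left-upper); `kq/2 = k+2`, the `H j` cancel)
* `fl3_small`  the choice of `C₄`: the three exceptional probabilities of `fl3_lower` add up to `< 1`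
* `fl3_test`   **EXIT (A) of the unit**: `Fl3Cfg.Ok` + the upper count of XF (HYPOTHESIS `hXF` = (f:cross-field-inflation-bound) at the root points of the law, with the clipped square bound inserted) ⟹ the inequality (L) at the nodes, in the shape consumed by `f3p_L_transfer` (`FR3/ProfB.lean`, `lam = k/2`, `q' = q`, `c' = 2/k`).
-/

set_option autoImplicit false

namespace Claimed.Agent.R257.FR3

open scoped BigOperators
open Classical
open Claimed.Agent.R255 Claimed.Agent.R255.FLaw Claimed.Agent.R257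

noncomputable section

/-- **LEAF L-257-LL-EXP: the exponents.**
PLAN.  `L := Real.log S > 0`.   All factors are positive; take `Real.log` of `hlow.trans (mul_le_mul_of_nonneg_left hup _)` (`Real.log_le_log`), expand with `Real.log_mul`, `Real.log_rpow`, `Real.log_div`, `Real.log_pow`, `Real.log_prod`.   Put `x j := log (H j)`, `a j := log (A j)`, `y := log R`.
`hA1`, `hA2`:  `(k/2) x j - β L ≤ a j ≤ (k/2) x j + β L`;   `hR`: `y ≤ x j + (s' j + β) L`, hence `(k+1) y = ∑_j y ≤ ∑_j (x j + (s' j + β) L)` (`Finset.sum_const`, `Finset.card_fin`).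
LEFT:  `(k+2)(x i + s L) + q (ρ L - a i) ≥ q (ρ + k s/2) L - q β L`   (`q k/2 = k+2`).
RIGHT: `2 β L + (k+1) y + (1/k) ∑_j (β L + 2 ρ' j L - 2 a j) ≤ (2/k) ∑_j (ρ' j + k s' j/2) L + (2 + (k+1) + 3 (k+1)/k) β L`:  the `x j` cancel.
`q ≤ 6`, `(k+1)/k ≤ 2`: total error `≤ (k + 15) β L`.   Divide by `L`. -/
theorem fl3_exp (k : ℕ) (hk : 1 ≤ k) (S β : ℝ) (hS : 1 < S) (hβ : 0 ≤ β) (i : Fin (k + 1)) (H A s' ρ' : Fin (k + 1) → ℝ) (s ρ R c : ℝ)
    (hH : ∀ j, 0 < H j) (hA1 : ∀ j, H j ^ ((k : ℝ) / 2) * S ^ (-β) ≤ A j) (hA2 : ∀ j, A j ≤ H j ^ ((k : ℝ) / 2) * S ^ β)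
    (hR0 : 0 < R) (hR : ∀ j, R ≤ H j * S ^ (s' j + β))
    (hlow : (H i * S ^ s) ^ ((k : ℝ) + 2) * (S ^ ρ / A i) ^ (2 * ((k : ℝ) + 2) / k) ≤ S ^ β * c)
    (hup : c ≤ S ^ β * (R ^ ((k : ℝ) + 1) * ∏ j, (S ^ β * (S ^ ρ' j) ^ 2 / A j ^ 2) ^ ((1 : ℝ) / k))) :
    2 * ((k : ℝ) + 2) / k * (ρ + k / 2 * s) ≤ 2 / k * ∑ j, (ρ' j + k / 2 * s' j) + (k + 20) * β := by
  have hK1 : (1:ℝ) ≤ (k:ℝ) := by exact_mod_cast hk
  obtain ⟨K, hKk⟩ : ∃ K : ℝ, K = (k:ℝ) := ⟨_, rfl⟩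
  rw [← hKk] at hK1 hA1 hA2 hlow hup ⊢
  have hK0 : 0 < K := by linarith
  have hS0 : 0 < S := by linarith
  obtain ⟨L, hLdef⟩ : ∃ L : ℝ, Real.log S = L := ⟨_, rfl⟩
  have hL : 0 < L := by rw [← hLdef]; exact Real.log_pos hS
  have hSp : ∀ e : ℝ, 0 < S ^ e := fun e => Real.rpow_pos_of_pos hS0 e
  have hHp : ∀ j (e : ℝ), 0 < H j ^ e := fun j e => Real.rpow_pos_of_pos (hH j) e
  have hA0 : ∀ j, 0 < A j := fun j => lt_of_lt_of_le (mul_pos (hHp j _) (hSp _)) (hA1 j)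
  have la1 : ∀ j, K / 2 * Real.log (H j) - β * L ≤ Real.log (A j) := by
    intro j
    have := Real.log_le_log (mul_pos (hHp j _) (hSp _)) (hA1 j)
    rw [Real.log_mul (hHp j _).ne' (hSp _).ne', Real.log_rpow (hH j), Real.log_rpow hS0, hLdef] at this
    linarith
  have la2 : ∀ j, Real.log (A j) ≤ K / 2 * Real.log (H j) + β * L := by
    intro j
    have := Real.log_le_log (hA0 j) (hA2 j)
    rw [Real.log_mul (hHp j _).ne' (hSp _).ne', Real.log_rpow (hH j), Real.log_rpow hS0, hLdef] at this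
    linarith
  have ly : ∀ j, Real.log R ≤ Real.log (H j) + (s' j + β) * L := by
    intro j
    have := Real.log_le_log hR0 (hR j)
    rw [Real.log_mul (hH j).ne' (hSp _).ne', Real.log_rpow hS0, hLdef] at this
    exact this
  -- the factors
  have p1 : 0 < H i * S ^ s := mul_pos (hH i) (hSp _)
  have p2 : 0 < S ^ ρ / A i := div_pos (hSp _) (hA0 i)
  have p3 : ∀ j, 0 < S ^ β * (S ^ ρ' j) ^ 2 / A j ^ 2 := fun j => div_pos (mul_pos (hSp _) (pow_pos (hSp _) 2)) (pow_pos (hA0 j) 2)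
  have p4 : ∀ j, 0 < (S ^ β * (S ^ ρ' j) ^ 2 / A j ^ 2) ^ ((1 : ℝ) / K) := fun j => Real.rpow_pos_of_pos (p3 j) _
  have p5 : 0 < ∏ j, (S ^ β * (S ^ ρ' j) ^ 2 / A j ^ 2) ^ ((1 : ℝ) / K) := Finset.prod_pos fun j _ => p4 j
  have p6 : 0 < R ^ (K + 1) := Real.rpow_pos_of_pos hR0 _
  have hmain := hlow.trans (mul_le_mul_of_nonneg_left hup (hSp β).le)
  have hlog := Real.log_le_log (mul_pos (Real.rpow_pos_of_pos p1 _) (Real.rpow_pos_of_pos p2 _)) hmain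
  have l1 : Real.log ((H i * S ^ s) ^ (K + 2)) = (K + 2) * (Real.log (H i) + s * L) := by
    rw [Real.log_rpow p1, Real.log_mul (hH i).ne' (hSp _).ne', Real.log_rpow hS0, hLdef]
  have l2 : Real.log ((S ^ ρ / A i) ^ (2 * (K + 2) / K)) = (2 * (K + 2) / K) * (ρ * L - Real.log (A i)) := by
    rw [Real.log_rpow p2, Real.log_div (hSp _).ne' (hA0 i).ne', Real.log_rpow hS0, hLdef]
  have l3 : ∀ j, Real.log ((S ^ β * (S ^ ρ' j) ^ 2 / A j ^ 2) ^ ((1 : ℝ) / K)) = (1 / K) * (β * L + 2 * (ρ' j * L) - 2 * Real.log (A j)) := by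
    intro j
    rw [Real.log_rpow (p3 j), Real.log_div (mul_pos (hSp _) (pow_pos (hSp _) 2)).ne' (pow_pos (hA0 j) 2).ne',
      Real.log_mul (hSp _).ne' (pow_pos (hSp _) 2).ne', Real.log_pow, Real.log_pow, Real.log_rpow hS0, Real.log_rpow hS0, hLdef]
    push_cast
    ring
  rw [Real.log_mul (Real.rpow_pos_of_pos p1 _).ne' (Real.rpow_pos_of_pos p2 _).ne', l1, l2,
    Real.log_mul (hSp _).ne' (mul_pos (hSp _) (mul_pos p6 p5)).ne', Real.log_mul (hSp _).ne' (mul_pos p6 p5).ne',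
    Real.log_mul p6.ne' p5.ne', Real.log_prod (fun j _ => (p4 j).ne'), Real.log_rpow hS0, Real.log_rpow hR0, hLdef] at hlog
  simp only [l3] at hlog
  -- abbreviations
  set t : ℝ := 1 / K with ht
  have hKt : K * t = 1 := by rw [ht]; field_simp
  have ht0 : 0 < t := by rw [ht]; positivity
  have ht1 : t ≤ 1 := by rw [ht, div_le_one hK0]; exact hK1
  have eq : 2 * (K + 2) / K = 2 + 4 * t := by rw [ht]; field_simp; ring
  have e2 : 2 / K = 2 * t := by rw [ht]; ring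
  rw [eq] at hlog ⊢
  rw [e2]
  have hu : 0 ≤ β * L := mul_nonneg hβ hL.le
  -- LEFT
  have hq0 : 0 ≤ 2 + 4 * t := by positivity
  have hqK : (2 + 4 * t) * (K / 2) = K + 2 := by linear_combination 2 * hKt
  have left : (2 + 4 * t) * (ρ + K / 2 * s) * L - (2 + 4 * t) * (β * L) ≤
      (K + 2) * (Real.log (H i) + s * L) + (2 + 4 * t) * (ρ * L - Real.log (A i)) := by
    have h1 := mul_nonneg hq0 (sub_nonneg.2 (la2 i))
    rw [← hqK]
    linarith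
  -- RIGHT
  have r1 : (K + 1) * Real.log R ≤ ∑ j, Real.log (H j) + (∑ j, s' j) * L + (K + 1) * (β * L) := by
    have h1 : ∑ _j : Fin (k + 1), Real.log R ≤ ∑ j, (Real.log (H j) + (s' j + β) * L) := Finset.sum_le_sum fun j _ => ly j
    have h2 : ∑ _j : Fin (k + 1), Real.log R = (K + 1) * Real.log R := by simp [hKk]
    have h3 : ∑ j, (Real.log (H j) + (s' j + β) * L) = ∑ j, Real.log (H j) + (∑ j, s' j) * L + (K + 1) * (β * L) := by
      simp only [add_mul, Finset.sum_add_distrib, Finset.sum_mul]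
      simp [hKk]
      ring
    linarith
  have r2 : ∑ j, t * (β * L + 2 * (ρ' j * L) - 2 * Real.log (A j)) ≤
      t * (3 * (K + 1) * (β * L)) + 2 * t * (∑ j, ρ' j) * L - ∑ j, Real.log (H j) := by
    have h1 : ∑ j, t * (β * L + 2 * (ρ' j * L) - 2 * Real.log (A j)) ≤ ∑ j, (t * (3 * (β * L)) + 2 * t * L * ρ' j - Real.log (H j)) := by
      apply Finset.sum_le_sum
      intro j _
      have h2 := mul_le_mul_of_nonneg_left (la1 j) ht0.le
      have h3 : t * (K / 2 * Real.log (H j) - β * L) = Real.log (H j) / 2 - t * (β * L) := by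
        linear_combination (Real.log (H j) / 2) * hKt
      rw [h3] at h2
      linarith
    have h4 : ∑ j, (t * (3 * (β * L)) + 2 * t * L * ρ' j - Real.log (H j)) =
        t * (3 * (K + 1) * (β * L)) + 2 * t * (∑ j, ρ' j) * L - ∑ j, Real.log (H j) := by
      simp only [Finset.sum_sub_distrib, Finset.sum_add_distrib, ← Finset.mul_sum]
      simp [hKk]
      ring
    linarith
  have e3 : 2 * t * ∑ j, (ρ' j + K / 2 * s' j) = 2 * t * (∑ j, ρ' j) + ∑ j, s' j := by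
    rw [Finset.sum_add_distrib, ← Finset.mul_sum]
    linear_combination (∑ j, s' j) * hKt
  rw [e3]
  apply le_of_mul_le_mul_right _ hL
  have e4 : t * (3 * (K + 1) * (β * L)) = (3 + 3 * t) * (β * L) := by linear_combination 3 * (β * L) * hKt
  have e5 : t * (β * L) ≤ β * L := by nlinarith
  nlinarith

/-- **LEAF L-257-LL-SMALL: the choice of `C₄`** (l.1640-1650: "for sufficiently large fixed `C₄` and `s < -2C₄`");  `C₄` does NOT depend on the bound `A0` of the velocities (which depends on the grid).   `Cs` = exponent of the slot estimate, `C1` = exponent of the occupancy of the original masks.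
PLAN.  `C4 := (|Cs| + |C1| + k + 4) / k ≥ 1`,  `S0 := 3 (4 (A0+1))^k + 3 · 2^k + 1`.   `θ (4(A0+1))^k ≤ (4(A0+1))^k / S < 1/3`.
`max (1/F) (Kw/H) ≤ S^(-C4)`;   `rat · Oc ≤ S^(Cs+β) · S · (2 S^β S^(-C4))^k · S^(C1+β) = 2^k S^(Cs + C1 + 1 + (k+2) β - k C4) ≤ 2^k S^(-1) < 1/3`   (`β ≤ 1`; `Real.rpow_add`, `Real.rpow_natCast`/`Real.rpow_mul`, `Real.rpow_le_rpow_of_exponent_le`). -/
theorem fl3_small (k : ℕ) (hk : 1 ≤ k) (Cs C1 : ℝ) : ∃ C4 : ℝ, 1 ≤ C4 ∧ ∀ A0 : ℝ, 0 ≤ A0 → ∃ S0 : ℝ, 1 < S0 ∧ ∀ (S β : ℝ) (p : Fl3Par), S0 ≤ S → 0 ≤ β → β ≤ 1 →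
    p.θ = 1 / S → 0 ≤ p.A0 → p.A0 ≤ A0 → 0 ≤ p.Ce → p.Ce ≤ S ^ β → 0 ≤ p.Ks → p.Ks ≤ S ^ (Cs + β) → 0 ≤ p.Oc → p.Oc ≤ S ^ (C1 + β) → p.F = S ^ C4 → 0 < p.H → 0 ≤ p.Kw →
    p.Kw / p.H ≤ S ^ (-C4) → p.εc ≤ 1 / 3 → p.θ * (4 * (p.A0 + 1)) ^ k + p.rat k * p.Oc + p.εc < 1 := by
  have hK1 : (1:ℝ) ≤ (k:ℝ) := by exact_mod_cast hk
  have hK0 : (0:ℝ) < (k:ℝ) := by linarith
  refine ⟨(|Cs| + |C1| + k + 4) / k, ?_, fun A0 hA0 => ⟨3 * (4 * (A0 + 1)) ^ k + 3 * 2 ^ k + 1, ?_, ?_⟩⟩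
  · rw [le_div_iff₀ hK0]
    linarith [abs_nonneg Cs, abs_nonneg C1]
  · have : 0 < 3 * (4 * (A0 + 1)) ^ k + 3 * 2 ^ k := by positivity
    linarith
  intro S β p hS hβ0 hβ1 hθ hpA0 hpA hCe0 hCe hKs0 hKs hOc0 hOc hF hH hKw hKH hεc
  set C4 : ℝ := (|Cs| + |C1| + k + 4) / k with hC4
  have hkC4 : (k:ℝ) * C4 = |Cs| + |C1| + k + 4 := by rw [hC4]; field_simp
  have hP1 : 0 < (4 * (A0 + 1)) ^ k := by positivity
  have hP2 : (0:ℝ) < 2 ^ k := by positivity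
  have hS1 : 1 < S := by linarith
  have hS0 : 0 < S := by linarith
  -- first term
  have t1 : p.θ * (4 * (p.A0 + 1)) ^ k < 1 / 3 := by
    rw [hθ, one_div_mul_eq_div, div_lt_iff₀ hS0]
    have : (4 * (p.A0 + 1)) ^ k ≤ (4 * (A0 + 1)) ^ k := pow_le_pow_left₀ (by positivity) (by linarith) k
    linarith
  -- second term
  have hmax : max (1 / p.F) (p.Kw / p.H) ≤ S ^ (-C4) := by
    apply max_le _ hKH
    rw [hF, Real.rpow_neg hS0.le, one_div]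
  have hmax0 : 0 ≤ max (1 / p.F) (p.Kw / p.H) := le_max_of_le_right (by positivity)
  have hSp : ∀ e : ℝ, 0 < S ^ e := fun e => Real.rpow_pos_of_pos hS0 e
  have b1 : (2 * p.Ce * max (1 / p.F) (p.Kw / p.H)) ^ k ≤ 2 ^ k * S ^ ((β - C4) * k) := by
    calc (2 * p.Ce * max (1 / p.F) (p.Kw / p.H)) ^ k ≤ (2 * S ^ β * S ^ (-C4)) ^ k := by
          apply pow_le_pow_left₀ (by positivity)
          apply mul_le_mul (by linarith) hmax hmax0 (by have := hSp β; positivity)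
      _ = 2 ^ k * S ^ ((β - C4) * k) := by
          rw [mul_assoc, ← Real.rpow_add hS0, mul_pow, Real.rpow_mul hS0.le, Real.rpow_natCast, sub_eq_add_neg]
  have b2 : p.Ks / p.θ ≤ S ^ (Cs + β) * S ^ (1:ℝ) := by
    rw [hθ, Real.rpow_one, div_div_eq_mul_div, div_one]
    exact mul_le_mul_of_nonneg_right hKs hS0.le
  have hθ0 : 0 < p.θ := by rw [hθ]; positivity
  have t2 : p.rat k * p.Oc < 1 / 3 := by
    unfold Fl3Par.rat
    calc p.Ks / p.θ * (2 * p.Ce * max (1 / p.F) (p.Kw / p.H)) ^ k * p.Oc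
        ≤ S ^ (Cs + β) * S ^ (1:ℝ) * (2 ^ k * S ^ ((β - C4) * k)) * S ^ (C1 + β) := by
          apply mul_le_mul _ hOc hOc0 (by have := hSp; positivity)
          apply mul_le_mul b2 b1 (by positivity) (by have := hSp; positivity)
      _ = 2 ^ k * S ^ (Cs + β + 1 + (β - C4) * k + (C1 + β)) := by
          rw [Real.rpow_add hS0 (Cs + β + 1 + (β - C4) * k), Real.rpow_add hS0 (Cs + β + 1), Real.rpow_add hS0 (Cs + β) 1]
          ring
      _ ≤ 2 ^ k * S ^ (-1 : ℝ) := by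
          apply mul_le_mul_of_nonneg_left _ hP2.le
          apply Real.rpow_le_rpow_of_exponent_le hS1.le
          have e1 : (β - C4) * k = β * k - (|Cs| + |C1| + k + 4) := by rw [← hkC4]; ring
          rw [e1]
          have e2 : β * k ≤ k := by nlinarith
          linarith [le_abs_self Cs, le_abs_self C1]
      _ < 1 / 3 := by
          rw [Real.rpow_neg_one, ← div_eq_mul_inv, div_lt_iff₀ hS0]
          linarith
  linarith

variable {k : ℕ} {Ω₀ Y D M : Type} [Fintype Ω₀] [Fintype Y] [Fintype D] {𝔠 : Fl3Cfg k Ω₀ Y D M} {P : FLaw Ω₀} {p : Fl3Par}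

/-- the box count is monotone in the radii -/
theorem fl3_box_mono (𝔠 : Fl3Cfg k Ω₀ Y D M) (z : Y) {a a' b b' : ℝ} (ha : a ≤ a') (hb : b ≤ b') : 𝔠.box z a b ≤ 𝔠.box z a' b' := by
  refine Finset.card_le_card fun y hy => ?_
  obtain ⟨-, h1, h2⟩ := Finset.mem_filter.1 hy
  exact Finset.mem_filter.2 ⟨Finset.mem_univ _, fun l => (h1 l).trans ha, h2.trans hb⟩

/-- **EXIT (A) OF THE UNIT LL: the inequality (L) at the nodes.** -/
theorem fl3_test (hk : 1 ≤ k) (h : 𝔠.Ok P p) (hsmall : p.θ * (4 * (p.A0 + 1)) ^ k + p.rat k * p.Oc + p.εc < 1)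
    (S β : ℝ) (hS : 1 < S) (hβ : 0 ≤ β) (i : Fin (k + 1)) (H A s' ρ' : Fin (k + 1) → ℝ) (s ρ R : ℝ)
    (hH : ∀ j, 0 < H j) (hA1 : ∀ j, H j ^ ((k : ℝ) / 2) * S ^ (-β) ≤ A j) (hA2 : ∀ j, A j ≤ H j ^ ((k : ℝ) / 2) * S ^ β)
    (hR0 : 0 < R) (hR : ∀ j, R ≤ H j * S ^ (s' j + β))
    (hMc : (H i * S ^ s) ^ ((k : ℝ) + 2) * (S ^ ρ / A i) ^ (2 * ((k : ℝ) + 2) / k) ≤ S ^ β * p.Mc)
    (hb1 : (p.Ce + p.A0 * p.F) * p.Kw ≤ R) (hb2 : p.F * p.Kw ≤ R)
    (hXF : ∀ x, P.p x ≠ 0 → (𝔠.box (𝔠.Z x) R R : ℝ) ≤ S ^ β * (R ^ ((k : ℝ) + 1) * ∏ j, (S ^ β * (S ^ ρ' j) ^ 2 / A j ^ 2) ^ ((1 : ℝ) / k))) :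
    2 * ((k : ℝ) + 2) / k * (ρ + k / 2 * s) ≤ 2 / k * ∑ j, (ρ' j + k / 2 * s' j) + (k + 20) * β := by
  obtain ⟨x, hx, hlow⟩ := Fl3Cfg.fl3_lower h hsmall
  have hmono : (𝔠.box (𝔠.Z x) ((p.Ce + p.A0 * p.F) * p.Kw) (p.F * p.Kw) : ℝ) ≤ 𝔠.box (𝔠.Z x) R R := by
    exact_mod_cast fl3_box_mono 𝔠 (𝔠.Z x) hb1 hb2
  have hSβ : 0 ≤ S ^ β := Real.rpow_nonneg (by linarith) _
  exact fl3_exp k hk S β hS hβ i H A s' ρ' s ρ R (𝔠.box (𝔠.Z x) R R) hH hA1 hA2 hR0 hR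
    (hMc.trans (mul_le_mul_of_nonneg_left (hlow.trans hmono) hSβ)) (hXF x hx)

end

end Claimed.Agent.R257.FR3
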