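import Claimed.Agent.R257.FR2.PathTop
import Claimed.Agent.R257.FR3.LlTest

/-!
# ROW 257, package FR3, unit LL (`f:left-limit`, H `frame.tex` l.1577-1745), file 3: ADAPTER FROM FR2, EXIT OF THE UNIT      (architect helper227; prefix `fl3_` / `Fl3`)            CONTRACT

PAPER-FREE.   Every `sorry` is a leaf `L-257-LL-*`.   STATEMENTS ARE FROZEN (defect: one line to helper227).   Prove IN PLACE.

ONE FIELD `(𝔖, 𝔊)` (`FR2/Sys.lean`, `FR2/PathDef.lean`), ONE height `a` (the small tubes: width `Kw = κ a = H S^s`, `s < 0`, ABOVE the transition height), any finite law `P` with a root point `Z` and a direction `Om`.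
* `Fl3Pos k 𝔖 𝔊`   NEW DATA: positions `(xs, ts)` of the witnesses, velocities `vel` of the fine directions, the transition height `tr`, the LARGE enlargement `big T y` of the original masks.
* `Fl3Pos.Ok`      NEW OBLIGATIONS OF THE INSTANCE (unit INST; concrete form: `Tree/…`, `vel ω = 2 fr 0 ω`, `big T y = ‖X tr T (pt y)‖ ≤ S`):
     `hv` bounded velocities;   `cel_geo` geometry of a tilted cell of height `a`;   `slotw` the clipped cap weights of height `a` in a ball of velocities (f:slot);   `capture`;   `occ` occupancy of the large enlargements (deletion before (f:ballcount)).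
* WHAT IS CONSUMED FROM FR2 (three exits of `FR2/PathTop.lean`, as hypotheses):   `hatt` = `tp_law_att` at the height `tr`;   `hcap` = upper half of `tp_cap_law` at the height `a` (`Kc = Γc^(ℓ-a)/ϖl`);   `hocc` = `tp_occ` at the height `a`.
* `fl3_cfg_ok`     these give `Fl3Cfg.Ok` (file 1).
* `fl3_env_le`     the clipped square bound `𝓔_{j,s'}(z) ≤ 4 r² ϖ0` (l.1707-1709), for the provider of `hXF`.
* `fl3_main`       **EXIT OF THE UNIT**:  `∃ C₄, ∀ tol, ∃ β, ∀ A0, ∃ S₀`: all losses `≤ S^β`, `S ≥ S₀`, `s ≤ -C₄`, ball `H_i S^(s + C₄ + 1/2) ≤ R ≤ H_j S^(s'_j + β)`, upper count `hXF` at the radius `R` ⟹ inequality (L) at the nodes up to `tol`   (shape of `f3p_L_transfer`, `FR3/ProfB.lean`).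
-/

set_option autoImplicit false

namespace Claimed.Agent.R257.FR3

open scoped BigOperators
open Classical
open Claimed.Agent.R255 Claimed.Agent.R255.FLaw Claimed.Agent.R257 Claimed.Agent.R257.FR2

noncomputable section

/-- positions of the witnesses, velocities of the directions, large enlargements of the original masks -/
structure Fl3Pos (k : ℕ) (𝔖 : TSys) (𝔊 : TGeo 𝔖) where
  xs : 𝔖.Y → Fin k → ℝ
  ts : 𝔖.Y → ℝ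
  vel : 𝔊.Dir → Fin k → ℝ
  /-- the transition height -/
  tr : ℕ
  /-- the witness `y` lies in the large enlargement of the original mask `T` -/
  big : 𝔖.C tr → 𝔖.Y → Prop

namespace Fl3Pos

variable {k : ℕ} {𝔖 : TSys} {𝔊 : TGeo 𝔖} (𝔭 : Fl3Pos k 𝔖 𝔊)

/-- **the geometric facts** at the height `a`: `Kw` = width of the cells of height `a`, `H` = width of the original masks -/
structure Ok (a : ℕ) (Kw H A0 Ce Ksl Oc : ℝ) : Prop where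
  hv : ∀ ω l, |𝔭.vel ω l| ≤ A0
  /-- two witnesses in one cell of height `a` tilted by `ω` -/
  cel_geo : ∀ z y ω, 𝔊.cel a y ω = 𝔊.cel a z ω →
    (∀ l, |𝔭.xs y l - 𝔭.xs z l - (𝔭.ts y - 𝔭.ts z) * 𝔭.vel ω l| ≤ Ce * Kw) ∧ |𝔭.ts y - 𝔭.ts z| ≤ Ce * Kw ^ 2
  /-- (f:slot) for the reference cap weights: the caps of height `a` which meet a ball of velocities of radius `r ≥ 1/Kw` -/
  slotw : ∀ (z : 𝔖.Y) (c : Fin k → ℝ) (r : ℝ), 1 / Kw ≤ r → ∀ U : Finset (𝔊.Cap a),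
    (∀ τ ∈ U, ∃ ω, 𝔊.anc a ω = τ ∧ ∀ l, |𝔭.vel ω l - c l| ≤ r) → ∑ τ ∈ U, 𝔊.capw a τ z ≤ Ksl * r ^ k
  /-- an original mask of the assigned cap near `z` contains, after the large enlargement, every witness within `(Ce+1) H` of the line through `z` with the velocity of `ω`, up to the time `Ce H²` -/
  capture : ∀ z ω T y, 𝔊.cap 𝔭.tr T = 𝔊.anc 𝔭.tr ω → 𝔖.inc 𝔭.tr z T →
    (∀ l, |𝔭.xs y l - 𝔭.xs z l - (𝔭.ts y - 𝔭.ts z) * 𝔭.vel ω l| ≤ (Ce + 1) * H) → |𝔭.ts y - 𝔭.ts z| ≤ Ce * H ^ 2 → 𝔭.big T y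
  /-- occupancy of the large enlargements -/
  occ : ∀ T, ((Finset.univ.filter fun y => 𝔭.big T y).card : ℝ) ≤ Oc

/-- the configuration of the lower count -/
def cfg (a : ℕ) {Ω₀ : Type} (Z : Ω₀ → 𝔖.Y) (Om : Ω₀ → 𝔊.Dir) : Fl3Cfg k Ω₀ 𝔖.Y 𝔊.Dir (Option (𝔖.C 𝔭.tr)) where
  Z := Z
  Om := Om
  xs := 𝔭.xs
  ts := 𝔭.ts
  v := 𝔭.vel
  tube := fun z ω y => 𝔊.cel a y ω = 𝔊.cel a z ω
  att := fun z ω => if h : ∃ T, 𝔊.cap 𝔭.tr T = 𝔊.anc 𝔭.tr ω ∧ 𝔖.inc 𝔭.tr z T then some h.choose else none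
  hit := fun T y => ∃ T', T = some T' ∧ 𝔭.big T' y

end Fl3Pos

variable {k : ℕ} {𝔖 : TSys} {𝔊 : TGeo 𝔖} {Ω₀ : Type} [Fintype Ω₀]

/-- **LEAF L-257-LL-ADS: the slot estimate of the law** (f:slot).
PLAN.  `E x := Z x = z ∧ ∀ l, |vel (Om x) l - c l| ≤ r`,   `U := (univ.filter fun x => P.p x ≠ 0 ∧ E x).image fun x => anc a (Om x)`.   `ent_pr_sum_values P E (fun x => anc a (Om x)) U`:  `P.pr E = ∑_{τ ∈ U} P.pr (E ∧ anc a Om = τ)`.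
For `τ ∈ U` pick `x₀` (`Finset.mem_image`):  `P.pr (E ∧ anc a Om = τ) ≤ P.pr (anc a Om = anc a (Om x₀) ∧ Z = Z x₀) = P.fib (pair _ Z) x₀` (`ent_pr_mono`, `ent_fib_pair`) `≤ Kc capw a τ z P.fib Z x₀` (`hcap`), `P.fib Z x₀ = P.pr (Z = z)` (`rfl` after `Z x₀ = z`).
Sum:  `Kc (∑_{τ ∈ U} capw a τ z) P.pr (Z = z)` (`Finset.mul_sum`, `Finset.sum_mul`), `hp.slotw z c r hr U`. -/
theorem fl3_ad_slot (𝔭 : Fl3Pos k 𝔖 𝔊) (a : ℕ) (P : FLaw Ω₀) (Z : Ω₀ → 𝔖.Y) (Om : Ω₀ → 𝔊.Dir) {Kw H A0 Ce Ksl Oc Kc : ℝ}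
    (hp : 𝔭.Ok a Kw H A0 Ce Ksl Oc) (hKc : 0 ≤ Kc)
    (hcap : ∀ x, P.p x ≠ 0 → P.fib (pair (fun x => 𝔊.anc a (Om x)) Z) x ≤ Kc * 𝔊.capw a (𝔊.anc a (Om x)) (Z x) * P.fib Z x)
    (z : 𝔖.Y) (c : Fin k → ℝ) (r : ℝ) (hr : 1 / Kw ≤ r) :
    P.pr (fun x => Z x = z ∧ ∀ l, |𝔭.vel (Om x) l - c l| ≤ r) ≤ Kc * Ksl * r ^ k * P.pr (fun x => Z x = z) := by
  obtain ⟨U, hU⟩ : ∃ U : Finset (𝔊.Cap a), U = (Finset.univ.filter fun x => P.p x ≠ 0 ∧ (Z x = z ∧ ∀ l, |𝔭.vel (Om x) l - c l| ≤ r)).image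
      fun x => 𝔊.anc a (Om x) := ⟨_, rfl⟩
  have h1 := ent_pr_sum_values P (fun x => Z x = z ∧ ∀ l, |𝔭.vel (Om x) l - c l| ≤ r) (fun x => 𝔊.anc a (Om x)) U (fun x hx hE => by
    rw [hU]
    exact Finset.mem_image.2 ⟨x, Finset.mem_filter.2 ⟨Finset.mem_univ _, hx, hE⟩, rfl⟩)
  rw [h1]
  have h2 : ∀ τ ∈ U, P.pr (fun x => (Z x = z ∧ ∀ l, |𝔭.vel (Om x) l - c l| ≤ r) ∧ 𝔊.anc a (Om x) = τ)
      ≤ Kc * 𝔊.capw a τ z * P.pr (fun x => Z x = z) := by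
    intro τ hτ
    rw [hU] at hτ
    obtain ⟨x₀, hx₀, rfl⟩ := Finset.mem_image.1 hτ
    obtain ⟨-, hp0, hz0, -⟩ := Finset.mem_filter.1 hx₀
    have h3 := hcap x₀ hp0
    rw [ent_fib_pair, hz0] at h3
    refine le_trans (ent_pr_mono P fun x _ hx => ⟨hx.2, hx.1.1⟩) (h3.trans (le_of_eq ?_))
    unfold FLaw.fib
    rw [hz0]
  refine (Finset.sum_le_sum h2).trans ?_
  have h4 : ∑ τ ∈ U, 𝔊.capw a τ z ≤ Ksl * r ^ k := hp.slotw z c r hr U (fun τ hτ => by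
    rw [hU] at hτ
    obtain ⟨x₀, hx₀, rfl⟩ := Finset.mem_image.1 hτ
    exact ⟨Om x₀, rfl, (Finset.mem_filter.1 hx₀).2.2.2⟩)
  have e : ∑ τ ∈ U, Kc * 𝔊.capw a τ z * P.pr (fun x => Z x = z) = Kc * (∑ τ ∈ U, 𝔊.capw a τ z) * P.pr (fun x => Z x = z) := by
    rw [Finset.mul_sum, Finset.sum_mul]
  rw [e]
  calc Kc * (∑ τ ∈ U, 𝔊.capw a τ z) * P.pr (fun x => Z x = z) ≤ Kc * (Ksl * r ^ k) * P.pr (fun x => Z x = z) :=
        mul_le_mul_of_nonneg_right (mul_le_mul_of_nonneg_left h4 hKc) (ent_pr_nonneg P _)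
    _ = _ := by ring

/-- **LEAF L-257-LL-ADC: the count of the law.**
PLAN.  `fl3_count_of_occ P Z Om _ N M Ko aL aC hocc ht` and `ent_pr_mono`:  the set counted there, `{z' | ∃ x', P.p x' ≠ 0 ∧ Z x' = z' ∧ Om x' = Om x ∧ cel a (Z x') (Om x') = cel a (Z x) (Om x)}`, is contained in `{y | cel a y (Om x) = cel a (Z x) (Om x)}`
(`Finset.card_le_card`, rewrite with the two equalities), so `cnt < M/(Ko³t²)` implies the event of `fl3_count_of_occ`. -/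
theorem fl3_ad_count (𝔭 : Fl3Pos k 𝔖 𝔊) (a : ℕ) (P : FLaw Ω₀) (Z : Ω₀ → 𝔖.Y) (Om : Ω₀ → 𝔊.Dir) {N M Ko t : ℝ}
    {aL : 𝔊.Dir → 𝔖.Y → ℝ} {aC : 𝔊.Dir → 𝔊.Cel a → ℝ} (hocc : FpOcc P Z Om (fun x => 𝔊.cel a (Z x) (Om x)) N M Ko aL aC) (ht : 0 < t) :
    P.pr (fun x => (((𝔭.cfg a Z Om).cnt (Z x) (Om x) : ℕ) : ℝ) < M / (Ko ^ 3 * t ^ 2)) ≤ 3 * Ko / t := by
  refine le_trans (ent_pr_mono P fun x _ hx => ?_) (fl3_count_of_occ P Z Om _ N M Ko aL aC hocc ht)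
  refine lt_of_le_of_lt (Nat.cast_le.2 (Finset.card_le_card fun z' hz' => ?_)) hx
  obtain ⟨x', -, h1, h2, h3⟩ := (Finset.mem_filter.1 hz').2
  refine Finset.mem_filter.2 ⟨Finset.mem_univ _, ?_⟩
  show 𝔊.cel a z' (Om x) = 𝔊.cel a (Z x) (Om x)
  rw [← h1, ← h3, h2]

/-- **the hypotheses of the lower count hold for the path law** -/
theorem fl3_cfg_ok (𝔭 : Fl3Pos k 𝔖 𝔊) (a : ℕ) (P : FLaw Ω₀) (Z : Ω₀ → 𝔖.Y) (Om : Ω₀ → 𝔊.Dir) {Kw H A0 Ce Ksl Oc Kc N M Ko F θ t : ℝ}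
    {aL : 𝔊.Dir → 𝔖.Y → ℝ} {aC : 𝔊.Dir → 𝔊.Cel a → ℝ} (hp : 𝔭.Ok a Kw H A0 Ce Ksl Oc)
    (hatt : ∀ x, P.p x ≠ 0 → ∃ T, 𝔊.cap 𝔭.tr T = 𝔊.anc 𝔭.tr (Om x) ∧ 𝔖.inc 𝔭.tr (Z x) T)
    (hcap : ∀ x, P.p x ≠ 0 → P.fib (pair (fun x => 𝔊.anc a (Om x)) Z) x ≤ Kc * 𝔊.capw a (𝔊.anc a (Om x)) (Z x) * P.fib Z x)
    (hocc : FpOcc P Z Om (fun x => 𝔊.cel a (Z x) (Om x)) N M Ko aL aC)
    (hKw : 0 < Kw) (hKH : Kw ≤ H) (hF : 1 ≤ F) (hA0 : 0 ≤ A0) (hCe : 1 ≤ Ce) (hKc : 0 ≤ Kc) (hKsl : 0 ≤ Ksl) (hθ : 0 < θ) (ht : 0 < t) :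
    (𝔭.cfg a Z Om).Ok P ⟨Kw, H, F, A0, Ce, Kc * Ksl, θ, Oc, M / (Ko ^ 3 * t ^ 2), 3 * Ko / t⟩ where
  Kw_pos := hKw
  Kw_le := hKH
  one_le_F := hF
  A0_nonneg := hA0
  one_le_Ce := hCe
  Ks_nonneg := mul_nonneg hKc hKsl
  θ_pos := hθ
  hv := hp.hv
  tube_geo := fun z ω y h => hp.cel_geo z y ω h
  slot := fun z c r hr => fl3_ad_slot 𝔭 a P Z Om hp hKc hcap z c r hr
  capture := by
    intro x hx y h1 h2
    have hex := hatt x hx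
    refine ⟨hex.choose, ?_, hp.capture (Z x) (Om x) hex.choose y hex.choose_spec.1 hex.choose_spec.2 h1 h2⟩
    show (if h : ∃ T, 𝔊.cap 𝔭.tr T = 𝔊.anc 𝔭.tr (Om x) ∧ 𝔖.inc 𝔭.tr (Z x) T then some h.choose else none) = some hex.choose
    rw [dif_pos hex]
  occ := by
    intro T
    rcases T with _ | T
    · have h0 : (Finset.univ.filter fun y => (𝔭.cfg a Z Om).hit none y) = ∅ := by
        refine Finset.filter_eq_empty_iff.2 fun y _ h => ?_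
        obtain ⟨T', h1, -⟩ := h
        cases h1
      rw [h0, Finset.card_empty, Nat.cast_zero]
      obtain ⟨x, hx⟩ := ent_exists_supp P
      obtain ⟨T, -⟩ := hatt x hx
      exact (Nat.cast_nonneg _).trans (hp.occ T)
    · refine le_trans (Nat.cast_le.2 (Finset.card_le_card fun y hy => ?_)) (hp.occ T)
      obtain ⟨T', h1, h2⟩ := (Finset.mem_filter.1 hy).2
      rw [Option.some.inj h1]
      exact Finset.mem_filter.2 ⟨Finset.mem_univ _, h2⟩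
  count := fl3_ad_count 𝔭 a P Z Om hocc ht

/-- **LEAF L-257-LL-ENV: the clipped square bound** (l.1707-1709):  the local square envelope of the selected outputs of a frozen tree is `≤ 4 r² ϖ0` at every witness.
PLAN.  `sq j (resA (S j) (am S j)) z = ∑_T (resA ..)² w`;   for `T ∈ S j`: `0 ≤ r j * b ≤ am ≤ 2 r j b` (`hF.ratio`, `hF.r_pos`, `h.b_nonneg`), so `am² ≤ 4 r² b²` (`pow_le_pow_left₀`, `mul_pow`);   for `T ∉ S j`: `0`.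
`Finset.sum_le_sum`, `h.w_nonneg`, `Finset.mul_sum`, `h.sq_le j hj z`. -/
theorem fl3_env_le {p : TPar} (h : 𝔖.Ok p) {q A K G : ℝ} {S : ∀ i, Finset (𝔖.C i)} {r : ℕ → ℝ} {Yf : Finset 𝔖.Y} (hF : 𝔖.Frozen q A K G S r Yf)
    (j : ℕ) (hj : j ≤ 𝔖.ℓ) (z : 𝔖.Y) : 𝔖.sq j (𝔖.resA (S j) (𝔖.am S j)) z ≤ 4 * r j ^ 2 * p.ϖ0 := by
  have h1 : 𝔖.sq j (𝔖.resA (S j) (𝔖.am S j)) z ≤ 4 * r j ^ 2 * 𝔖.sq j (𝔖.b j) z := by
    unfold TSys.sq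
    rw [Finset.mul_sum]
    refine Finset.sum_le_sum fun T _ => ?_
    have hw := h.w_nonneg j T z
    have hb := h.b_nonneg j T
    have hr := hF.r_pos j
    unfold TSys.resA
    split_ifs with hT
    · obtain ⟨-, h2, h3⟩ := hF.ratio j hj T hT
      have h4 : 0 ≤ 𝔖.am S j T := le_trans (mul_nonneg hr.le hb) h2
      have h5 : 𝔖.am S j T ^ 2 ≤ (2 * r j * 𝔖.b j T) ^ 2 := pow_le_pow_left₀ h4 h3 2
      calc 𝔖.am S j T ^ 2 * 𝔖.w j T z ≤ (2 * r j * 𝔖.b j T) ^ 2 * 𝔖.w j T z := mul_le_mul_of_nonneg_right h5 hw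
        _ = 4 * r j ^ 2 * (𝔖.b j T ^ 2 * 𝔖.w j T z) := by ring
    · have : 0 ≤ 4 * r j ^ 2 * (𝔖.b j T ^ 2 * 𝔖.w j T z) := by positivity
      simpa using this
  exact h1.trans (mul_le_mul_of_nonneg_left (h.sq_le j hj z) (by positivity))

/-- **EXIT OF THE UNIT LL.**   `A0` = bound of the velocities, `Cs` = exponent of the slot estimate (`Kc Ksl ≤ S^(Cs+β)`), `C1` = exponent of the occupancy of the large enlargements of the original masks.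
Tested field `i`, node `a`: width `H i S^s`, recorded ratio `S^ρ`, occupancy size `M`.     All fields `j`: nodes of width `H j S^(s' j)`, recorded ratios `S^(ρ' j)`.     `R` = the common ball scale. -/
theorem fl3_main (k : ℕ) (hk : 1 ≤ k) (Cs C1 : ℝ) : ∃ C4 : ℝ, 1 ≤ C4 ∧ ∀ tol : ℝ, 0 < tol → ∃ β : ℝ, 0 < β ∧ β ≤ 1 ∧ ∀ A0 : ℝ, 0 ≤ A0 → ∃ S0 : ℝ, 1 < S0 ∧
    ∀ (𝔖 : TSys) (𝔊 : TGeo 𝔖) (𝔭 : Fl3Pos k 𝔖 𝔊) (a : ℕ) (Ω₀ : Type) [Fintype Ω₀] (P : FLaw Ω₀) (Z : Ω₀ → 𝔖.Y) (Om : Ω₀ → 𝔊.Dir)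
      (S Ce Ksl Oc Kc N M Ko : ℝ) (aL : 𝔊.Dir → 𝔖.Y → ℝ) (aC : 𝔊.Dir → 𝔊.Cel a → ℝ) (i : Fin (k + 1)) (H A s' ρ' : Fin (k + 1) → ℝ) (s ρ R : ℝ),
      S0 ≤ S → (∀ j, 0 < H j) → (∀ j, H j ^ ((k : ℝ) / 2) * S ^ (-β) ≤ A j) → (∀ j, A j ≤ H j ^ ((k : ℝ) / 2) * S ^ β) →
      𝔭.Ok a (H i * S ^ s) (H i) A0 Ce Ksl Oc → 1 ≤ Ce → Ce ≤ S ^ β → 0 ≤ Kc → 0 ≤ Ksl → Kc * Ksl ≤ S ^ (Cs + β) → Oc ≤ S ^ (C1 + β) →
      (∀ x, P.p x ≠ 0 → ∃ T, 𝔊.cap 𝔭.tr T = 𝔊.anc 𝔭.tr (Om x) ∧ 𝔖.inc 𝔭.tr (Z x) T) →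
      (∀ x, P.p x ≠ 0 → P.fib (pair (fun x => 𝔊.anc a (Om x)) Z) x ≤ Kc * 𝔊.capw a (𝔊.anc a (Om x)) (Z x) * P.fib Z x) →
      FpOcc P Z Om (fun x => 𝔊.cel a (Z x) (Om x)) N M Ko aL aC →
      (H i * S ^ s) ^ ((k : ℝ) + 2) * (S ^ ρ / A i) ^ (2 * ((k : ℝ) + 2) / k) * (81 * Ko ^ 5) ≤ S ^ β * M →
      s ≤ -C4 → (∀ j, R ≤ H j * S ^ (s' j + β)) → H i * S ^ (s + C4 + 1 / 2) ≤ R →
      (∀ x, P.p x ≠ 0 → (((𝔭.cfg a Z Om).box (Z x) R R : ℕ) : ℝ) ≤ S ^ β * (R ^ ((k : ℝ) + 1) * ∏ j, (S ^ β * (S ^ ρ' j) ^ 2 / A j ^ 2) ^ ((1 : ℝ) / k))) →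
      2 * ((k : ℝ) + 2) / k * (ρ + k / 2 * s) ≤ 2 / k * ∑ j, (ρ' j + k / 2 * s' j) + tol := by
  obtain ⟨C4, hC4, hsm0⟩ := fl3_small k hk Cs C1
  refine ⟨C4, hC4, fun tol htol => ?_⟩
  have hk20 : (0 : ℝ) < (k : ℝ) + 20 := by positivity
  refine ⟨min 1 (tol / ((k : ℝ) + 20)), lt_min one_pos (div_pos htol hk20), min_le_left _ _, fun A0 hA0 => ?_⟩
  obtain ⟨S0', hS0', hsm⟩ := hsm0 A0 hA0
  refine ⟨max S0' ((1 + A0) ^ 2), lt_max_of_lt_left hS0', ?_⟩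
  intro 𝔖 𝔊 𝔭 a Ω₀ _ P Z Om S Ce Ksl Oc Kc N M Ko aL aC i H A s' ρ' s ρ R hS hH hA1 hA2 hp hCe hCeβ hKc hKsl hKs hOc hatt hcap hocc hM hs hR hRlow hXF
  set β : ℝ := min 1 (tol / ((k : ℝ) + 20)) with hβdef
  have hβ0 : 0 ≤ β := (lt_min one_pos (div_pos htol hk20)).le
  have hβ1 : β ≤ 1 := min_le_left _ _
  have hβtol : ((k : ℝ) + 20) * β ≤ tol := by
    have : β ≤ tol / ((k : ℝ) + 20) := min_le_right _ _
    rwa [le_div_iff₀ hk20, mul_comm] at this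
  have hSS0 : S0' ≤ S := (le_max_left _ _).trans hS
  have hS1 : 1 < S := hS0'.trans_le hSS0
  have hS0 : 0 < S := by linarith
  have hSA : (1 + A0) ^ 2 ≤ S := (le_max_right _ _).trans hS
  have hKo : 0 < Ko := hocc.Kpos
  have hHi := hH i
  have hSs : 0 < S ^ s := Real.rpow_pos_of_pos hS0 _
  have hSs1 : S ^ s ≤ 1 := Real.rpow_le_one_of_one_le_of_nonpos hS1.le (by linarith)
  have hKw : 0 < H i * S ^ s := mul_pos hHi hSs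
  have hF1 : 1 ≤ S ^ C4 := Real.one_le_rpow hS1.le (by linarith)
  have hOc0 : 0 ≤ Oc := by
    obtain ⟨x, hx⟩ := ent_exists_supp P
    obtain ⟨T, -⟩ := hatt x hx
    exact (Nat.cast_nonneg _).trans (hp.occ T)
  have hok := fl3_cfg_ok 𝔭 a P Z Om (F := S ^ C4) (θ := 1 / S) (t := 9 * Ko) hp hatt hcap hocc hKw
    (by nlinarith) hF1 hA0 hCe hKc hKsl (by positivity) (by positivity)
  have hsmall := hsm S β ⟨H i * S ^ s, H i, S ^ C4, A0, Ce, Kc * Ksl, 1 / S, Oc, M / (Ko ^ 3 * (9 * Ko) ^ 2), 3 * Ko / (9 * Ko)⟩ hSS0 hβ0 hβ1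
    rfl hA0 le_rfl (by linarith) hCeβ (mul_nonneg hKc hKsl) hKs hOc0 hOc rfl hHi hKw.le
    (by
      show H i * S ^ s / H i ≤ S ^ (-C4)
      rw [mul_div_cancel_left₀ _ hHi.ne']
      exact Real.rpow_le_rpow_of_exponent_le hS1.le hs)
    (by
      show 3 * Ko / (9 * Ko) ≤ 1 / 3
      rw [div_le_div_iff₀ (by positivity) (by norm_num)]
      nlinarith)
  have hhalf : 1 + A0 ≤ S ^ ((1 : ℝ) / 2) := by
    rw [← Real.sqrt_eq_rpow]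
    exact Real.le_sqrt_of_sq_le hSA
  have hsplit : H i * S ^ (s + C4 + 1 / 2) = S ^ ((1 : ℝ) / 2) * S ^ C4 * (H i * S ^ s) := by
    rw [Real.rpow_add hS0, Real.rpow_add hS0]
    ring
  have hR0 : 0 < R := lt_of_lt_of_le (mul_pos hHi (Real.rpow_pos_of_pos hS0 _)) hRlow
  have hCeF : Ce ≤ S ^ C4 := hCeβ.trans (Real.rpow_le_rpow_of_exponent_le hS1.le (hβ1.trans hC4))
  have hb1 : (Ce + A0 * S ^ C4) * (H i * S ^ s) ≤ R := by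
    refine le_trans ?_ hRlow
    rw [hsplit]
    refine mul_le_mul_of_nonneg_right ?_ hKw.le
    calc Ce + A0 * S ^ C4 ≤ S ^ C4 + A0 * S ^ C4 := by linarith
      _ = (1 + A0) * S ^ C4 := by ring
      _ ≤ S ^ ((1 : ℝ) / 2) * S ^ C4 := mul_le_mul_of_nonneg_right hhalf (by linarith)
  have hb2 : S ^ C4 * (H i * S ^ s) ≤ R := by
    refine le_trans ?_ hRlow
    rw [hsplit]
    refine mul_le_mul_of_nonneg_right ?_ hKw.le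
    have : (1 : ℝ) ≤ S ^ ((1 : ℝ) / 2) := by linarith
    nlinarith
  have hMc : (H i * S ^ s) ^ ((k : ℝ) + 2) * (S ^ ρ / A i) ^ (2 * ((k : ℝ) + 2) / k) ≤ S ^ β * (M / (Ko ^ 3 * (9 * Ko) ^ 2)) := by
    have e : Ko ^ 3 * (9 * Ko) ^ 2 = 81 * Ko ^ 5 := by ring
    rw [e, ← mul_div_assoc, le_div_iff₀ (by positivity)]
    exact hM
  have := fl3_test hk hok hsmall S β hS1 hβ0 i H A s' ρ' s ρ R hH hA1 hA2 hR0 hR hMc hb1 hb2 hXF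
  linarith

end

end Claimed.Agent.R257.FR3
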