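import Claimed.Agent.R257.FR2.PathProb

/-!
# ROW 257, package FR3, unit LL (`f:left-limit`, H `frame.tex` l.1577-1745), file 1: THE ABSTRACT LOWER COUNT      (architect helper227; prefix `fl3_` / `Fl3`)            CONTRACT

PAPER-FREE.  Language: `R255/Base/Law.lean` (`FLaw`, `pr`, `ev`, `fib`, `pair`), API `R255/Ent/Basic.lean` (`ent_*`), `FR2/PathProb.lean` (`fp_*`, `FpOcc`).   Every `sorry` is a leaf `L-257-LL-*`.
STATEMENTS ARE FROZEN (defect: one line to helper227).   Prove IN PLACE: pull, splice only your theorem and helper lemmas (prefix `fl3_`) directly above it, `git land`.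

WHAT IS PROVED HERE (one field, one scale, explicit losses; no limits).   A finite law `P` with a root point `Z` and a fine direction `Om`;  witnesses have positions `(xs, ts) ∈ ℝ^k × ℝ`, directions have velocities `v ∈ ℝ^k` (sup norm everywhere).
`tube z ω y`  = "`y` lies in the cell of width `Kw`, length `Kw²` through `z` tilted by `ω`";   `att z ω` = the original mask of width `H ≥ Kw` attached to the path `(z, ω)`;   `hit T y` = "`y` lies in the enlarged mask `T`".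
 (slot)    `μ_z(B(c, r)) ≤ Ks r^k`, `r ≥ 1/Kw`                                          (f:slot)
 (typ)     off probability `θ (4(A0+1))^k` the sampled direction satisfies `μ_z(B(ω, r)) ≥ θ r^k` for ALL `0 < r ≤ 1`: `fl3_dyadic`, `fl3_typ`     (f:angular-typical-lower; NO loss in the number of radii)
 (pair)    for `τ = |t_y - t_z| ≥ F Kw`:  `P(Z = z, typ, y ∈ tube) ≤ (Ks/θ) (2 Ce max(1/F, Kw/H))^k P(Z = z, y hits the attached mask)`: `fl3_pair`     (f:smalltube-hit and the ratio bound)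
 (far)     summing ONCE over `y`, occupancy `≤ Oc` of the attached masks:  `P(typ, ∃ far point in the tube) ≤ (Ks/θ) (2 Ce max(1/F, Kw/H))^k Oc`: `fl3_far`
 (count)   the tube of a typical draw contains `≥ Mc` witnesses (from the occupancy law: `fl3_count_of_occ`)
 ⟹  `fl3_lower`: some root point has `≥ Mc` witnesses in the box of radius `(Ce + A0 F) Kw` (space), `F Kw` (time)     (f:left-lower).
File 2 (`LlTest.lean`): comparison with the upper count of XF, exponents.   File 3 (`LlAdapt.lean`): adapter from FR2.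
-/

set_option autoImplicit false

namespace Claimed.Agent.R257.FR3

open scoped BigOperators
open Classical
open Claimed.Agent.R255 Claimed.Agent.R255.FLaw Claimed.Agent.R257

noncomputable section

/-! ## 1. The typical lower bound (weak type (1,1) of the maximal function, finite form) -/

/-- the mass of the closed sup-norm ball `B(c, r)` -/
def fl3Ball {D : Type} [Fintype D] {k : ℕ} (m : D → ℝ) (v : D → Fin k → ℝ) (c : Fin k → ℝ) (r : ℝ) : ℝ :=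
  ∑ ω, if (∀ l, |v ω l - c l| ≤ r) then m ω else 0

/-- packing: disjoint sup-norm balls with centres in the box of radius `A0` and radii `≤ 1/4` -/
theorem fl3_dyadic_pack {D : Type} (k : ℕ) (v : D → Fin k → ℝ) (A0 : ℝ) (hA0 : 0 ≤ A0)
    (hv : ∀ ω l, |v ω l| ≤ A0) (U : Finset D) (ρ : D → ℝ) (hρ0 : ∀ b ∈ U, 0 < ρ b) (hρ1 : ∀ b ∈ U, ρ b ≤ 1)
    (hd : (U : Set D).PairwiseDisjoint fun a => Metric.closedBall (v a) (ρ a / 4)) :
    ∑ b ∈ U, ρ b ^ k ≤ (4 * (A0 + 1)) ^ k := by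
  have hvol : ∀ b ∈ U, MeasureTheory.volume (Metric.closedBall (v b) (ρ b / 4)) =
      ENNReal.ofReal ((ρ b / 2) ^ k) := by
    intro b hb
    rw [Real.volume_pi_closedBall _ (by linarith [hρ0 b hb]), Fintype.card_fin]
    congr 2
    ring
  have hsub : (⋃ b ∈ U, Metric.closedBall (v b) (ρ b / 4)) ⊆
      Metric.closedBall (0 : Fin k → ℝ) (A0 + 1 / 4) := by
    intro x hx
    simp only [Set.mem_iUnion, exists_prop] at hx
    obtain ⟨b, hb, hx⟩ := hx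
    rw [Metric.mem_closedBall, dist_pi_le_iff (by linarith [hρ0 b hb])] at hx
    rw [Metric.mem_closedBall, dist_pi_le_iff (by linarith)]
    intro l
    have h1 := hx l
    rw [Real.dist_eq] at h1 ⊢
    have h2 := hv b l
    have h3 := hρ1 b hb
    simp only [Pi.zero_apply, sub_zero]
    calc |x l| = |(x l - v b l) + v b l| := by ring_nf
      _ ≤ |x l - v b l| + |v b l| := abs_add_le _ _
      _ ≤ A0 + 1 / 4 := by linarith
  have hm := MeasureTheory.measure_mono (μ := MeasureTheory.volume) hsub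
  rw [MeasureTheory.measure_biUnion_finset hd (fun b _ => Metric.isClosed_closedBall.measurableSet),
    Real.volume_pi_closedBall _ (by linarith), Fintype.card_fin, Finset.sum_congr rfl hvol,
    ← ENNReal.ofReal_sum_of_nonneg (fun b hb => by have := hρ0 b hb; positivity),
    ENNReal.ofReal_le_ofReal_iff (by positivity)] at hm
  have e : ∑ b ∈ U, ρ b ^ k = 2 ^ k * ∑ b ∈ U, (ρ b / 2) ^ k := by
    rw [Finset.mul_sum]
    apply Finset.sum_congr rfl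
    intro b _
    rw [← mul_pow]
    congr 1
    ring
  rw [e]
  calc 2 ^ k * ∑ b ∈ U, (ρ b / 2) ^ k ≤ 2 ^ k * (2 * (A0 + 1 / 4)) ^ k :=
        mul_le_mul_of_nonneg_left hm (by positivity)
    _ = (2 * (2 * (A0 + 1 / 4))) ^ k := (mul_pow _ _ _).symm
    _ ≤ (4 * (A0 + 1)) ^ k := pow_le_pow_left₀ (by positivity) (by linarith) k

/-- **LEAF L-257-LL-DYA: points with a light ball carry little mass.**   No loss in the number of radii.
PLAN A (dyadic induction, no disjointness, no measure theory).  The bad set is finite: choose for each bad `ω` a radius `r_ω` and `j_ω : ℕ` with `2^(-j_ω) ≤ r_ω < 2^(1-j_ω)` (`r ≤ 1`); `J := max j_ω`.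
`lab j ω := fun l => ⌊v ω l * 2^j⌋`,  `μ j n := ∑_{lab j ω = n} m ω`,  `light j n := μ j n < lam 2^k 2^(-jk)`.   The cube of `ω` of side `2^(-j_ω) ≤ r_ω` lies in `B(v ω, r_ω)`, so `light j_ω (lab j_ω ω)`.
`Bd j ω := ∃ j', j ≤ j' ≤ J ∧ light j' (lab j' ω)`.   CLAIM by downward induction on `j ≤ J + 1`:  `∑_{lab j ω = n, Bd j ω} m ω ≤ lam 2^k 2^(-jk)` for all `n`.   `j = J+1`: empty sum.   Step: if `light j n`: the sum is `≤ μ j n`.
Otherwise `Bd j ω ↔ Bd (j+1) ω` on the cube, and `lab (j+1) ω = 2 n + ε`, `ε ∈ {0,1}^k` (`⌊2x⌋ ∈ {2⌊x⌋, 2⌊x⌋+1}`): split the sum over the `2^k` values of `ε` (`Finset.sum_fiberwise_of_maps_to` with `Fintype.piFinset fun _ => {0,1}`).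
At `j = 0`: `lab 0 ω ∈ [-(A0+1), A0]^k`, at most `(2 A0 + 2)^k` labels (`Fintype.piFinset fun _ => Finset.Icc ⌊-A0⌋ ⌊A0⌋`, `Int.card_Icc`).   Total `lam 2^k (2A0+2)^k`.
PLAN B (helper203): `Vitali.exists_disjoint_subfamily_covering_enlargement_closedBall` (`τ = 4`) for the balls `closedBall (v ω) (r_ω/4)` in `Fin k → ℝ` (sup norm), `Real.volume_pi_closedBall`: the bad points lie in the balls `B(v ω', r_ω')`, `ω'` in the disjoint subfamily;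
`∑ lam r^k = lam 2^k ∑ vol(B(·, r/4))·… ≤ lam 2^k (2 (A0+1))^k`. -/
theorem fl3_dyadic {D : Type} [Fintype D] (k : ℕ) (m : D → ℝ) (v : D → Fin k → ℝ) (A0 lam : ℝ) (hm : ∀ ω, 0 ≤ m ω)
    (hA0 : 0 ≤ A0) (hv : ∀ ω l, |v ω l| ≤ A0) (hlam : 0 ≤ lam) :
    (∑ ω, if (∃ r, 0 < r ∧ r ≤ 1 ∧ fl3Ball m v (v ω) r < lam * r ^ k) then m ω else 0) ≤ lam * (4 * (A0 + 1)) ^ k := by
  set Bad : D → Prop := fun ω => ∃ r, 0 < r ∧ r ≤ 1 ∧ fl3Ball m v (v ω) r < lam * r ^ k with hBad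
  let ρ : D → ℝ := fun ω => if h : Bad ω then h.choose else 1
  have hρ : ∀ ω, Bad ω → 0 < ρ ω ∧ ρ ω ≤ 1 ∧ fl3Ball m v (v ω) (ρ ω) < lam * ρ ω ^ k := by
    intro ω h
    have : ρ ω = h.choose := dif_pos h
    rw [this]
    exact h.choose_spec
  obtain ⟨u, hut, hud, huc⟩ := Vitali.exists_disjoint_subfamily_covering_enlargement_closedBall
    {ω | Bad ω} v (fun ω => ρ ω / 4) (1 / 4) (fun a ha => by have := (hρ a ha).2.1; linarith) 4
    (by norm_num)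
  set U : Finset D := Finset.univ.filter (fun b => b ∈ u) with hU
  have hUu : ∀ b, b ∈ U ↔ b ∈ u := fun b => by simp [hU]
  have hUbad : ∀ b ∈ U, Bad b := fun b hb => hut ((hUu b).1 hb)
  have hd : (U : Set D).PairwiseDisjoint fun a => Metric.closedBall (v a) (ρ a / 4) := by
    intro a ha b hb hab
    exact hud ((hUu a).1 ha) ((hUu b).1 hb) hab
  have hpack := fl3_dyadic_pack k v A0 hA0 hv U ρ (fun b hb => (hρ b (hUbad b hb)).1)
    (fun b hb => (hρ b (hUbad b hb)).2.1) hd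
  have h1 : (∑ ω, if Bad ω then m ω else 0) ≤ ∑ b ∈ U, fl3Ball m v (v b) (ρ b) := by
    unfold fl3Ball
    rw [Finset.sum_comm]
    apply Finset.sum_le_sum
    intro ω _
    have hnn : ∀ b ∈ U, 0 ≤ (if (∀ l, |v ω l - v b l| ≤ ρ b) then m ω else 0) := by
      intro b _
      split_ifs
      · exact hm ω
      · exact le_rfl
    split_ifs with hω
    · obtain ⟨b, hb, hsub⟩ := huc ω hω
      have hmem : v ω ∈ Metric.closedBall (v b) (4 * (ρ b / 4)) :=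
        hsub (Metric.mem_closedBall_self (by have := (hρ ω hω).1; linarith))
      have hb' : b ∈ U := (hUu b).2 hb
      have hρb := (hρ b (hUbad b hb')).1
      rw [Metric.mem_closedBall, dist_pi_le_iff (by linarith)] at hmem
      have hcond : ∀ l, |v ω l - v b l| ≤ ρ b := by
        intro l
        have := hmem l
        rw [Real.dist_eq] at this
        linarith
      calc m ω = (if (∀ l, |v ω l - v b l| ≤ ρ b) then m ω else 0) := (if_pos hcond).symm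
        _ ≤ _ := Finset.single_le_sum
            (f := fun b => if (∀ l, |v ω l - v b l| ≤ ρ b) then m ω else 0) hnn hb'
    · exact Finset.sum_nonneg hnn
  calc (∑ ω, if Bad ω then m ω else 0) ≤ ∑ b ∈ U, fl3Ball m v (v b) (ρ b) := h1
    _ ≤ ∑ b ∈ U, lam * ρ b ^ k := Finset.sum_le_sum fun b hb => (hρ b (hUbad b hb)).2.2.le
    _ = lam * ∑ b ∈ U, ρ b ^ k := (Finset.mul_sum _ _ _).symm
    _ ≤ lam * (4 * (A0 + 1)) ^ k := mul_le_mul_of_nonneg_left hpack hlam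

/-! ## 2. The configuration -/

/-- the data of the lower count -/
structure Fl3Cfg (k : ℕ) (Ω₀ Y D M : Type) where
  /-- the root point -/
  Z : Ω₀ → Y
  /-- the fine direction -/
  Om : Ω₀ → D
  /-- position of a witness in space -/
  xs : Y → Fin k → ℝ
  /-- position of a witness in time -/
  ts : Y → ℝ
  /-- the velocity of a direction -/
  v : D → Fin k → ℝ
  /-- `tube z ω y`: `y` lies in the cell of width `Kw` through `z` tilted by `ω` -/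
  tube : Y → D → Y → Prop
  /-- the original mask of width `H` attached to the path `(z, ω)` -/
  att : Y → D → M
  /-- `hit T y`: `y` lies in the enlarged mask `T` -/
  hit : M → Y → Prop

/-- the explicit constants -/
structure Fl3Par where
  /-- width of the small tube, `K = H S^s` -/
  Kw : ℝ
  /-- width of the original masks -/
  H : ℝ
  /-- "far" means time distance `≥ F Kw`, `F = S^{C₄}` -/
  F : ℝ
  /-- bound of the velocities -/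
  A0 : ℝ
  /-- enlargement of the small tube -/
  Ce : ℝ
  /-- constant of the slot estimate -/
  Ks : ℝ
  /-- threshold of typicality, `c / S` -/
  θ : ℝ
  /-- occupancy of the enlarged original masks, `S^{C₁}` -/
  Oc : ℝ
  /-- number of witnesses in a typical small tube, `M S^{-o(1)}` -/
  Mc : ℝ
  /-- exceptional probability of the count -/
  εc : ℝ

/-- the ratio of (f:smalltube-hit) and the lower bound for the attached masks -/
def Fl3Par.rat (p : Fl3Par) (k : ℕ) : ℝ := p.Ks / p.θ * (2 * p.Ce * max (1 / p.F) (p.Kw / p.H)) ^ k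

namespace Fl3Cfg

variable {k : ℕ} {Ω₀ Y D M : Type} [Fintype Ω₀] [Fintype Y] [Fintype D] (𝔠 : Fl3Cfg k Ω₀ Y D M)

/-- `ω` is a typical direction at `z`: (f:angular-typical-lower) at all radii `≤ 1` -/
def Typ (P : FLaw Ω₀) (θ : ℝ) (z : Y) (ω : D) : Prop :=
  ∀ r, 0 < r → r ≤ 1 → θ * r ^ k * P.pr (fun x => 𝔠.Z x = z) ≤ P.pr (fun x => 𝔠.Z x = z ∧ ∀ l, |𝔠.v (𝔠.Om x) l - 𝔠.v ω l| ≤ r)

/-- the number of witnesses in the small tube -/
def cnt (z : Y) (ω : D) : ℕ := (Finset.univ.filter fun y => 𝔠.tube z ω y).card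

/-- the number of witnesses in the box of radius `ρx` in space and `ρt` in time about `z` -/
def box (z : Y) (ρx ρt : ℝ) : ℕ := (Finset.univ.filter fun y => (∀ l, |𝔠.xs y l - 𝔠.xs z l| ≤ ρx) ∧ |𝔠.ts y - 𝔠.ts z| ≤ ρt).card

/-- **the hypotheses of the lower count** -/
structure Ok (P : FLaw Ω₀) (p : Fl3Par) : Prop where
  Kw_pos : 0 < p.Kw
  Kw_le : p.Kw ≤ p.H
  one_le_F : 1 ≤ p.F
  A0_nonneg : 0 ≤ p.A0
  one_le_Ce : 1 ≤ p.Ce
  Ks_nonneg : 0 ≤ p.Ks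
  θ_pos : 0 < p.θ
  hv : ∀ ω l, |𝔠.v ω l| ≤ p.A0
  /-- geometry of the small tube -/
  tube_geo : ∀ z ω y, 𝔠.tube z ω y → (∀ l, |𝔠.xs y l - 𝔠.xs z l - (𝔠.ts y - 𝔠.ts z) * 𝔠.v ω l| ≤ p.Ce * p.Kw) ∧ |𝔠.ts y - 𝔠.ts z| ≤ p.Ce * p.Kw ^ 2
  /-- (f:slot) -/
  slot : ∀ (z : Y) (c : Fin k → ℝ) (r : ℝ), 1 / p.Kw ≤ r → P.pr (fun x => 𝔠.Z x = z ∧ ∀ l, |𝔠.v (𝔠.Om x) l - c l| ≤ r) ≤ p.Ks * r ^ k * P.pr (fun x => 𝔠.Z x = z)
  /-- the attached enlarged mask contains every witness within `(Ce+1) H` of the line of the path, up to the time `Ce H²` -/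
  capture : ∀ x, P.p x ≠ 0 → ∀ y, (∀ l, |𝔠.xs y l - 𝔠.xs (𝔠.Z x) l - (𝔠.ts y - 𝔠.ts (𝔠.Z x)) * 𝔠.v (𝔠.Om x) l| ≤ (p.Ce + 1) * p.H) →
    |𝔠.ts y - 𝔠.ts (𝔠.Z x)| ≤ p.Ce * p.H ^ 2 → 𝔠.hit (𝔠.att (𝔠.Z x) (𝔠.Om x)) y
  /-- occupancy of the enlarged original masks -/
  occ : ∀ T, ((Finset.univ.filter fun y => 𝔠.hit T y).card : ℝ) ≤ p.Oc
  /-- the small tube of a typical draw contains many witnesses -/
  count : P.pr (fun x => (𝔠.cnt (𝔠.Z x) (𝔠.Om x) : ℝ) < p.Mc) ≤ p.εc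

variable {𝔠} {P : FLaw Ω₀} {p : Fl3Par}

omit [Fintype Y] in
/-- decomposition of an event `Z = z ∧ Q (Om)` over the values of `Om` -/
theorem fl3_pr_om (P : FLaw Ω₀) (Z : Ω₀ → Y) (Om : Ω₀ → D) (z : Y) (Q : D → Prop) :
    P.pr (fun x => Z x = z ∧ Q (Om x)) = ∑ ω, if Q ω then P.pr (fun x => Z x = z ∧ Om x = ω) else 0 := by
  rw [ent_pr_sum_values P _ Om Finset.univ (fun _ _ _ => Finset.mem_univ _)]
  refine Finset.sum_congr rfl fun ω _ => ?_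
  split_ifs with hQ
  · refine ent_pr_congr P fun x _ => ⟨fun hx => ⟨hx.1.1, hx.2⟩, fun hx => ⟨⟨hx.1, ?_⟩, hx.2⟩⟩
    rw [hx.2]; exact hQ
  · refine ent_pr_eq_zero P fun x _ hx => hQ ?_
    rw [← hx.2]; exact hx.1.2

/-- **LEAF L-257-LL-TYP: the sampled direction is typical.**
PLAN.  `P.pr (¬ Typ) = ∑_z P.pr (¬ Typ ∧ Z = z)` (`ent_pr_sum_values` with `Finset.univ`) and `P.pr (¬ Typ (Z x) (Om x) ∧ Z x = z) = ∑_ω [¬ Typ z ω] m_z ω`, `m_z ω := P.pr (Z = z ∧ Om = ω)` (`ent_pr_sum_values` again, `ent_pr_congr`, `ent_pr_eq_zero`).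
`fl3Ball m_z v (v ω) r = P.pr (Z = z ∧ ∀ l, |v (Om x) l - v ω l| ≤ r)` (same lemma).   `¬ Typ z ω ↔ ∃ r, 0 < r ∧ r ≤ 1 ∧ fl3Ball … < (θ P(Z = z)) r^k` (`push_neg`, `mul_right_comm`).
`fl3_dyadic` with `lam = θ P(Z = z)`;   `∑_z P(Z = z) = 1` (`ent_pr_sum_values` for `True`, `ent_pr_true`). -/
theorem fl3_typ (h : 𝔠.Ok P p) : P.pr (fun x => ¬ 𝔠.Typ P p.θ (𝔠.Z x) (𝔠.Om x)) ≤ p.θ * (4 * (p.A0 + 1)) ^ k := by
  rw [ent_pr_sum_values P _ 𝔠.Z Finset.univ (fun _ _ _ => Finset.mem_univ _)]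
  have hz : ∀ z ∈ (Finset.univ : Finset Y), P.pr (fun x => ¬ 𝔠.Typ P p.θ (𝔠.Z x) (𝔠.Om x) ∧ 𝔠.Z x = z) ≤
      P.pr (fun x => 𝔠.Z x = z) * (p.θ * (4 * (p.A0 + 1)) ^ k) := by
    intro z _
    have e1 : P.pr (fun x => ¬ 𝔠.Typ P p.θ (𝔠.Z x) (𝔠.Om x) ∧ 𝔠.Z x = z) =
        P.pr (fun x => 𝔠.Z x = z ∧ ¬ 𝔠.Typ P p.θ z (𝔠.Om x)) := by
      refine ent_pr_congr P fun x _ => ⟨fun hx => ⟨hx.2, ?_⟩, fun hx => ⟨?_, hx.1⟩⟩
      · rw [← hx.2]; exact hx.1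
      · rw [hx.1]; exact hx.2
    rw [e1, fl3_pr_om P 𝔠.Z 𝔠.Om z (fun ω => ¬ 𝔠.Typ P p.θ z ω)]
    set mz : D → ℝ := fun ω => P.pr (fun x => 𝔠.Z x = z ∧ 𝔠.Om x = ω) with hmz
    have hball : ∀ (ω : D) (r : ℝ), fl3Ball mz 𝔠.v (𝔠.v ω) r =
        P.pr (fun x => 𝔠.Z x = z ∧ ∀ l, |𝔠.v (𝔠.Om x) l - 𝔠.v ω l| ≤ r) := by
      intro ω r
      rw [fl3_pr_om P 𝔠.Z 𝔠.Om z (fun ω' => ∀ l, |𝔠.v ω' l - 𝔠.v ω l| ≤ r)]
      unfold fl3Ball
      refine Finset.sum_congr rfl fun ω' _ => ?_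
      by_cases hc : ∀ l, |𝔠.v ω' l - 𝔠.v ω l| ≤ r
      · rw [if_pos hc, if_pos hc]
      · rw [if_neg hc, if_neg hc]
    have hiff : ∀ ω, (¬ 𝔠.Typ P p.θ z ω) ↔ ∃ r, 0 < r ∧ r ≤ 1 ∧
        fl3Ball mz 𝔠.v (𝔠.v ω) r < (p.θ * P.pr (fun x => 𝔠.Z x = z)) * r ^ k := by
      intro ω
      unfold Fl3Cfg.Typ
      push Not
      refine exists_congr fun r => ?_
      rw [hball, mul_right_comm]
    have hd := fl3_dyadic k mz 𝔠.v p.A0 (p.θ * P.pr (fun x => 𝔠.Z x = z)) (fun ω => ent_pr_nonneg P _)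
      h.A0_nonneg h.hv (mul_nonneg h.θ_pos.le (ent_pr_nonneg P _))
    refine le_trans (le_of_eq ?_) (hd.trans (le_of_eq (by ring)))
    refine Finset.sum_congr rfl fun ω _ => ?_
    by_cases hc : 𝔠.Typ P p.θ z ω
    · rw [if_neg (not_not.2 hc), if_neg (fun hh => (hiff ω).2 hh hc)]
    · rw [if_pos hc, if_pos ((hiff ω).1 hc)]
  refine (Finset.sum_le_sum hz).trans ?_
  rw [← Finset.sum_mul]
  have hone : ∑ z, P.pr (fun x => 𝔠.Z x = z) = 1 := by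
    rw [← ent_pr_true P, ent_pr_sum_values P (fun _ => True) 𝔠.Z Finset.univ (fun _ _ _ => Finset.mem_univ _)]
    refine Finset.sum_congr rfl fun z _ => ?_
    exact ent_pr_congr P fun x _ => ⟨fun hx => ⟨trivial, hx⟩, fun hx => hx.2⟩
  rw [hone, one_mul]

omit [Fintype D] in
theorem fl3_rat_nonneg (h : 𝔠.Ok P p) : 0 ≤ p.rat k := by
  unfold Fl3Par.rat
  have h1 : 0 ≤ p.Ks / p.θ := div_nonneg h.Ks_nonneg h.θ_pos.le
  have h2 : 0 ≤ 1 / p.F := by have := h.one_le_F; positivity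
  have h3 : 0 ≤ max (1 / p.F) (p.Kw / p.H) := le_max_of_le_left h2
  have h4 : 0 ≤ p.Ce := by have := h.one_le_Ce; linarith
  positivity

/-- **LEAF L-257-LL-PAIR: one far pair.**
PLAN.  `τ := |ts y - ts z| ≥ F Kw > 0`.   If the left side is `0`: done (right side `≥ 0`).   Otherwise (`ent_pr_pos_iff`) fix `x₀` in the event, `ω₀ = Om x₀`.
(1) every `x` of the event has `|v (Om x) l - v ω₀ l| ≤ r₁ := 2 Ce Kw / τ` (subtract the two inequalities of `tube_geo`: `τ |v - v₀| ≤ 2 Ce Kw`);  `r₁ ≥ 2/Kw ≥ 1/Kw` since `τ ≤ Ce Kw²`:  `slot`:  LHS `≤ Ks r₁^k P(Z = z)`.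
(2) `r₂ := min 1 (H/τ) ∈ (0, 1]`;  `x` with `P.p x ≠ 0`, `Z x = z`, `|v (Om x) - v ω₀| ≤ r₂`:  `|xs y - xs z - (ts y - ts z) v (Om x)| ≤ Ce Kw + τ r₂ ≤ (Ce + 1) H`, `τ ≤ Ce Kw² ≤ Ce H²`: `capture`.   `Typ` of `ω₀` at `r₂`:  `θ r₂^k P(Z = z) ≤ P(Z = z ∧ hit)` (`ent_pr_mono`).
(3) `r₁ / r₂ = 2 Ce Kw / min τ H ≤ 2 Ce max (1/F) (Kw/H)`;  so `Ks r₁^k P(Z=z) ≤ (Ks/θ) (r₁/r₂)^k · θ r₂^k P(Z=z)`. -/
theorem fl3_pair (h : 𝔠.Ok P p) (z y : Y) (hfar : p.F * p.Kw ≤ |𝔠.ts y - 𝔠.ts z|) :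
    P.pr (fun x => 𝔠.Z x = z ∧ 𝔠.Typ P p.θ z (𝔠.Om x) ∧ 𝔠.tube z (𝔠.Om x) y)
      ≤ p.rat k * P.pr (fun x => 𝔠.Z x = z ∧ 𝔠.hit (𝔠.att z (𝔠.Om x)) y) := by
  have hrat := fl3_rat_nonneg h
  have hKw := h.Kw_pos
  have hF := h.one_le_F
  have hCe := h.one_le_Ce
  have hCe0 : 0 < p.Ce := by linarith
  have hH : 0 < p.H := lt_of_lt_of_le hKw h.Kw_le
  set τ := |𝔠.ts y - 𝔠.ts z| with hτ
  have hτ0 : 0 < τ := lt_of_lt_of_le (by positivity) hfar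
  rcases (ent_pr_nonneg P (fun x => 𝔠.Z x = z ∧ 𝔠.Typ P p.θ z (𝔠.Om x) ∧ 𝔠.tube z (𝔠.Om x) y)).eq_or_lt
    with h0 | h0
  · rw [← h0]
    exact mul_nonneg hrat (ent_pr_nonneg P _)
  obtain ⟨x₀, ⟨_, htyp₀, htube₀⟩, _⟩ := (ent_pr_pos_iff P _).1 h0
  set ω₀ := 𝔠.Om x₀ with hω₀
  obtain ⟨hg₀, hτle⟩ := h.tube_geo z ω₀ y htube₀
  set pz := P.pr (fun x => 𝔠.Z x = z) with hpz
  have hpz0 : 0 ≤ pz := ent_pr_nonneg P _
  set r₁ := 2 * p.Ce * p.Kw / τ with hr₁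
  set r₂ := min 1 (p.H / τ) with hr₂
  set q := 2 * p.Ce * max (1 / p.F) (p.Kw / p.H) with hq
  have hr₁0 : 0 < r₁ := by positivity
  have hr₂0 : 0 < r₂ := lt_min one_pos (by positivity)
  have hr₂1 : r₂ ≤ 1 := min_le_left _ _
  -- (1)
  have s1 : P.pr (fun x => 𝔠.Z x = z ∧ 𝔠.Typ P p.θ z (𝔠.Om x) ∧ 𝔠.tube z (𝔠.Om x) y) ≤ p.Ks * r₁ ^ k * pz := by
    have hr₁K : 1 / p.Kw ≤ r₁ := by
      rw [hr₁, div_le_div_iff₀ hKw hτ0]
      nlinarith [mul_pos hCe0 (pow_pos hKw 2)]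
    refine le_trans (ent_pr_mono P fun x _ hx => ?_) (h.slot z (𝔠.v ω₀) r₁ hr₁K)
    refine ⟨hx.1, fun l => ?_⟩
    have hg := (h.tube_geo z (𝔠.Om x) y hx.2.2).1 l
    have hg' := hg₀ l
    rw [hr₁, le_div_iff₀ hτ0]
    have e : |𝔠.v (𝔠.Om x) l - 𝔠.v ω₀ l| * τ =
        |(𝔠.xs y l - 𝔠.xs z l - (𝔠.ts y - 𝔠.ts z) * 𝔠.v ω₀ l) -
          (𝔠.xs y l - 𝔠.xs z l - (𝔠.ts y - 𝔠.ts z) * 𝔠.v (𝔠.Om x) l)| := by
      rw [hτ, ← abs_mul]
      congr 1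
      ring
    rw [e]
    refine (abs_sub _ _).trans ?_
    linarith
  -- (2)
  have s2 : p.θ * r₂ ^ k * pz ≤ P.pr (fun x => 𝔠.Z x = z ∧ 𝔠.hit (𝔠.att z (𝔠.Om x)) y) := by
    refine (htyp₀ r₂ hr₂0 hr₂1).trans (ent_pr_mono P fun x hx hE => ⟨hE.1, ?_⟩)
    have hc := h.capture x hx y
    rw [hE.1] at hc
    apply hc
    · intro l
      have hg' := hg₀ l
      have hv := hE.2 l
      have e : 𝔠.xs y l - 𝔠.xs z l - (𝔠.ts y - 𝔠.ts z) * 𝔠.v (𝔠.Om x) l =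
          (𝔠.xs y l - 𝔠.xs z l - (𝔠.ts y - 𝔠.ts z) * 𝔠.v ω₀ l) -
            (𝔠.ts y - 𝔠.ts z) * (𝔠.v (𝔠.Om x) l - 𝔠.v ω₀ l) := by ring
      rw [e]
      refine (abs_sub _ _).trans ?_
      rw [abs_mul, ← hτ]
      have h1 : τ * |𝔠.v (𝔠.Om x) l - 𝔠.v ω₀ l| ≤ p.H := by
        calc τ * |𝔠.v (𝔠.Om x) l - 𝔠.v ω₀ l| ≤ τ * r₂ := mul_le_mul_of_nonneg_left hv hτ0.le
          _ ≤ τ * (p.H / τ) := mul_le_mul_of_nonneg_left (min_le_right _ _) hτ0.le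
          _ = p.H := by field_simp
      have h2 : p.Ce * p.Kw ≤ p.Ce * p.H := mul_le_mul_of_nonneg_left h.Kw_le hCe0.le
      linarith
    · refine hτle.trans (mul_le_mul_of_nonneg_left ?_ hCe0.le)
      exact pow_le_pow_left₀ hKw.le h.Kw_le 2
  -- (3)
  have s3 : r₁ ≤ q * r₂ := by
    have hq0 : 0 ≤ q := by
      have : 0 ≤ max (1 / p.F) (p.Kw / p.H) := le_max_of_le_left (by positivity)
      positivity
    rw [hr₂, mul_min_of_nonneg _ _ hq0, le_min_iff]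
    constructor
    · rw [mul_one, hr₁, hq]
      calc 2 * p.Ce * p.Kw / τ ≤ 2 * p.Ce * p.Kw / (p.F * p.Kw) :=
            div_le_div_of_nonneg_left (by positivity) (by positivity) hfar
        _ = 2 * p.Ce * (1 / p.F) := by field_simp
        _ ≤ _ := mul_le_mul_of_nonneg_left (le_max_left _ _) (by positivity)
    · rw [hr₁, hq]
      calc 2 * p.Ce * p.Kw / τ = 2 * p.Ce * (p.Kw / p.H) * (p.H / τ) := by field_simp
        _ ≤ _ := by
          apply mul_le_mul_of_nonneg_right _ (by positivity)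
          exact mul_le_mul_of_nonneg_left (le_max_right _ _) (by positivity)
  have s4 : r₁ ^ k ≤ q ^ k * r₂ ^ k := by
    rw [← mul_pow]
    exact pow_le_pow_left₀ hr₁0.le s3 k
  have hθ := h.θ_pos
  calc P.pr (fun x => 𝔠.Z x = z ∧ 𝔠.Typ P p.θ z (𝔠.Om x) ∧ 𝔠.tube z (𝔠.Om x) y)
      ≤ p.Ks * r₁ ^ k * pz := s1
    _ ≤ p.Ks * (q ^ k * r₂ ^ k) * pz := by
        apply mul_le_mul_of_nonneg_right _ hpz0
        exact mul_le_mul_of_nonneg_left s4 h.Ks_nonneg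
    _ = p.rat k * (p.θ * r₂ ^ k * pz) := by
        unfold Fl3Par.rat
        rw [← hq]
        field_simp
    _ ≤ _ := mul_le_mul_of_nonneg_left s2 hrat

/-- **LEAF L-257-LL-FAR: no far points in the tube of a typical draw.**
PLAN.  The event is contained in `∃ y ∈ univ, ∃ z ∈ univ, (Z = z ∧ Typ z Om ∧ tube z Om y ∧ far z y)`: `ent_pr_exists_le` twice, `fl3_pair` for the far pairs (`0` for the others: `ent_pr_eq_zero`), so
`≤ rat ∑_y ∑_z P(Z = z ∧ hit (att z Om) y) = rat ∑_y P(hit (att Z Om) y) = rat · P.ev (#{y | hit (att Z Om) y}) ≤ rat · Oc`   (`ent_pr_sum_values`, `ent_pr_eq_ev`, `ent_ev_sum`, `ent_ev_mono`, `ent_ev_const`; `0 ≤ rat`). -/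
theorem fl3_far (h : 𝔠.Ok P p) :
    P.pr (fun x => 𝔠.Typ P p.θ (𝔠.Z x) (𝔠.Om x) ∧ ∃ y, 𝔠.tube (𝔠.Z x) (𝔠.Om x) y ∧ p.F * p.Kw ≤ |𝔠.ts y - 𝔠.ts (𝔠.Z x)|)
      ≤ p.rat k * p.Oc := by
  have hrat := fl3_rat_nonneg h
  -- union bound over `y`
  have u1 : P.pr (fun x => 𝔠.Typ P p.θ (𝔠.Z x) (𝔠.Om x) ∧
      ∃ y, 𝔠.tube (𝔠.Z x) (𝔠.Om x) y ∧ p.F * p.Kw ≤ |𝔠.ts y - 𝔠.ts (𝔠.Z x)|) ≤
      ∑ y, P.pr (fun x => 𝔠.Typ P p.θ (𝔠.Z x) (𝔠.Om x) ∧ 𝔠.tube (𝔠.Z x) (𝔠.Om x) y ∧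
        p.F * p.Kw ≤ |𝔠.ts y - 𝔠.ts (𝔠.Z x)|) := by
    refine le_trans (ent_pr_mono P fun x _ hx => ?_) (ent_pr_exists_le P Finset.univ _)
    obtain ⟨ht, y, hy1, hy2⟩ := hx
    exact ⟨y, Finset.mem_univ y, ht, hy1, hy2⟩
  -- one `y`
  have u2 : ∀ y ∈ (Finset.univ : Finset Y), P.pr (fun x => 𝔠.Typ P p.θ (𝔠.Z x) (𝔠.Om x) ∧
      𝔠.tube (𝔠.Z x) (𝔠.Om x) y ∧ p.F * p.Kw ≤ |𝔠.ts y - 𝔠.ts (𝔠.Z x)|) ≤
      p.rat k * P.pr (fun x => 𝔠.hit (𝔠.att (𝔠.Z x) (𝔠.Om x)) y) := by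
    intro y _
    rw [ent_pr_sum_values P _ 𝔠.Z Finset.univ (fun _ _ _ => Finset.mem_univ _),
      ent_pr_sum_values P (fun x => 𝔠.hit (𝔠.att (𝔠.Z x) (𝔠.Om x)) y) 𝔠.Z Finset.univ
        (fun _ _ _ => Finset.mem_univ _), Finset.mul_sum]
    refine Finset.sum_le_sum fun z _ => ?_
    have e2 : P.pr (fun x => 𝔠.hit (𝔠.att (𝔠.Z x) (𝔠.Om x)) y ∧ 𝔠.Z x = z) =
        P.pr (fun x => 𝔠.Z x = z ∧ 𝔠.hit (𝔠.att z (𝔠.Om x)) y) := by
      refine ent_pr_congr P fun x _ => ⟨fun hx => ⟨hx.2, ?_⟩, fun hx => ⟨?_, hx.1⟩⟩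
      · rw [← hx.2]; exact hx.1
      · rw [hx.1]; exact hx.2
    rw [e2]
    by_cases hfar : p.F * p.Kw ≤ |𝔠.ts y - 𝔠.ts z|
    · refine le_trans (ent_pr_mono P fun x _ hx => ?_) (fl3_pair h z y hfar)
      obtain ⟨⟨h1, h2, _⟩, hz⟩ := hx
      rw [hz] at h1 h2
      exact ⟨hz, h1, h2⟩
    · rw [ent_pr_eq_zero P fun x _ hx => ?_]
      · exact mul_nonneg hrat (ent_pr_nonneg P _)
      · obtain ⟨⟨_, _, h3⟩, hz⟩ := hx
        rw [hz] at h3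
        exact hfar h3
  refine u1.trans ((Finset.sum_le_sum u2).trans ?_)
  rw [← Finset.mul_sum]
  apply mul_le_mul_of_nonneg_left _ hrat
  have e3 : ∑ y, P.pr (fun x => 𝔠.hit (𝔠.att (𝔠.Z x) (𝔠.Om x)) y) =
      P.ev (fun x => ∑ y, if 𝔠.hit (𝔠.att (𝔠.Z x) (𝔠.Om x)) y then (1 : ℝ) else 0) := by
    rw [ent_ev_sum]
    exact Finset.sum_congr rfl fun y _ => ent_pr_eq_ev P _
  rw [e3, ← ent_ev_const P p.Oc]
  refine ent_ev_mono P fun x _ => ?_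
  rw [← Finset.sum_filter, Finset.sum_const, nsmul_eq_mul, mul_one]
  exact h.occ _

/-- **LEAF L-257-LL-LOW: the lower count** (f:left-lower).
PLAN.  The three bad events (`¬ Typ`; `Typ ∧ ∃ far`; `cnt < Mc`) have total probability `< 1` (`fl3_typ`, `fl3_far`, `h.count`, `ent_pr_or_le`), so some `x` with `P.p x ≠ 0` avoids them (`ent_pr_not`, `ent_pr_pos_iff`, or by contradiction with `ent_pr_eq_one`).
Every `y` of its tube has `τ < F Kw` and `|xs y - xs z| ≤ Ce Kw + τ A0 ≤ (Ce + A0 F) Kw` (`tube_geo`, `hv`): `Finset.card_le_card`. -/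
theorem fl3_lower (h : 𝔠.Ok P p) (hsmall : p.θ * (4 * (p.A0 + 1)) ^ k + p.rat k * p.Oc + p.εc < 1) :
    ∃ x, P.p x ≠ 0 ∧ p.Mc ≤ (𝔠.box (𝔠.Z x) ((p.Ce + p.A0 * p.F) * p.Kw) (p.F * p.Kw) : ℝ) := by
  by_contra hcon
  push Not at hcon
  have hall : ∀ x, P.p x ≠ 0 → ((¬ 𝔠.Typ P p.θ (𝔠.Z x) (𝔠.Om x)) ∨
      (𝔠.Typ P p.θ (𝔠.Z x) (𝔠.Om x) ∧
        ∃ y, 𝔠.tube (𝔠.Z x) (𝔠.Om x) y ∧ p.F * p.Kw ≤ |𝔠.ts y - 𝔠.ts (𝔠.Z x)|)) ∨
      ((𝔠.cnt (𝔠.Z x) (𝔠.Om x) : ℝ) < p.Mc) := by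
    intro x hx
    by_contra hno
    rw [not_or, not_or, not_not, not_lt] at hno
    obtain ⟨⟨ht, hfar⟩, hcnt⟩ := hno
    have hfar' : ∀ y, 𝔠.tube (𝔠.Z x) (𝔠.Om x) y → |𝔠.ts y - 𝔠.ts (𝔠.Z x)| < p.F * p.Kw := by
      intro y hy
      by_contra hh
      exact hfar ⟨ht, y, hy, not_lt.1 hh⟩
    have hle : 𝔠.cnt (𝔠.Z x) (𝔠.Om x) ≤ 𝔠.box (𝔠.Z x) ((p.Ce + p.A0 * p.F) * p.Kw) (p.F * p.Kw) := by
      unfold Fl3Cfg.cnt Fl3Cfg.box
      apply Finset.card_le_card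
      intro y hy
      rw [Finset.mem_filter] at hy ⊢
      refine ⟨Finset.mem_univ _, fun l => ?_, (hfar' y hy.2).le⟩
      have hg := (h.tube_geo _ _ y hy.2).1 l
      have hv := h.hv (𝔠.Om x) l
      have hτ := (hfar' y hy.2).le
      have e : 𝔠.xs y l - 𝔠.xs (𝔠.Z x) l =
          (𝔠.xs y l - 𝔠.xs (𝔠.Z x) l - (𝔠.ts y - 𝔠.ts (𝔠.Z x)) * 𝔠.v (𝔠.Om x) l) +
            (𝔠.ts y - 𝔠.ts (𝔠.Z x)) * 𝔠.v (𝔠.Om x) l := by ring
      rw [e]
      refine (abs_add_le _ _).trans ?_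
      rw [abs_mul]
      have h1 : |𝔠.ts y - 𝔠.ts (𝔠.Z x)| * |𝔠.v (𝔠.Om x) l| ≤ p.F * p.Kw * p.A0 :=
        mul_le_mul hτ hv (abs_nonneg _) ((abs_nonneg _).trans hτ)
      nlinarith
    have h2 := hcon x hx
    have h3 : (𝔠.cnt (𝔠.Z x) (𝔠.Om x) : ℝ) ≤
        (𝔠.box (𝔠.Z x) ((p.Ce + p.A0 * p.F) * p.Kw) (p.F * p.Kw) : ℝ) := by exact_mod_cast hle
    linarith
  have hone := ent_pr_eq_one P hall
  have hb := (ent_pr_or_le P _ _).trans (add_le_add ((ent_pr_or_le P _ _).trans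
    (add_le_add (fl3_typ h) (fl3_far h))) h.count)
  rw [hone] at hb
  linarith

end Fl3Cfg

/-! ## 3. From the occupancy law to an ordinary count -/

/-- **LEAF L-257-LL-CNT: the effective occupancy is an ordinary count** (l.1652-1660).
PLAN.  Copy the first half of the proof of `fp_occ` (`FR2/PathProb.lean`).   Off probability `2K/t` (`fp_occ`):  `M/(K t) · fib (pair Z Om) x ≤ fib (pair T Om) x`.   Off probability `K/t` (`fp_exc P Om Z (fun z o => a o z)` with `ε = 1/t`, `d1sum`):  `(1/t) a (Om x) (Z x) fib Z x ≤ fib (pair Om Z) x`.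
`fib (pair T Om) x = ∑_{z ∈ univ} P.pr (pair T Om = pair T Om x ∧ Z = z)` (`ent_pr_sum_values`); a term vanishes unless `z` belongs to the counted set, and then it is `≤ K² t fib (pair Z Om) x` (the `hterm` of `fp_occ`: `d1`, `unif`, `d1cmp`).
So `M/(K t) ≤ card · K² t` (`fib (pair Z Om) x > 0`). -/
theorem fl3_count_of_occ {Ω₀ ζ o γ : Type} [Fintype Ω₀] [Fintype ζ] (P : FLaw Ω₀) (Z : Ω₀ → ζ) (Om : Ω₀ → o) (T : Ω₀ → γ) (N M K : ℝ)
    (a : o → ζ → ℝ) (aC : o → γ → ℝ) (h : FpOcc P Z Om T N M K a aC) {t : ℝ} (ht : 0 < t) :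
    P.pr (fun x => ((Finset.univ.filter fun z => ∃ x', P.p x' ≠ 0 ∧ Z x' = z ∧ Om x' = Om x ∧ T x' = T x).card : ℝ) < M / (K ^ 3 * t ^ 2))
      ≤ 3 * K / t := by
  obtain ⟨hN, hM, hK⟩ := And.intro h.Npos (And.intro h.Mpos h.Kpos)
  have b0 := fp_occ P Z Om T N M K a aC h ht
  have b1 := fp_exc P Om Z (fun z x => a x z) (fun z x => h.a_nonneg x z) h.d1sum (ε := 1 / t) (by positivity)
  have hsum : 3 * K / t = 2 * K / t + 1 / t * K := by ring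
  rw [hsum]
  refine le_trans (ent_pr_mono P fun ω hω hb => ?_) ((ent_pr_or_le P _ _).trans (add_le_add b0 b1))
  by_contra hcon
  rw [not_or, not_not, not_lt] at hcon
  obtain ⟨⟨g0, _⟩, g1⟩ := hcon
  have hZ := h.unif ω hω
  rw [fp_fib_pair_comm P Om Z] at g1
  set S : Finset ζ := Finset.univ.filter fun z => ∃ x', P.p x' ≠ 0 ∧ Z x' = z ∧ Om x' = Om ω ∧ T x' = T ω with hS
  have e1 : P.fib (pair T Om) ω = ∑ z ∈ S, P.pr (fun ω' => pair T Om ω' = pair T Om ω ∧ Z ω' = z) :=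
    ent_pr_sum_values P _ Z S fun ω' hω' hE => by
      rw [hS, Finset.mem_filter]
      exact ⟨Finset.mem_univ _, ω', hω', rfl, congrArg Prod.snd hE, congrArg Prod.fst hE⟩
  have hterm : ∀ z ∈ S, P.pr (fun ω' => pair T Om ω' = pair T Om ω ∧ Z ω' = z) ≤
      K ^ 2 * t * P.fib (pair Z Om) ω := by
    intro z _
    by_cases hex : ∃ ω', P.p ω' ≠ 0 ∧ pair T Om ω' = pair T Om ω ∧ Z ω' = z
    · obtain ⟨ω', hω', hE, hz⟩ := hex
      have hT : T ω' = T ω := congrArg Prod.fst hE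
      have hO : Om ω' = Om ω := congrArg Prod.snd hE
      have s1 : P.pr (fun ω'' => pair T Om ω'' = pair T Om ω ∧ Z ω'' = z) ≤ P.fib (pair Z Om) ω' := by
        rw [ent_fib_pair]
        refine ent_pr_mono P fun ω'' _ hh => ⟨hh.2.trans hz.symm, ?_⟩
        exact (congrArg Prod.snd hh.1).trans hO.symm
      have s2 := h.d1 ω' hω'
      rw [h.unif ω' hω', hO] at s2
      have s3 := h.d1cmp ω ω' hω hω' hO hT
      rw [hZ] at g1
      calc _ ≤ K * a (Om ω) (Z ω') * (1 / N) := s1.trans s2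
        _ ≤ K * (K * a (Om ω) (Z ω)) * (1 / N) := by gcongr
        _ = K ^ 2 * t * (1 / t * a (Om ω) (Z ω) * (1 / N)) := by field_simp
        _ ≤ _ := by gcongr
    · rw [ent_pr_eq_zero P fun ω' hω' hh => hex ⟨ω', hω', hh⟩]
      have := ent_fib_nonneg P (pair Z Om) ω
      positivity
  have hpos := ent_fib_pos P (pair Z Om) hω
  have hup : P.fib (pair T Om) ω ≤ (S.card : ℝ) * (K ^ 2 * t * P.fib (pair Z Om) ω) := by
    rw [e1]
    calc ∑ z ∈ S, P.pr (fun ω' => pair T Om ω' = pair T Om ω ∧ Z ω' = z)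
        ≤ ∑ _z ∈ S, K ^ 2 * t * P.fib (pair Z Om) ω := Finset.sum_le_sum hterm
      _ = (S.card : ℝ) * (K ^ 2 * t * P.fib (pair Z Om) ω) := by rw [Finset.sum_const, nsmul_eq_mul]
  have hfin : M / (K * t) * P.fib (pair Z Om) ω ≤ ((S.card : ℝ) * (K ^ 2 * t)) * P.fib (pair Z Om) ω := by
    calc _ ≤ P.fib (pair T Om) ω := g0
      _ ≤ _ := hup
      _ = _ := by ring
  have hfin2 : M / (K * t) ≤ (S.card : ℝ) * (K ^ 2 * t) := le_of_mul_le_mul_right hfin hpos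
  have hfin3 : M / (K ^ 3 * t ^ 2) ≤ (S.card : ℝ) := by
    rw [div_le_iff₀ (by positivity)] at hfin2 ⊢
    calc M ≤ (S.card : ℝ) * (K ^ 2 * t) * (K * t) := hfin2
      _ = _ := by ring
  exact absurd hb (not_lt.2 hfin3)

end

end Claimed.Agent.R257.FR3
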