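import Claimed.Agent.R257.FR3.LlTop
import Claimed.Agent.R257.FR3.Top

/-!
# ROW 257, package FR3, unit LL (`f:left-limit`), file 7: THE EXIT `fl3_gtestL : GXf k → GTestL k`      (architect + prover helper227; prefix `fl3_`)

GLUE ONLY.   `fl3_one`: one configuration, explicit numeric hypotheses.   `fl3_gtestL`: choice of the constants (see the header of `LlTop.lean`).
-/

set_option autoImplicit false

namespace Claimed.Agent.R257.FR3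

open scoped BigOperators
open Classical
open Claimed.Agent.R255 Claimed.Agent.R255.FLaw Claimed.Agent.R257 Claimed.Agent.R257.FR2 Claimed.Agent.R257.Tree

noncomputable section

/-- the conclusion of `fl3_main` for fixed constants -/
def Fl3Main (k : ℕ) (Cs C1 C4 tol β A0 S0 : ℝ) : Prop :=
    ∀ (𝔖 : TSys) (𝔊 : TGeo 𝔖) (𝔭 : Fl3Pos k 𝔖 𝔊) (a : ℕ) (Ω₀ : Type) [Fintype Ω₀] (P : FLaw Ω₀) (Z : Ω₀ → 𝔖.Y) (Om : Ω₀ → 𝔊.Dir)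
      (S Ce Ksl Oc Kc N M Ko : ℝ) (aL : 𝔊.Dir → 𝔖.Y → ℝ) (aC : 𝔊.Dir → 𝔊.Cel a → ℝ) (i : Fin (k + 1)) (H A s' ρ' : Fin (k + 1) → ℝ) (s ρ R : ℝ),
      S0 ≤ S → (∀ j, 0 < H j) → (∀ j, H j ^ ((k : ℝ) / 2) * S ^ (-β) ≤ A j) → (∀ j, A j ≤ H j ^ ((k : ℝ) / 2) * S ^ β) →
      𝔭.Ok a (H i * S ^ s) (H i) A0 Ce Ksl Oc → 1 ≤ Ce → Ce ≤ S ^ β → 0 ≤ Kc → 0 ≤ Ksl → Kc * Ksl ≤ S ^ (Cs + β) → Oc ≤ S ^ (C1 + β) →
      (∀ x, P.p x ≠ 0 → ∃ T, 𝔊.cap 𝔭.tr T = 𝔊.anc 𝔭.tr (Om x) ∧ 𝔖.inc 𝔭.tr (Z x) T) →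
      (∀ x, P.p x ≠ 0 → P.fib (pair (fun x => 𝔊.anc a (Om x)) Z) x ≤ Kc * 𝔊.capw a (𝔊.anc a (Om x)) (Z x) * P.fib Z x) →
      FpOcc P Z Om (fun x => 𝔊.cel a (Z x) (Om x)) N M Ko aL aC →
      (H i * S ^ s) ^ ((k : ℝ) + 2) * (S ^ ρ / A i) ^ (2 * ((k : ℝ) + 2) / k) * (81 * Ko ^ 5) ≤ S ^ β * M →
      s ≤ -C4 → (∀ j, R ≤ H j * S ^ (s' j + β)) → H i * S ^ (s + C4 + 1 / 2) ≤ R →
      (∀ x, P.p x ≠ 0 → (((𝔭.cfg a Z Om).box (Z x) R R : ℕ) : ℝ) ≤ S ^ β * (R ^ ((k : ℝ) + 1) * ∏ j, (S ^ β * (S ^ ρ' j) ^ 2 / A j ^ 2) ^ ((1 : ℝ) / k))) →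
      2 * ((k : ℝ) + 2) / k * (ρ + k / 2 * s) ≤ 2 / k * ∑ j, (ρ' j + k / 2 * s' j) + tol

theorem fl3_main' (k : ℕ) (hk : 1 ≤ k) (Cs C1 : ℝ) : ∃ C4 : ℝ, 1 ≤ C4 ∧ ∀ tol : ℝ, 0 < tol → ∃ β : ℝ, 0 < β ∧ β ≤ 1 ∧ ∀ A0 : ℝ, 0 ≤ A0 → ∃ S0 : ℝ, 1 < S0 ∧
    Fl3Main k Cs C1 C4 tol β A0 S0 := fl3_main k hk Cs C1

variable {k : ℕ}

set_option maxHeartbeats 1000000 in
/-- **one configuration** -/
theorem fl3_one (hk : 1 ≤ k) {C1 C3 C4 E β ε ε' Ci S0 : ℝ} (hC4 : 1 ≤ C4) (hβ : 0 < β) (hε' : 0 < ε') (hε'8 : ε' ≤ 1 / 8) (hCi : 1 ≤ Ci)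
    (Hm : Fl3Main k C3 C1 C4 ε β Ci S0) (F : FCfg k) {m : ℕ} (hm : 2 ≤ m) (h : F.Ok m) (hsub : F.Sub m C1 C3) (i : Fin (k + 1))
    (Hi : ∀ a, F.c.tr ≤ a → a ≤ F.c.ℓ → ∀ Gb Oc : ℝ, (F.D i).G F.c.tr + Ci ≤ Gb →
      (∀ T ∈ (F.D i).W F.c.tr, (((Finset.univ.filter fun y => ‖(F.D i).X F.c.tr T ((F.D i).pt y)‖ ≤ Gb).card : ℕ) : ℝ) ≤ Oc) →
      (fl3Pos (F.D i) Gb).Ok a ((F.D i).κ a) ((F.D i).κ F.c.tr) Ci 1 (Ci * ((F.D i).κ F.c.tr ^ k * (F.D i).Mc)) Oc)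
    (hpkg : ∃ (Cg ϖ Ko : ℝ) (Y' : Finset (F.D i).sys.Y) (P : FLaw ((F.D i).sys.Y × (F.D i).geo.Dir)),
      (F.D i).geo.Ok ((F.D i).gp Cg) ∧ 0 < ϖ ∧ 0 < Ko ∧ Ko ≤ F.Λ ^ (β / 10) ∧ Fl3Pkg (F.D i).sys (F.D i).geo (F.S i) (qk k) (F.A i) (F.r i) ϖ Ko Y' P)
    (HX : ∀ (a b : Fin (k + 1) → ℕ) (N R lam : ℝ), (∀ j, F.c.tr ≤ b j ∧ b j ≤ a j ∧ a j ≤ F.c.ℓ) → 1 ≤ lam → lam ≤ F.Λ →
      (∀ j, N ≤ (F.D j).κ (a j) ∧ (F.D j).κ (a j) ≤ lam * N) → (∀ j, R ≤ (F.D j).κ (b j) ∧ (F.D j).κ (b j) ≤ lam * R) → lam * N ≤ R →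
      ∀ (i : Fin (k + 1)) (q0 : F.Qc),
        (((Finset.univ.filter fun q : F.Qc => ‖(F.D i).pt (F.e i q) - (F.D i).pt (F.e i q0)‖ ≤ R).card : ℕ) : ℝ)
          ≤ F.Λ ^ (β / 4) * lam ^ E * R ^ (k + 1) * ∏ j, (F.r j (b j) ^ 2 / F.A j ^ 2) ^ ((1 : ℝ) / k))
    (a : ℕ) (b a' : Fin (k + 1) → ℕ) (s : ℝ) (hs : s < -C4 - 2) (ha : a ≤ F.c.ℓ) (ha1 : F.s i a ≤ s)
    (hb : ∀ j, b j ≤ F.c.ℓ ∧ F.s j (b j) ≤ s + (C4 + 1) ∧ s + (C4 + 1) ≤ F.s j (b j) + ε')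
    (ha' : ∀ j, a' j ≤ F.c.ℓ ∧ F.s j (a' j) ≤ s + (C4 + 1 / 2) ∧ s + (C4 + 1 / 2) ≤ F.s j (a' j) + ε')
    (n1 : S0 ≤ F.Λ) (n2 : Ci ≤ F.Λ ^ (β / 2)) (n3 : 81 ≤ F.Λ ^ (β / 2)) (n4 : (Ci + 1) ^ 2 ≤ F.Λ)
    (n6 : F.Λ ^ (β / 4) * (F.K ^ 2 * F.Λ ^ (2 * ε')) ^ E * (k : ℝ) ^ (k + 1) ≤ F.Λ ^ β) (n7 : F.K ≤ F.Λ ^ β)
    (n9 : (k : ℝ) * F.K ^ 2 * F.Λ ^ (3 * ε') ≤ F.Λ ^ ((1 : ℝ) / 2)) :
    qk k * (F.ρ i a + (k : ℝ) / 2 * F.s i a) ≤ 2 / (k : ℝ) * ∑ j, (F.ρ j (b j) + (k : ℝ) / 2 * F.s j (b j)) + ε := by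
  obtain ⟨Cg, ϖ, Ko, Y', P, hgeo, hϖ, hKo0, hKoβ, pkg⟩ := hpkg
  have hk1 : (1 : ℝ) ≤ k := by exact_mod_cast hk
  have hk0 : (0 : ℝ) < k := by linarith
  have hΛ3 : (3 : ℝ) ≤ F.Λ := by
    have h1 := h.Λ_ge
    have h2 : (0 : ℝ) ≤ m := Nat.cast_nonneg m
    linarith
  have hΛ1 : 1 < F.Λ := by linarith
  have hΛ0 : 0 < F.Λ := by linarith
  have hK2 := h.two_le_K
  have hK0 : 0 < F.K := by linarith
  have hK1 : 1 ≤ F.K := by linarith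
  have hpw : ∀ e : ℝ, 0 < F.Λ ^ e := fun e => Real.rpow_pos_of_pos hΛ0 e
  have hmono : ∀ {e e' : ℝ}, e ≤ e' → F.Λ ^ e ≤ F.Λ ^ e' := fun he => Real.rpow_le_rpow_of_exponent_le hΛ1.le he
  have hone : ∀ {e : ℝ}, 0 ≤ e → 1 ≤ F.Λ ^ e := fun he => Real.one_le_rpow hΛ1.le he
  have hκr := h.κr_pos
  have hApos : ∀ j, 0 < F.A j := fun j => by linarith [h.one_le_A j]
  -- heights
  have hta : F.c.tr ≤ a := fl3_F_above h hsub i a (by linarith)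
  have htb : ∀ j, F.c.tr ≤ b j := fun j => fl3_F_above h hsub j (b j) (by linarith [(hb j).2.1])
  -- widths
  have hκ : ∀ j n, (F.D j).κ n = F.κr j * F.Λ ^ F.s j n := fun j n => (fl3_F_node h j n).1
  have hr : ∀ j n, F.r j n = F.Λ ^ F.ρ j n := fun j n => (fl3_F_node h j n).2
  have hκpos : ∀ j n, 0 < (F.D j).κ n := fun j n => (F.D j).κ_pos (h.good j) n
  have hba : ∀ j, b j ≤ a' j := by
    intro j
    by_contra hcon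
    rw [not_le] at hcon
    have h1 : (F.D j).κ (b j) ≤ (F.D j).κ (a' j) := (F.D j).κ_le (h.good j) hcon.le
    rw [hκ j, hκ j] at h1
    have h2 : F.Λ ^ F.s j (b j) ≤ F.Λ ^ F.s j (a' j) := le_of_mul_le_mul_left h1 (hκr j)
    have h3 : F.s j (b j) ≤ F.s j (a' j) := (Real.rpow_le_rpow_left_iff hΛ1).1 h2
    linarith [(hb j).2.2, (ha' j).2.1]
  obtain ⟨x, hx⟩ : ∃ x : ℝ, x = F.K * F.Λ ^ ε' := ⟨_, rfl⟩
  obtain ⟨lam, hlamdef⟩ : ∃ lam : ℝ, lam = F.K ^ 2 * F.Λ ^ (2 * ε') := ⟨_, rfl⟩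
  have hx0 : 0 < x := by rw [hx]; exact mul_pos hK0 (hpw _)
  have hx1 : 1 ≤ x := by
    rw [hx]
    calc (1 : ℝ) = 1 * 1 := (mul_one _).symm
      _ ≤ F.K * F.Λ ^ ε' := mul_le_mul hK1 (hone hε'.le) zero_le_one hK0.le
  have h2ε : F.Λ ^ (2 * ε') = F.Λ ^ ε' * F.Λ ^ ε' := by
    rw [← Real.rpow_add hΛ0]
    congr 1
    ring
  have h3ε : F.Λ ^ (3 * ε') = F.Λ ^ ε' * F.Λ ^ ε' * F.Λ ^ ε' := by
    rw [← Real.rpow_add hΛ0, ← Real.rpow_add hΛ0]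
    congr 1
    ring
  have hlam : lam = x * x := by rw [hlamdef, hx, h2ε]; ring
  have hlam0 : 0 < lam := by rw [hlam]; exact mul_pos hx0 hx0
  have hlam1 : 1 ≤ lam := by
    rw [hlam]
    calc (1 : ℝ) = 1 * 1 := (mul_one _).symm
      _ ≤ x * x := mul_le_mul hx1 hx1 zero_le_one hx0.le
  -- `k x² Λ^ε' ≤ Λ^(1/2)`
  have m9 : (k : ℝ) * lam * F.Λ ^ ε' ≤ F.Λ ^ ((1 : ℝ) / 2) := by
    calc (k : ℝ) * lam * F.Λ ^ ε' = (k : ℝ) * F.K ^ 2 * F.Λ ^ (3 * ε') := by rw [hlamdef, h2ε, h3ε]; ring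
      _ ≤ _ := n9
  have m9a : lam * F.Λ ^ ε' ≤ F.Λ ^ ((1 : ℝ) / 2) := by
    refine le_trans ?_ m9
    calc lam * F.Λ ^ ε' = 1 * (lam * F.Λ ^ ε') := (one_mul _).symm
      _ ≤ (k : ℝ) * (lam * F.Λ ^ ε') := mul_le_mul_of_nonneg_right hk1 (mul_pos hlam0 (hpw _)).le
      _ = _ := by ring
  have m9b : (k : ℝ) * x * F.Λ ^ ε' ≤ F.Λ ^ ((1 : ℝ) / 2) := by
    refine le_trans ?_ m9
    have h1 : x ≤ lam := by
      rw [hlam]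
      calc x = 1 * x := (one_mul _).symm
        _ ≤ x * x := mul_le_mul_of_nonneg_right hx1 hx0.le
    exact mul_le_mul_of_nonneg_right (mul_le_mul_of_nonneg_left h1 hk0.le) (hpw _).le
  have hlamΛ : lam ≤ F.Λ := by
    calc lam = lam * 1 := (mul_one _).symm
      _ ≤ lam * F.Λ ^ ε' := mul_le_mul_of_nonneg_left (hone hε'.le) hlam0.le
      _ ≤ F.Λ ^ ((1 : ℝ) / 2) := m9a
      _ ≤ F.Λ ^ (1 : ℝ) := hmono (by norm_num)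
      _ = F.Λ := Real.rpow_one _
  have hstep : ∀ c e e' : ℝ, c * F.Λ ^ ε' ≤ F.Λ ^ ((1 : ℝ) / 2) → e + 1 / 2 - ε' ≤ e' → c * F.Λ ^ e ≤ F.Λ ^ e' := by
    intro c e e' h1 h2
    calc c * F.Λ ^ e = c * F.Λ ^ ε' * F.Λ ^ (e - ε') := by
          rw [mul_assoc, ← Real.rpow_add hΛ0]
          congr 2
          ring
      _ ≤ F.Λ ^ ((1 : ℝ) / 2) * F.Λ ^ (e - ε') := mul_le_mul_of_nonneg_right h1 (hpw _).le
      _ = F.Λ ^ (1 / 2 + (e - ε')) := (Real.rpow_add hΛ0 _ _).symm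
      _ ≤ F.Λ ^ e' := hmono (by linarith)
  have hcmp : ∀ (n : Fin (k + 1) → ℕ) (t : ℝ), (∀ j, F.s j (n j) ≤ t ∧ t ≤ F.s j (n j) + ε') → ∀ j j', (F.D j).κ (n j) ≤ x * (F.D j').κ (n j') := by
    intro n t hn j j'
    rw [hκ j, hκ j']
    have h1 := hsub.ratio j j'
    have h2 : F.Λ ^ F.s j (n j) ≤ F.Λ ^ ε' * F.Λ ^ F.s j' (n j') := by
      rw [← Real.rpow_add hΛ0]
      exact hmono (by linarith [(hn j).1, (hn j').2])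
    calc F.κr j * F.Λ ^ F.s j (n j) ≤ (F.K * F.κr j') * (F.Λ ^ ε' * F.Λ ^ F.s j' (n j')) :=
          mul_le_mul h1 h2 (hpw _).le (mul_pos hK0 (hκr j')).le
      _ = _ := by rw [hx]; ring
  have hwin : ∀ (n : Fin (k + 1) → ℕ) (t : ℝ), (∀ j, F.s j (n j) ≤ t ∧ t ≤ F.s j (n j) + ε') →
      ∀ j, (F.D i).κ (n i) / x ≤ (F.D j).κ (n j) ∧ (F.D j).κ (n j) ≤ lam * ((F.D i).κ (n i) / x) := by
    intro n t hn j
    constructor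
    · rw [div_le_iff₀ hx0, mul_comm]
      exact hcmp n t hn i j
    · have e1 : lam * ((F.D i).κ (n i) / x) = x * (F.D i).κ (n i) := by
        rw [hlam]
        field_simp
      rw [e1]
      exact hcmp n t hn j i
  obtain ⟨Rx, hRx⟩ : ∃ Rx : ℝ, Rx = (F.D i).κ (b i) / x := ⟨_, rfl⟩
  obtain ⟨N, hN⟩ : ∃ N : ℝ, N = (F.D i).κ (a' i) / x := ⟨_, rfl⟩
  obtain ⟨R, hR⟩ : ∃ R : ℝ, R = Rx / k := ⟨_, rfl⟩
  have hRx0 : 0 < Rx := by rw [hRx]; exact div_pos (hκpos _ _) hx0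
  have hR0 : 0 < R := by rw [hR]; exact div_pos hRx0 hk0
  have hkR : (k : ℝ) * R = Rx := by rw [hR]; field_simp
  have hRRx : R ≤ Rx := by
    rw [← hkR]
    calc R = 1 * R := (one_mul _).symm
      _ ≤ (k : ℝ) * R := mul_le_mul_of_nonneg_right hk1 hR0.le
  have hwb : ∀ j, Rx ≤ (F.D j).κ (b j) ∧ (F.D j).κ (b j) ≤ lam * Rx := by
    rw [hRx]
    exact hwin b _ fun j => (hb j).2
  have hwa : ∀ j, N ≤ (F.D j).κ (a' j) ∧ (F.D j).κ (a' j) ≤ lam * N := by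
    rw [hN]
    exact hwin a' _ fun j => (ha' j).2
  have hlamN : lam * N ≤ Rx := by
    have h1 : lam * F.Λ ^ F.s i (a' i) ≤ F.Λ ^ F.s i (b i) := hstep _ _ _ m9a (by linarith [(hb i).2.2, (ha' i).2.1])
    rw [hN, hRx, le_div_iff₀ hx0, hκ i, hκ i]
    calc lam * (F.κr i * F.Λ ^ F.s i (a' i) / x) * x = F.κr i * (lam * F.Λ ^ F.s i (a' i)) := by field_simp
      _ ≤ F.κr i * F.Λ ^ F.s i (b i) := mul_le_mul_of_nonneg_left h1 (hκr i).le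
  -- the sizes
  obtain ⟨s1, s2, s3, s4⟩ := fl3_F_sizes h (by omega) i
  have hGo1 : 1 ≤ F.Go := by linarith
  have hGo2 : F.Go ^ 2 ≤ F.Λ := (pow_le_pow_right₀ hGo1 hm).trans h.Go_Λ
  have hGtr : (F.D i).G F.c.tr + Ci ≤ F.Λ := by
    have h1 := ti_G_le h.cls (F.D i) (h.good i) (Nat.zero_le F.c.tr) h.cls.tr_le
    nlinarith [sq_nonneg (F.Go - 1), sq_nonneg Ci]
  have hpos := Hi a hta ha F.Λ (F.Λ ^ C1) hGtr (hsub.occ0 i)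
  rw [hsub.seam i, hκ i a] at hpos
  have hMc := (h.good i).Mc_pos
  have hthr := fun j => fl3_F_thr h hsub j
  have hxp : ∀ j, 0 < F.κr j ^ ((k : ℝ) / 2) := fun j => Real.rpow_pos_of_pos (hκr j) _
  have hCi0 : 0 < Ci := by linarith
  have g3 : ∀ j, F.κr j ^ ((k : ℝ) / 2) * F.Λ ^ (-β) ≤ F.A j := by
    intro j
    have h1 : F.Λ ^ (-β) * F.Λ ^ β = 1 := by rw [← Real.rpow_add hΛ0, neg_add_cancel, Real.rpow_zero]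
    calc F.κr j ^ ((k : ℝ) / 2) * F.Λ ^ (-β) ≤ (F.K * F.A j) * F.Λ ^ (-β) := mul_le_mul_of_nonneg_right (hthr j).2 (hpw _).le
      _ ≤ (F.Λ ^ β * F.A j) * F.Λ ^ (-β) := mul_le_mul_of_nonneg_right (mul_le_mul_of_nonneg_right n7 (hApos j).le) (hpw _).le
      _ = F.A j * (F.Λ ^ (-β) * F.Λ ^ β) := by ring
      _ = F.A j := by rw [h1, mul_one]
  have g4 : ∀ j, F.A j ≤ F.κr j ^ ((k : ℝ) / 2) * F.Λ ^ β := by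
    intro j
    calc F.A j ≤ F.κr j ^ ((k : ℝ) / 2) := (hthr j).1
      _ = F.κr j ^ ((k : ℝ) / 2) * 1 := (mul_one _).symm
      _ ≤ _ := mul_le_mul_of_nonneg_left (hone hβ.le) (hxp j).le
  have g6 : 0 ≤ Ci * (F.κr i ^ k * (F.D i).Mc) := (mul_pos hCi0 (mul_pos (pow_pos (hκr i) _) hMc)).le
  have hhalf : F.Λ ^ (β / 2) * F.Λ ^ (β / 2) = F.Λ ^ β := by
    rw [← Real.rpow_add hΛ0]
    congr 1
    ring
  have g7 : Ko * (Ci * (F.κr i ^ k * (F.D i).Mc)) ≤ F.Λ ^ (C3 + β) := by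
    have h1 : Ko * Ci ≤ F.Λ ^ (β / 2) * F.Λ ^ (β / 2) := mul_le_mul (hKoβ.trans (hmono (by linarith))) n2 hCi0.le (hpw _).le
    have h3 : F.κr i ^ k * (F.D i).Mc ≤ F.Λ ^ C3 := by
      have := hsub.clip i
      linarith
    calc Ko * (Ci * (F.κr i ^ k * (F.D i).Mc)) = (Ko * Ci) * (F.κr i ^ k * (F.D i).Mc) := by ring
      _ ≤ F.Λ ^ β * F.Λ ^ C3 := mul_le_mul (h1.trans hhalf.le) h3 (mul_pos (pow_pos (hκr i) _) hMc).le (hpw _).le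
      _ = F.Λ ^ (C3 + β) := by rw [← Real.rpow_add hΛ0, add_comm]
  have g9 : ∀ x : (F.D i).sys.Y × (F.D i).geo.Dir, P.p x ≠ 0 →
      ∃ T, (F.D i).geo.cap (fl3Pos (F.D i) F.Λ).tr T = (F.D i).geo.anc (fl3Pos (F.D i) F.Λ).tr x.2 ∧ (F.D i).sys.inc (fl3Pos (F.D i) F.Λ).tr x.1 T := by
    intro x hx
    obtain ⟨T, -, h1, h2⟩ := pkg.att x hx F.c.tr h.cls.tr_le
    exact ⟨T, h1, h2⟩
  have g12 : (F.κr i * F.Λ ^ F.s i a) ^ ((k : ℝ) + 2) * (F.Λ ^ F.ρ i a / F.A i) ^ (2 * ((k : ℝ) + 2) / k) * (81 * Ko ^ 5)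
      ≤ F.Λ ^ β * (F.D i).sys.Mocc (qk k) (F.A i) (F.r i) a := by
    have e1 : (F.κr i * F.Λ ^ F.s i a) ^ ((k : ℝ) + 2) = (F.D i).κ a ^ (k + 2) := by
      rw [← hκ i a, ← Real.rpow_natCast]
      congr 1
      push_cast
      ring
    have e2 : (F.D i).sys.Mocc (qk k) (F.A i) (F.r i) a = (F.D i).κ a ^ (k + 2) * (F.Λ ^ F.ρ i a / F.A i) ^ (2 * ((k : ℝ) + 2) / k) := by
      rw [← hr i a]
      rfl
    rw [e1, e2]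
    have h1 : Ko ^ 5 ≤ F.Λ ^ (β / 2) := by
      calc Ko ^ 5 ≤ (F.Λ ^ (β / 10)) ^ 5 := pow_le_pow_left₀ hKo0.le hKoβ 5
        _ = F.Λ ^ (β / 2) := by
            rw [← Real.rpow_natCast, ← Real.rpow_mul hΛ0.le]
            congr 1
            push_cast
            ring
    have h2 : 81 * Ko ^ 5 ≤ F.Λ ^ β := by
      calc 81 * Ko ^ 5 ≤ F.Λ ^ (β / 2) * F.Λ ^ (β / 2) := mul_le_mul n3 h1 (pow_pos hKo0 _).le (hpw _).le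
        _ = F.Λ ^ β := hhalf
    have h3 : 0 ≤ (F.D i).κ a ^ (k + 2) * (F.Λ ^ F.ρ i a / F.A i) ^ (2 * ((k : ℝ) + 2) / k) :=
      mul_nonneg (pow_pos (hκpos i a) _).le (Real.rpow_nonneg (div_pos (hpw _) (hApos i)).le _)
    calc _ ≤ (F.D i).κ a ^ (k + 2) * (F.Λ ^ F.ρ i a / F.A i) ^ (2 * ((k : ℝ) + 2) / k) * F.Λ ^ β := mul_le_mul_of_nonneg_left h2 h3
      _ = _ := by ring
  have g14 : ∀ j, R ≤ F.κr j * F.Λ ^ (F.s j (b j) + β) := by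
    intro j
    calc R ≤ Rx := hRRx
      _ ≤ (F.D j).κ (b j) := (hwb j).1
      _ = F.κr j * F.Λ ^ F.s j (b j) := hκ j _
      _ ≤ F.κr j * F.Λ ^ (F.s j (b j) + β) := mul_le_mul_of_nonneg_left (hmono (by linarith)) (hκr j).le
  have g15 : F.κr i * F.Λ ^ (F.s i a + C4 + 1 / 2) ≤ R := by
    have h1 : (k : ℝ) * x * F.Λ ^ (F.s i a + C4 + 1 / 2) ≤ F.Λ ^ F.s i (b i) := hstep _ _ _ m9b (by linarith [(hb i).2.2])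
    rw [hR, hRx, le_div_iff₀ hk0, le_div_iff₀ hx0, hκ i]
    calc F.κr i * F.Λ ^ (F.s i a + C4 + 1 / 2) * k * x = F.κr i * ((k : ℝ) * x * F.Λ ^ (F.s i a + C4 + 1 / 2)) := by ring
      _ ≤ F.κr i * F.Λ ^ F.s i (b i) := mul_le_mul_of_nonneg_left h1 (hκr i).le
  have eR : R ^ ((k : ℝ) + 1) = R ^ (k + 1) := by
    rw [← Real.rpow_natCast]
    congr 1
    push_cast
    ring
  have g16 : ∀ x : (F.D i).sys.Y × (F.D i).geo.Dir, P.p x ≠ 0 → ((((fl3Pos (F.D i) F.Λ).cfg a Prod.fst Prod.snd).box x.1 R R : ℕ) : ℝ)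
      ≤ F.Λ ^ β * (R ^ ((k : ℝ) + 1) * ∏ j, (F.Λ ^ β * (F.Λ ^ F.ρ j (b j)) ^ 2 / F.A j ^ 2) ^ ((1 : ℝ) / k)) := by
    intro x _
    set q : F.Qc := (F.e i).symm x.1 with hq
    have hxq : x.1 = F.e i q := ((F.e i).apply_symm_apply x.1).symm
    have hbox := fl3_F_box hk F i F.Λ a (Prod.fst : (F.D i).sys.Y × (F.D i).geo.Dir → (F.D i).sys.Y) Prod.snd q R hR0.le
    rw [hkR] at hbox
    have hx1 := HX a' b N Rx lam (fun j => ⟨htb j, hba j, (ha' j).1⟩) hlam1 hlamΛ hwa hwb hlamN i q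
    have hA2 : ∀ j, 0 < F.A j ^ 2 := fun j => pow_pos (hApos j) 2
    have hk0' : (0 : ℝ) ≤ 1 / (k : ℝ) := by positivity
    have hprod : ∏ j, (F.r j (b j) ^ 2 / F.A j ^ 2) ^ ((1 : ℝ) / k) ≤ ∏ j, (F.Λ ^ β * (F.Λ ^ F.ρ j (b j)) ^ 2 / F.A j ^ 2) ^ ((1 : ℝ) / k) := by
      refine Finset.prod_le_prod (fun j _ => Real.rpow_nonneg (div_nonneg (sq_nonneg _) (hA2 j).le) _) fun j _ => ?_
      refine Real.rpow_le_rpow (div_nonneg (sq_nonneg _) (hA2 j).le) ?_ hk0'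
      refine div_le_div_of_nonneg_right ?_ (hA2 j).le
      rw [← hr j (b j)]
      calc F.r j (b j) ^ 2 = 1 * F.r j (b j) ^ 2 := (one_mul _).symm
        _ ≤ F.Λ ^ β * F.r j (b j) ^ 2 := mul_le_mul_of_nonneg_right (hone hβ.le) (sq_nonneg _)
    have hp0 : 0 ≤ ∏ j, (F.r j (b j) ^ 2 / F.A j ^ 2) ^ ((1 : ℝ) / k) :=
      Finset.prod_nonneg fun j _ => Real.rpow_nonneg (div_nonneg (sq_nonneg _) (hA2 j).le) _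
    have hRk0 : 0 ≤ R ^ (k + 1) := (pow_pos hR0 _).le
    rw [hlamdef] at hx1
    rw [hxq, eR]
    calc ((((fl3Pos (F.D i) F.Λ).cfg a Prod.fst Prod.snd).box (F.e i q) R R : ℕ) : ℝ)
        ≤ (((Finset.univ.filter fun q' : F.Qc => ‖(F.D i).pt (F.e i q') - (F.D i).pt (F.e i q)‖ ≤ Rx).card : ℕ) : ℝ) := by exact_mod_cast hbox
      _ ≤ F.Λ ^ (β / 4) * (F.K ^ 2 * F.Λ ^ (2 * ε')) ^ E * Rx ^ (k + 1) * ∏ j, (F.r j (b j) ^ 2 / F.A j ^ 2) ^ ((1 : ℝ) / k) := hx1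
      _ = (F.Λ ^ (β / 4) * (F.K ^ 2 * F.Λ ^ (2 * ε')) ^ E * (k : ℝ) ^ (k + 1)) * (R ^ (k + 1) * ∏ j, (F.r j (b j) ^ 2 / F.A j ^ 2) ^ ((1 : ℝ) / k)) := by
          rw [← hkR, mul_pow]
          ring
      _ ≤ F.Λ ^ β * (R ^ (k + 1) * ∏ j, (F.Λ ^ β * (F.Λ ^ F.ρ j (b j)) ^ 2 / F.A j ^ 2) ^ ((1 : ℝ) / k)) :=
          mul_le_mul n6 (mul_le_mul_of_nonneg_left hprod hRk0) (mul_nonneg hRk0 hp0) (hpw _).le
  have hconc := Hm (F.D i).sys (F.D i).geo (fl3Pos (F.D i) F.Λ) a ((F.D i).sys.Y × (F.D i).geo.Dir) P Prod.fst Prod.snd F.Λ 1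
    (Ci * (F.κr i ^ k * (F.D i).Mc)) (F.Λ ^ C1) Ko Y'.card ((F.D i).sys.Mocc (qk k) (F.A i) (F.r i) a) Ko _ _ i F.κr F.A
    (fun j => F.s j (b j)) (fun j => F.ρ j (b j)) (F.s i a) (F.ρ i a) R n1 hκr g3 g4 hpos le_rfl (hone hβ.le) hKo0.le g6 g7
    (hmono (by linarith)) g9 (pkg.cap a ha) (pkg.occ a ha) g12 (by linarith) g14 g15 g16
  exact hconc

set_option maxHeartbeats 1000000 in
/-- **EXIT OF THE UNIT LL**: the grid-level test (L) from the upper count of XF -/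
theorem fl3_gtestL (hk : 1 ≤ k) (hX : GXf k) : GTestL k := by
  intro o _ C1 C3
  obtain ⟨C4, hC4, Hm⟩ := fl3_main' k hk C3 C1
  refine ⟨C4 + 1, -C4 - 2, fun s hs ε hε => ?_⟩
  obtain ⟨β, hβ, hβ1, Hm⟩ := Hm ε hε
  obtain ⟨Cw, hCwdef⟩ : ∃ Cw : ℝ, Cw = |xfE k o.Q| := ⟨_, rfl⟩
  have hCw : 0 ≤ Cw := by rw [hCwdef]; exact abs_nonneg _
  set ε' : ℝ := min ε (min (1 / 8) (β / (8 * (Cw + 1)))) with hε'def
  have hCw1 : 0 < 8 * (Cw + 1) := by linarith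
  have hε'0 : 0 < ε' := lt_min hε (lt_min (by norm_num) (div_pos hβ hCw1))
  have hε'ε : ε' ≤ ε := min_le_left _ _
  have hε'8 : ε' ≤ 1 / 8 := (min_le_right _ _).trans (min_le_left _ _)
  have hε'β : ε' * (8 * (Cw + 1)) ≤ β := by
    have : ε' ≤ β / (8 * (Cw + 1)) := (min_le_right _ _).trans (min_le_right _ _)
    rwa [le_div_iff₀ hCw1] at this
  refine ⟨ε', hε'0, fun c cx hco => ?_⟩
  by_cases hc : c.Ok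
  swap
  · exact ⟨0, fun F hFc _ h => absurd (hFc ▸ h.cls) hc⟩
  have hQ : c.Q = o.Q := congrArg TOrd.Q hco
  have hE : xfE k c.Q ≤ Cw := by rw [hCwdef, hQ]; exact le_abs_self _
  have hk1 : (1 : ℝ) ≤ k := by exact_mod_cast hk
  have hk0 : (0 : ℝ) < k := by linarith
  obtain ⟨Ci, hCi, Hi⟩ := fl3_inst_ok hc
  obtain ⟨S0, hS0, Hm⟩ := Hm Ci (by linarith)
  obtain ⟨mP, HP⟩ := fl3_path c hc (β / 10) (by positivity)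
  obtain ⟨mX, HX⟩ := hX c cx (β / 4) (by positivity)
  obtain ⟨n1, N1⟩ := fl3_sub S0 0 1 le_rfl one_pos
  obtain ⟨n2, N2⟩ := fl3_sub Ci 0 (β / 2) le_rfl (by positivity)
  obtain ⟨n3, N3⟩ := fl3_sub 81 0 (β / 2) le_rfl (by positivity)
  obtain ⟨n4, N4⟩ := fl3_sub ((Ci + 1) ^ 2) 0 1 le_rfl one_pos
  obtain ⟨n6, N6⟩ := fl3_sub ((k : ℝ) ^ (k + 1)) (2 * Cw) (β / 4) (by positivity) (by positivity)
  obtain ⟨n7, N7⟩ := fl3_sub 1 1 β zero_le_one hβ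
  obtain ⟨n9, N9⟩ := fl3_sub k 2 (1 / 8) (by norm_num) (by norm_num)
  refine ⟨mP + mX + n1 + n2 + n3 + n4 + n6 + n7 + n9 + 2, fun F hFc hFx h hsub hmesh i => ?_⟩
  subst hFc
  set m : ℕ := mP + mX + n1 + n2 + n3 + n4 + n6 + n7 + n9 + 2 with hm
  have hΛm := h.Λ_ge
  have hΛ1 : 1 < F.Λ := by
    have : (0 : ℝ) ≤ m := Nat.cast_nonneg m
    linarith
  have hΛ0 : 0 < F.Λ := by linarith
  have hK2 := h.two_le_K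
  have hK0 : 0 < F.K := by linarith
  have hK1 : 1 ≤ F.K := by linarith
  obtain ⟨s1, s2, -, -⟩ := fl3_F_sizes h (by omega) i
  have hKm : F.K ^ m ≤ F.Λ := (pow_le_pow_left₀ hK0.le (s1.trans s2) m).trans h.Go_Λ
  have hpw : ∀ e : ℝ, 0 < F.Λ ^ e := fun e => Real.rpow_pos_of_pos hΛ0 e
  have hmono : ∀ {e e' : ℝ}, e ≤ e' → F.Λ ^ e ≤ F.Λ ^ e' := fun he => Real.rpow_le_rpow_of_exponent_le hΛ1.le he
  have c1 : S0 ≤ F.Λ := by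
    have := N1 m (by omega) F.Λ F.K hΛm hK1 hKm
    rwa [Real.rpow_zero, mul_one, Real.rpow_one] at this
  have c2 : Ci ≤ F.Λ ^ (β / 2) := by
    have := N2 m (by omega) F.Λ F.K hΛm hK1 hKm
    rwa [Real.rpow_zero, mul_one] at this
  have c3 : 81 ≤ F.Λ ^ (β / 2) := by
    have := N3 m (by omega) F.Λ F.K hΛm hK1 hKm
    rwa [Real.rpow_zero, mul_one] at this
  have c4 : (Ci + 1) ^ 2 ≤ F.Λ := by
    have := N4 m (by omega) F.Λ F.K hΛm hK1 hKm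
    rwa [Real.rpow_zero, mul_one, Real.rpow_one] at this
  have hCwε : 0 ≤ ε' * Cw := mul_nonneg hε'0.le hCw
  have c6 : F.Λ ^ (β / 4) * (F.K ^ 2 * F.Λ ^ (2 * ε')) ^ xfE k F.c.Q * (k : ℝ) ^ (k + 1) ≤ F.Λ ^ β := by
    have h1 := N6 m (by omega) F.Λ F.K hΛm hK1 hKm
    have hb1 : 1 ≤ F.K ^ 2 * F.Λ ^ (2 * ε') := by
      calc (1 : ℝ) = 1 * 1 := (mul_one _).symm
        _ ≤ F.K ^ 2 * F.Λ ^ (2 * ε') := mul_le_mul (one_le_pow₀ hK1) (Real.one_le_rpow hΛ1.le (by linarith)) zero_le_one (by positivity)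
    have e0 : (F.K ^ 2 * F.Λ ^ (2 * ε')) ^ xfE k F.c.Q ≤ (F.K ^ 2 * F.Λ ^ (2 * ε')) ^ Cw := Real.rpow_le_rpow_of_exponent_le hb1 hE
    have e1 : (F.K ^ 2 * F.Λ ^ (2 * ε')) ^ Cw = F.K ^ (2 * Cw) * F.Λ ^ (2 * ε' * Cw) := by
      rw [Real.mul_rpow (by positivity) (hpw _).le, ← Real.rpow_mul hΛ0.le, ← Real.rpow_two, ← Real.rpow_mul hK0.le]
    have hkp : (0 : ℝ) ≤ (k : ℝ) ^ (k + 1) := by positivity
    calc F.Λ ^ (β / 4) * (F.K ^ 2 * F.Λ ^ (2 * ε')) ^ xfE k F.c.Q * (k : ℝ) ^ (k + 1)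
        ≤ F.Λ ^ (β / 4) * (F.K ^ (2 * Cw) * F.Λ ^ (2 * ε' * Cw)) * (k : ℝ) ^ (k + 1) :=
          mul_le_mul_of_nonneg_right (mul_le_mul_of_nonneg_left (e0.trans e1.le) (hpw _).le) hkp
      _ = F.Λ ^ (β / 4) * ((k : ℝ) ^ (k + 1) * F.K ^ (2 * Cw)) * F.Λ ^ (2 * ε' * Cw) := by ring
      _ ≤ F.Λ ^ (β / 4) * F.Λ ^ (β / 4) * F.Λ ^ (β / 4) :=
          mul_le_mul (mul_le_mul_of_nonneg_left h1 (hpw _).le) (hmono (by nlinarith)) (hpw _).le (mul_pos (hpw _) (hpw _)).le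
      _ = F.Λ ^ (β / 4 + β / 4 + β / 4) := by rw [Real.rpow_add hΛ0, Real.rpow_add hΛ0]
      _ ≤ F.Λ ^ β := hmono (by linarith)
  have c7 : F.K ≤ F.Λ ^ β := by
    have := N7 m (by omega) F.Λ F.K hΛm hK1 hKm
    rwa [Real.rpow_one, one_mul] at this
  have c9 : (k : ℝ) * F.K ^ 2 * F.Λ ^ (3 * ε') ≤ F.Λ ^ ((1 : ℝ) / 2) := by
    have h1 := N9 m (by omega) F.Λ F.K hΛm hK1 hKm
    rw [Real.rpow_two] at h1
    calc (k : ℝ) * F.K ^ 2 * F.Λ ^ (3 * ε') ≤ F.Λ ^ ((1 : ℝ) / 8) * F.Λ ^ ((3 : ℝ) / 8) := mul_le_mul h1 (hmono (by linarith)) (hpw _).le (hpw _).le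
      _ = F.Λ ^ ((1 : ℝ) / 2) := by
          rw [← Real.rpow_add hΛ0]
          norm_num
  -- the nodes
  obtain ⟨hst, hbot, htop⟩ := hmesh i
  obtain ⟨a, ha, ha1, ha2⟩ := fl3_node (F.s i) F.c.ℓ ε' s hε'0.le hst (by linarith) (by linarith)
  have hbex : ∀ j, ∃ b, b ≤ F.c.ℓ ∧ F.s j b ≤ s + (C4 + 1) ∧ s + (C4 + 1) ≤ F.s j b + ε' := by
    intro j
    obtain ⟨hst, hbot, htop⟩ := hmesh j
    exact fl3_node (F.s j) F.c.ℓ ε' (s + (C4 + 1)) hε'0.le hst (by linarith) (by linarith)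
  choose b hb using hbex
  have haex : ∀ j, ∃ b, b ≤ F.c.ℓ ∧ F.s j b ≤ s + (C4 + 1 / 2) ∧ s + (C4 + 1 / 2) ≤ F.s j b + ε' := by
    intro j
    obtain ⟨hst, hbot, htop⟩ := hmesh j
    exact fl3_node (F.s j) F.c.ℓ ε' (s + (C4 + 1 / 2)) hε'0.le hst (by linarith) (by linarith)
  choose a' ha' using haex
  have hgap : ∀ j, F.Λ ^ mX ≤ (F.D j).κ F.c.ℓ := fun j => (pow_le_pow_right₀ hΛ1.le (by omega)).trans (hsub.gap j)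
  refine ⟨a, b, ha, ?_, fun j => ⟨(hb j).1, ?_⟩, ?_⟩
  · rw [abs_le]
    constructor <;> linarith
  · rw [abs_le]
    constructor <;> linarith [(hb j).2.1, (hb j).2.2]
  · exact fl3_one hk hC4 hβ hε'0 hε'8 hCi Hm F (by omega) h hsub i (fun a hta ha Gb Oc => Hi (F.D i) (h.good i) a hta ha Gb Oc)
      (HP m (by omega) F rfl h i) (HX F rfl hFx (h.mono (by omega)) hgap) a b a' s hs ha ha1 hb ha' c1 c2 c3 c4 c6 c7 c9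

end

end Claimed.Agent.R257.FR3
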