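import Claimed.Agent.R257.Tree.TG
import Claimed.Agent.R257.FR3.LlAdapt

/-!
# ROW 257, package FR3, unit LL (`f:left-limit`), file 4: THE GEOMETRIC FACTS `Fl3Pos.Ok` FOR THE CONCRETE TREES      (architect helper227; prefix `fl3_`)            CONTRACT

Language: `R257/Tree/{Defs,Alg,Geo,GeoD,Ref,TG}.lean` (INST, helper155).   Every `sorry` is a leaf `L-257-LL-I*`.   STATEMENTS ARE FROZEN (defect: one line to helper227).   Prove IN PLACE.
`fl3Pos D Gb`:  positions `= D.pt`, velocity of a leaf label `ω` `= 2 fr 0 ω` (`natX N v (x,t) = ((x - 2tv)/N, t/N²)`), `big T y = ‖X tr T (pt y)‖ ≤ Gb`.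
EXIT `fl3_inst_ok`:  for `tr ≤ a ≤ ℓ`, `G tr + C ≤ Gb`:   `(fl3Pos D Gb).Ok a (κ a) (κ tr) C 1 (C κ_tr^k M_c) Oc`      (`C` depends only on the class).
(f:slot), H l.1594-1598: a cap of height `a ≥ tr` contains `≤ C (κ_tr/κ_a)^k` transition bins, each with clipped weight `≤ C M_c`; a ball of velocities of radius `r ≥ 1/κ_a` meets `≤ C (r κ_a)^k` caps.
-/

set_option autoImplicit false

namespace Claimed.Agent.R257.FR3

open scoped BigOperators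
open Classical
open Claimed.Agent.R255 Claimed.Agent.R255.FLaw Claimed.Agent.R257 Claimed.Agent.R257.FR2 Claimed.Agent.R257.Tree

noncomputable section

variable {k : ℕ} {c : TCls k}

/-- positions, velocities, large enlargements of the original masks of a concrete tree -/
def fl3Pos (D : TDat c) (Gb : ℝ) : Fl3Pos k D.sys D.geo where
  xs := fun y l => (D.pt y).1 l
  ts := fun y => (D.pt y).2
  vel := fun ω l => 2 * D.fr 0 ω l
  tr := c.tr
  big := fun (T : D.Cl c.tr) y => ‖D.X c.tr T.1 (D.pt y)‖ ≤ Gb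

theorem fl3_i_coord (x : E k) (l : Fin k) : |x l| ≤ ‖x‖ := by
  have := PiLp.norm_apply_le (p := 2) x l
  rwa [Real.norm_eq_abs] at this

theorem fl3_i_fl {a b : ℝ} (h : ⌊a⌋ = ⌊b⌋) : |a - b| ≤ 1 := by
  have a1 := Int.floor_le a
  have a2 := Int.lt_floor_add_one a
  have b1 := Int.floor_le b
  have b2 := Int.lt_floor_add_one b
  rw [h] at a1 a2
  rw [abs_le]
  constructor <;> linarith

theorem fl3_i_l1 (x : E k) : ‖x‖ ≤ ∑ l, |x l| := by
  have h0 : 0 ≤ ∑ l, |x l| := Finset.sum_nonneg fun _ _ => abs_nonneg _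
  have h1 : ‖x‖ ^ 2 ≤ (∑ l, |x l|) ^ 2 := by
    rw [EuclideanSpace.real_norm_sq_eq]
    calc ∑ l, x l ^ 2 = ∑ l, |x l| ^ 2 := Finset.sum_congr rfl fun l _ => (sq_abs _).symm
      _ ≤ (∑ l, |x l|) ^ 2 := Finset.sum_sq_le_sq_sum_of_nonneg fun l _ => abs_nonneg _
  exact (pow_le_pow_iff_left₀ (norm_nonneg _) h0 two_ne_zero).1 h1

/-- **LEAF L-257-LL-I1: bounded velocities.**
PLAN.  `|x l| ≤ ‖x‖` (`PiLp.norm_apply_le` / `EuclideanSpace.norm_eq`, `Real.norm_eq_abs`);   `‖fr 0 ω‖ ≤ ‖fr 0 ω - fr ℓ (anc ℓ ω)‖ + ‖fr ℓ (anc ℓ ω)‖ ≤ ℓ Cc / κ ℓ + Cc ≤ (ℓ + 1) Cc`   (`ti_anc_near`, `hD.top_bdd`, `hD.one_le_κ`, `div_le_self`). -/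
theorem fl3_i_vel (hc : c.Ok) (D : TDat c) (hD : D.Good) (ω : D.Lb 0) (l : Fin k) : |2 * D.fr 0 ω l| ≤ 2 * (((c.ℓ : ℝ) + 1) * c.Cc) := by
  have hCc := hc.one_le_Cc
  have hl : (0 : ℝ) ≤ c.ℓ := Nat.cast_nonneg _
  have h1 := ti_anc_near hc D hD c.ℓ le_rfl ω
  have h2 := hD.top_bdd (D.anc c.ℓ ω)
  have h3 : (c.ℓ : ℝ) * c.Cc / D.κ c.ℓ ≤ c.ℓ * c.Cc := div_le_self (by positivity) (hD.one_le_κ _)
  have h4 : ‖D.fr 0 ω‖ ≤ ‖D.fr 0 ω - D.fr c.ℓ (D.anc c.ℓ ω)‖ + ‖D.fr c.ℓ (D.anc c.ℓ ω)‖ := by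
    have := norm_add_le (D.fr 0 ω - D.fr c.ℓ (D.anc c.ℓ ω)) (D.fr c.ℓ (D.anc c.ℓ ω))
    rwa [sub_add_cancel] at this
  have h5 := fl3_i_coord (D.fr 0 ω) l
  rw [abs_mul, abs_two]
  linarith

/-- **LEAF L-257-LL-I2: two points in one tilted cell.**
PLAN.  `flo` equal: for every coordinate `⌊a⌋ = ⌊b⌋ → |a - b| ≤ 1` (`Int.floor_le`, `Int.lt_floor_add_one`; `congrFun (congrArg Prod.fst h) l`, `congrArg Prod.snd h`).
`(natX K w y).1 l = K⁻¹ * (y.1 l - 2 * y.2 * w l)` (`unfold natX`; `simp` with `PiLp.smul_apply`, `PiLp.sub_apply`), `(natX K w y).2 = y.2 / K ^ 2`.   Multiply by `K`, `K²`. -/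
theorem fl3_i_cel {K : ℝ} (hK : 0 < K) (w : E k) (z y : ST k) (h : flo (natX K w y) = flo (natX K w z)) :
    (∀ l, |y.1 l - z.1 l - (y.2 - z.2) * (2 * w l)| ≤ 1 * K) ∧ |y.2 - z.2| ≤ 1 * K ^ 2 := by
  have e1 : ∀ (u : ST k) (l : Fin k), (natX K w u).1 l = K⁻¹ * (u.1 l - 2 * u.2 * w l) := by
    intro u l
    unfold natX
    simp
  have e2 : ∀ u : ST k, (natX K w u).2 = u.2 / K ^ 2 := fun u => rfl
  constructor
  · intro l
    have h1 : ⌊(natX K w y).1 l⌋ = ⌊(natX K w z).1 l⌋ := congrFun (congrArg Prod.fst h) l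
    have h2 := fl3_i_fl h1
    rw [e1, e1] at h2
    have e : y.1 l - z.1 l - (y.2 - z.2) * (2 * w l) = (K⁻¹ * (y.1 l - 2 * y.2 * w l) - K⁻¹ * (z.1 l - 2 * z.2 * w l)) * K := by
      field_simp
      ring
    rw [e, abs_mul, abs_of_pos hK]
    exact mul_le_mul_of_nonneg_right h2 hK.le
  · have h1 : ⌊(natX K w y).2⌋ = ⌊(natX K w z).2⌋ := congrArg Prod.snd h
    have h2 := fl3_i_fl h1
    rw [e2, e2] at h2
    have e : y.2 - z.2 = (y.2 / K ^ 2 - z.2 / K ^ 2) * K ^ 2 := by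
      field_simp
    rw [e, abs_mul, abs_of_pos (by positivity : 0 < K ^ 2)]
    exact mul_le_mul_of_nonneg_right h2 (by positivity)

/-- **LEAF L-257-LL-I3: the reference square of a retained mask is clipped.**
PLAN.  `ti_bin_sq hc` at `i = tr`, `β = bin tr T.1.1`, `z = ctr tr T.1`:  keep the single term `T` (`Finset.single_le_sum`, terms `≥ 0`), `wA P tr T.1 (ctr tr T.1) = 1` (`TDat.wA`, `TDat.X`, `TDat.ctr`, `natX_natI`, `sub_self`, `norm_zero`, `Real.one_rpow`);   `hD.ret T.1 T.2`. -/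
theorem fl3_i_mask (hc : c.Ok) : ∃ C : ℝ, 1 ≤ C ∧ ∀ D : TDat c, D.Good → ∀ T : D.Cl c.tr, D.bb c.tr T ^ 2 ≤ C * D.Mc := by
  obtain ⟨C, hC, H⟩ := ti_bin_sq hc
  refine ⟨C, hC, fun D hD T => ?_⟩
  have h1 := H D hD c.tr le_rfl (D.bin c.tr T.1.1) (D.ctr c.tr T.1)
  have h2 := hD.ret T.1 T.2
  have hw : D.wA c.P c.tr T.1 (D.ctr c.tr T.1) = 1 := by
    unfold TDat.wA TDat.X TDat.ctr
    rw [natX_natI (D.κ_pos hD c.tr).ne', sub_self, norm_zero, add_zero, Real.one_rpow]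
  have h3 : D.bb c.tr T ^ 2 ≤ ∑ T' : D.Cl c.tr, (if D.bin c.tr T'.1.1 = D.bin c.tr T.1.1 then D.bb c.tr T' ^ 2 * D.wA c.P c.tr T'.1 (D.ctr c.tr T.1) else 0) := by
    have := Finset.single_le_sum (f := fun T' : D.Cl c.tr => (if D.bin c.tr T'.1.1 = D.bin c.tr T.1.1 then D.bb c.tr T' ^ 2 * D.wA c.P c.tr T'.1 (D.ctr c.tr T.1) else 0))
      (s := Finset.univ) (fun T' _ => by
        show 0 ≤ (if D.bin c.tr T'.1.1 = D.bin c.tr T.1.1 then D.bb c.tr T' ^ 2 * D.wA c.P c.tr T'.1 (D.ctr c.tr T.1) else 0)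
        split_ifs
        exacts [mul_nonneg (sq_nonneg _) (D.wA_pos _ _ _ _).le, le_rfl]) (Finset.mem_univ T)
    simp only [if_true, hw, mul_one] at this
    exact this
  exact h3.trans (h1.trans (mul_le_mul_of_nonneg_left h2 (by linarith)))

/-- **LEAF L-257-LL-I4: the clipped cap weights above the transition height** (order `P`).
PLAN.  Induction on `a ≥ tr` (`Nat.le_induction`) with the constant `C₀ (C₁ Cm)^(a - tr) ≤ C₀ (C₁ Cm)^ℓ`.
BASE `a = tr`:  `bb² ≤ C₃ M_c` (`fl3_i_mask`), `∑_{T ∈ W tr, T.1 = τ} wA P tr T z ≤ C_lat` (`Finset.sum_coe_sort`, `tg_fib`, `ti_lat_sum` with `k + 1 < P`; `wA A i T z = (1 + ‖natX .. z - lat T.2‖)^(-A)`), ratio `= 1`.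
STEP:  `TDat.bb_succ_sq`, exchange the sums as in `ti_bin_sq` (`Tree/Ref.lean`): `edge P a T' T ≠ 0` forces `par a T'.1.1 = T.1.1`;  `ti_wA_conv hc hc.P_gt`:
`∑_{T.1.1 = τ} bb (a+1) T² wA ≤ C₁ ∑_{T' : par a T'.1.1 = τ} bb a T'² wA P a T' z = C₁ ∑_{τ' : par a τ' = τ} (weight of τ')`;  number of `τ'`: `hD.nch a τ ≤ Cm (κ a/κ (a+1))^k`;   `(κ tr/κ a)^k (κ a/κ (a+1))^k = (κ tr/κ (a+1))^k`. -/
theorem fl3_i_capw (hc : c.Ok) : ∃ C : ℝ, 1 ≤ C ∧ ∀ D : TDat c, D.Good → ∀ a, c.tr ≤ a → a ≤ c.ℓ → ∀ (τ : D.Lb a) (z : ST k),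
    ∑ T : D.Cl a, (if T.1.1 = τ then D.bb a T ^ 2 * D.wA c.P a T.1 z else 0) ≤ C * (D.κ c.tr / D.κ a) ^ k * D.Mc := by
  obtain ⟨C1, hC1, H1⟩ := ti_wA_conv hc hc.P_gt
  obtain ⟨C3, hC3, H3⟩ := fl3_i_mask hc
  obtain ⟨CL, hCL, HL⟩ := ti_lat_sum (k := k) (A := c.P) (by linarith [hc.P_gt])
  have hCm := hc.one_le_Cm
  have hq : 1 ≤ C1 * c.Cm := by nlinarith
  have h3L : 1 ≤ C3 * CL := by nlinarith
  refine ⟨C3 * CL * (C1 * c.Cm) ^ c.ℓ, ?_, fun D hD a hta ha τ z => ?_⟩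
  · have := one_le_pow₀ hq (n := c.ℓ)
    nlinarith
  have hMc := hD.Mc_pos
  have key : ∀ a, c.tr ≤ a → ∀ (τ : D.Lb a) (z : ST k), ∑ T : D.Cl a, (if T.1.1 = τ then D.bb a T ^ 2 * D.wA c.P a T.1 z else 0)
      ≤ C3 * CL * (C1 * c.Cm) ^ (a - c.tr) * (D.κ c.tr / D.κ a) ^ k * D.Mc := by
    intro a hta
    induction a, hta using Nat.le_induction with
    | base =>
      intro τ z
      rw [Nat.sub_self, pow_zero, mul_one, div_self (D.κ_pos hD c.tr).ne', one_pow, mul_one]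
      calc ∑ T : D.Cl c.tr, (if T.1.1 = τ then D.bb c.tr T ^ 2 * D.wA c.P c.tr T.1 z else 0)
          ≤ ∑ T : D.Cl c.tr, (C3 * D.Mc) * (if τ = T.1.1 then (1 + ‖natX (D.κ c.tr) (D.fr c.tr τ) z - lat T.1.2‖) ^ (-c.P) else 0) := by
            refine Finset.sum_le_sum fun T _ => ?_
            by_cases h : T.1.1 = τ
            · rw [if_pos h, if_pos h.symm]
              have e : D.wA c.P c.tr T.1 z = (1 + ‖natX (D.κ c.tr) (D.fr c.tr τ) z - lat T.1.2‖) ^ (-c.P) := by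
                unfold TDat.wA TDat.X
                rw [h]
              rw [← e]
              exact mul_le_mul_of_nonneg_right (H3 D hD T) (D.wA_pos _ _ _ _).le
            · rw [if_neg h, if_neg (fun e => h e.symm), mul_zero]
        _ = (C3 * D.Mc) * ∑ T ∈ D.W c.tr, (if τ = T.1 then (1 + ‖natX (D.κ c.tr) (D.fr c.tr τ) z - lat T.2‖) ^ (-c.P) else 0) := by
            rw [← Finset.mul_sum, Finset.sum_coe_sort (D.W c.tr) fun T => (if τ = T.1 then (1 + ‖natX (D.κ c.tr) (D.fr c.tr τ) z - lat T.2‖) ^ (-c.P) else 0)]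
        _ ≤ (C3 * D.Mc) * CL := by
            refine mul_le_mul_of_nonneg_left ?_ (by positivity)
            rw [tg_fib (D.W c.tr) τ fun m => (1 + ‖natX (D.κ c.tr) (D.fr c.tr τ) z - lat m‖) ^ (-c.P)]
            exact HL _ _
        _ = C3 * CL * D.Mc := by ring
    | succ a hta ih =>
      intro τ z
      obtain ⟨Bd, hBd⟩ : ∃ Bd, Bd = C3 * CL * (C1 * c.Cm) ^ (a - c.tr) * (D.κ c.tr / D.κ a) ^ k * D.Mc := ⟨_, rfl⟩
      rw [← hBd] at ih
      have hκa := D.κ_pos hD a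
      have hκa' := D.κ_pos hD (a + 1)
      have hκt := D.κ_pos hD c.tr
      have hBd0 : 0 ≤ Bd := by rw [hBd]; positivity
      calc ∑ T : D.Cl (a + 1), (if T.1.1 = τ then D.bb (a + 1) T ^ 2 * D.wA c.P (a + 1) T.1 z else 0)
          = ∑ T : D.Cl (a + 1), ∑ T' : D.Cl a, (if D.par a T'.1.1 = τ then D.bb a T' ^ 2 * (D.edge c.P a T'.1 T.1 * D.wA c.P (a + 1) T.1 z) else 0) := by
            refine Finset.sum_congr rfl fun T _ => ?_
            rw [D.bb_succ_sq, Finset.sum_mul]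
            by_cases hb : T.1.1 = τ
            · rw [if_pos hb]
              refine Finset.sum_congr rfl fun T' _ => ?_
              by_cases hp : D.par a T'.1.1 = T.1.1
              · rw [if_pos (hp.trans hb)]
                ring
              · have he : D.edge c.P a T'.1 T.1 = 0 := by unfold TDat.edge; rw [if_neg hp]
                rw [he]
                simp
            · rw [if_neg hb]
              symm
              refine Finset.sum_eq_zero fun T' _ => ?_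
              by_cases hp : D.par a T'.1.1 = T.1.1
              · rw [if_neg (fun e => hb (hp.symm.trans e))]
              · have he : D.edge c.P a T'.1 T.1 = 0 := by unfold TDat.edge; rw [if_neg hp]
                rw [he]
                simp
        _ = ∑ T' : D.Cl a, (if D.par a T'.1.1 = τ then D.bb a T' ^ 2 * ∑ T : D.Cl (a + 1), D.edge c.P a T'.1 T.1 * D.wA c.P (a + 1) T.1 z else 0) := by
            rw [Finset.sum_comm]
            refine Finset.sum_congr rfl fun T' _ => ?_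
            split_ifs
            · rw [Finset.mul_sum]
            · simp
        _ ≤ ∑ T' : D.Cl a, (if D.par a T'.1.1 = τ then D.bb a T' ^ 2 * (C1 * D.wA c.P a T'.1 z) else 0) := by
            refine Finset.sum_le_sum fun T' _ => ?_
            split_ifs
            · exact mul_le_mul_of_nonneg_left (H1 D hD a T'.1 _) (sq_nonneg _)
            · exact le_rfl
        _ = C1 * ∑ τ' : D.Lb a, (if D.par a τ' = τ then ∑ T' : D.Cl a, (if T'.1.1 = τ' then D.bb a T' ^ 2 * D.wA c.P a T'.1 z else 0) else 0) := by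
            rw [Finset.mul_sum]
            have e1 : ∀ τ' : D.Lb a, C1 * (if D.par a τ' = τ then ∑ T' : D.Cl a, (if T'.1.1 = τ' then D.bb a T' ^ 2 * D.wA c.P a T'.1 z else 0) else 0)
                = ∑ T' : D.Cl a, (if T'.1.1 = τ' then (if D.par a τ' = τ then D.bb a T' ^ 2 * (C1 * D.wA c.P a T'.1 z) else 0) else 0) := by
              intro τ'
              by_cases hp : D.par a τ' = τ
              · simp only [if_pos hp]
                rw [Finset.mul_sum]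
                refine Finset.sum_congr rfl fun T' _ => ?_
                split_ifs
                · ring
                · simp
              · simp only [if_neg hp]
                simp
            rw [Finset.sum_congr rfl fun τ' _ => e1 τ', Finset.sum_comm]
            refine Finset.sum_congr rfl fun T' _ => ?_
            rw [Finset.sum_ite_eq]
            simp
        _ ≤ C1 * ∑ τ' : D.Lb a, (if D.par a τ' = τ then Bd else 0) := by
            refine mul_le_mul_of_nonneg_left (Finset.sum_le_sum fun τ' _ => ?_) (by linarith)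
            split_ifs
            · exact ih τ' z
            · exact le_rfl
        _ = C1 * (((Finset.univ.filter fun v' => D.par a v' = τ).card : ℝ) * Bd) := by
            rw [← Finset.sum_filter, Finset.sum_const, nsmul_eq_mul]
        _ ≤ C1 * ((c.Cm * (D.κ a / D.κ (a + 1)) ^ k) * Bd) :=
            mul_le_mul_of_nonneg_left (mul_le_mul_of_nonneg_right (hD.nch a τ) hBd0) (by linarith)
        _ = C3 * CL * (C1 * c.Cm) ^ (a + 1 - c.tr) * (D.κ c.tr / D.κ (a + 1)) ^ k * D.Mc := by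
            rw [hBd, Nat.succ_sub hta, pow_succ, div_pow, div_pow, div_pow]
            field_simp
  refine (key a hta τ z).trans ?_
  have hκa := D.κ_pos hD a
  have hκt := D.κ_pos hD c.tr
  refine mul_le_mul_of_nonneg_right (mul_le_mul_of_nonneg_right (mul_le_mul_of_nonneg_left (pow_le_pow_right₀ hq (by omega)) (by linarith)) (by positivity)) hMc.le

/-- **LEAF L-257-LL-I5: the number of caps which meet a ball of velocities.**
PLAN.  `K = κ a`, `ξ₀ := (1/2) cc` (as a point of `E k`: `WithLp.toLp 2 fun l => cc l / 2`).   For `τ ∈ U`:  `‖fr a τ - ξ₀‖ ≤ ‖fr a τ - fr 0 ω‖ + ‖fr 0 ω - ξ₀‖ ≤ ℓ Cc / K + k r ≤ (ℓ Cc + k) r =: ρ`   (`ti_anc_near`; `‖x‖ ≤ ∑ |x l|`; `1/K ≤ r`).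
Label `τ ↦ n τ := fun l => ⌊fr a τ l * (k K)⌋ ∈ ℤ^k`.   Two labels with the same `n` are within `1/K` of each other (each coordinate differs by `< 1/(k K)`), so a fibre has `≤ Cm` elements (`hD.mult a (fr a τ₁)`).
The values of `n` lie in a product of intervals of `≤ 2 ρ k K + 2` integers (`ti_icc_card`, `Fintype.piFinset`, `Finset.card_le_mul_card_image` or `Finset.card_eq_sum_card_image`).   `r K ≥ 1`:  total `≤ Cm (2 (ℓ Cc + k) k + 2)^k (r K)^k`. -/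
theorem fl3_i_ncap (hc : c.Ok) : ∃ C : ℝ, 1 ≤ C ∧ ∀ D : TDat c, D.Good → ∀ a, a ≤ c.ℓ → ∀ (cc : Fin k → ℝ) (r : ℝ), 1 / D.κ a ≤ r → ∀ U : Finset (D.Lb a),
    (∀ τ ∈ U, ∃ ω, D.anc a ω = τ ∧ ∀ l, |2 * D.fr 0 ω l - cc l| ≤ r) → (U.card : ℝ) ≤ C * (r * D.κ a) ^ k := by
  have hCc := hc.one_le_Cc
  have hCm := hc.one_le_Cm
  have hl : (0 : ℝ) ≤ c.ℓ := Nat.cast_nonneg _
  have hk1 : (1 : ℝ) ≤ k := by exact_mod_cast hc.k_pos
  have hlc : 0 ≤ (c.ℓ : ℝ) * c.Cc := mul_nonneg hl (by linarith)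
  obtain ⟨A, hA⟩ : ∃ A, A = (c.ℓ : ℝ) * c.Cc + 1 := ⟨_, rfl⟩
  have hA1 : 1 ≤ A := by rw [hA]; linarith
  obtain ⟨B, hB⟩ : ∃ B, B = 2 * (A * k) + 3 := ⟨_, rfl⟩
  have hAk : 0 ≤ A * k := by positivity
  have hB1 : 1 ≤ B := by rw [hB]; linarith
  refine ⟨c.Cm * B ^ k, ?_, fun D hD a ha cc r hr U hU => ?_⟩
  · have := one_le_pow₀ hB1 (n := k)
    nlinarith
  obtain ⟨K, hK⟩ : ∃ K, K = D.κ a := ⟨_, rfl⟩
  rw [← hK] at hr ⊢
  have hK0 : 0 < K := hK ▸ D.κ_pos hD a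
  have hrK : 1 ≤ r * K := by rwa [div_le_iff₀ hK0] at hr
  have hr0 : 0 < r := lt_of_lt_of_le (by positivity) hr
  have hkK : 0 < (k : ℝ) * K := by positivity
  have hco : ∀ τ ∈ U, ∀ l, |D.fr a τ l - cc l / 2| ≤ A * r := by
    intro τ hτ l
    obtain ⟨ω, rfl, h⟩ := hU τ hτ
    have h1 := ti_anc_near hc D hD a ha ω
    have h2 := fl3_i_coord (D.fr 0 ω - D.fr a (D.anc a ω)) l
    have h3 : (D.fr 0 ω - D.fr a (D.anc a ω)) l = D.fr 0 ω l - D.fr a (D.anc a ω) l := by simp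
    have h4 : (c.ℓ : ℝ) * c.Cc / D.κ a ≤ c.ℓ * c.Cc * r := by
      rw [← hK, div_eq_mul_one_div]
      exact mul_le_mul_of_nonneg_left hr hlc
    have h5 := h l
    rw [h3] at h2
    have h6 := h2.trans (h1.trans h4)
    rw [abs_le] at h5 h6 ⊢
    rw [hA]
    constructor <;> nlinarith
  obtain ⟨n, hn⟩ : ∃ n : D.Lb a → (Fin k → ℤ), n = fun τ l => ⌊D.fr a τ l * (k * K)⌋ := ⟨_, rfl⟩
  -- the fibres
  have hfib : ∀ b ∈ U.image n, (U.filter fun τ => n τ = b).card ≤ ⌊c.Cm⌋₊ := by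
    intro b hb
    obtain ⟨τ₁, hτ₁, rfl⟩ := Finset.mem_image.1 hb
    refine Nat.le_floor ?_
    refine le_trans ?_ (hD.mult a (D.fr a τ₁))
    refine Nat.cast_le.2 (Finset.card_le_card fun τ hτ => ?_)
    rw [Finset.mem_filter] at hτ ⊢
    refine ⟨Finset.mem_univ _, ?_⟩
    refine (fl3_i_l1 _).trans ?_
    calc ∑ l, |(D.fr a τ - D.fr a τ₁) l| ≤ ∑ _l : Fin k, 1 / ((k : ℝ) * K) := by
          refine Finset.sum_le_sum fun l _ => ?_
          have e1 : ⌊D.fr a τ l * (k * K)⌋ = ⌊D.fr a τ₁ l * (k * K)⌋ := by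
            have := congrFun hτ.2 l
            rw [hn] at this
            exact this
          have e2 := fl3_i_fl e1
          have e3 : (D.fr a τ - D.fr a τ₁) l = D.fr a τ l - D.fr a τ₁ l := by simp
          rw [e3, le_div_iff₀ hkK]
          have e0 : |D.fr a τ l - D.fr a τ₁ l| * ((k : ℝ) * K) = |D.fr a τ l * (k * K) - D.fr a τ₁ l * (k * K)| := by
            rw [← sub_mul, abs_mul, abs_of_pos hkK]
          rw [e0]
          exact e2
      _ = (D.κ a)⁻¹ := by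
          rw [Finset.sum_const, Finset.card_univ, Fintype.card_fin, nsmul_eq_mul, ← hK]
          field_simp
  -- the image
  obtain ⟨R, hR⟩ : ∃ R, R = A * r * (k * K) + 1 := ⟨_, rfl⟩
  have hR0 : 0 ≤ R := by rw [hR]; positivity
  have himg : U.image n ⊆ Fintype.piFinset fun l => Finset.Icc ⌈cc l / 2 * (k * K) - R⌉ ⌊cc l / 2 * (k * K) + R⌋ := by
    intro b hb
    obtain ⟨τ, hτ, rfl⟩ := Finset.mem_image.1 hb
    rw [Fintype.mem_piFinset]
    intro l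
    have h1 := hco τ hτ l
    have h2 : |D.fr a τ l * (k * K) - cc l / 2 * (k * K)| ≤ A * r * (k * K) := by
      rw [← sub_mul, abs_mul, abs_of_pos hkK]
      exact mul_le_mul_of_nonneg_right h1 hkK.le
    rw [abs_le] at h2
    have e : n τ l = ⌊D.fr a τ l * (k * K)⌋ := by rw [hn]
    rw [e, Finset.mem_Icc]
    constructor
    · rw [Int.ceil_le]
      have := Int.lt_floor_add_one (D.fr a τ l * (k * K))
      linarith
    · exact Int.floor_le_floor (by linarith)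
  have h1 := Finset.card_le_mul_card_image (f := n) U ⌊c.Cm⌋₊ hfib
  have h2 : ((U.image n).card : ℝ) ≤ (2 * R + 1) ^ k := by
    refine (Nat.cast_le.2 (Finset.card_le_card himg)).trans ?_
    rw [Fintype.card_piFinset, Nat.cast_prod]
    calc ∏ l : Fin k, ((Finset.Icc ⌈cc l / 2 * (k * K) - R⌉ ⌊cc l / 2 * (k * K) + R⌋).card : ℝ) ≤ ∏ _l : Fin k, (2 * R + 1) :=
          Finset.prod_le_prod (fun _ _ => Nat.cast_nonneg _) fun l _ => ti_icc_card _ _ hR0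
      _ = (2 * R + 1) ^ k := by rw [Finset.prod_const, Finset.card_univ, Fintype.card_fin]
  have h3 : 2 * R + 1 ≤ B * (r * K) := by
    rw [hR, hB]
    nlinarith
  have h4 : (⌊c.Cm⌋₊ : ℝ) ≤ c.Cm := Nat.floor_le (by linarith)
  calc (U.card : ℝ) ≤ ((⌊c.Cm⌋₊ * (U.image n).card : ℕ) : ℝ) := Nat.cast_le.2 h1
    _ = (⌊c.Cm⌋₊ : ℝ) * ((U.image n).card : ℝ) := by push_cast; ring
    _ ≤ c.Cm * (B * (r * K)) ^ k :=
        mul_le_mul h4 (h2.trans (pow_le_pow_left₀ (by positivity) h3 k)) (Nat.cast_nonneg _) (by linarith)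
    _ = c.Cm * B ^ k * (r * K) ^ k := by rw [mul_pow]; ring

/-- **LEAF L-257-LL-I6: capture.**
PLAN.  `H = κ tr`, `v = fr tr T.1`, `w = fr 0 ω`, `‖w - v‖ ≤ ℓ Cc / H` (`ti_anc_near`, `hT`), `τ = y.2 - z.2`.   `X tr T y = X tr T z + (natX H v y - natX H v z)` and
`natX H v y - natX H v z = (H⁻¹ • ((y.1 - z.1 - (2 τ) • w) + (2 τ) • (w - v)), τ / H²)`.   `‖y.1 - z.1 - (2τ) • w‖ ≤ ∑_l |..| ≤ k (2 H)`;  `‖(2τ) • (w - v)‖ ≤ 2 H² ℓ Cc / H`;  `|τ / H²| ≤ 1`;  `Prod.norm_def`, `max_le`. -/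
theorem fl3_i_capture (hc : c.Ok) (D : TDat c) (hD : D.Good) (z y : ST k) (ω : D.Lb 0) (T : D.Lb c.tr × Lat k) (hT : T.1 = D.anc c.tr ω)
    (hn : ‖D.X c.tr T z‖ ≤ D.G c.tr) (h1 : ∀ l, |y.1 l - z.1 l - (y.2 - z.2) * (2 * D.fr 0 ω l)| ≤ (1 + 1) * D.κ c.tr)
    (h2 : |y.2 - z.2| ≤ 1 * D.κ c.tr ^ 2) : ‖D.X c.tr T y‖ ≤ D.G c.tr + (2 * (k : ℝ) + 2 * ((c.ℓ : ℝ) * c.Cc) + 1) := by
  have hCc := hc.one_le_Cc
  have hl : (0 : ℝ) ≤ c.ℓ := Nat.cast_nonneg _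
  have hk : (0 : ℝ) ≤ k := Nat.cast_nonneg _
  have hlc : 0 ≤ (c.ℓ : ℝ) * c.Cc := mul_nonneg hl (by linarith)
  obtain ⟨H, hH⟩ : ∃ H, H = D.κ c.tr := ⟨_, rfl⟩
  obtain ⟨v, hv⟩ : ∃ v, v = D.fr c.tr T.1 := ⟨_, rfl⟩
  obtain ⟨w, hw⟩ : ∃ w, w = D.fr 0 ω := ⟨_, rfl⟩
  have hH0 : 0 < H := hH ▸ D.κ_pos hD c.tr
  have hwv : ‖w - v‖ ≤ c.ℓ * c.Cc / H := by
    rw [hw, hv, hH, hT]
    exact ti_anc_near hc D hD c.tr hc.tr_le ω
  rw [← hH, ← hw] at h1
  rw [← hH] at h2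
  obtain ⟨τ, hτ⟩ : ∃ τ, τ = y.2 - z.2 := ⟨_, rfl⟩
  rw [← hτ] at h1 h2
  have e : D.X c.tr T y = D.X c.tr T z + (H⁻¹ • ((y.1 - z.1 - (2 * τ) • w) + (2 * τ) • (w - v)), τ / H ^ 2) := by
    unfold TDat.X natX
    rw [← hH, ← hv, hτ]
    ext1
    · simp only [Prod.fst_sub, Prod.fst_add, smul_sub, smul_add, mul_sub, sub_smul]
      abel
    · simp only [Prod.snd_sub, Prod.snd_add, sub_div]
      ring
  rw [e]
  refine (norm_add_le _ _).trans (add_le_add hn ?_)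
  rw [Prod.norm_def]
  refine max_le ?_ ?_
  · show ‖H⁻¹ • ((y.1 - z.1 - (2 * τ) • w) + (2 * τ) • (w - v))‖ ≤ _
    rw [norm_smul, Real.norm_of_nonneg (inv_nonneg.2 hH0.le)]
    have a1 : ‖y.1 - z.1 - (2 * τ) • w‖ ≤ k * (2 * H) := by
      refine (fl3_i_l1 _).trans ?_
      calc ∑ l, |(y.1 - z.1 - (2 * τ) • w) l| ≤ ∑ _l : Fin k, (2 * H) := by
            refine Finset.sum_le_sum fun l _ => ?_
            have := h1 l
            have e' : (y.1 - z.1 - (2 * τ) • w) l = y.1 l - z.1 l - τ * (2 * w l) := by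
              simp
              ring
            rw [e']
            linarith
        _ = k * (2 * H) := by simp
    have a2 : ‖(2 * τ) • (w - v)‖ ≤ 2 * H ^ 2 * (c.ℓ * c.Cc / H) := by
      rw [norm_smul, Real.norm_eq_abs, abs_mul, abs_two]
      exact mul_le_mul (by linarith) hwv (norm_nonneg _) (by positivity)
    have a3 : ‖(y.1 - z.1 - (2 * τ) • w) + (2 * τ) • (w - v)‖ ≤ k * (2 * H) + 2 * H ^ 2 * (c.ℓ * c.Cc / H) :=
      (norm_add_le _ _).trans (add_le_add a1 a2)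
    calc H⁻¹ * ‖(y.1 - z.1 - (2 * τ) • w) + (2 * τ) • (w - v)‖ ≤ H⁻¹ * (k * (2 * H) + 2 * H ^ 2 * (c.ℓ * c.Cc / H)) :=
          mul_le_mul_of_nonneg_left a3 (inv_nonneg.2 hH0.le)
      _ = 2 * (k : ℝ) + 2 * ((c.ℓ : ℝ) * c.Cc) := by
          field_simp
      _ ≤ _ := by linarith
  · show ‖τ / H ^ 2‖ ≤ _
    rw [Real.norm_eq_abs, abs_div, abs_of_pos (by positivity : 0 < H ^ 2)]
    have : |τ| / H ^ 2 ≤ 1 := by
      rw [div_le_one (by positivity)]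
      linarith
    linarith

/-- **`Fl3Pos.Ok` for the concrete trees** (glue) -/
theorem fl3_inst_ok (hc : c.Ok) : ∃ C : ℝ, 1 ≤ C ∧ ∀ D : TDat c, D.Good → ∀ a, c.tr ≤ a → a ≤ c.ℓ → ∀ Gb Oc : ℝ, D.G c.tr + C ≤ Gb →
    (∀ T ∈ D.W c.tr, (((Finset.univ.filter fun y => ‖D.X c.tr T (D.pt y)‖ ≤ Gb).card : ℕ) : ℝ) ≤ Oc) →
    (fl3Pos D Gb).Ok a (D.κ a) (D.κ c.tr) C 1 (C * (D.κ c.tr ^ k * D.Mc)) Oc := by
  obtain ⟨C4, hC4, H4⟩ := fl3_i_capw hc
  obtain ⟨C5, hC5, H5⟩ := fl3_i_ncap hc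
  have hk : (0 : ℝ) ≤ k := Nat.cast_nonneg k
  have hl : (0 : ℝ) ≤ c.ℓ := Nat.cast_nonneg _
  have hCc := hc.one_le_Cc
  have hlc : 0 ≤ (c.ℓ : ℝ) * c.Cc := mul_nonneg hl (by linarith)
  refine ⟨C5 * C4 + 2 * (((c.ℓ : ℝ) + 1) * c.Cc) + (2 * (k : ℝ) + 2 * ((c.ℓ : ℝ) * c.Cc) + 1), by nlinarith, fun D hD a hta ha Gb Oc hGb hocc => ?_⟩
  set C : ℝ := C5 * C4 + 2 * (((c.ℓ : ℝ) + 1) * c.Cc) + (2 * (k : ℝ) + 2 * ((c.ℓ : ℝ) * c.Cc) + 1) with hCdef
  have hκa := D.κ_pos hD a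
  have hκt := D.κ_pos hD c.tr
  have hMc := hD.Mc_pos
  have f_hv : ∀ (ω : D.Lb 0) (l : Fin k), |2 * D.fr 0 ω l| ≤ C := fun ω l => (fl3_i_vel hc D hD ω l).trans (by nlinarith)
  have f_cel : ∀ (z y : D.Y) (ω : D.Lb 0), flo (natX (D.κ a) (D.fr 0 ω) (D.pt y)) = flo (natX (D.κ a) (D.fr 0 ω) (D.pt z)) →
      (∀ l, |(D.pt y).1 l - (D.pt z).1 l - ((D.pt y).2 - (D.pt z).2) * (2 * D.fr 0 ω l)| ≤ 1 * D.κ a) ∧ |(D.pt y).2 - (D.pt z).2| ≤ 1 * D.κ a ^ 2 :=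
    fun z y ω h => fl3_i_cel hκa _ _ _ h
  have f_capw : ∀ (τ : D.Lb a) (z : D.Y), D.geo.capw a τ z ≤ C4 * (D.κ c.tr / D.κ a) ^ k * D.Mc := by
    intro τ z
    refine le_trans (Finset.sum_le_sum fun T _ => ?_) (H4 D hD a hta ha τ (D.pt z))
    show (if (T : D.Cl a).1.1 = τ then D.bb a T ^ 2 * D.ker c.Q a T.1 (D.pt z) else 0) ≤ if (T : D.Cl a).1.1 = τ then D.bb a T ^ 2 * D.wA c.P a T.1 (D.pt z) else 0
    split_ifs
    · rw [tg_ker_ge D c.Q (by omega)]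
      exact mul_le_mul_of_nonneg_left (D.wA_anti hc.P_lt.le a _ _) (sq_nonneg _)
    · exact le_rfl
  have f_slot : ∀ (z : D.Y) (cc : Fin k → ℝ) (r : ℝ), 1 / D.κ a ≤ r → ∀ U : Finset (D.Lb a),
      (∀ τ ∈ U, ∃ ω, D.anc a ω = τ ∧ ∀ l, |2 * D.fr 0 ω l - cc l| ≤ r) → ∑ τ ∈ U, D.geo.capw a τ z ≤ C * (D.κ c.tr ^ k * D.Mc) * r ^ k := by
    intro z cc r hr U hU
    have hr0 : 0 < r := lt_of_lt_of_le (by positivity) hr
    have hB : 0 ≤ C4 * (D.κ c.tr / D.κ a) ^ k * D.Mc := by positivity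
    calc ∑ τ ∈ U, D.geo.capw a τ z ≤ ∑ _τ ∈ U, C4 * (D.κ c.tr / D.κ a) ^ k * D.Mc := Finset.sum_le_sum fun τ _ => f_capw τ z
      _ = U.card * (C4 * (D.κ c.tr / D.κ a) ^ k * D.Mc) := by rw [Finset.sum_const, nsmul_eq_mul]
      _ ≤ C5 * (r * D.κ a) ^ k * (C4 * (D.κ c.tr / D.κ a) ^ k * D.Mc) := mul_le_mul_of_nonneg_right (H5 D hD a ha cc r hr U hU) hB
      _ = C5 * C4 * (D.κ c.tr ^ k * D.Mc) * r ^ k := by
          rw [mul_pow, div_pow]
          field_simp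
      _ ≤ C * (D.κ c.tr ^ k * D.Mc) * r ^ k := by
          refine mul_le_mul_of_nonneg_right (mul_le_mul_of_nonneg_right ?_ (by positivity)) (by positivity)
          nlinarith
  have f_capt : ∀ (z : D.Y) (ω : D.Lb 0) (T : D.Cl c.tr) (y : D.Y), T.1.1 = D.anc c.tr ω → D.near c.tr (D.pt z) T.1 →
      (∀ l, |(D.pt y).1 l - (D.pt z).1 l - ((D.pt y).2 - (D.pt z).2) * (2 * D.fr 0 ω l)| ≤ (1 + 1) * D.κ c.tr) →
      |(D.pt y).2 - (D.pt z).2| ≤ 1 * D.κ c.tr ^ 2 → ‖D.X c.tr T.1 (D.pt y)‖ ≤ Gb := by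
    intro z ω T y hT hn h1 h2
    refine (fl3_i_capture hc D hD (D.pt z) (D.pt y) ω T.1 hT hn.1 h1 h2).trans (le_trans ?_ hGb)
    have : 0 ≤ C5 * C4 := by positivity
    nlinarith
  exact
    { hv := f_hv
      cel_geo := f_cel
      slotw := f_slot
      capture := f_capt
      occ := fun T => hocc T.1 T.2 }

end

end Claimed.Agent.R257.FR3
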