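import Claimed.Agent.R257.FR3.LlInst
import Claimed.Agent.R257.FR3.LlPath

/-!
# ROW 257, package FR3, unit LL (`f:left-limit`, H `frame.tex` l.1577-1745), file 6: `GXf k → GTestL k`      (architect helper227; prefix `fl3_`)            CONTRACT

* `GXf k`              **WHAT LL CONSUMES FROM XF-B** = (f:cross-field-inflation-bound) on a configuration `FCfg`, LITERALLY the conclusion of `xb_main` (helper57, `FR3/XfBTop.lean`), with the clipped square bound `𝓔_{j,b} ≤ Λ^{o(1)} r_{j,b}²` inserted.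
* `fl3_gtestL`         **EXIT** (file `LlFin.lean`):  `GXf k → GTestL k`  (`FR3/TopDefs.lean`, consumed by `ft_frame`).     GLUE from `fl3_main`, `fl3_inst_ok`, `fl3_path`, `fl3_env_le` and the leaves `L-257-LL-T*` below.
CHOICES.  `C₅ = C₄ + 1`, `s₁ = -C₄ - 2`, `μ0 = ε' = min ε (min (1/8) (β/(8 (|E|+1))))`, `E = xfE k Q`; nodes `a`, `b j`, `a' j` just below `s`, `s + C₅`, `s + C₄ + 1/2` (`fl3_node`); `x = K Λ^ε'`, `lam = x²`, radius of XF `R = κ_i(b i)/x`, `N = κ_i(a' i)/x`, half side of the box of LL `R/k`, `Gb = Λ`.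
Every `sorry` is a leaf.   STATEMENTS ARE FROZEN (defect: one line to helper227).   Prove IN PLACE.
-/

set_option autoImplicit false

namespace Claimed.Agent.R257.FR3

open scoped BigOperators
open Classical
open Claimed.Agent.R255 Claimed.Agent.R255.FLaw Claimed.Agent.R257 Claimed.Agent.R257.FR2 Claimed.Agent.R257.Tree

noncomputable section

variable {k : ℕ}

/-- the exponent of the mismatch of the widths in XF -/
def xfE (k : ℕ) (Q : ℝ) : ℝ := 1 + 2 * ((k : ℝ) + 1) * ((k : ℝ) + 1 + Q) / k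

/-- **(XF)** the upper count of `f:cross-field-inflation` on a configuration = the conclusion of `xb_main` (XF-B, helper57):  ONE step from the start heights `a j` (widths in `[N, lam N]`) to the heights `b j` (widths in `[R, lam R]`), `lam N ≤ R` -/
def GXf (k : ℕ) : Prop :=
  ∀ (c : TCls k) (cx : ℕ) (β : ℝ), 0 < β → ∃ m0 : ℕ, ∀ F : FCfg k, F.c = c → F.cx = cx → F.Ok m0 → (∀ j, F.Λ ^ m0 ≤ (F.D j).κ F.c.ℓ) →
    ∀ (a b : Fin (k + 1) → ℕ) (N R lam : ℝ), (∀ j, F.c.tr ≤ b j ∧ b j ≤ a j ∧ a j ≤ F.c.ℓ) → 1 ≤ lam → lam ≤ F.Λ →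
      (∀ j, N ≤ (F.D j).κ (a j) ∧ (F.D j).κ (a j) ≤ lam * N) → (∀ j, R ≤ (F.D j).κ (b j) ∧ (F.D j).κ (b j) ≤ lam * R) → lam * N ≤ R →
      ∀ (i : Fin (k + 1)) (q0 : F.Qc),
        (((Finset.univ.filter fun q : F.Qc => ‖(F.D i).pt (F.e i q) - (F.D i).pt (F.e i q0)‖ ≤ R).card : ℕ) : ℝ)
          ≤ F.Λ ^ β * lam ^ xfE k c.Q * R ^ (k + 1) * ∏ j, (F.r j (b j) ^ 2 / F.A j ^ 2) ^ ((1 : ℝ) / k)

/-! ## leaves -/

/-- **LEAF L-257-LL-T1: a node just below a target** (discrete intermediate value).   Mathlib only.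
PLAN.  `Nat.find` for `∃ a, f a ≤ t` (witness `ℓ`): `a ≤ ℓ` (`Nat.find_min'`).   `a = 0`: `f 0 = t`.   `a = a' + 1`: `t < f a'` (`Nat.find_min`), `a' < ℓ`, `f a' - f (a'+1) ≤ μ`. -/
theorem fl3_node (f : ℕ → ℝ) (ℓ : ℕ) (μ t : ℝ) (hμ : 0 ≤ μ) (hstep : ∀ i, i < ℓ → f i - f (i + 1) ≤ μ) (h0 : t ≤ f 0) (hl : f ℓ ≤ t) :
    ∃ a, a ≤ ℓ ∧ f a ≤ t ∧ t ≤ f a + μ := by
  have hex : ∃ a, f a ≤ t := ⟨ℓ, hl⟩
  refine ⟨Nat.find hex, Nat.find_min' hex hl, Nat.find_spec hex, ?_⟩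
  rcases Nat.eq_zero_or_pos (Nat.find hex) with h | h
  · rw [h]
    linarith
  · obtain ⟨a', ha'⟩ : ∃ a', Nat.find hex = a' + 1 := ⟨Nat.find hex - 1, by omega⟩
    have h1 : ¬ f a' ≤ t := Nat.find_min hex (by omega)
    have h2 : a' < ℓ := by
      have := Nat.find_min' hex hl
      omega
    have h3 := hstep a' h2
    rw [ha']
    linarith [not_le.1 h1]

/-- **LEAF L-257-LL-T2: nodes and values.**   PLAN.  `Real.rpow_logb` (`0 < Λ`, `Λ ≠ 1` from `h.Λ_ge`; `0 < κ i / κr`: `TDat.κ_pos`, `h.κr_pos`; `0 < r`: `(h.frozen j).r_pos`); `mul_div_cancel₀`. -/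
theorem fl3_F_node {F : FCfg k} {m : ℕ} (h : F.Ok m) (j : Fin (k + 1)) (i : ℕ) : (F.D j).κ i = F.κr j * F.Λ ^ F.s j i ∧ F.r j i = F.Λ ^ F.ρ j i := by
  have hΛ : 1 < F.Λ := by
    have := h.Λ_ge
    have : (0 : ℝ) ≤ m := Nat.cast_nonneg m
    linarith
  have hΛ0 : 0 < F.Λ := by linarith
  have hκ := (F.D j).κ_pos (h.good j) i
  have hκr := h.κr_pos j
  constructor
  · unfold FCfg.s
    rw [Real.rpow_logb hΛ0 hΛ.ne' (div_pos hκ hκr), mul_div_cancel₀ _ hκr.ne']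
  · unfold FCfg.ρ
    rw [Real.rpow_logb hΛ0 hΛ.ne' ((h.frozen j).r_pos i)]

/-- **LEAF L-257-LL-T3: a negative node lies above the seam.**   PLAN.  If `a < tr`: `κ tr ≤ κ a` (`TDat.κ_le`), `κ tr = κr` (`hs.seam`), so `1 ≤ κ a / κr` and `0 ≤ logb Λ _` (`Real.logb_nonneg`, `1 < Λ`). -/
theorem fl3_F_above {F : FCfg k} {m : ℕ} {C1 C3 : ℝ} (h : F.Ok m) (hs : F.Sub m C1 C3) (j : Fin (k + 1)) (a : ℕ) (ha : F.s j a < 0) : F.c.tr ≤ a := by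
  by_contra hcon
  rw [not_le] at hcon
  have hΛ : 1 < F.Λ := by
    have := h.Λ_ge
    have : (0 : ℝ) ≤ m := Nat.cast_nonneg m
    linarith
  have hκr := h.κr_pos j
  have h1 : (F.D j).κ F.c.tr ≤ (F.D j).κ a := (F.D j).κ_le (h.good j) hcon.le
  rw [hs.seam j] at h1
  have h2 : 1 ≤ (F.D j).κ a / F.κr j := by
    rw [le_div_iff₀ hκr, one_mul]
    exact h1
  have h3 : 0 ≤ F.s j a := Real.logb_nonneg hΛ h2
  linarith

/-- **LEAF L-257-LL-T4: the thresholds.**   PLAN.  `x := κr^(k/2) > 0`, `x² = κr^k` (`← Real.rpow_natCast`, `← Real.rpow_mul`).   `A² ≤ x²` gives `A ≤ x` (`abs_le_of_sq_le_sq'` / `pow_le_pow_left₀` by contradiction);   `x² ≤ K A² ≤ (K A)²` (`1 ≤ K`) gives `x ≤ K A`. -/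
theorem fl3_F_thr {F : FCfg k} {m : ℕ} {C1 C3 : ℝ} (h : F.Ok m) (hs : F.Sub m C1 C3) (j : Fin (k + 1)) :
    F.A j ≤ F.κr j ^ ((k : ℝ) / 2) ∧ F.κr j ^ ((k : ℝ) / 2) ≤ F.K * F.A j := by
  have hκ : 0 < F.κr j := h.κr_pos j
  have hA : 1 ≤ F.A j := h.one_le_A j
  have hK : 2 ≤ F.K := h.two_le_K
  have h1 := hs.thr_le j
  have h2 := hs.le_thr j
  obtain ⟨x, hx⟩ : ∃ x, x = F.κr j ^ ((k : ℝ) / 2) := ⟨_, rfl⟩
  have hx0 : 0 < x := by rw [hx]; exact Real.rpow_pos_of_pos hκ _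
  have hx2 : x ^ 2 = F.κr j ^ k := by
    rw [hx, ← Real.rpow_natCast, ← Real.rpow_mul hκ.le, ← Real.rpow_natCast]
    congr 1
    push_cast
    ring
  rw [← hx]
  rw [← hx2] at h1 h2
  constructor
  · exact (abs_le_of_sq_le_sq' h1 hx0.le).2
  · have h3 : x ^ 2 ≤ (F.K * F.A j) ^ 2 := by
      refine h2.trans ?_
      rw [mul_pow]
      have : F.K ≤ F.K ^ 2 := by nlinarith
      exact mul_le_mul_of_nonneg_right this (by positivity)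
    exact (abs_le_of_sq_le_sq' h3 (by positivity)).2

/-- **LEAF L-257-LL-T5: the box of LL lies in a ball; witnesses = cubes.**
PLAN.  `Finset.card_le_card_of_injOn (fun y => (F.e i).symm y)` (injective).   For `y` in the box (`Fl3Cfg.box`, `Fl3Pos.cfg`, `fl3Pos` unfold by `rfl`/`show`): `|(pt y).1 l - (pt z).1 l| ≤ R`, `|(pt y).2 - (pt z).2| ≤ R`;
`‖pt y - pt z‖ = max ‖·.1‖ |·.2|` (`Prod.norm_def`), `‖x‖ ≤ ∑_l |x l| ≤ k R` (`EuclideanSpace.norm_eq`, or `PiLp` + `Real.sqrt_le_sqrt`: `∑ x_l² ≤ k R² ≤ (k R)²`), `R ≤ k R`;   `Equiv.apply_symm_apply`. -/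
theorem fl3_F_box (hk : 1 ≤ k) (F : FCfg k) (i : Fin (k + 1)) (Gb : ℝ) (a : ℕ) {Ω₀ : Type} (Z : Ω₀ → (F.D i).sys.Y) (Om : Ω₀ → (F.D i).geo.Dir) (q : F.Qc) (R : ℝ) (hR : 0 ≤ R) :
    ((fl3Pos (F.D i) Gb).cfg a Z Om).box (F.e i q) R R ≤ (Finset.univ.filter fun q' : F.Qc => ‖(F.D i).pt (F.e i q') - (F.D i).pt (F.e i q)‖ ≤ k * R).card := by
  have hk1 : (1 : ℝ) ≤ (k : ℝ) := by exact_mod_cast hk
  unfold Fl3Cfg.box
  refine Finset.card_le_card_of_injOn (fun y => (F.e i).symm y) ?_ ((F.e i).symm.injective.injOn)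
  intro y hy
  have hy' : (∀ l, |((F.D i).pt y).1 l - ((F.D i).pt (F.e i q)).1 l| ≤ R) ∧ |((F.D i).pt y).2 - ((F.D i).pt (F.e i q)).2| ≤ R := by
    have := (Finset.mem_filter.mp (Finset.mem_coe.mp hy)).2
    exact this
  refine Finset.mem_coe.mpr (Finset.mem_filter.mpr ⟨Finset.mem_univ _, ?_⟩)
  show ‖(F.D i).pt (F.e i ((F.e i).symm y)) - (F.D i).pt (F.e i q)‖ ≤ k * R
  have e1 : F.e i ((F.e i).symm (y : (F.D i).Y)) = (y : (F.D i).Y) := Equiv.apply_symm_apply _ _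
  have e2 : ‖(F.D i).pt (F.e i ((F.e i).symm y)) - (F.D i).pt (F.e i q)‖ = ‖(F.D i).pt y - (F.D i).pt (F.e i q)‖ := congrArg (fun w => ‖(F.D i).pt w - (F.D i).pt (F.e i q)‖) e1
  refine le_of_eq_of_le e2 ?_
  rw [Prod.norm_def]
  refine max_le ?_ ?_
  · rw [EuclideanSpace.norm_eq]
    have h1 : ∑ l : Fin k, ‖((F.D i).pt y - (F.D i).pt (F.e i q)).1 l‖ ^ 2 ≤ ∑ _l : Fin k, R ^ 2 := by
      refine Finset.sum_le_sum fun l _ => ?_
      have := hy'.1 l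
      rw [Real.norm_eq_abs]
      exact pow_le_pow_left₀ (abs_nonneg _) this 2
    rw [Finset.sum_const, Finset.card_univ, Fintype.card_fin, nsmul_eq_mul] at h1
    refine Real.sqrt_le_iff.mpr ⟨by positivity, h1.trans ?_⟩
    rw [mul_pow]
    have : (k : ℝ) ≤ (k : ℝ) ^ 2 := by nlinarith
    exact mul_le_mul_of_nonneg_right this (by positivity)
  · rw [Real.norm_eq_abs]
    refine le_trans hy'.2 ?_
    nlinarith

/-- **LEAF L-257-LL-T6: constants and powers of a subpower quantity are subpowers.**   Mathlib only.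
PLAN.  `m0 := max ⌈2 N / γ⌉₊ ⌈|C| ^ (2/γ)⌉₊ + 1`.   `x ≤ Λ^(1/m)` (`x^m ≤ Λ`; `Real.rpow_le_rpow`, `Real.pow_rpow_inv_natCast`), `x^N ≤ Λ^(N/m) ≤ Λ^(γ/2)` (`1 ≤ Λ`);   `C ≤ |C| ≤ Λ^(γ/2)` since `|C|^(2/γ) ≤ m ≤ Λ`. -/
theorem fl3_sub (C N γ : ℝ) (hN : 0 ≤ N) (hγ : 0 < γ) : ∃ m0 : ℕ, ∀ m : ℕ, m0 ≤ m → ∀ Λ x : ℝ, (m : ℝ) + 3 ≤ Λ → 1 ≤ x → x ^ m ≤ Λ → C * x ^ N ≤ Λ ^ γ := by
  refine ⟨max ⌈2 * N / γ⌉₊ ⌈|C| ^ (2 / γ)⌉₊ + 1, ?_⟩
  intro m hm Λ x hΛ hx hxm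
  have hm1 : 1 ≤ m := le_trans (Nat.le_add_left _ _) hm
  have hm0 : (0 : ℝ) < (m : ℝ) := by exact_mod_cast hm1
  have hmN : 2 * N / γ ≤ (m : ℝ) := by
    have h1 : ⌈2 * N / γ⌉₊ ≤ m := le_trans (le_trans (le_max_left _ _) (Nat.le_add_right _ _)) hm
    exact (Nat.le_ceil _).trans (by exact_mod_cast h1)
  have hmC : |C| ^ (2 / γ) ≤ (m : ℝ) := by
    have h1 : ⌈|C| ^ (2 / γ)⌉₊ ≤ m := le_trans (le_trans (le_max_right _ _) (Nat.le_add_right _ _)) hm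
    exact (Nat.le_ceil _).trans (by exact_mod_cast h1)
  have hΛ1 : 1 ≤ Λ := by linarith
  have hΛ0 : 0 < Λ := by linarith
  have hx0 : 0 ≤ x := by linarith
  have h1 : x ≤ Λ ^ ((m : ℝ)⁻¹) := by
    have e : x = (x ^ m) ^ ((m : ℝ)⁻¹) := (Real.pow_rpow_inv_natCast hx0 (by omega)).symm
    calc x = (x ^ m) ^ ((m : ℝ)⁻¹) := e
      _ ≤ Λ ^ ((m : ℝ)⁻¹) := Real.rpow_le_rpow (by positivity) hxm (by positivity)
  have h2 : x ^ N ≤ Λ ^ (γ / 2) := by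
    calc x ^ N ≤ (Λ ^ ((m : ℝ)⁻¹)) ^ N := Real.rpow_le_rpow hx0 h1 hN
      _ = Λ ^ ((m : ℝ)⁻¹ * N) := (Real.rpow_mul hΛ0.le _ _).symm
      _ ≤ Λ ^ (γ / 2) := by
          refine Real.rpow_le_rpow_of_exponent_le hΛ1 ?_
          rw [div_le_iff₀ hγ] at hmN
          rw [inv_mul_le_iff₀ hm0]
          linarith
  have h3 : |C| ≤ Λ ^ (γ / 2) := by
    have e : |C| = (|C| ^ (2 / γ)) ^ (γ / 2) := by
      rw [← Real.rpow_mul (abs_nonneg _)]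
      have : 2 / γ * (γ / 2) = 1 := by field_simp
      rw [this, Real.rpow_one]
    calc |C| = (|C| ^ (2 / γ)) ^ (γ / 2) := e
      _ ≤ Λ ^ (γ / 2) := Real.rpow_le_rpow (by positivity) (by linarith) (by positivity)
  have h4 : 0 ≤ x ^ N := Real.rpow_nonneg hx0 _
  calc C * x ^ N ≤ |C| * x ^ N := mul_le_mul_of_nonneg_right (le_abs_self _) h4
    _ ≤ Λ ^ (γ / 2) * Λ ^ (γ / 2) := mul_le_mul h3 h2 h4 (by positivity)
    _ = Λ ^ γ := by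
        rw [← Real.rpow_add hΛ0]
        congr 1
        ring

end

end Claimed.Agent.R257.FR3
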