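import Claimed.Agent.R257.FR3.BlkDefs

/-!
# ROW 257, package FR3, unit MID, file 8: THE ONE SOURCE WHICH MID CONSUMES FROM ANG, AT THE LEVEL OF CONFIGURATIONS      (architect helper276)

Definitions only.   `GAngM k` = `f:angular` (first assertion + last paragraph, H `frame.tex` l.1010-1034) for the FULL slope `k/2` at the cap parameter `l`, for ONE strip width `Λ^{-u}`, DETERMINISTIC FORM:
 a height `lam` with `|s_lam - l| ≤ tol`, a restriction `R ⊆ S` of the frozen tree of the field `j`, a kernel `0 ≤ J ≤ Jn R`, a root set `Y'` which keeps the fraction `Λ^{-tol}` of the witnesses, kernel mass `≥ Λ^{-tol}` on `Y'`, and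
 for EVERY `z ∈ Y'` and EVERY leaf label `ω₂`:  the kernel mass of the leaf labels `ω` of the cap `τ_l ∋ ω₂` with `|fr ω - fr ω₂| ≤ Λ^{-u}/κ_lam`  is  `≤ Λ^{-ηa u + tol} ∑_{ω ∈ τ_l} a_ω(z)`   (`FCfg.lcap`, `FR3/BlkDefs.lean`).
(A ball is contained in a strip: only ONE strip direction is needed.)      The passage to the "typical `(Z, τ_l)`" is done inside MID (pruning, `FR3/MidPrune.lean`).
PROVIDER: `GBlk k → GAngM k` (helper164, `FR3/MidAng.lean`).       CONSUMER: `GAngM k → GTestM k` (`FR3/MidTop.lean`).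
Quantifiers (22:35Z, form of helper164): orders, `l` → `ηa` → loss exponent `e` → `e0, V, u0` → `u` → mesh `μ0` → class → `m0`;   `tol = e u`.
-/

set_option autoImplicit false

namespace Claimed.Agent.R257.FR3

open scoped BigOperators
open Classical
open Claimed.Agent.R255 Claimed.Agent.R257 Claimed.Agent.R257.FR2 Claimed.Agent.R257.Tree

/-- the conclusion of the angular test for one configuration, one field -/
structure AngOut {k : ℕ} (F : FCfg k) (j : Fin (k + 1)) (l u ηa tol : ℝ) (lam : ℕ) (R : (F.D j).geo.Restr) (J : (F.D j).Y → (F.D j).Lb 0 → ℝ)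
    (Y' : Finset (F.D j).Y) : Prop where
  lam_le : lam ≤ F.c.ℓ
  node : |F.s j lam - l| ≤ tol
  sub : ∀ i ω, R i ω ⊆ F.S j i
  J_nonneg : ∀ z ω, 0 ≤ J z ω
  J_le : ∀ z ω, J z ω ≤ (F.D j).geo.Jn R z ω
  card : (Fintype.card (F.D j).Y : ℝ) ≤ F.Λ ^ tol * Y'.card
  mass : ∀ z ∈ Y', F.Λ ^ (-tol) ≤ ∑ ω, J z ω
  ang : ∀ z ∈ Y', ∀ ω₂ : (F.D j).Lb 0,
    ∑ ω : (F.D j).Lb 0 with ((F.D j).anc lam ω = (F.D j).anc lam ω₂ ∧ ‖(F.D j).fr 0 ω - (F.D j).fr 0 ω₂‖ ≤ F.Λ ^ (-u) / (F.D j).κ lam), J z ω ≤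
      F.Λ ^ (-(ηa * u) + tol) * F.lcap j lam z ((F.D j).anc lam ω₂)

/-- **the angular test at a full-slope point** (source of MID) -/
def GAngM (k : ℕ) : Prop :=
  ∀ (o : TOrd), o.Room k → ∀ (l : ℝ), ∃ ηa : ℝ, 0 < ηa ∧ ∀ e : ℝ, 0 < e → ∃ e0 V u0 : ℝ, 0 < e0 ∧ 0 < V ∧ 0 < u0 ∧ ∀ u, 0 < u → u < u0 → ∃ μ0 : ℝ, 0 < μ0 ∧
    ∀ (c : TCls k) (cx : ℕ), ordOf c = o → ∃ m0 : ℕ, ∀ F : FCfg k, F.c = c → F.cx = cx → F.Ok m0 → ∀ j, F.Mesh j μ0 (l - V * u) (l + V * u) → F.Off j l (V * u) →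
      F.Aff j l ((k : ℝ) / 2) (V * u) (e0 * u) →
      ∃ (lam : ℕ) (R : (F.D j).geo.Restr) (J : (F.D j).Y → (F.D j).Lb 0 → ℝ) (Y' : Finset (F.D j).Y), AngOut F j l u ηa (e * u) lam R J Y'

end Claimed.Agent.R257.FR3
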