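import Claimed.Agent.R257.FR3.Top
import Claimed.Agent.R257.FR3.BlkDefs
import Claimed.Agent.R257.FR3.MidSrc

/-!
# ROW 257, package FR3, unit MID, file 10: THE EDGE  `gma_main : GBlk k → GAngM k`      (helper164; prefix `gma_`)

`GBlk k` (`FR3/BlkDefs.lean`, helper121) = the block package of BROAD + ANG + INFL.      `GAngM k` (`FR3/MidSrc.lean`, helper276) = the angular source of MID.      NOTHING is sorried.
`lam` = the node of the mesh just below `l` (`gma_node`);  the slope hypothesis of `GBlk` from `Aff`;  a ball of radius `Λ^{-u}/κ_lam` of leaf labels of one cap lies in ONE strip `|w · ndir| ≤ 2 Λ^{-u}` (`gma_strip`);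
losses: `K = Λ^{(e/3) u}`, `K² 2^γ ≤ Λ^{e u}` for `Λ` large.
-/

set_option autoImplicit false

namespace Claimed.Agent.R257.FR3

open scoped BigOperators
open Classical Matrix
open Claimed.Agent.R255 Claimed.Agent.R257 Claimed.Agent.R257.FR2 Claimed.Agent.R257.Tree

noncomputable section

variable {k : ℕ}

/-- a node just below a target -/
theorem gma_node (f : ℕ → ℝ) (ℓ : ℕ) (μ t : ℝ) (hstep : ∀ i, i < ℓ → f i - f (i + 1) ≤ μ) (h0 : t < f 0) (hl : f ℓ ≤ t) :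
    ∃ a, a ≤ ℓ ∧ f a ≤ t ∧ t - μ ≤ f a := by
  have hex : ∃ a, f a ≤ t := ⟨ℓ, hl⟩
  refine ⟨Nat.find hex, Nat.find_min' hex hl, Nat.find_spec hex, ?_⟩
  rcases Nat.eq_zero_or_pos (Nat.find hex) with h | h
  · have := Nat.find_spec hex
    rw [h] at this
    linarith
  · obtain ⟨a', ha'⟩ : ∃ a', Nat.find hex = a' + 1 := ⟨Nat.find hex - 1, by omega⟩
    have h1 : ¬ f a' ≤ t := Nat.find_min hex (by omega)
    have h2 : a' < ℓ := by
      have := Nat.find_min' hex hl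
      omega
    have h3 := hstep a' h2
    rw [ha']
    linarith [not_le.1 h1]

/-- the nodes decrease with the height -/
theorem gma_s_anti {F : FCfg k} {m : ℕ} (h : F.Ok m) (j : Fin (k + 1)) {i i' : ℕ} (hi : i ≤ i') : F.s j i' ≤ F.s j i := by
  have hΛ : 1 < F.Λ := by
    have := h.Λ_ge
    have : (0 : ℝ) ≤ m := Nat.cast_nonneg m
    linarith
  unfold FCfg.s
  refine Real.logb_le_logb_of_le hΛ (div_pos ((F.D j).κ_pos (h.good j) i') (h.κr_pos j)) ?_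
  exact div_le_div_of_nonneg_right ((F.D j).κ_le (h.good j) hi) (h.κr_pos j).le

/-- **a ball of leaf labels of one cap lies in one strip** -/
theorem gma_strip (hk : 1 ≤ k) (F : FCfg k) (j : Fin (k + 1)) (lam : ℕ) (hκ : 0 < (F.D j).κ lam) (ω₂ : (F.D j).Lb 0) (ρ : ℝ) :
    ∃ w : Fin (k + 1) → ℝ, ∑ l, |w l| = 1 ∧ ∀ ω, (F.D j).anc lam ω = (F.D j).anc lam ω₂ → ‖(F.D j).fr 0 ω - (F.D j).fr 0 ω₂‖ ≤ ρ / (F.D j).κ lam →
      |w ⬝ᵥ F.ndir j lam ω| ≤ 2 * ρ := by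
  obtain ⟨κ, hκd⟩ : ∃ κ : ℝ, κ = (F.D j).κ lam := ⟨_, rfl⟩
  rw [← hκd] at hκ
  let i₀ : Fin k := ⟨0, hk⟩
  obtain ⟨a, had⟩ : ∃ a : ℝ, a = 2 * κ * ((F.D j).fr 0 ω₂ - (F.D j).fr lam ((F.D j).anc lam ω₂)) i₀ := ⟨_, rfl⟩
  obtain ⟨N, hNd⟩ : ∃ N : ℝ, N = |a| + 1 := ⟨_, rfl⟩
  have hN1 : 1 ≤ N := by rw [hNd]; linarith [abs_nonneg a]
  have hN0 : 0 < N := by linarith
  refine ⟨Fin.cons (-a / N) (fun i => if i = i₀ then 1 / N else 0), ?_, ?_⟩
  · rw [Fin.sum_univ_succ]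
    simp only [Fin.cons_zero, Fin.cons_succ]
    have e1 : ∑ i : Fin k, |if i = i₀ then 1 / N else 0| = 1 / N := by
      rw [Finset.sum_eq_single i₀]
      · rw [if_pos rfl, abs_of_pos (by positivity)]
      · intro b _ hb
        rw [if_neg hb, abs_zero]
      · intro h
        exact absurd (Finset.mem_univ _) h
    rw [e1, abs_div, abs_neg, abs_of_pos hN0, ← add_div, ← hNd, div_self hN0.ne']
  · intro ω hω hd
    have e : (Fin.cons (-a / N) (fun i => if i = i₀ then 1 / N else 0) : Fin (k + 1) → ℝ) ⬝ᵥ F.ndir j lam ω =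
        2 * κ * ((F.D j).fr 0 ω - (F.D j).fr 0 ω₂) i₀ / N := by
      unfold dotProduct FCfg.ndir stv
      rw [Fin.sum_univ_succ]
      simp only [Fin.cons_zero, Fin.cons_succ]
      rw [Finset.sum_eq_single i₀]
      · rw [if_pos rfl, hω, had, ← hκd]
        simp only [PiLp.smul_apply, PiLp.sub_apply, smul_eq_mul]
        field_simp
        ring
      · intro b _ hb
        rw [if_neg hb, zero_mul]
      · intro h
        exact absurd (Finset.mem_univ _) h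
    rw [e, abs_div, abs_of_pos hN0, div_le_iff₀ hN0, abs_mul, abs_of_pos (by positivity : 0 < 2 * κ)]
    have h1 : |((F.D j).fr 0 ω - (F.D j).fr 0 ω₂) i₀| ≤ ρ / κ := by
      rw [hκd]
      refine le_trans ?_ hd
      have := PiLp.norm_apply_le ((F.D j).fr 0 ω - (F.D j).fr 0 ω₂) i₀
      rwa [Real.norm_eq_abs] at this
    have hρ : 0 ≤ ρ := by
      have h2 := (abs_nonneg _).trans h1
      rcases le_or_gt 0 ρ with h | h
      · exact h
      · exact absurd h2 (not_le.2 (div_neg_of_neg_of_pos h hκ))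
    calc 2 * κ * |((F.D j).fr 0 ω - (F.D j).fr 0 ω₂) i₀| ≤ 2 * κ * (ρ / κ) := mul_le_mul_of_nonneg_left h1 (by positivity)
      _ = 2 * ρ := by field_simp
      _ ≤ 2 * ρ * N := le_mul_of_one_le_right (by positivity) hN1

/-- the angular bound of one block package -/
theorem gma_ang (hk : 1 ≤ k) {F : FCfg k} {m : ℕ} (hF : F.Ok m) {j : Fin (k + 1)} {lam : ℕ} {B : BlkDat F j lam} {u γ K : ℝ} (hB : B.Ok u γ K) (hK : 0 ≤ K)
    (hu : 2 ≤ F.Λ ^ u) (z : (F.D j).Y) (ω₂ : (F.D j).Lb 0) :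
    ∑ ω : (F.D j).Lb 0 with ((F.D j).anc lam ω = (F.D j).anc lam ω₂ ∧ ‖(F.D j).fr 0 ω - (F.D j).fr 0 ω₂‖ ≤ F.Λ ^ (-u) / (F.D j).κ lam), B.J z ω ≤
      K ^ 2 * (2 * F.Λ ^ (-u)) ^ γ * F.lcap j lam z ((F.D j).anc lam ω₂) := by
  have hΛ : 1 < F.Λ := by
    have := hF.Λ_ge
    have : (0 : ℝ) ≤ m := Nat.cast_nonneg m
    linarith
  have hΛ0 : 0 < F.Λ := by linarith
  obtain ⟨w, hw1, hw⟩ := gma_strip hk F j lam ((F.D j).κ_pos (hF.good j) lam) ω₂ (F.Λ ^ (-u))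
  obtain ⟨τ, hτ⟩ : ∃ τ, τ = (F.D j).anc lam ω₂ := ⟨_, rfl⟩
  obtain ⟨g, hg⟩ : ∃ g, g = F.ngrp j lam (F.Λ ^ (5 * u)) (z, τ) := ⟨_, rfl⟩
  have hl0 : 0 ≤ F.lcap j lam z τ := by
    unfold FCfg.lcap
    refine Finset.sum_nonneg fun ω _ => ?_
    split_ifs
    exacts [TGeo.leafw_nonneg (𝔊 := (F.D j).geo) (hF.sys j) z ω, le_rfl]
  have hr1 : F.Λ ^ (-u) ≤ 2 * F.Λ ^ (-u) := by
    have : 0 < F.Λ ^ (-u) := Real.rpow_pos_of_pos hΛ0 _
    linarith
  have hr2 : 2 * F.Λ ^ (-u) ≤ 1 := by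
    rw [Real.rpow_neg hΛ0.le, ← div_eq_mul_inv, div_le_one (Real.rpow_pos_of_pos hΛ0 _)]
    exact hu
  have hs := hB.strip g w hw1 (2 * F.Λ ^ (-u)) hr1 hr2
  rw [← hτ]
  calc ∑ ω : (F.D j).Lb 0 with ((F.D j).anc lam ω = τ ∧ ‖(F.D j).fr 0 ω - (F.D j).fr 0 ω₂‖ ≤ F.Λ ^ (-u) / (F.D j).κ lam), B.J z ω
      ≤ ∑ ω : (F.D j).Lb 0 with ((F.D j).anc lam ω = τ ∧ ‖(F.D j).fr 0 ω - (F.D j).fr 0 ω₂‖ ≤ F.Λ ^ (-u) / (F.D j).κ lam), K * B.ν g ω * F.lcap j lam z τ := by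
        refine Finset.sum_le_sum fun ω hω => ?_
        have h1 := hB.dom z ω
        rw [(Finset.mem_filter.1 hω).2.1, ← hg] at h1
        exact h1
    _ = K * F.lcap j lam z τ * ∑ ω : (F.D j).Lb 0 with ((F.D j).anc lam ω = τ ∧ ‖(F.D j).fr 0 ω - (F.D j).fr 0 ω₂‖ ≤ F.Λ ^ (-u) / (F.D j).κ lam), B.ν g ω := by
        rw [Finset.mul_sum]
        refine Finset.sum_congr rfl fun ω _ => ?_
        ring
    _ ≤ K * F.lcap j lam z τ * ∑ ω with |w ⬝ᵥ F.ndir j lam ω| ≤ 2 * F.Λ ^ (-u), B.ν g ω := by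
        refine mul_le_mul_of_nonneg_left ?_ (mul_nonneg hK hl0)
        refine Finset.sum_le_sum_of_subset_of_nonneg ?_ fun ω _ _ => hB.ν_nonneg g ω
        intro ω hω
        rw [Finset.mem_filter] at hω ⊢
        exact ⟨hω.1, hw ω (hω.2.1.trans hτ) hω.2.2⟩
    _ ≤ K * F.lcap j lam z τ * (K * (2 * F.Λ ^ (-u)) ^ γ) := mul_le_mul_of_nonneg_left hs (mul_nonneg hK hl0)
    _ = _ := by ring

/-- **THE EDGE**: the block package gives the angular source of MID -/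
theorem gma_main (hk : 1 ≤ k) (hG : GBlk k) : GAngM k := by
  intro o hr l
  have hk0 : (0 : ℝ) < (k : ℝ) / 2 := by
    have : (1 : ℝ) ≤ k := by exact_mod_cast hk
    linarith
  obtain ⟨γ, hγ, h1⟩ := hG o hr ((k : ℝ) / 2) hk0
  refine ⟨γ, hγ, fun e he => ?_⟩
  obtain ⟨e1, V1, he1, hV1, h2⟩ := h1 (e / 3) (by linarith)
  refine ⟨e1, V1 + 2, 1, he1, by linarith, one_pos, fun u hu _ => ?_⟩
  obtain ⟨μ1, hμ1, h3⟩ := h2 u hu
  refine ⟨min μ1 (min (e * u) u), lt_min hμ1 (lt_min (by positivity) hu), fun c cx hc => ?_⟩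
  obtain ⟨m1, h4⟩ := h3 c cx hc
  obtain ⟨μ0, hμ0d⟩ : ∃ μ0 : ℝ, μ0 = min μ1 (min (e * u) u) := ⟨_, rfl⟩
  rw [← hμ0d]
  have hμa : μ0 ≤ μ1 := by rw [hμ0d]; exact min_le_left _ _
  have hμb : μ0 ≤ e * u := by rw [hμ0d]; exact (min_le_right _ _).trans (min_le_left _ _)
  have hμc : μ0 ≤ u := by rw [hμ0d]; exact (min_le_right _ _).trans (min_le_right _ _)
  -- the size of the base
  obtain ⟨X, hXd⟩ : ∃ X : ℝ, X = max ((2 : ℝ) ^ (1 / u)) ((2 : ℝ) ^ (γ / (e / 3 * u))) := ⟨_, rfl⟩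
  refine ⟨max m1 ⌈X⌉₊, fun F hFc hFx hF j hM hO hA => ?_⟩
  have hF1 : F.Ok m1 := hF.mono (le_max_left _ _)
  have hΛX : X ≤ F.Λ := by
    have a1 := hF.Λ_ge
    have a2 : (⌈X⌉₊ : ℝ) ≤ (max m1 ⌈X⌉₊ : ℕ) := by exact_mod_cast le_max_right _ _
    have a3 := Nat.le_ceil X
    linarith
  have hΛ : 1 < F.Λ := by
    have := hF.Λ_ge
    have : (0 : ℝ) ≤ (max m1 ⌈X⌉₊ : ℕ) := Nat.cast_nonneg _
    linarith
  have hΛ0 : 0 < F.Λ := by linarith
  have hΛu : 2 ≤ F.Λ ^ u := by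
    have a1 : (2 : ℝ) ^ (1 / u) ≤ F.Λ := (le_max_left _ _).trans (hXd ▸ hΛX)
    calc (2 : ℝ) = ((2 : ℝ) ^ (1 / u)) ^ u := by
          rw [← Real.rpow_mul (by norm_num), one_div, inv_mul_cancel₀ hu.ne', Real.rpow_one]
      _ ≤ F.Λ ^ u := Real.rpow_le_rpow (by positivity) a1 hu.le
  have hΛγ : (2 : ℝ) ^ γ ≤ F.Λ ^ (e / 3 * u) := by
    have a1 : (2 : ℝ) ^ (γ / (e / 3 * u)) ≤ F.Λ := (le_max_right _ _).trans (hXd ▸ hΛX)
    have hp : 0 < e / 3 * u := by positivity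
    calc (2 : ℝ) ^ γ = ((2 : ℝ) ^ (γ / (e / 3 * u))) ^ (e / 3 * u) := by
          rw [← Real.rpow_mul (by norm_num), div_mul_cancel₀ _ hp.ne']
      _ ≤ F.Λ ^ (e / 3 * u) := Real.rpow_le_rpow (by positivity) a1 hp.le
  obtain ⟨hst, hbot, htop⟩ := hM
  have hVu : 0 < V1 * u := by positivity
  -- the node
  obtain ⟨lam, hlam, hs1, hs2⟩ := gma_node (F.s j) F.c.ℓ μ0 l hst (by nlinarith) (by nlinarith)
  have hnode : |F.s j lam - l| ≤ μ0 := by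
    rw [abs_le]
    constructor <;> linarith
  have hM1 : F.Mesh j μ1 (F.s j lam) (F.s j lam + V1 * u) := by
    refine ⟨fun i hi => (hst i hi).trans hμa, ?_, ?_⟩
    · nlinarith
    · nlinarith
  have hO1 : F.Off j (F.s j lam) (V1 * u) := by
    unfold FCfg.Off at hO ⊢
    have a1 : |F.s j F.c.tr - l| ≤ |F.s j F.c.tr - F.s j lam| + |F.s j lam - l| := by
      have := abs_add_le (F.s j F.c.tr - F.s j lam) (F.s j lam - l)
      rwa [sub_add_sub_cancel] at this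
    nlinarith
  have hsl : ∀ i, i ≤ lam → F.s j i - F.s j lam ≤ u → (k : ℝ) / 2 * (F.s j i - F.s j lam) - e1 * u ≤ F.ρ j lam - F.ρ j i := by
    intro i hi hiu
    have a0 := gma_s_anti hF j hi
    have a1 : |F.s j i - l| ≤ (V1 + 2) * u := by
      rw [abs_le]
      constructor <;> nlinarith
    have a2 : |F.s j lam - l| ≤ (V1 + 2) * u := hnode.trans (by nlinarith)
    have a3 := hA i lam (hi.trans hlam) hlam a1 a2
    have a4 := (abs_le.1 a3).1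
    linarith
  obtain ⟨B, hB⟩ := h4 F hFc hFx hF1 j lam hlam hM1 hO1 hsl
  obtain ⟨K, hKd⟩ : ∃ K : ℝ, K = F.Λ ^ (e / 3 * u) := ⟨_, rfl⟩
  rw [← hKd] at hB
  have hK0 : 0 < K := by rw [hKd]; exact Real.rpow_pos_of_pos hΛ0 _
  have hKe : K ≤ F.Λ ^ (e * u) := by
    rw [hKd]
    exact Real.rpow_le_rpow_of_exponent_le hΛ.le (by nlinarith)
  refine ⟨lam, B.R, B.J, B.Y', hlam, hnode.trans hμb, hB.R_sub, hB.J_nonneg, hB.J_le, ?_, ?_, ?_⟩
  · exact hB.card.trans (mul_le_mul_of_nonneg_right hKe (Nat.cast_nonneg _))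
  · intro z hz
    refine le_trans ?_ (hB.mass z hz)
    rw [Real.rpow_neg hΛ0.le]
    exact inv_anti₀ hK0 hKe
  · intro z _ ω₂
    have a1 := gma_ang hk hF hB hK0.le hΛu z ω₂
    refine a1.trans ?_
    have hl0 : 0 ≤ F.lcap j lam z ((F.D j).anc lam ω₂) := by
      unfold FCfg.lcap
      refine Finset.sum_nonneg fun ω _ => ?_
      split_ifs
      exacts [TGeo.leafw_nonneg (𝔊 := (F.D j).geo) (hF.sys j) z ω, le_rfl]
    refine mul_le_mul_of_nonneg_right ?_ hl0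
    have hp : 0 < F.Λ ^ (-u) := Real.rpow_pos_of_pos hΛ0 _
    rw [Real.mul_rpow (by norm_num) hp.le, ← Real.rpow_mul hΛ0.le]
    calc K ^ 2 * ((2 : ℝ) ^ γ * F.Λ ^ (-u * γ)) ≤ K ^ 2 * (K * F.Λ ^ (-u * γ)) := by
          rw [← hKd] at hΛγ
          gcongr
      _ = F.Λ ^ (-(γ * u) + e * u) := by
          rw [hKd, ← Real.rpow_natCast, ← Real.rpow_mul hΛ0.le, ← Real.rpow_add hΛ0, ← Real.rpow_add hΛ0]
          congr 1
          push_cast
          ring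

end

end Claimed.Agent.R257.FR3
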