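import Mathlib

/-!
# ROW 257, package FR3, unit MID, file 3: TWO TILTED LATTICES IN SPACE-TIME (counting)      (architect helper276)

PAPER-FREE, Mathlib only.   Space-time `= Fin (n+2) → ℝ`, coordinate `0` = TIME, `k = n+1` space coordinates.   A direction is `v` with `v 0 = 1` (`v l` = velocity).
* `mdTub s x v`   the spatial intercept label of `x` in the lattice of width `s` tilted by `v`:  `l ↦ ⌊(x l - x 0 * v l)/s⌋`  (`0` at `l = 0`)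
* `mdCel s x v`   the cell of width `s` and length `s²`:  `(mdTub s x v, ⌊x 0 / s²⌋)`          (`T_s(Z, Ω)` of H `frame.tex` l.846)
COUNTING (H l.1405-1441):
* `fm3_geo_sp`    a parent of width `wp` and a time label contain `≤ (2 wp/wc + 2)^(n+1)` children of width `wc`
* `fm3_geo_par`   a cell of width `wp` tilted by `v₂` meets `≤ 6^(n+3)` cells of width `up` tilted by `v₁` if `wp ≤ up` and the drift `|v₁ - v₂| wp² ≤ up`      (`v₁ = v₂`: non nested lattices)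
* `fm3_geo_rec`   TIME RECOVERY: the two intercept labels (widths `wp`, `uc`) of two directions with `|v₁ l - v₂ l| ≥ r0` leave `≤ 2 (wp + uc)/(r0 τ) + 2` time labels of length `τ`
Every `sorry` is a leaf `L-F3-M*` (statement frozen; prove in place).
-/

set_option autoImplicit false

namespace Claimed.Agent.R257

open scoped BigOperators

/-- the spatial intercept label -/
noncomputable def mdTub {n : ℕ} (s : ℝ) (x v : Fin (n + 2) → ℝ) : Fin (n + 2) → ℤ := fun l => ⌊(x l - x 0 * v l) / s⌋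

/-- the tilted cell of width `s` and length `s²` -/
noncomputable def mdCel {n : ℕ} (s : ℝ) (x v : Fin (n + 2) → ℝ) : (Fin (n + 2) → ℤ) × ℤ := (mdTub s x v, ⌊x 0 / s ^ 2⌋)

theorem md_geo_eqns_cite : True := by
  have := @mdTub.eq_1
  have := @mdCel.eq_1
  trivial

/-- equal labels: distance `≤ s` -/
theorem fm3_floor_close {s u u' : ℝ} (hs : 0 < s) (h : ⌊u / s⌋ = ⌊u' / s⌋) : |u - u'| ≤ s := by
  have h1 := Int.floor_le (u / s)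
  have h2 := Int.lt_floor_add_one (u / s)
  have h3 := Int.floor_le (u' / s)
  have h4 := Int.lt_floor_add_one (u' / s)
  rw [h] at h1 h2
  have h5 : |u / s - u' / s| ≤ 1 := by
    rw [abs_le]; constructor <;> linarith
  rw [← sub_div, abs_div, abs_of_pos hs, div_le_one hs] at h5
  exact h5

/-- the labels of the points within `D` of `u₀` -/
theorem fm3_floor_mem {s D u u₀ : ℝ} (hs : 0 < s) (h : |u - u₀| ≤ D) :
    ⌊u / s⌋ ∈ Finset.Icc ⌊(u₀ - D) / s⌋ ⌊(u₀ + D) / s⌋ := by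
  have h1 := abs_le.1 h
  rw [Finset.mem_Icc]
  constructor
  · exact Int.floor_le_floor (div_le_div_of_nonneg_right (by linarith) hs.le)
  · exact Int.floor_le_floor (div_le_div_of_nonneg_right (by linarith) hs.le)

theorem fm3_floor_card {s D : ℝ} (u₀ : ℝ) (hs : 0 < s) (hD : 0 ≤ D) :
    ((Finset.Icc ⌊(u₀ - D) / s⌋ ⌊(u₀ + D) / s⌋).card : ℝ) ≤ 2 * D / s + 2 := by
  rw [Int.card_Icc]
  have h1 := Int.floor_le ((u₀ + D) / s)
  have h2 := Int.lt_floor_add_one ((u₀ - D) / s)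
  have h3 : ⌊(u₀ - D) / s⌋ ≤ ⌊(u₀ + D) / s⌋ := Int.floor_le_floor (div_le_div_of_nonneg_right (by linarith) hs.le)
  have h4 : ((⌊(u₀ + D) / s⌋ + 1 - ⌊(u₀ - D) / s⌋).toNat : ℝ) = ((⌊(u₀ + D) / s⌋ + 1 - ⌊(u₀ - D) / s⌋ : ℤ) : ℝ) := by
    have : ((⌊(u₀ + D) / s⌋ + 1 - ⌊(u₀ - D) / s⌋).toNat : ℤ) = ⌊(u₀ + D) / s⌋ + 1 - ⌊(u₀ - D) / s⌋ :=
      Int.toNat_of_nonneg (by omega)
    exact_mod_cast this
  rw [h4]
  push_cast
  have h5 : (u₀ + D) / s - (u₀ - D) / s = 2 * D / s := by field_simp; ring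
  linarith

/-- LEAF `L-F3-M4`  **spatial labels.**
PLAN.  `S = Fintype.piFinset fun l => if l = 0 then {0} else Finset.Icc ⌊(u₀ l - wp)/wc⌋ ⌊(u₀ l + wp)/wc⌋`, `u₀ l = x₀ l - x₀ 0 * v l`.   Card: `Fintype.card_piFinset`, `Fin.prod_univ_succ`: the factor `l = 0` is `1`, the others `≤ 2 wp/wc + 2`
(`fm3_floor_card`, `Finset.prod_le_pow_card` or `Finset.prod_le_prod` + `Finset.prod_const`, `Finset.card_univ`, `Fintype.card_fin`).   Membership: `l = 0`: `x 0 - x 0 * v 0 = 0` (`hv`), `Int.floor_zero`;  `l ≠ 0`: `congrFun h l` + `fm3_floor_close` + `fm3_floor_mem`. -/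
theorem fm3_geo_sp (n : ℕ) {wp wc : ℝ} (hwp : 0 < wp) (hwc : 0 < wc) (v x₀ : Fin (n + 2) → ℝ) (hv : v 0 = 1) :
    ∃ S : Finset (Fin (n + 2) → ℤ), (S.card : ℝ) ≤ (2 * wp / wc + 2) ^ (n + 1) ∧
      ∀ x, mdTub wp x v = mdTub wp x₀ v → mdTub wc x v ∈ S := by
  refine ⟨Fintype.piFinset fun l : Fin (n + 2) => if l = 0 then {0} else
    Finset.Icc ⌊((x₀ l - x₀ 0 * v l) - wp) / wc⌋ ⌊((x₀ l - x₀ 0 * v l) + wp) / wc⌋, ?_, ?_⟩
  · rw [Fintype.card_piFinset, Nat.cast_prod, Fin.prod_univ_succ]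
    simp only [if_true, Finset.card_singleton, Nat.cast_one, one_mul, Fin.succ_ne_zero, if_false]
    calc ∏ i : Fin (n + 1), ((Finset.Icc ⌊((x₀ i.succ - x₀ 0 * v i.succ) - wp) / wc⌋ ⌊((x₀ i.succ - x₀ 0 * v i.succ) + wp) / wc⌋).card : ℝ)
        ≤ ∏ _i : Fin (n + 1), (2 * wp / wc + 2) :=
          Finset.prod_le_prod (fun i _ => Nat.cast_nonneg _) fun i _ => fm3_floor_card _ hwc hwp.le
      _ = _ := by rw [Finset.prod_const, Finset.card_univ, Fintype.card_fin]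
  · intro x h
    rw [Fintype.mem_piFinset]
    intro l
    by_cases hl : l = 0
    · rw [if_pos hl, Finset.mem_singleton, hl]
      unfold mdTub
      rw [hv, mul_one, sub_self, zero_div, Int.floor_zero]
    · rw [if_neg hl]
      exact fm3_floor_mem hwc (fm3_floor_close hwp (congrFun h l))

/-- LEAF `L-F3-M5`  **a tilted cell meets few larger cells of a nearby direction.**
PLAN.  `S = (Fintype.piFinset fun l => Finset.Icc ⌊(u₀ l - 2 up)/up⌋ ⌊(u₀ l + 2 up)/up⌋) ×ˢ Finset.Icc ⌊(x₀ 0 - up²)/up²⌋ ⌊(x₀ 0 + up²)/up²⌋`, `u₀ l = x₀ l - x₀ 0 * v₁ l`.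
Card `≤ 6^(n+2) * 4 ≤ 6^(n+3)` (`fm3_floor_card` with `D = 2 up`: `2 (2 up)/up + 2 = 6`;  `D = up²`: `4`).
Membership: from `h`: `|(x l - x 0 v₂ l) - (x₀ l - x₀ 0 v₂ l)| ≤ wp` and `|x 0 - x₀ 0| ≤ wp² ≤ up²` (`fm3_floor_close`, `pow_le_pow_left₀`);
`(x l - x 0 v₁ l) - (x₀ l - x₀ 0 v₁ l) = [(x l - x 0 v₂ l) - (x₀ l - x₀ 0 v₂ l)] - (x 0 - x₀ 0)(v₁ l - v₂ l)`, so `≤ wp + wp² Ad ≤ 2 up`. -/
theorem fm3_geo_par (n : ℕ) {wp up Ad : ℝ} (hwp : 0 < wp) (h1 : wp ≤ up) (h2 : Ad * wp ^ 2 ≤ up)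
    (v₁ v₂ x₀ : Fin (n + 2) → ℝ) (hA : ∀ l, |v₁ l - v₂ l| ≤ Ad) :
    ∃ S : Finset ((Fin (n + 2) → ℤ) × ℤ), (S.card : ℝ) ≤ 6 ^ (n + 3) ∧
      ∀ x, mdCel wp x v₂ = mdCel wp x₀ v₂ → mdCel up x v₁ ∈ S := by
  have hup : 0 < up := hwp.trans_le h1
  have hup2 : 0 < up ^ 2 := by positivity
  have hAd : 0 ≤ Ad := (abs_nonneg _).trans (hA 0)
  refine ⟨(Fintype.piFinset fun l : Fin (n + 2) =>
    Finset.Icc ⌊((x₀ l - x₀ 0 * v₁ l) - 2 * up) / up⌋ ⌊((x₀ l - x₀ 0 * v₁ l) + 2 * up) / up⌋) ×ˢ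
      Finset.Icc ⌊(x₀ 0 - up ^ 2) / up ^ 2⌋ ⌊(x₀ 0 + up ^ 2) / up ^ 2⌋, ?_, ?_⟩
  · rw [Finset.card_product, Nat.cast_mul, Fintype.card_piFinset, Nat.cast_prod]
    have c1 : ∏ l : Fin (n + 2), ((Finset.Icc ⌊((x₀ l - x₀ 0 * v₁ l) - 2 * up) / up⌋ ⌊((x₀ l - x₀ 0 * v₁ l) + 2 * up) / up⌋).card : ℝ) ≤ 6 ^ (n + 2) := by
      calc _ ≤ ∏ _l : Fin (n + 2), (6 : ℝ) := by
            refine Finset.prod_le_prod (fun i _ => Nat.cast_nonneg _) fun l _ => ?_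
            refine (fm3_floor_card _ hup (by positivity)).trans (le_of_eq ?_)
            field_simp
            norm_num
        _ = _ := by rw [Finset.prod_const, Finset.card_univ, Fintype.card_fin]
    have c2 : ((Finset.Icc ⌊(x₀ 0 - up ^ 2) / up ^ 2⌋ ⌊(x₀ 0 + up ^ 2) / up ^ 2⌋).card : ℝ) ≤ 6 := by
      refine (fm3_floor_card _ hup2 hup2.le).trans ?_
      have : 2 * up ^ 2 / up ^ 2 = 2 := by field_simp
      rw [this]
      norm_num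
    calc _ ≤ (6 : ℝ) ^ (n + 2) * 6 := mul_le_mul c1 c2 (Nat.cast_nonneg _) (by positivity)
      _ = _ := by ring
  · intro x h
    have hT : mdTub wp x v₂ = mdTub wp x₀ v₂ := congrArg Prod.fst h
    have ht : ⌊x 0 / wp ^ 2⌋ = ⌊x₀ 0 / wp ^ 2⌋ := congrArg Prod.snd h
    have b2 : |x 0 - x₀ 0| ≤ wp ^ 2 := fm3_floor_close (by positivity) ht
    rw [Finset.mem_product]
    constructor
    · rw [Fintype.mem_piFinset]
      intro l
      refine fm3_floor_mem hup ?_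
      have b1 : |(x l - x 0 * v₂ l) - (x₀ l - x₀ 0 * v₂ l)| ≤ wp := fm3_floor_close hwp (congrFun hT l)
      have e : (x l - x 0 * v₁ l) - (x₀ l - x₀ 0 * v₁ l)
          = ((x l - x 0 * v₂ l) - (x₀ l - x₀ 0 * v₂ l)) - (x 0 - x₀ 0) * (v₁ l - v₂ l) := by ring
      have b3 : |(x 0 - x₀ 0) * (v₁ l - v₂ l)| ≤ wp ^ 2 * Ad := by
        rw [abs_mul]
        exact mul_le_mul b2 (hA l) (abs_nonneg _) (by positivity)
      rw [e]
      refine (abs_sub _ _).trans ?_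
      nlinarith
    · refine fm3_floor_mem hup2 (b2.trans ?_)
      exact pow_le_pow_left₀ hwp.le h1 2

/-- LEAF `L-F3-M6`  **time recovery.**
PLAN.  `S = Finset.Icc ⌊(x₀ 0 - D)/τ⌋ ⌊(x₀ 0 + D)/τ⌋`, `D = (wp + uc)/r0`; `fm3_floor_card` (`2 D/τ = 2 (wp+uc)/(r0 τ)`: `field_simp`).
Membership: `(x 0 - x₀ 0)(v₁ l - v₂ l) = [(x l - x 0 v₂ l) - (x₀ l - x₀ 0 v₂ l)] - [(x l - x 0 v₁ l) - (x₀ l - x₀ 0 v₁ l)]`, absolute value `≤ wp + uc` (`fm3_floor_close` twice at the coordinate `l`),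
so `|x 0 - x₀ 0| r0 ≤ wp + uc` (`abs_mul`), `le_div_iff₀`; `fm3_floor_mem`. -/
theorem fm3_geo_rec (n : ℕ) {wp uc r0 τ : ℝ} (hwp : 0 < wp) (huc : 0 < uc) (hr0 : 0 < r0) (hτ : 0 < τ)
    (v₁ v₂ x₀ : Fin (n + 2) → ℝ) (l : Fin (n + 2)) (hl : r0 ≤ |v₁ l - v₂ l|) :
    ∃ S : Finset ℤ, (S.card : ℝ) ≤ 2 * (wp + uc) / (r0 * τ) + 2 ∧
      ∀ x, mdTub wp x v₂ = mdTub wp x₀ v₂ → mdTub uc x v₁ = mdTub uc x₀ v₁ → ⌊x 0 / τ⌋ ∈ S := by
  refine ⟨Finset.Icc ⌊(x₀ 0 - (wp + uc) / r0) / τ⌋ ⌊(x₀ 0 + (wp + uc) / r0) / τ⌋, ?_, ?_⟩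
  · refine (fm3_floor_card (x₀ 0) hτ (by positivity)).trans (le_of_eq ?_)
    field_simp
  · intro x h1 h2
    refine fm3_floor_mem hτ ?_
    have a1 : |(x l - x 0 * v₂ l) - (x₀ l - x₀ 0 * v₂ l)| ≤ wp := fm3_floor_close hwp (congrFun h1 l)
    have a2 : |(x l - x 0 * v₁ l) - (x₀ l - x₀ 0 * v₁ l)| ≤ uc := fm3_floor_close huc (congrFun h2 l)
    have e : (x 0 - x₀ 0) * (v₁ l - v₂ l)
        = ((x l - x 0 * v₂ l) - (x₀ l - x₀ 0 * v₂ l)) - ((x l - x 0 * v₁ l) - (x₀ l - x₀ 0 * v₁ l)) := by ring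
    have a3 : |x 0 - x₀ 0| * |v₁ l - v₂ l| ≤ wp + uc := by
      rw [← abs_mul, e]
      exact (abs_sub _ _).trans (add_le_add a1 a2)
    rw [le_div_iff₀ hr0]
    calc |x 0 - x₀ 0| * r0 ≤ |x 0 - x₀ 0| * |v₁ l - v₂ l| := by gcongr
      _ ≤ _ := a3

/-- **two witnesses of one unit cube** (cross field: the two fields have SEPARATE witnesses `x¹`, `x²` with `|x¹ - x²| ≤ c0`; `c1 ≥ c0 (1 + |v₁|)`).
A cell of width `wp` tilted by `v₂` (positions `x²`) meets `≤ 8^(n+3)` cells of width `up` tilted by `v₁` (positions `x¹`). -/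
theorem fm3_geo_par2 (n : ℕ) {wp up Ad c0 c1 : ℝ} (hwp : 0 < wp) (h1 : wp ≤ up) (h2 : Ad * wp ^ 2 ≤ up) (hc1 : c1 ≤ up)
    (hc0 : c0 ≤ up ^ 2) (v₁ v₂ x₀ : Fin (n + 2) → ℝ) (hA : ∀ l, |v₁ l - v₂ l| ≤ Ad) :
    ∃ S : Finset ((Fin (n + 2) → ℤ) × ℤ), (S.card : ℝ) ≤ 8 ^ (n + 3) ∧
      ∀ x x' : Fin (n + 2) → ℝ, |x' 0 - x 0| ≤ c0 → (∀ l, |(x' l - x' 0 * v₁ l) - (x l - x 0 * v₁ l)| ≤ c1) →
        mdCel wp x v₂ = mdCel wp x₀ v₂ → mdCel up x' v₁ ∈ S := by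
  have hup : 0 < up := hwp.trans_le h1
  have hup2 : 0 < up ^ 2 := by positivity
  have hAd : 0 ≤ Ad := (abs_nonneg _).trans (hA 0)
  refine ⟨(Fintype.piFinset fun l : Fin (n + 2) =>
    Finset.Icc ⌊((x₀ l - x₀ 0 * v₁ l) - 3 * up) / up⌋ ⌊((x₀ l - x₀ 0 * v₁ l) + 3 * up) / up⌋) ×ˢ
      Finset.Icc ⌊(x₀ 0 - 2 * up ^ 2) / up ^ 2⌋ ⌊(x₀ 0 + 2 * up ^ 2) / up ^ 2⌋, ?_, ?_⟩
  · rw [Finset.card_product, Nat.cast_mul, Fintype.card_piFinset, Nat.cast_prod]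
    have c1 : ∏ l : Fin (n + 2), ((Finset.Icc ⌊((x₀ l - x₀ 0 * v₁ l) - 3 * up) / up⌋ ⌊((x₀ l - x₀ 0 * v₁ l) + 3 * up) / up⌋).card : ℝ) ≤ 8 ^ (n + 2) := by
      calc _ ≤ ∏ _l : Fin (n + 2), (8 : ℝ) := by
            refine Finset.prod_le_prod (fun i _ => Nat.cast_nonneg _) fun l _ => ?_
            refine (fm3_floor_card _ hup (by positivity)).trans (le_of_eq ?_)
            field_simp
            norm_num
        _ = _ := by rw [Finset.prod_const, Finset.card_univ, Fintype.card_fin]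
    have c2 : ((Finset.Icc ⌊(x₀ 0 - 2 * up ^ 2) / up ^ 2⌋ ⌊(x₀ 0 + 2 * up ^ 2) / up ^ 2⌋).card : ℝ) ≤ 8 := by
      refine (fm3_floor_card _ hup2 (by positivity)).trans ?_
      have : 2 * (2 * up ^ 2) / up ^ 2 = 4 := by field_simp; norm_num
      rw [this]
      norm_num
    calc _ ≤ (8 : ℝ) ^ (n + 2) * 8 := mul_le_mul c1 c2 (Nat.cast_nonneg _) (by positivity)
      _ = _ := by ring
  · intro x x' hx0 hx1 h
    have hT : mdTub wp x v₂ = mdTub wp x₀ v₂ := congrArg Prod.fst h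
    have ht : ⌊x 0 / wp ^ 2⌋ = ⌊x₀ 0 / wp ^ 2⌋ := congrArg Prod.snd h
    have b2 : |x 0 - x₀ 0| ≤ wp ^ 2 := fm3_floor_close (by positivity) ht
    have b2' : wp ^ 2 ≤ up ^ 2 := pow_le_pow_left₀ hwp.le h1 2
    rw [Finset.mem_product]
    constructor
    · rw [Fintype.mem_piFinset]
      intro l
      refine fm3_floor_mem hup ?_
      have b1 : |(x l - x 0 * v₂ l) - (x₀ l - x₀ 0 * v₂ l)| ≤ wp := fm3_floor_close hwp (congrFun hT l)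
      have e : (x' l - x' 0 * v₁ l) - (x₀ l - x₀ 0 * v₁ l)
          = ((x' l - x' 0 * v₁ l) - (x l - x 0 * v₁ l)) +
            (((x l - x 0 * v₂ l) - (x₀ l - x₀ 0 * v₂ l)) - (x 0 - x₀ 0) * (v₁ l - v₂ l)) := by ring
      have b3 : |(x 0 - x₀ 0) * (v₁ l - v₂ l)| ≤ wp ^ 2 * Ad := by
        rw [abs_mul]
        exact mul_le_mul b2 (hA l) (abs_nonneg _) (by positivity)
      rw [e]
      refine (abs_add_le _ _).trans ?_
      have := (abs_sub ((x l - x 0 * v₂ l) - (x₀ l - x₀ 0 * v₂ l)) ((x 0 - x₀ 0) * (v₁ l - v₂ l)))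
      have := hx1 l
      nlinarith
    · refine fm3_floor_mem hup2 ?_
      have e : x' 0 - x₀ 0 = (x' 0 - x 0) + (x 0 - x₀ 0) := by ring
      rw [e]
      refine (abs_add_le _ _).trans ?_
      linarith

/-- **time recovery with two witnesses** -/
theorem fm3_geo_rec2 (n : ℕ) {wp uc r0 τ c1 : ℝ} (hwp : 0 < wp) (huc : 0 < uc) (hr0 : 0 < r0) (hτ : 0 < τ) (hc1 : 0 ≤ c1)
    (v₁ v₂ x₀ x₀' : Fin (n + 2) → ℝ) (h0 : ∀ l, |(x₀' l - x₀' 0 * v₁ l) - (x₀ l - x₀ 0 * v₁ l)| ≤ c1)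
    (l : Fin (n + 2)) (hl : r0 ≤ |v₁ l - v₂ l|) :
    ∃ S : Finset ℤ, (S.card : ℝ) ≤ 2 * (wp + uc + 2 * c1) / (r0 * τ) + 2 ∧
      ∀ x x' : Fin (n + 2) → ℝ, (∀ l, |(x' l - x' 0 * v₁ l) - (x l - x 0 * v₁ l)| ≤ c1) →
        mdTub wp x v₂ = mdTub wp x₀ v₂ → mdTub uc x' v₁ = mdTub uc x₀' v₁ → ⌊x 0 / τ⌋ ∈ S := by
  refine ⟨Finset.Icc ⌊(x₀ 0 - (wp + uc + 2 * c1) / r0) / τ⌋ ⌊(x₀ 0 + (wp + uc + 2 * c1) / r0) / τ⌋, ?_, ?_⟩
  · refine (fm3_floor_card (x₀ 0) hτ (by positivity)).trans (le_of_eq ?_)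
    field_simp
  · intro x x' hx h1 h2
    refine fm3_floor_mem hτ ?_
    have a1 : |(x l - x 0 * v₂ l) - (x₀ l - x₀ 0 * v₂ l)| ≤ wp := fm3_floor_close hwp (congrFun h1 l)
    have a2 : |(x' l - x' 0 * v₁ l) - (x₀' l - x₀' 0 * v₁ l)| ≤ uc := fm3_floor_close huc (congrFun h2 l)
    have a4 := hx l
    have a5 := h0 l
    have e : (x 0 - x₀ 0) * (v₁ l - v₂ l)
        = ((x l - x 0 * v₂ l) - (x₀ l - x₀ 0 * v₂ l)) - ((x' l - x' 0 * v₁ l) - (x₀' l - x₀' 0 * v₁ l))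
          + ((x' l - x' 0 * v₁ l) - (x l - x 0 * v₁ l)) - ((x₀' l - x₀' 0 * v₁ l) - (x₀ l - x₀ 0 * v₁ l)) := by ring
    have a3 : |x 0 - x₀ 0| * |v₁ l - v₂ l| ≤ wp + uc + 2 * c1 := by
      rw [← abs_mul, e]
      have b1 := abs_le.1 a1
      have b2 := abs_le.1 a2
      have b4 := abs_le.1 a4
      have b5 := abs_le.1 a5
      rw [abs_le]
      constructor <;> linarith [b1.1, b1.2, b2.1, b2.2, b4.1, b4.2, b5.1, b5.2]
    rw [le_div_iff₀ hr0]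
    calc |x 0 - x₀ 0| * r0 ≤ |x 0 - x₀ 0| * |v₁ l - v₂ l| := by gcongr
      _ ≤ _ := a3

end Claimed.Agent.R257
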