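import Claimed.Agent.R257.FR3.MidLaw
import Claimed.Agent.R257.FR3.MidGeo

/-!
# ROW 257, package FR3, unit MID (`f:midpoint`, H `frame.tex` l.1389-1452), file 4: THE ABSTRACT CONFIGURATION AND ITS INEQUALITY      (architect helper276)

PAPER-FREE.   EXIT (A) OF THE UNIT: `fm3_cfg` (explicit inequality), `fm3_no_cfg` (file `MidNum.lean`: no configuration with small losses).
DICTIONARY.  `k = n+1`.   PHYSICAL coordinates (no native normalisation is needed: the floor labels of `mdCel` do not depend on it).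
* `x : 𝒳`        same field: a pair (root point `Z`, cap `τ_l`);  cross field: the root point (unit cube) `Z`.      `pos_j x ∈ ℝ^(n+2)` = physical position of the witness of the field of the `j`-th path, coordinate `0` = TIME
                 (same field: `pos₁ = pos₂`;  cross field: SEPARATE witnesses in one unit cube, `near0`, `near1`).
* `θ₁ : 𝒯₁`      fine direction of the FIRST path (the field which has full slope at `a`), `θ₂ : 𝒯₂` of the SECOND path (tested at `b = (l+a)/2`);   `dir θ = (1, velocity)`.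
* `P₁`, `P₂`     joint laws of `(x, θ₁)`, `(x, θ₂)` (same marginal of `x`);  the two directions are drawn independently given `x` (`md2Law`).
* widths         `wp = κ(b+σ/2)`, `wc = κ(b-σ/2)` (second parent / child),  `up = κ(a+σ)`, `uc = κ(a-σ)` (first parent / child).     `cel s (x,θ) = mdCel s (pos x) (dir θ)` = `T_s(Z, Ω)`.
* `Ad`           bound of the velocity differences (`C/κ(l)`),  `r0` = separation (`κ(l)^{-1} Λ^{-η}`);     `drift` : `Ad wp² ≤ up`  (H l.1413-1419: `κ(l)^{-1} κ(b+σ/2)² = κ(a+σ)`).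
* `ν (c, θ₂)`    reference law of the first direction on the second parent `c` (endpoint square weights at the centre of `c`, normalised in `τ_l`; `f:conditioning`).
HYPOTHESES `MdCfg.Ok`:  `occ*` = four halves of `f:occupancy-law` (`tp_occ_law`);  `dom` + `ν1` = domination by the reference law (UNIFORM on the support: prune the atypical `(Z, τ_l)` first);
`sep` = `f:angular` (a ball of radius `r0` lies in a strip; UNIFORM) or root transversality (`δ = 0`).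
-/

set_option autoImplicit false

namespace Claimed.Agent.R257

open scoped BigOperators
open Classical
open Claimed.Agent.R255 Claimed.Agent.R255.FLaw

/-- the data of MID -/
structure MdCfg (n : ℕ) (𝒳 𝒯₁ 𝒯₂ : Type) [Fintype 𝒳] [Fintype 𝒯₁] [Fintype 𝒯₂] where
  P₁ : FLaw (𝒳 × 𝒯₁)
  P₂ : FLaw (𝒳 × 𝒯₂)
  pos₁ : 𝒳 → Fin (n + 2) → ℝ
  pos₂ : 𝒳 → Fin (n + 2) → ℝ
  dir₁ : 𝒯₁ → Fin (n + 2) → ℝ
  dir₂ : 𝒯₂ → Fin (n + 2) → ℝ
  ν : ((Fin (n + 2) → ℤ) × ℤ) × 𝒯₂ → 𝒯₁ → ℝ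

namespace MdCfg

variable {n : ℕ} {𝒳 𝒯₁ 𝒯₂ : Type} [Fintype 𝒳] [Fintype 𝒯₁] [Fintype 𝒯₂] (F : MdCfg n 𝒳 𝒯₁ 𝒯₂)

/-- the cell of width `s` of the first path -/
noncomputable def cel₁ (s : ℝ) (y : 𝒳 × 𝒯₁) : (Fin (n + 2) → ℤ) × ℤ := mdCel s (F.pos₁ y.1) (F.dir₁ y.2)

/-- the cell of width `s` of the second path -/
noncomputable def cel₂ (s : ℝ) (y : 𝒳 × 𝒯₂) : (Fin (n + 2) → ℤ) × ℤ := mdCel s (F.pos₂ y.1) (F.dir₂ y.2)

/-- **the hypotheses of MID** -/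
structure Ok (wp wc up uc Mp Mc Np Nc Ad r0 c0 c1 K K₁ δ ε : ℝ) : Prop where
  marg : ∀ x, rdM F.P₁ x = rdM F.P₂ x
  dir₂0 : ∀ θ, F.dir₂ θ 0 = 1
  wc_pos : 0 < wc
  wp_pos : 0 < wp
  uc_pos : 0 < uc
  wp_le : wp ≤ up
  uc_le : uc ≤ up
  drift : Ad * wp ^ 2 ≤ up
  r0_pos : 0 < r0
  Mp_pos : 0 < Mp
  Np_pos : 0 < Np
  K_nonneg : 0 ≤ K
  /-- the two witnesses of the point (same field: `pos₁ = pos₂`, `c0 = c1 = 0`) -/
  c1_nonneg : 0 ≤ c1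
  c1_le : c1 ≤ up
  c0_le : c0 ≤ up ^ 2
  near0 : ∀ x, |F.pos₁ x 0 - F.pos₂ x 0| ≤ c0
  near1 : ∀ x θ₁, F.P₁.p (x, θ₁) ≠ 0 →
    ∀ l, |(F.pos₁ x l - F.pos₁ x 0 * F.dir₁ θ₁ l) - (F.pos₂ x l - F.pos₂ x 0 * F.dir₁ θ₁ l)| ≤ c1
  /-- the two velocities differ by at most `Ad` -/
  diff : ∀ x θ₁ θ₂, F.P₁.p (x, θ₁) ≠ 0 → F.P₂.p (x, θ₂) ≠ 0 → ∀ l, |F.dir₁ θ₁ l - F.dir₂ θ₂ l| ≤ Ad
  /-- occupancy law, second path, lower half at the parent -/
  occ2p : F.P₂.pr (fun y => F.P₂.fib (pair (F.cel₂ wp) Prod.snd) y < Mp * F.P₂.fib (pair Prod.fst Prod.snd) y) ≤ ε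
  /-- occupancy law, second path, upper half at the child -/
  occ2c : F.P₂.pr (fun y => Mc * F.P₂.fib (pair Prod.fst Prod.snd) y < F.P₂.fib (pair (F.cel₂ wc) Prod.snd) y) ≤ ε
  /-- occupancy law, first path, upper half at the parent -/
  occ1p : F.P₁.pr (fun y => Np * F.P₁.fib (pair Prod.fst Prod.snd) y < F.P₁.fib (pair (F.cel₁ up) Prod.snd) y) ≤ ε
  /-- occupancy law, first path, lower half at the child -/
  occ1c : F.P₁.pr (fun y => F.P₁.fib (pair (F.cel₁ uc) Prod.snd) y < Nc * F.P₁.fib (pair Prod.fst Prod.snd) y) ≤ ε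
  /-- the reference laws -/
  ν0 : ∀ c θ, 0 ≤ F.ν c θ
  ν1 : ∀ c, ∑ θ, F.ν c θ ≤ K₁
  dom : ∀ x θ₂ θ₁, F.P₂.p (x, θ₂) ≠ 0 → F.P₁.p (x, θ₁) ≤ K * F.ν (F.cel₂ wp (x, θ₂), θ₂) θ₁ * rdM F.P₁ x
  /-- separation of the two velocities -/
  sep : ∀ x θ₂, F.P₂.p (x, θ₂) ≠ 0 →
    ∑ θ₁ with (∀ l, |F.dir₁ θ₁ l - F.dir₂ θ₂ l| < r0), F.P₁.p (x, θ₁) ≤ δ * rdM F.P₁ x

end MdCfg

theorem md_cfg_eqns_cite : True := by
  have := @MdCfg.cel₁.eq_1
  have := @MdCfg.cel₂.eq_1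
  trivial

variable {n : ℕ} {𝒳 𝒯₁ 𝒯₂ : Type} [Fintype 𝒳] [Fintype 𝒯₁] [Fintype 𝒯₂]

/-- transfer of a sampled fibre inequality from a marginal -/
theorem fm3_transfer {Ω Ω' : Type} [Fintype Ω] [Fintype Ω'] {α β : Type} (R : FLaw Ω) (φ : Ω → Ω') (Q : FLaw Ω')
    (hQ : R.map φ = Q) (X : Ω' → α) (Y : Ω' → β) (c d : ℝ) :
    R.pr (fun y => c * R.fib (fun y => X (φ y)) y < d * R.fib (fun y => Y (φ y)) y) =
      Q.pr (fun y => c * Q.fib X y < d * Q.fib Y y) := by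
  subst hQ
  rw [ent_map_pr]
  simp only [ent_map_fib]

/-- `NVal` may be checked at the points of the support -/
theorem fm3_nval_of_supp {Ω : Type} [Fintype Ω] {α β : Type} (P : FLaw Ω) (E : Ω → Prop) (B : Ω → β) (A : Ω → α) {N : ℝ}
    (hN : 0 ≤ N)
    (h : ∀ ω₀, P.p ω₀ ≠ 0 → ∃ S : Finset β, (S.card : ℝ) ≤ N ∧ ∀ ω, P.p ω ≠ 0 → E ω → A ω = A ω₀ → B ω ∈ S) :
    P.NVal E B A N := by
  intro ω₀
  by_cases hex : ∃ ω₁, P.p ω₁ ≠ 0 ∧ A ω₁ = A ω₀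
  · obtain ⟨ω₁, h1, h2⟩ := hex
    obtain ⟨S, hS, hS'⟩ := h ω₁ h1
    exact ⟨S, hS, fun ω hω hE hA => hS' ω hω hE (hA.trans h2.symm)⟩
  · exact ⟨∅, by simpa using hN, fun ω hω _ hA => absurd ⟨ω, hω, hA⟩ hex⟩

/-- **THE INEQUALITY OF MID** -/
theorem fm3_cfg (F : MdCfg n 𝒳 𝒯₁ 𝒯₂) {wp wc up uc Mp Mc Np Nc Ad r0 c0 c1 K K₁ δ ε ε' t : ℝ}
    (h : F.Ok wp wc up uc Mp Mc Np Nc Ad r0 c0 c1 K K₁ δ ε) (ht : 0 < t) (h1 : ε ≤ ε') (h2 : δ ≤ ε') (h3 : (K₁ + 1) / t ≤ ε')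
    (hε : 6 * ε' + 5 / t < 1) :
    Mp * Nc ≤ K * t ^ 6 * ((2 * wp / wc + 2) ^ (n + 1) * (2 * (wp + uc + 2 * c1) / (r0 * wc ^ 2) + 2) * 8 ^ (n + 3) * 6 ^ (n + 3)) *
      (Mc * Np) := by
  set R := md2Law F.P₁ F.P₂ h.marg with hR
  have m1 : R.map (fun y => (y.1, y.2.1)) = F.P₁ := md2_map1 F.P₁ F.P₂ h.marg
  have m2 : R.map (fun y => (y.1, y.2.2)) = F.P₂ := md2_map2 F.P₁ F.P₂ h.marg
  have hup : 0 < up := h.wp_pos.trans_le h.wp_le
  have core : MidCore R (fun y => y.1) (fun y => y.2.1) (fun y => y.2.2) (fun y => F.cel₂ wp (y.1, y.2.2))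
      (fun y => F.cel₂ wc (y.1, y.2.2)) (fun y => ⌊F.pos₂ y.1 0 / wc ^ 2⌋) (fun y => F.cel₁ up (y.1, y.2.1))
      (fun y => F.cel₁ uc (y.1, y.2.1)) (fun y => ∃ l, r0 ≤ |F.dir₁ y.2.1 l - F.dir₂ y.2.2 l|)
      Mp Mc Np Nc ((2 * wp / wc + 2) ^ (n + 1)) (2 * (wp + uc + 2 * c1) / (r0 * wc ^ 2) + 2) (8 ^ (n + 3)) (6 ^ (n + 3)) (K * t) ε' := by
    have hwpc : 0 < 2 * wp / wc + 2 := by
      have := h.wp_pos; have := h.wc_pos; positivity
    refine ⟨h.Mp_pos, h.Np_pos, by positivity, ?_, by positivity, by positivity, ?_, ?_, ?_, ?_, ?_, ?_, ?_, ?_, ?_, ?_, ?_⟩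
    · have := h.wp_pos; have := h.wc_pos; have := h.uc_pos; have := h.r0_pos; have := h.c1_nonneg
      have : 0 ≤ 2 * (wp + uc + 2 * c1) / (r0 * wc ^ 2) := by positivity
      linarith
    · -- occ2p
      have e := fm3_transfer R (fun y => (y.1, y.2.2)) F.P₂ m2 (pair (F.cel₂ wp) Prod.snd) (pair Prod.fst Prod.snd) 1 Mp
      simp only [one_mul] at e
      exact (le_of_eq e).trans (h.occ2p.trans h1)
    · -- occ2c
      have e := fm3_transfer R (fun y => (y.1, y.2.2)) F.P₂ m2 (pair Prod.fst Prod.snd) (pair (F.cel₂ wc) Prod.snd) Mc 1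
      simp only [one_mul] at e
      exact (le_of_eq e).trans (h.occ2c.trans h1)
    · -- occ1p
      have e := fm3_transfer R (fun y => (y.1, y.2.1)) F.P₁ m1 (pair Prod.fst Prod.snd) (pair (F.cel₁ up) Prod.snd) Np 1
      simp only [one_mul] at e
      exact (le_of_eq e).trans (h.occ1p.trans h1)
    · -- occ1c
      have e := fm3_transfer R (fun y => (y.1, y.2.1)) F.P₁ m1 (pair (F.cel₁ uc) Prod.snd) (pair Prod.fst Prod.snd) 1 Nc
      simp only [one_mul] at e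
      exact (le_of_eq e).trans (h.occ1c.trans h1)
    · -- sp
      intro y₀
      obtain ⟨S, hS, hS'⟩ := fm3_geo_sp n h.wp_pos h.wc_pos (F.dir₂ y₀.2.2) (F.pos₂ y₀.1) (h.dir₂0 _)
      refine ⟨S.image fun a => (a, ⌊F.pos₂ y₀.1 0 / wc ^ 2⌋), (Nat.cast_le.2 Finset.card_image_le).trans hS, ?_⟩
      intro y _ _ hy
      simp only [FLaw.pair, Prod.mk.injEq, MdCfg.cel₂, mdCel] at hy
      obtain ⟨hy1, ⟨hy2, -⟩, hy3⟩ := hy
      rw [hy3] at hy2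
      refine Finset.mem_image.2 ⟨mdTub wc (F.pos₂ y.1) (F.dir₂ y₀.2.2), hS' _ hy2, ?_⟩
      simp only [MdCfg.cel₂, mdCel, hy3, hy1]
    · -- cond
      have hc := fp_cond R (fun y => ⌊F.pos₂ y.1 0 / wc ^ 2⌋)
        (pair (fun y : 𝒳 × 𝒯₁ × 𝒯₂ => F.cel₂ wp (y.1, y.2.2)) (fun y => y.2.2)) (fun y => y.2.1) F.ν h.ν0 (K₁ := K₁) (K := K) (t := t)
        (fun c S => (Finset.sum_le_sum_of_subset_of_nonneg (Finset.subset_univ S) fun θ _ _ => h.ν0 c θ).trans (h.ν1 c))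
        h.K_nonneg (fun _ => False)
        (fun y _ _ => md2_dom F.P₁ F.P₂ h.marg (fun x => ⌊F.pos₂ x 0 / wc ^ 2⌋) (fun v => (F.cel₂ wp v, v.2)) F.ν K h.dom y) ht
      rw [ent_pr_false, zero_add] at hc
      refine le_trans (ent_pr_mono R fun y _ hb hcon => ?_) (hc.trans h3)
      exact absurd hb (not_lt.2 hcon.2)
    · -- par
      refine fm3_nval_of_supp R _ _ _ (by positivity) fun y₀ hy₀ => ?_
      obtain ⟨s1, s2⟩ := md2_supp F.P₁ F.P₂ h.marg y₀ hy₀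
      obtain ⟨S, hS, hS'⟩ := fm3_geo_par2 n h.wp_pos h.wp_le h.drift h.c1_le h.c0_le (F.dir₁ y₀.2.1) (F.dir₂ y₀.2.2)
        (F.pos₂ y₀.1) (h.diff _ _ _ s1 s2)
      refine ⟨S, hS, fun y hyp _ hy => ?_⟩
      simp only [FLaw.pair, Prod.mk.injEq, MdCfg.cel₂] at hy
      obtain ⟨⟨hy1, hy2⟩, hy3⟩ := hy
      rw [hy2] at hy1
      have hn := h.near1 y.1 y.2.1 (md2_supp F.P₁ F.P₂ h.marg y hyp).1
      rw [hy3] at hn
      simp only [MdCfg.cel₁, hy3]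
      exact hS' _ _ (h.near0 _) hn hy1
    · -- nest
      intro y₀
      obtain ⟨S, hS, hS'⟩ := fm3_geo_par n (Ad := 0) h.uc_pos h.uc_le (by rw [zero_mul]; exact hup.le) (F.dir₁ y₀.2.1)
        (F.dir₁ y₀.2.1) (F.pos₁ y₀.1) (fun l => by simp)
      refine ⟨S, hS, fun y _ _ hy => ?_⟩
      simp only [FLaw.pair, Prod.mk.injEq, MdCfg.cel₁] at hy
      obtain ⟨hy1, hy2⟩ := hy
      rw [hy2] at hy1
      simp only [MdCfg.cel₁, hy2]
      exact hS' _ hy1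
    · -- E_fun
      intro y y' e1 e2
      have e1' : y.2.1 = y'.2.1 := e1
      have e2' : y.2.2 = y'.2.2 := e2
      rw [e1', e2']
    · -- E_pr
      have := md2_expose F.P₁ F.P₂ h.marg (fun _ θ₂ θ₁ => ∀ l, |F.dir₁ θ₁ l - F.dir₂ θ₂ l| < r0) δ
        (fun x θ₂ hx => by have := h.sep x θ₂ hx; convert this)
      refine le_trans (ent_pr_mono R fun y _ hy => ?_) (this.trans h2)
      push Not at hy
      exact hy
    · -- recov
      have hNt0 : 0 ≤ 2 * (wp + uc + 2 * c1) / (r0 * wc ^ 2) + 2 := by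
        have := h.wp_pos; have := h.wc_pos; have := h.uc_pos; have := h.r0_pos; have := h.c1_nonneg
        positivity
      refine fm3_nval_of_supp R _ _ _ hNt0 fun y₀ hy₀ => ?_
      by_cases hE : ∃ l, r0 ≤ |F.dir₁ y₀.2.1 l - F.dir₂ y₀.2.2 l|
      · obtain ⟨l, hl⟩ := hE
        obtain ⟨S, hS, hS'⟩ := fm3_geo_rec2 n h.wp_pos h.uc_pos h.r0_pos (pow_pos h.wc_pos 2) h.c1_nonneg (F.dir₁ y₀.2.1)
          (F.dir₂ y₀.2.2) (F.pos₂ y₀.1) (F.pos₁ y₀.1) (h.near1 y₀.1 y₀.2.1 (md2_supp F.P₁ F.P₂ h.marg y₀ hy₀).1) l hl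
        refine ⟨S, hS, fun y hyp _ hy => ?_⟩
        simp only [FLaw.pair, Prod.mk.injEq, MdCfg.cel₁, MdCfg.cel₂, mdCel] at hy
        obtain ⟨⟨hy1, -⟩, ⟨⟨hy2, -⟩, hy3⟩, hy4⟩ := hy
        rw [hy4] at hy1
        rw [hy3] at hy2
        have hn := h.near1 y.1 y.2.1 (md2_supp F.P₁ F.P₂ h.marg y hyp).1
        rw [hy4] at hn
        exact hS' _ _ hn hy2 hy1
      · refine ⟨∅, by simpa using hNt0, fun y _ hEy hy => ?_⟩
        simp only [FLaw.pair, Prod.mk.injEq] at hy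
        obtain ⟨-, ⟨-, hy3⟩, hy4⟩ := hy
        have hEy' : ∃ l, r0 ≤ |F.dir₁ y.2.1 l - F.dir₂ y.2.2 l| := hEy
        rw [hy3, hy4] at hEy'
        exact absurd hEy' hE
  have := fm3_core R _ _ _ _ _ _ _ _ _ core ht hε
  calc Mp * Nc ≤ _ := this
    _ = _ := by ring

end Claimed.Agent.R257
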