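import Claimed.Agent.R257.FR2.PathProb

/-!
# ROW 257, package FR3, unit MID (H `frame.tex` l.1389-1452, `f:midpoint`), file 1: THE SAMPLED TWO-PATH INEQUALITY      (architect + prover helper276)

PAPER-FREE, sorry-free.   Language = `R255/Base/Law.lean` + `R255/Ent/Basic.lean` + `R257/FR2/PathProb.lean`.
NO entropy, NO limits: the whole proof of `f:midpoint` is a chain of inequalities between fibre masses at ONE sample point which avoids eleven bad events of total probability `< 1`.

OBSERVATIONS.  `Z` root point;  `O1`, `O2` the two drawn directions;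
 `Pa` = second parent `T_{b+σ/2}(Z, O2)`,  `Ch` = second child `T_{b-σ/2}(Z, O2)`,  `Tm` = the time label of the child;
 `Ap` = first parent `T_{a+σ}(Z, O1)`,  `Am` = first child `T_{a-σ}(Z, O1)`.
HYPOTHESES (`MidCore`).
 `occ2p`, `occ2c`   occupancy law of the second path: LOWER half at the parent (size `Mp`), UPPER half at the child (size `Mc`)
 `occ1p`, `occ1c`   occupancy law of the first path: UPPER half at the parent (size `Np`), LOWER half at the child (size `Nc`)
 `sp`               given the second parent and the time label there are `≤ Nsp` children                        (spatial labels, `Λ^{kσ}`)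
 `cond`             adding the first direction raises the sampled probability of the time label by `≤ Kc`       (`f:conditioning`, `fp_cond`)
 `par`              the second parent meets `≤ m₁` first parents                                                 (drift identity)
 `nest`             a first child meets `≤ m₂` first parents                                                     (lattices need not be nested)
 `recov`            on the event `E` (velocities separated; a function of the two directions) the first child and the second parent leave `≤ Nt` time labels   (`Λ^η`)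
EXIT  `fm3_core` :  `Mp * Nc ≤ Kc * t ^ 5 * (Nsp * Nt * m₁ * m₂) * (Mc * Np)`.
With `Mp/Mc = Λ^{(k+2)σ - ..}` (zero slope at `b`), `Nc/Np = Λ^{-..}` (full slope at `a`), `Nsp = Λ^{kσ+..}`, `Nt = Λ^{η+..}` this reads `2σ ≤ η + errors`.
-/

set_option autoImplicit false

namespace Claimed.Agent.R257

open scoped BigOperators
open Classical
open Claimed.Agent.R255 Claimed.Agent.R255.FLaw

variable {Ω : Type} [Fintype Ω] {α β γ δ : Type}

/-- **tail of a label with few values**, fibre form: off probability `1/t`,  `P(A) ≤ N t P(B, A)`. -/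
theorem fm3_tail (P : FLaw Ω) (B : Ω → β) (A : Ω → α) {N t : ℝ} (h : P.NVal (fun _ => True) B A N) (hN : 0 < N)
    (ht : 0 < t) : P.pr (fun ω => N * t * P.fib (pair B A) ω < P.fib A ω) ≤ 1 / t := by
  have hK := ent_aux_nval_ev P B A h
  have hm := ent_markov P (f := fun ω => P.fib A ω / P.fib (pair B A) ω)
    (fun ω _ => div_nonneg (ent_fib_nonneg P _ _) (ent_fib_nonneg P _ _)) (t := N * t) (mul_pos hN ht)
  refine le_trans (ent_pr_mono P fun ω hω hs => ?_) (hm.trans ?_)
  · rw [le_div_iff₀ (ent_fib_pos P _ hω)]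
    exact hs.le
  · rw [div_le_div_iff₀ (mul_pos hN ht) ht]
    nlinarith

/-- the same on an event `E` which is a function of the conditioning -/
theorem fm3_tail_on (P : FLaw Ω) (B : Ω → β) (A : Ω → α) (E : Ω → Prop) (hE : ∀ ω ω', A ω = A ω' → (E ω ↔ E ω'))
    {N t : ℝ} (h : P.NVal E B A N) (hN : 1 ≤ N) (ht : 0 < t) :
    P.pr (fun ω => E ω ∧ N * t * P.fib (pair B A) ω < P.fib A ω) ≤ 1 / t := by
  set B' : Ω → Option β := fun ω => if E ω then some (B ω) else none with hB'
  have h' : P.NVal (fun _ => True) B' A N := by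
    intro ω₀
    by_cases h0 : E ω₀
    · obtain ⟨S, hS, hS'⟩ := h ω₀
      refine ⟨S.image some, (Nat.cast_le.2 Finset.card_image_le).trans hS, fun ω hω _ hA => ?_⟩
      have hEω : E ω := (hE ω ω₀ hA).2 h0
      simp only [hB', if_pos hEω]
      exact Finset.mem_image_of_mem _ (hS' ω hω hEω hA)
    · refine ⟨{none}, by simpa using hN, fun ω _ _ hA => ?_⟩
      have hEω : ¬ E ω := fun hh => h0 ((hE ω ω₀ hA).1 hh)
      simp only [hB', if_neg hEω, Finset.mem_singleton]
  refine le_trans (ent_pr_mono P fun ω _ hs => ?_) (fm3_tail P B' A h' (by linarith) ht)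
  obtain ⟨hEω, hs⟩ := hs
  have e : P.fib (pair B' A) ω = P.fib (pair B A) ω := by
    rw [ent_fib_pair, ent_fib_pair]
    refine ent_pr_congr P fun ω' _ => ?_
    constructor
    · rintro ⟨h1, h2⟩
      have hE' : E ω' := (hE ω' ω h2).2 hEω
      simp only [hB', if_pos hE', if_pos hEω, Option.some.injEq] at h1
      exact ⟨h1, h2⟩
    · rintro ⟨h1, h2⟩
      have hE' : E ω' := (hE ω' ω h2).2 hEω
      simp only [hB', if_pos hE', if_pos hEω, Option.some.injEq]
      exact ⟨h1, h2⟩
  rw [e]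
  exact hs

theorem fm3_or (P : FLaw Ω) {B C : Ω → Prop} {b c : ℝ} (hB : P.pr B ≤ b) (hC : P.pr C ≤ c) :
    P.pr (fun ω => B ω ∨ C ω) ≤ b + c :=
  (ent_pr_or_le P B C).trans (add_le_add hB hC)

theorem fm3_avoid (P : FLaw Ω) {B : Ω → Prop} (h : P.pr B < 1) : ∃ ω, P.p ω ≠ 0 ∧ ¬ B ω := by
  by_contra hcon
  push Not at hcon
  have := ent_pr_eq_one P hcon
  linarith

/-- **the hypotheses of the sampled two-path inequality** -/
structure MidCore {ζ o₁ o₂ π χ θ α₁ α₂ : Type} (P : FLaw Ω) (Z : Ω → ζ) (O1 : Ω → o₁) (O2 : Ω → o₂) (Pa : Ω → π)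
    (Ch : Ω → χ) (Tm : Ω → θ) (Ap : Ω → α₁) (Am : Ω → α₂) (E : Ω → Prop)
    (Mp Mc Np Nc Nsp Nt m₁ m₂ Kc ε : ℝ) : Prop where
  Mp_pos : 0 < Mp
  Np_pos : 0 < Np
  Nsp_pos : 0 < Nsp
  one_le_Nt : 1 ≤ Nt
  m₁_pos : 0 < m₁
  m₂_pos : 0 < m₂
  /-- occupancy law of the second path, lower half at the parent -/
  occ2p : P.pr (fun x => P.fib (pair Pa O2) x < Mp * P.fib (pair Z O2) x) ≤ ε
  /-- occupancy law of the second path, upper half at the child -/
  occ2c : P.pr (fun x => Mc * P.fib (pair Z O2) x < P.fib (pair Ch O2) x) ≤ ε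
  /-- occupancy law of the first path, upper half at the parent -/
  occ1p : P.pr (fun x => Np * P.fib (pair Z O1) x < P.fib (pair Ap O1) x) ≤ ε
  /-- occupancy law of the first path, lower half at the child -/
  occ1c : P.pr (fun x => P.fib (pair Am O1) x < Nc * P.fib (pair Z O1) x) ≤ ε
  /-- spatial labels -/
  sp : P.NVal (fun _ => True) Ch (pair Tm (pair Pa O2)) Nsp
  /-- `f:conditioning` for the time label inside the second parent -/
  cond : P.pr (fun x => Kc * (P.fib (pair Tm (pair Pa O2)) x / P.fib (pair Pa O2) x) <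
    P.fib (pair Tm (pair (pair Pa O2) O1)) x / P.fib (pair (pair Pa O2) O1) x) ≤ ε
  /-- the second parent meets few first parents -/
  par : P.NVal (fun _ => True) Ap (pair (pair Pa O2) O1) m₁
  /-- a first child meets few first parents -/
  nest : P.NVal (fun _ => True) Ap (pair Am O1) m₂
  /-- the separation event is a function of the two directions and is likely -/
  E_fun : ∀ x x', O1 x = O1 x' → O2 x = O2 x' → (E x ↔ E x')
  E_pr : P.pr (fun x => ¬ E x) ≤ ε
  /-- time recovery -/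
  recov : P.NVal E Tm (pair Am (pair (pair Pa O2) O1)) Nt

/-- **THE SAMPLED TWO-PATH INEQUALITY** (`f:midpoint`, l.1405-1441) -/
theorem fm3_core {ζ o₁ o₂ π χ θ α₁ α₂ : Type} (P : FLaw Ω) (Z : Ω → ζ) (O1 : Ω → o₁) (O2 : Ω → o₂) (Pa : Ω → π)
    (Ch : Ω → χ) (Tm : Ω → θ) (Ap : Ω → α₁) (Am : Ω → α₂) (E : Ω → Prop)
    {Mp Mc Np Nc Nsp Nt m₁ m₂ Kc ε t : ℝ}
    (h : MidCore P Z O1 O2 Pa Ch Tm Ap Am E Mp Mc Np Nc Nsp Nt m₁ m₂ Kc ε) (ht : 0 < t) (hε : 6 * ε + 5 / t < 1) :
    Mp * Nc ≤ Kc * t ^ 5 * (Nsp * Nt * m₁ * m₂) * (Mc * Np) := by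
  have hNt : 0 < Nt := lt_of_lt_of_le one_pos h.one_le_Nt
  -- the five tails
  have t1 := fm3_tail P Ch (pair Tm (pair Pa O2)) h.sp h.Nsp_pos ht
  have t2 := fm3_tail P Ap (pair (pair Pa O2) O1) h.par h.m₁_pos ht
  have t3 := fm3_tail P Ap (pair Am O1) h.nest h.m₂_pos ht
  have t4 := fp_more P Am (pair Ap O1) (pair Pa O2) ht
  have t5 := fm3_tail_on P Tm (pair Am (pair (pair Pa O2) O1)) E
    (fun x x' hx => h.E_fun x x' (congrArg (fun v => v.2.2) hx) (congrArg (fun v => v.2.1.2) hx)) h.recov h.one_le_Nt ht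
  have hall := fm3_or P h.occ2p (fm3_or P h.occ2c (fm3_or P h.occ1p (fm3_or P h.occ1c (fm3_or P h.cond
    (fm3_or P h.E_pr (fm3_or P t1 (fm3_or P t2 (fm3_or P t3 (fm3_or P t4 t5)))))))))
  obtain ⟨x, hx, hg⟩ := fm3_avoid P (lt_of_le_of_lt hall (by
    have : ε + (ε + (ε + (ε + (ε + (ε + (1 / t + (1 / t + (1 / t + (1 / t + 1 / t))))))))) = 6 * ε + 5 / t := by ring
    rw [this]; exact hε))
  simp only [not_or, not_lt, not_and, not_not] at hg
  obtain ⟨g1, g2, g3, g4, g5, g6, g7, g8, g9, g10, g11⟩ := hg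
  have g11 := g11 g6
  -- positivity
  have pZ2 := ent_fib_pos P (pair Z O2) hx
  have pZ1 := ent_fib_pos P (pair Z O1) hx
  have pC2 := ent_fib_pos P (pair Pa O2) hx
  have pC3 := ent_fib_pos P (pair (pair Pa O2) O1) hx
  have pA1 := ent_fib_pos P (pair Ap O1) hx
  have pT2 := ent_fib_pos P (pair Tm (pair Pa O2)) hx
  have pT3 := ent_fib_pos P (pair Tm (pair (pair Pa O2) O1)) hx
  have pW := ent_fib_pos P (pair Ap (pair (pair Pa O2) O1)) hx
  have pU := ent_fib_pos P (pair Am (pair Ap O1)) hx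
  -- monotonicity and reorderings
  have k1 : P.fib (pair Ch (pair Tm (pair Pa O2))) x ≤ P.fib (pair Ch O2) x :=
    ent_fib_mono P _ _ x fun x' _ hh => by
      simp only [FLaw.pair, Prod.mk.injEq] at hh ⊢
      exact ⟨hh.1, hh.2.2.2⟩
  have k2 : P.fib (pair Tm (pair Am (pair (pair Pa O2) O1))) x ≤ P.fib (pair Tm (pair (pair Pa O2) O1)) x :=
    ent_fib_mono P _ _ x fun x' _ hh => by
      simp only [FLaw.pair, Prod.mk.injEq] at hh ⊢
      exact ⟨hh.1, hh.2.2⟩
  have k3 : P.fib (pair Am (pair (pair Ap O1) (pair Pa O2))) x ≤ P.fib (pair Am (pair (pair Pa O2) O1)) x :=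
    ent_fib_mono P _ _ x fun x' _ hh => by
      simp only [FLaw.pair, Prod.mk.injEq] at hh ⊢
      exact ⟨hh.1, hh.2.2, hh.2.1.2⟩
  have k4 : P.fib (pair (pair Ap O1) (pair Pa O2)) x = P.fib (pair Ap (pair (pair Pa O2) O1)) x := by
    refine ent_pr_congr P fun x' _ => ?_
    simp only [FLaw.pair, Prod.mk.injEq]
    tauto
  have k5 : P.fib (pair Ap (pair Am O1)) x = P.fib (pair Am (pair Ap O1)) x := by
    refine ent_pr_congr P fun x' _ => ?_
    simp only [FLaw.pair, Prod.mk.injEq]
    tauto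
  rw [k4] at g10
  rw [k5] at g9
  generalize P.fib (pair Z O2) x = a at *
  generalize P.fib (pair Pa O2) x = c2 at *
  generalize P.fib (pair (pair Pa O2) O1) x = c3 at *
  generalize P.fib (pair Tm (pair Pa O2)) x = T2 at *
  generalize P.fib (pair Tm (pair (pair Pa O2) O1)) x = T3 at *
  generalize P.fib (pair Z O1) x = z1 at *
  generalize P.fib (pair Ap O1) x = A1 at *
  generalize P.fib (pair Am O1) x = B1 at *
  generalize P.fib (pair Am (pair Ap O1)) x = u at *
  generalize P.fib (pair Am (pair (pair Ap O1) (pair Pa O2))) x = v at *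
  generalize P.fib (pair Ap (pair (pair Pa O2) O1)) x = w at *
  generalize P.fib (pair Am (pair (pair Pa O2) O1)) x = y at *
  generalize P.fib (pair Ch (pair Tm (pair Pa O2))) x = s1 at *
  generalize P.fib (pair Ch O2) x = s2 at *
  generalize P.fib (pair Tm (pair Am (pair (pair Pa O2) O1))) x = s3 at *
  have hKc : 0 < Kc := by
    have h1 : 0 < T3 / c3 := div_pos pT3 pC3
    have h2 : 0 < Kc * (T2 / c2) := lt_of_lt_of_le h1 g5
    exact (pos_iff_pos_of_mul_pos h2).2 (div_pos pT2 pC2)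
  have hMp := h.Mp_pos
  have hNp := h.Np_pos
  have hNsp := h.Nsp_pos
  have hm₁ := h.m₁_pos
  have hm₂ := h.m₂_pos
  -- upper bound of the time label
  have U1 : T2 ≤ Nsp * t * (Mc * a) := g7.trans (mul_le_mul_of_nonneg_left (k1.trans g2) (by positivity))
  have U2 : T3 * c2 ≤ Kc * T2 * c3 := by
    rw [div_le_iff₀ pC3] at g5
    have := mul_le_mul_of_nonneg_right g5 pC2.le
    calc T3 * c2 ≤ Kc * (T2 / c2) * c3 * c2 := this
      _ = Kc * T2 * c3 := by field_simp
  have U3 : T3 * Mp ≤ Kc * c3 * (Nsp * t * Mc) := by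
    have h1 : T3 * (Mp * a) ≤ Kc * (Nsp * t * (Mc * a)) * c3 :=
      (mul_le_mul_of_nonneg_left g1 pT3.le).trans (U2.trans (by gcongr))
    have h2 : (T3 * Mp) * a ≤ (Kc * c3 * (Nsp * t * Mc)) * a := by
      calc (T3 * Mp) * a = T3 * (Mp * a) := by ring
        _ ≤ _ := h1
        _ = _ := by ring
    exact le_of_mul_le_mul_right h2 pZ2
  -- lower bound of the time label
  have L1 : u * w ≤ t * v * A1 := by
    rw [div_le_iff₀ pA1] at g10
    have := mul_le_mul_of_nonneg_right g10 pW.le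
    calc u * w ≤ t * (v / w) * A1 * w := this
      _ = t * v * A1 := by field_simp
  have hv : v ≤ Nt * t * T3 := k3.trans (g11.trans (mul_le_mul_of_nonneg_left k2 (by positivity)))
  have L2 : Nc * c3 ≤ m₁ * m₂ * Nt * Np * t ^ 4 * T3 := by
    have h1 : (Nc * z1) * c3 ≤ (m₂ * t * u) * (m₁ * t * w) :=
      mul_le_mul (g4.trans g9) g8 pC3.le (by positivity)
    have h2 : (m₂ * t * u) * (m₁ * t * w) = m₁ * m₂ * t ^ 2 * (u * w) := by ring
    have h3 : u * w ≤ t * (Nt * t * T3) * (Np * z1) :=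
      L1.trans (mul_le_mul (mul_le_mul_of_nonneg_left hv ht.le) g3 pA1.le (by positivity))
    have h4 : (Nc * c3) * z1 ≤ (m₁ * m₂ * Nt * Np * t ^ 4 * T3) * z1 := by
      calc (Nc * c3) * z1 = (Nc * z1) * c3 := by ring
        _ ≤ m₁ * m₂ * t ^ 2 * (u * w) := h1.trans h2.le
        _ ≤ m₁ * m₂ * t ^ 2 * (t * (Nt * t * T3) * (Np * z1)) := mul_le_mul_of_nonneg_left h3 (by positivity)
        _ = _ := by ring
    exact le_of_mul_le_mul_right h4 pZ1
  have F : (Mp * Nc) * c3 ≤ (Kc * t ^ 5 * (Nsp * Nt * m₁ * m₂) * (Mc * Np)) * c3 := by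
    calc (Mp * Nc) * c3 = Mp * (Nc * c3) := by ring
      _ ≤ Mp * (m₁ * m₂ * Nt * Np * t ^ 4 * T3) := mul_le_mul_of_nonneg_left L2 hMp.le
      _ = m₁ * m₂ * Nt * Np * t ^ 4 * (T3 * Mp) := by ring
      _ ≤ m₁ * m₂ * Nt * Np * t ^ 4 * (Kc * c3 * (Nsp * t * Mc)) := mul_le_mul_of_nonneg_left U3 (by positivity)
      _ = _ := by ring
  exact le_of_mul_le_mul_right F pC3

end Claimed.Agent.R257
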