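import Claimed.Agent.R257.FR3.MidTop

/-!
# ROW 257, package FR3, unit MID, file 12: **EXIT**   `fm3_gtestM : GAngM k → GTestM k`      (architect + prover helper276)

Glue only (choice of the parameters, quantifiers): see the header of `FR3/MidTop.lean`.
-/

set_option autoImplicit false

namespace Claimed.Agent.R257.FR3

open scoped BigOperators
open Classical
open Claimed.Agent.R255 Claimed.Agent.R257 Claimed.Agent.R257.FR2 Claimed.Agent.R257.Tree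

set_option maxHeartbeats 1600000 in
theorem fm3_gtestM_succ (n : ℕ) (hA : GAngM (n + 1)) : GTestM (n + 1) := by
  intro o hoR l a hla
  obtain ⟨ηa, hηa, HA⟩ := hA o hoR l
  obtain ⟨b₁, hb₁⟩ : ∃ b₁ : ℝ, b₁ = min (1 / 100) (ηa / 8) := ⟨_, rfl⟩
  have hb0 : 0 < b₁ := by rw [hb₁]; exact lt_min (by norm_num) (by linarith)
  have hb1 : b₁ ≤ 1 / 100 := by rw [hb₁]; exact min_le_left _ _
  have hb2 : b₁ ≤ ηa / 8 := by rw [hb₁]; exact min_le_right _ _
  obtain ⟨e0A, VA, u0A, he0A, hVA, hu0A, HA⟩ := HA b₁ hb0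
  have hq : 0 < qk (n + 1) := by unfold qk; positivity
  obtain ⟨e0, he0def⟩ : ∃ e0 : ℝ, e0 = min (e0A / 2) (1 / (16 * qk (n + 1))) := ⟨_, rfl⟩
  obtain ⟨V, hVdef⟩ : ∃ V : ℝ, V = max VA 3 := ⟨_, rfl⟩
  have he0 : 0 < e0 := by rw [he0def]; exact lt_min (by linarith) (by positivity)
  have he0a : e0 ≤ e0A / 2 := by rw [he0def]; exact min_le_left _ _
  have he0q : qk (n + 1) * e0 ≤ 1 / 16 := by
    have h1 : e0 ≤ 1 / (16 * qk (n + 1)) := by rw [he0def]; exact min_le_right _ _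
    calc qk (n + 1) * e0 ≤ qk (n + 1) * (1 / (16 * qk (n + 1))) := mul_le_mul_of_nonneg_left h1 hq.le
      _ = 1 / 16 := by field_simp
  have hVA' : VA ≤ V := by rw [hVdef]; exact le_max_left _ _
  have hV3 : 3 ≤ V := by rw [hVdef]; exact le_max_right _ _
  refine ⟨e0, V, min (2 * u0A) ((a - l) / 8), he0, by linarith, lt_min (by linarith) (by linarith), fun s hs hs0 => ?_⟩
  have hsu : s / 2 < u0A := by
    have := hs0.trans_le (min_le_left _ _)
    linarith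
  have hsa : s ≤ (a - l) / 8 := (hs0.trans_le (min_le_right _ _)).le
  obtain ⟨μ0A, hμ0A, HA⟩ := HA (s / 2) (by linarith) hsu
  obtain ⟨μ0, hμ0def⟩ : ∃ μ0 : ℝ, μ0 = min μ0A (s / 64) := ⟨_, rfl⟩
  have hμ0 : 0 < μ0 := by rw [hμ0def]; exact lt_min hμ0A (by linarith)
  have hμa : μ0 ≤ μ0A := by rw [hμ0def]; exact min_le_left _ _
  have hμs : μ0 ≤ s / 64 := by rw [hμ0def]; exact min_le_right _ _
  refine ⟨μ0, hμ0, fun c cx hco => ?_⟩
  obtain ⟨m0A, HA⟩ := HA c cx hco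
  by_cases hc : c.Ok
  swap
  · exact ⟨0, fun F hFc _ hOk => absurd (hFc ▸ hOk.cls) hc⟩
  obtain ⟨Cg, hCg, Hg⟩ := ti_geo_ok hc
  obtain ⟨C5, hC5, H5⟩ := mdi_leafw_le hc
  obtain ⟨C7, hC7, H7⟩ := mdi_cmp_same hc
  obtain ⟨NUM, hNUM⟩ : ∃ NUM : ℝ, NUM = 40 ^ 6 * 8 ^ (n + 3) * 6 ^ (n + 3) * 16 ^ 4 * (4 ^ (n + 1) * (2 * ((n : ℝ) + 1) + 2)) := ⟨_, rfl⟩
  have hNUM0 : 0 ≤ NUM := by rw [hNUM]; positivity
  have hcc0 : 0 ≤ 4 * ((c.ℓ : ℝ) * c.Cc) := by
    have := hc.one_le_Cc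
    positivity
  have hβ : 0 < b₁ * s := by positivity
  obtain ⟨m1, H1⟩ := mdq_at c hc Cg (C5 + C7 + 4 * ((c.ℓ : ℝ) * c.Cc) + 32 + NUM) (b₁ * s) hCg hβ
  obtain ⟨m2, H2⟩ := mdq_at c hc Cg 2 (b₁ * s / 2) hCg (by positivity)
  refine ⟨max m0A (max m1 m2) + 1, fun F hFc hFcx hOk j hMesh hOffl _ _ hAff => ?_⟩
  obtain ⟨hAffl, hAffa, hAffb⟩ := hAff
  subst hFc
  have hm0A : m0A ≤ max m0A (max m1 m2) + 1 := (le_max_left _ _).trans (Nat.le_succ _)
  have hm1 : m1 ≤ max m0A (max m1 m2) + 1 := ((le_max_left _ _).trans (le_max_right _ _)).trans (Nat.le_succ _)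
  have hm2 : m2 ≤ max m0A (max m1 m2) + 1 := ((le_max_right _ _).trans (le_max_right _ _)).trans (Nat.le_succ _)
  have hVs : VA * (s / 2) ≤ V * s := by nlinarith
  -- the angular test
  obtain ⟨lam, R, J, Y', hAng⟩ := HA F rfl hFcx (hOk.mono hm0A) j
    ⟨fun i hi => (hMesh.1 i hi).trans hμa, hMesh.2.1.trans (by linarith), le_trans (by nlinarith) hMesh.2.2⟩
    (lt_of_le_of_lt hVs hOffl)
    (fun i i' hi hi' h1 h2 => (hAffl i i' hi hi' (h1.trans hVs) (h2.trans hVs)).trans (by nlinarith))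
  have e1 : b₁ * (s / 2) = b₁ * s / 2 := by ring
  rw [e1] at hAng
  -- the nodes
  have hV3s : 3 * s ≤ V * s := by nlinarith
  obtain ⟨ip, hip, hsp1, hsp2⟩ := mdq_node hMesh hμ0.le (x := (l + a) / 2 + s / 2) (by linarith) (by linarith)
  obtain ⟨ic, hic, hsc1, hsc2⟩ := mdq_node hMesh hμ0.le (x := (l + a) / 2 - s / 2) (by linarith) (by linarith)
  obtain ⟨jp, hjp, hup1, hup2⟩ := mdq_node hMesh hμ0.le (x := a + 2 * s) (by linarith) (by linarith)
  obtain ⟨jc, hjc, huc1, huc2⟩ := mdq_node hMesh hμ0.le (x := a - s) (by linarith) (by linarith)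
  -- the slopes
  have hρ1 : |F.ρ j ip - F.ρ j ic| ≤ e0 * s := by
    have := hAffb ic ip hic hip (by rw [abs_le]; constructor <;> linarith) (by rw [abs_le]; constructor <;> linarith)
    rwa [zero_mul, add_zero] at this
  have hρ2 : |F.ρ j jc - F.ρ j jp + ((n + 1 : ℕ) : ℝ) / 2 * (F.s j jc - F.s j jp)| ≤ e0 * s :=
    hAffa jp jc hjp hjc (by rw [abs_le]; constructor <;> linarith) (by rw [abs_le]; constructor <;> linarith)
  obtain ⟨hT, hCst⟩ := H1 _ hm1 F rfl hOk j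
  obtain ⟨-, h2⟩ := H2 _ hm2 F rfl hOk j
  exact mdt_core hOk (Nat.succ_le_succ (Nat.zero_le _)) j (Hg Cg le_rfl (F.D j) (hOk.good j)) hT (by linarith) hC7
    (by linarith) (by linarith) (by linarith) (by linarith) (by rw [← hNUM]; linarith) h2 (H5 (F.D j) (hOk.good j)) (H7 (F.D j) (hOk.good j)) hAng
    hs hβ (by nlinarith) (by nlinarith) hsa hip hic hjp hjc (by linarith) hsp2 (by linarith) hsc2 (by linarith) hup2 (by linarith) huc2
    (by linarith [hMesh.2.2]) hρ1 hρ2 he0q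

/-- **EXIT OF THE UNIT MID** -/
theorem fm3_gtestM (k : ℕ) (hA : GAngM k) : GTestM k := by
  cases k with
  | zero =>
    intro o _ l a _
    refine ⟨1, 1, 1, one_pos, one_pos, one_pos, fun s _ _ => ⟨1, one_pos, fun c cx _ => ⟨0, fun F _ _ hOk => ?_⟩⟩⟩
    exact absurd hOk.cls.k_pos (by norm_num)
  | succ n => exact fm3_gtestM_succ n hA

end Claimed.Agent.R257.FR3
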