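import Claimed.Agent.R257.FR3.MidInst
import Claimed.Agent.R257.FR3.MidSrc

/-!
# ROW 257, package FR3, unit MID, file 10: THE SAME-FIELD TEST ON A CONFIGURATION `FCfg`      (architect helper276)            CONTRACT

`k = n + 1`.   From `F.Ok m` (`FR3/TopDefs.lean`) + the output `AngOut` of the angular test (`FR3/MidSrc.lean`) to the inequality of `mdy_same` (`FR3/MidSys.lean`) between the occupancy sizes of four nodes.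
* `mdtFd F j Cg R`   the field `j` with ANY restriction `R` as a field `MdFd n F.Qc` of MID  (shared with the cross-field test, helper245).
* `MdtAt F j Cg T`   ALL the "subpower" quantities of the field are `≤ T`  (`T = Λ^β`: `FR3/MidQual.lean`).
* `mdt_fd_ok`        `MdFd.Ok Y' ϖl (K Ky) (T^5)`.
* `mdt_hyp`          `MdSame.Hyp` for the kernel `Jn R`, caps `anc lam`, reference weights `mdiAr`.
* `mdt_same`         **the inequality**.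
Every `sorry` is a leaf `L-F3-P*` (statement frozen; prove in place; helpers with prefix `mdt_` directly above).
-/

set_option autoImplicit false

namespace Claimed.Agent.R257.FR3

open scoped BigOperators
open Classical
open Claimed.Agent.R255 Claimed.Agent.R257 Claimed.Agent.R257.FR2 Claimed.Agent.R257.Tree

noncomputable section

variable {n : ℕ}

/-- the field `j` of a configuration, with a restriction `R` of its frozen tree -/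
def mdtFd (F : FCfg (n + 1)) (j : Fin (n + 1 + 1)) (Cg : ℝ) (R : (F.D j).geo.Restr) : MdFd n F.Qc where
  𝔖 := (F.D j).sys
  𝔊 := (F.D j).geo
  p := F.tp j
  g := (F.D j).gp Cg
  A := F.A j
  K := F.K
  G := F.Go
  S := F.S j
  r := F.r j
  Yf := Finset.univ
  R := R
  e := F.e j
  pos := fun q => mdiPos ((F.D j).pt (F.e j q))
  dir := fun ω : (F.D j).Lb 0 => mdiVel ((F.D j).fr 0 ω)
  κ := (F.D j).κ

/-- all the subpower quantities of the field `j` are `≤ T` -/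
structure MdtAt (F : FCfg (n + 1)) (j : Fin (n + 1 + 1)) (Cg T : ℝ) : Prop where
  one_le_Cg : 1 ≤ Cg
  Cg_le : Cg ^ (F.c.ℓ + 1) ≤ T
  K_le : F.K ≤ T
  Go_le : F.Go ≤ T
  G1 : (F.D j).G 0 ^ (2 * F.c.Q) ≤ T
  G2 : (F.D j).G 0 ^ (n + 1 + 1) ≤ T
  G3 : (F.D j).G 0 ^ F.c.P ≤ T

/-- LEAF `L-F3-P1`  **the hypotheses on one field.**
PLAN.  `1 ≤ T` (`2 ≤ K ≤ T`); `Cg ≤ Cg^(ℓ+1) ≤ T`, `Cg^ℓ ≤ Cg^(ℓ+1) ≤ T` (`pow_le_pow_right₀`); `T^a ≤ T^5` for `a ≤ 5`.   All the projections of `mdtFd` are `rfl` (`show`/`unfold mdtFd`; `TDat.gp`, `TDat.tp`, `FCfg.tp` unfold by `rfl`).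
`sys := h.sys j`, `geo := hgeo`, `frozen := h.frozen j` (`(F.tp j).q = qk (n+1)` by `rfl`), `A_pos`: `h.one_le_A j`, `sub := hR`.
`bal`: `h.bal j`, `hcard`, `0 ≤ A^q`, `0 ≤ K`.     `cel := fun i _ z z' ω => mdi_cel _ _ _ _` (`(F.D j).geo.cel i y ω = flo (natX (κ i) (fr 0 ω) (pt y))` by `rfl`).
`K1`: `Γc = Cg`: `Cg^ℓ / ϖl = Cg^ℓ * (1/ϖl) ≤ T * T`.   `K2`: `h.ϖ0_le j`.   `K3`: `Kc = Cg * G0^(2Q) ≤ T * T`.   `K4`: `Cg^ℓ * Cg / ϖl = Cg^(ℓ+1) * (1/ϖl) ≤ T * T`.   `K5`: `m = Cg * G0^(n+1+1)`: `≤ T * T * T * (T * T)`.   `K6`: `≤ T * T * T`. -/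
theorem mdt_fd_ok {F : FCfg (n + 1)} {m : ℕ} (h : F.Ok m) (j : Fin (n + 1 + 1)) {Cg T : ℝ} (hgeo : (F.D j).geo.Ok ((F.D j).gp Cg))
    (hT : MdtAt F j Cg T) (R : (F.D j).geo.Restr) (hR : ∀ i ω, R i ω ⊆ F.S j i) (Y' : Finset F.Qc) {ϖl Ky : ℝ} (hϖ : 0 < ϖl) (hϖT : 1 / ϖl ≤ T)
    (hKy : Ky ≤ T) (hcard : (Fintype.card F.Qc : ℝ) ≤ Ky * Y'.card) : (mdtFd F j Cg R).Ok Y' ϖl (F.K * Ky) (T ^ 5) := by
  have hK2 := h.two_le_K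
  have hT1 : 1 ≤ T := by linarith [hT.K_le]
  have hT0 : 0 ≤ T := by linarith
  have hCg0 : 0 ≤ Cg := by linarith [hT.one_le_Cg]
  have hCg : Cg ≤ T := by
    refine le_trans ?_ hT.Cg_le
    calc Cg = Cg ^ 1 := (pow_one _).symm
      _ ≤ Cg ^ (F.c.ℓ + 1) := pow_le_pow_right₀ hT.one_le_Cg (by omega)
  have hCgl : Cg ^ F.c.ℓ ≤ T := le_trans (pow_le_pow_right₀ hT.one_le_Cg (by omega)) hT.Cg_le
  have hG0 : 0 ≤ (F.D j).G 0 := by linarith [(h.good j).one_le_G 0 (Nat.zero_le _)]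
  have hp : ∀ a : ℕ, a ≤ 5 → T ^ a ≤ T ^ 5 := fun a ha => pow_le_pow_right₀ hT1 ha
  have hA0 : 0 < F.A j := by linarith [h.one_le_A j]
  have hK0 : 0 ≤ F.K := by linarith
  have hϖ0 : 0 ≤ 1 / ϖl := by positivity
  have hm0 : 0 ≤ Cg * (F.D j).G 0 ^ (n + 1 + 1) := mul_nonneg hCg0 (pow_nonneg hG0 _)
  have hm : Cg * (F.D j).G 0 ^ (n + 1 + 1) ≤ T * T := mul_le_mul hCg hT.G2 (pow_nonneg hG0 _) hT0
  refine ⟨h.sys j, hgeo, h.frozen j, hA0, hR, hϖ, ?_, fun i _ z z' ω => mdi_cel _ _ _ _, ?_, ?_, ?_, ?_, ?_, ?_⟩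
  · show (F.D j).sys.D ≤ F.K * Ky * ((Y'.card : ℝ) * F.A j ^ qk (n + 1))
    refine (h.bal j).trans ?_
    have hAq : 0 ≤ F.A j ^ qk (n + 1) := Real.rpow_nonneg hA0.le _
    have h1 : (Fintype.card F.Qc : ℝ) * F.A j ^ qk (n + 1) ≤ Ky * Y'.card * F.A j ^ qk (n + 1) :=
      mul_le_mul_of_nonneg_right hcard hAq
    calc F.K * ((Fintype.card F.Qc : ℝ) * F.A j ^ qk (n + 1)) ≤ F.K * (Ky * Y'.card * F.A j ^ qk (n + 1)) :=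
          mul_le_mul_of_nonneg_left h1 hK0
      _ = F.K * Ky * ((Y'.card : ℝ) * F.A j ^ qk (n + 1)) := by ring
  · show Cg ^ F.c.ℓ / ϖl ≤ T ^ 5
    rw [div_eq_mul_one_div]
    calc Cg ^ F.c.ℓ * (1 / ϖl) ≤ T * T := mul_le_mul hCgl hϖT hϖ0 hT0
      _ = T ^ 2 := by ring
      _ ≤ T ^ 5 := hp 2 (by norm_num)
  · show (F.tp j).ϖ0 ≤ T ^ 5
    calc (F.tp j).ϖ0 ≤ T := (h.ϖ0_le j).trans hT.K_le
      _ = T ^ 1 := (pow_one _).symm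
      _ ≤ T ^ 5 := hp 1 (by norm_num)
  · show Cg * (F.D j).G 0 ^ (2 * F.c.Q) ≤ T ^ 5
    calc Cg * (F.D j).G 0 ^ (2 * F.c.Q) ≤ T * T := mul_le_mul hCg hT.G1 (Real.rpow_nonneg hG0 _) hT0
      _ = T ^ 2 := by ring
      _ ≤ T ^ 5 := hp 2 (by norm_num)
  · show Cg ^ F.c.ℓ * Cg / ϖl ≤ T ^ 5
    rw [div_eq_mul_one_div, ← pow_succ]
    calc Cg ^ (F.c.ℓ + 1) * (1 / ϖl) ≤ T * T := mul_le_mul hT.Cg_le hϖT hϖ0 hT0
      _ = T ^ 2 := by ring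
      _ ≤ T ^ 5 := hp 2 (by norm_num)
  · show Cg * (F.D j).G 0 ^ (n + 1 + 1) * F.K * (F.K * Ky) ≤ T ^ 5
    have h1 : Cg * (F.D j).G 0 ^ (n + 1 + 1) * F.K ≤ T * T * T := mul_le_mul hm hT.K_le hK0 (by positivity)
    have h2 : F.K * Ky ≤ T * T := by
      calc F.K * Ky ≤ F.K * T := mul_le_mul_of_nonneg_left hKy hK0
        _ ≤ T * T := mul_le_mul_of_nonneg_right hT.K_le hT0
    calc Cg * (F.D j).G 0 ^ (n + 1 + 1) * F.K * (F.K * Ky) ≤ Cg * (F.D j).G 0 ^ (n + 1 + 1) * F.K * (T * T) :=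
          mul_le_mul_of_nonneg_left h2 (mul_nonneg hm0 hK0)
      _ ≤ T * T * T * (T * T) := mul_le_mul_of_nonneg_right h1 (by positivity)
      _ = T ^ 5 := by ring
  · show Cg * (F.D j).G 0 ^ (n + 1 + 1) * F.Go ≤ T ^ 5
    calc Cg * (F.D j).G 0 ^ (n + 1 + 1) * F.Go ≤ Cg * (F.D j).G 0 ^ (n + 1 + 1) * T := mul_le_mul_of_nonneg_left hT.Go_le hm0
      _ ≤ T * T * T := mul_le_mul_of_nonneg_right hm hT0
      _ = T ^ 3 := by ring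
      _ ≤ T ^ 5 := hp 3 (by norm_num)

/-- the same-field data of a configuration (`J` = any kernel `0 ≤ J ≤ Jn R`) -/
def mdtSame (F : FCfg (n + 1)) (j : Fin (n + 1 + 1)) (Cg : ℝ) (R : (F.D j).geo.Restr) (J : (F.D j).Y → (F.D j).Lb 0 → ℝ) (lam : ℕ) (Y' : Finset (F.D j).Y) :
    MdSame n F.Qc ((F.D j).Lb lam) (F.D j).geo.Dir :=
  (mdtFd F j Cg R).same (fun q (ω : (F.D j).Lb 0) => J (F.e j q) ω) ((F.D j).anc lam)
    (fun q (ω : (F.D j).Lb 0) => mdiAr (F.D j) ((F.D j).pt (F.e j q)) ω) (Y'.map (F.e j).symm.toEmbedding)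

theorem mdt_card_map (F : FCfg (n + 1)) (j : Fin (n + 1 + 1)) (Y' : Finset (F.D j).Y) :
    (Finset.map (F.e j).symm.toEmbedding Y').card = Y'.card := Finset.card_map _

theorem mdt_mem_map (F : FCfg (n + 1)) (j : Fin (n + 1 + 1)) (Y' : Finset (F.D j).Y) (q : F.Qc) :
    q ∈ Finset.map (F.e j).symm.toEmbedding Y' ↔ F.e j q ∈ Y' :=
  Finset.mem_map_equiv (f := (F.e j).symm) (s := Y') (b := q)

/-- LEAF `L-F3-P2`  path domination by the clipped plain weights.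
PLAN.  `Jn R z ω = 0`: RHS `≥ 0` (`mdi_Ar_nonneg`, `hC5`, `hgeo.one_le_Γc`, `G 0 > 0`: `(h.good j).one_le_G 0`).   Otherwise `TGeo.tp_Jn_le_leaf (h.sys j) hgeo R z ω` (`Γc = Cg`, `sys.ℓ = c.ℓ` by `rfl`),
`TGeo.tp_attached (h.sys j) hgeo R z ω hJ F.c.tr h.cls.tr_le` gives `T` with `cap tr T = anc tr ω` (`T.1.1 = anc tr ω` by `rfl`) and `inc tr z T` (`= near tr (pt z) T.1` by `rfl`);  `H5`. -/
theorem mdt_dom {F : FCfg (n + 1)} {m : ℕ} (h : F.Ok m) (j : Fin (n + 1 + 1)) {Cg C5 : ℝ} (hgeo : (F.D j).geo.Ok ((F.D j).gp Cg)) (hC5 : 0 ≤ C5)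
    (H5 : ∀ (y : (F.D j).Y) (ω : (F.D j).Lb 0), (∃ T : (F.D j).Cl F.c.tr, T.1.1 = (F.D j).anc F.c.tr ω ∧ (F.D j).near F.c.tr ((F.D j).pt y) T.1) →
      (F.D j).geo.leafw y ω ≤ C5 * (F.D j).G 0 ^ F.c.P * mdiAr (F.D j) ((F.D j).pt y) ω)
    (R : (F.D j).geo.Restr) (z : (F.D j).Y) (ω : (F.D j).Lb 0) :
    (F.D j).geo.Jn R z ω ≤ Cg ^ F.c.ℓ * (C5 * (F.D j).G 0 ^ F.c.P) * mdiAr (F.D j) ((F.D j).pt z) ω := by
  have hCg0 : 0 ≤ Cg := zero_le_one.trans hgeo.one_le_Γc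
  have hG0 : 0 ≤ (F.D j).G 0 := by linarith [(h.good j).one_le_G 0 (Nat.zero_le _)]
  have hAr := mdi_Ar_nonneg (F.D j) (h.good j) ((F.D j).pt z) ω
  by_cases hJ : (F.D j).geo.Jn R z ω = 0
  · rw [hJ]
    exact mul_nonneg (mul_nonneg (pow_nonneg hCg0 _) (mul_nonneg hC5 (Real.rpow_nonneg hG0 _))) hAr
  · have h1 : (F.D j).geo.Jn R z ω ≤ Cg ^ F.c.ℓ * (F.D j).geo.leafw z ω := TGeo.tp_Jn_le_leaf (h.sys j) hgeo R z ω
    obtain ⟨T, -, hT1, hT2⟩ := TGeo.tp_attached (h.sys j) hgeo R z ω hJ F.c.tr h.cls.tr_le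
    have h2 := H5 z ω ⟨T, hT1, hT2⟩
    calc (F.D j).geo.Jn R z ω ≤ Cg ^ F.c.ℓ * (F.D j).geo.leafw z ω := h1
      _ ≤ Cg ^ F.c.ℓ * (C5 * (F.D j).G 0 ^ F.c.P * mdiAr (F.D j) ((F.D j).pt z) ω) :=
          mul_le_mul_of_nonneg_left h2 (pow_nonneg hCg0 _)
      _ = _ := by ring

theorem mdt_ang_aux {F : FCfg (n + 1)} {m : ℕ} (h : F.Ok m) (j : Fin (n + 1 + 1)) {l u ηa tol : ℝ} {lam : ℕ} {R : (F.D j).geo.Restr}
    {J : (F.D j).Y → (F.D j).Lb 0 → ℝ} {Y' : Finset (F.D j).Y}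
    (hA : AngOut F j l u ηa tol lam R J Y') (z : (F.D j).Y) (hz : z ∈ Y') (ω₂ : (F.D j).Lb 0) :
    ∑ ω : (F.D j).Lb 0 with ((F.D j).anc lam ω = (F.D j).anc lam ω₂ ∧
        ∀ i, |mdiVel ((F.D j).fr 0 ω) i - mdiVel ((F.D j).fr 0 ω₂) i| < 2 * F.Λ ^ (-u) / (((n : ℝ) + 1) * (F.D j).κ lam)), J z ω ≤
      F.Λ ^ (-(ηa * u) + tol) * ∑ ω : (F.D j).Lb 0 with (F.D j).anc lam ω = (F.D j).anc lam ω₂, (F.D j).geo.leafw z ω := by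
  have hκ : 0 < (F.D j).κ lam := (F.D j).κ_pos (h.good j) lam
  have h1 := hA.ang z hz ω₂
  have e : F.lcap j lam z ((F.D j).anc lam ω₂) = ∑ ω : (F.D j).Lb 0 with (F.D j).anc lam ω = (F.D j).anc lam ω₂, (F.D j).geo.leafw z ω :=
    (Finset.sum_filter (s := (Finset.univ : Finset ((F.D j).Lb 0))) (fun ω => (F.D j).anc lam ω = (F.D j).anc lam ω₂) (fun ω => (F.D j).geo.leafw z ω)).symm
  rw [e] at h1
  refine le_trans ?_ h1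
  refine Finset.sum_le_sum_of_subset_of_nonneg ?_ (fun ω _ _ => hA.J_nonneg z ω)
  intro ω hω
  have hω' := (Finset.mem_filter.1 hω).2
  refine Finset.mem_filter.2 ⟨Finset.mem_univ _, hω'.1, ?_⟩
  have h2 := mdi_ball _ _ _ hω'.2
  refine h2.trans (le_of_eq ?_)
  field_simp

/-- LEAF `L-F3-P3`  the angular bound in the coordinates of MID.      (statement changed 22:40Z: kernel `J`, `lcap`)
PLAN.  `hA.ang z hz ω₂`;  the filter on the left is contained in the filter of `hA.ang`: `mdi_ball _ _ r0 hball : ‖fr ω - fr ω₂‖ ≤ (n+1) r0 / 2 = Λ^(-u)/κ lam` (`field_simp`; `κ lam > 0`: `TDat.κ_pos`), `Finset.sum_le_sum_of_subset_of_nonneg`, `hA.J_nonneg`.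
`F.lcap j lam z τ = ∑ ω, if anc lam ω = τ then leafw z ω else 0` (`unfold FCfg.lcap`), `Finset.sum_filter`. -/
theorem mdt_ang {F : FCfg (n + 1)} {m : ℕ} (h : F.Ok m) (j : Fin (n + 1 + 1)) {l u ηa tol : ℝ} {lam : ℕ} {R : (F.D j).geo.Restr}
    {J : (F.D j).Y → (F.D j).Lb 0 → ℝ} {Y' : Finset (F.D j).Y}
    (hA : AngOut F j l u ηa tol lam R J Y') (z : (F.D j).Y) (hz : z ∈ Y') (ω₂ : (F.D j).Lb 0) :
    ∑ ω : (F.D j).Lb 0 with ((F.D j).anc lam ω = (F.D j).anc lam ω₂ ∧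
        ∀ i, |mdiVel ((F.D j).fr 0 ω) i - mdiVel ((F.D j).fr 0 ω₂) i| < 2 * F.Λ ^ (-u) / (((n : ℝ) + 1) * (F.D j).κ lam)), J z ω ≤
      F.Λ ^ (-(ηa * u) + tol) * ∑ ω : (F.D j).Lb 0 with (F.D j).anc lam ω = (F.D j).anc lam ω₂, (F.D j).geo.leafw z ω :=
  mdt_ang_aux h j hA z hz ω₂

theorem mdt_hyp_aux {F : FCfg (n + 1)} {m : ℕ} (h : F.Ok m) (j : Fin (n + 1 + 1)) {Cg C5 C7 : ℝ} (hgeo : (F.D j).geo.Ok ((F.D j).gp Cg)) (hC5 : 0 ≤ C5) (hC7 : 1 ≤ C7)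
    (H5 : ∀ (y : (F.D j).Y) (ω : (F.D j).Lb 0), (∃ T : (F.D j).Cl F.c.tr, T.1.1 = (F.D j).anc F.c.tr ω ∧ (F.D j).near F.c.tr ((F.D j).pt y) T.1) →
      (F.D j).geo.leafw y ω ≤ C5 * (F.D j).G 0 ^ F.c.P * mdiAr (F.D j) ((F.D j).pt y) ω)
    {l u ηa tol : ℝ} {lam ip : ℕ} {R : (F.D j).geo.Restr} {J : (F.D j).Y → (F.D j).Lb 0 → ℝ} {Y' : Finset (F.D j).Y} (hA : AngOut F j l u ηa tol lam R J Y')
    (H7 : ∀ (z z' : ST (n + 1)) (ω₂ ω ω' : (F.D j).Lb 0), flo (natX ((F.D j).κ ip) ((F.D j).fr 0 ω₂) z) = flo (natX ((F.D j).κ ip) ((F.D j).fr 0 ω₂) z') →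
      (F.D j).anc lam ω = (F.D j).anc lam ω₂ → (F.D j).anc lam ω' = (F.D j).anc lam ω₂ →
      mdiAr (F.D j) z' ω * mdiAr (F.D j) z ω' ≤ C7 * (mdiAr (F.D j) z ω * mdiAr (F.D j) z' ω')) :
    (mdtSame F j Cg R J lam Y').Hyp ((F.D j).κ ip) (4 * ((F.c.ℓ : ℝ) * F.c.Cc) / (F.D j).κ lam) (2 * F.Λ ^ (-u) / (((n : ℝ) + 1) * (F.D j).κ lam))
      (Cg ^ F.c.ℓ * (C5 * (F.D j).G 0 ^ F.c.P)) C7 ((F.D j).ϖ + (F.tp j).ϖ0) (F.Λ ^ (-tol)) (F.Λ ^ (-(ηa * u) + tol)) (2 * ((F.D j).ϖ + (F.tp j).ϖ0)) := by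
  have hΛ0 : 0 < F.Λ := by
    have := h.Λ_ge
    have hm : (0 : ℝ) ≤ m := Nat.cast_nonneg m
    linarith
  have hκ : 0 < (F.D j).κ lam := (F.D j).κ_pos (h.good j) lam
  have hϖ : 1 ≤ (F.D j).ϖ := (h.good j).one_le_ϖ
  have hϖ0 : 1 ≤ (F.tp j).ϖ0 := (h.sys j).one_le_ϖ0
  have hCg : 1 ≤ Cg := hgeo.one_le_Γc
  have hCg0 : 0 < Cg := by linarith
  have hG : 0 < (F.D j).G 0 := lt_of_lt_of_le one_pos ((h.good j).one_le_G 0 (Nat.zero_le _))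
  refine
    { ne := ?_
      J0 := fun z ω => hA.J_nonneg (F.e j z) ω
      ar0 := fun z ω => mdi_Ar_nonneg _ (h.good j) _ ω
      lw0 := fun z ω => TGeo.leafw_nonneg (h.sys j) _ ω
      ϖl_pos := Real.rpow_pos_of_pos hΛ0 _
      t₀_pos := by linarith
      t₀_ge := le_rfl
      Ka_nonneg := by positivity
      one_le_Kr := hC7
      δa_nonneg := (Real.rpow_pos_of_pos hΛ0 _).le
      mass := fun z hz => hA.mass (F.e j z) ((mdt_mem_map F j Y' z).1 hz)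
      sum := ?_
      dom := fun z _ ω => (hA.J_le (F.e j z) ω).trans (mdt_dom h j hgeo hC5 H5 R (F.e j z) ω)
      cmp := fun z _ z' _ ω₂ ω ω' hc _ _ h1 h2 => H7 _ _ ω₂ ω ω' ((mdi_cel _ _ _ _).2 hc) h1 h2
      diam := ?_
      ang := fun z hz ω₂ => mdt_ang h j hA (F.e j z) ((mdt_mem_map F j Y' z).1 hz) ω₂ }
  · show (Finset.map (F.e j).symm.toEmbedding Y').Nonempty
    refine Finset.card_pos.1 ?_
    rw [mdt_card_map]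
    by_contra hc
    have h0 : Y'.card = 0 := by omega
    have h1 := hA.card
    rw [h0] at h1
    have : Nonempty (F.D j).Y := ⟨F.e j h.ne.some⟩
    have h2 : 0 < Fintype.card (F.D j).Y := Fintype.card_pos
    have h3 : (0 : ℝ) < Fintype.card (F.D j).Y := by exact_mod_cast h2
    rw [Nat.cast_zero, mul_zero] at h1
    linarith
  · intro z _
    show ∑ ω : (F.D j).Lb 0, (mdiAr (F.D j) ((F.D j).pt (F.e j z)) ω + (F.D j).geo.leafw (F.e j z) ω) ≤ _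
    refine le_trans (le_of_eq (Finset.sum_add_distrib (s := (Finset.univ : Finset ((F.D j).Lb 0)))
      (f := fun ω => mdiAr (F.D j) ((F.D j).pt (F.e j z)) ω) (g := fun ω => (F.D j).geo.leafw (F.e j z) ω))) ?_
    exact add_le_add (mdi_sum h.cls _ (h.good j) (F.e j z)) (TGeo.tp_sum_leafw (𝔊 := (F.D j).geo) (h.sys j) (F.e j z) Finset.univ)
  · intro ω ω' hc l
    refine (mdi_vel_sub _ _ l).trans ?_
    have h1 := mdi_cap_diam h.cls _ (h.good j) lam hA.lam_le ω ω' hc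
    refine (mul_le_mul_of_nonneg_left h1 (by norm_num)).trans (le_of_eq ?_)
    ring

/-- LEAF `L-F3-P4`  **the hypotheses of the same-field test.**      (statement changed 22:40Z: kernel `J` of `AngOut`)
PLAN.  All the projections of `mdtSame` are `rfl` (`unfold mdtSame MdFd.same mdtFd MdFd.J MdFd.lw` or `show`).   `z ∈ Y'.map (e j).symm` ↔ `e j z ∈ Y'`: `mdt_mem_map` (NOTE `(F.D j).sys.Y` and `(F.D j).Y` are only defeq: `rw [Finset.mem_map_equiv]` fails, use `mdt_mem_map`, `mdt_card_map`).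
`ne`: `hA.card`, `h.ne` (`0 < card (F.D j).Y`: `⟨F.e j h.ne.some⟩`), so `0 < Y'.card` (otherwise `card ≤ 0`), `Finset.Nonempty.map`.   `J0`: `hA.J_nonneg`.   `ar0`: `mdi_Ar_nonneg _ (h.good j)`.   `lw0`: `TGeo.leafw_nonneg (h.sys j)`.
`ϖl_pos`, `δa_nonneg`: `Real.rpow_pos_of_pos` (`0 < Λ` from `h.Λ_ge`).   `t₀_pos`: `1 ≤ ϖ` (`(h.good j).one_le_ϖ`), `1 ≤ ϖ0` (`(h.sys j).one_le_ϖ0`).   `t₀_ge`: `le_rfl`.   `Ka_nonneg`: positivity.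
`mass`: `hA.mass`.   `sum`: `Finset.sum_add_distrib`, `mdi_sum h.cls _ (h.good j)`, `TGeo.tp_sum_leafw (h.sys j) _ Finset.univ`.   `dom`: `hA.J_le` then `mdt_dom`.
`cmp`: `H7` with `(mdi_cel _ _ _ _).2`.   `diam`: `mdi_vel_sub`, `mdi_cap_diam h.cls _ (h.good j) lam hA.lam_le`: `2 * (2 ℓ Cc/κ lam)`.   `ang`: `mdt_ang`. -/
theorem mdt_hyp {F : FCfg (n + 1)} {m : ℕ} (h : F.Ok m) (j : Fin (n + 1 + 1)) {Cg C5 C7 : ℝ} (hgeo : (F.D j).geo.Ok ((F.D j).gp Cg)) (hC5 : 0 ≤ C5) (hC7 : 1 ≤ C7)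
    (H5 : ∀ (y : (F.D j).Y) (ω : (F.D j).Lb 0), (∃ T : (F.D j).Cl F.c.tr, T.1.1 = (F.D j).anc F.c.tr ω ∧ (F.D j).near F.c.tr ((F.D j).pt y) T.1) →
      (F.D j).geo.leafw y ω ≤ C5 * (F.D j).G 0 ^ F.c.P * mdiAr (F.D j) ((F.D j).pt y) ω)
    {l u ηa tol : ℝ} {lam ip : ℕ} {R : (F.D j).geo.Restr} {J : (F.D j).Y → (F.D j).Lb 0 → ℝ} {Y' : Finset (F.D j).Y} (hA : AngOut F j l u ηa tol lam R J Y')
    (H7 : ∀ (z z' : ST (n + 1)) (ω₂ ω ω' : (F.D j).Lb 0), flo (natX ((F.D j).κ ip) ((F.D j).fr 0 ω₂) z) = flo (natX ((F.D j).κ ip) ((F.D j).fr 0 ω₂) z') →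
      (F.D j).anc lam ω = (F.D j).anc lam ω₂ → (F.D j).anc lam ω' = (F.D j).anc lam ω₂ →
      mdiAr (F.D j) z' ω * mdiAr (F.D j) z ω' ≤ C7 * (mdiAr (F.D j) z ω * mdiAr (F.D j) z' ω')) :
    (mdtSame F j Cg R J lam Y').Hyp ((F.D j).κ ip) (4 * ((F.c.ℓ : ℝ) * F.c.Cc) / (F.D j).κ lam) (2 * F.Λ ^ (-u) / (((n : ℝ) + 1) * (F.D j).κ lam))
      (Cg ^ F.c.ℓ * (C5 * (F.D j).G 0 ^ F.c.P)) C7 ((F.D j).ϖ + (F.tp j).ϖ0) (F.Λ ^ (-tol)) (F.Λ ^ (-(ηa * u) + tol)) (2 * ((F.D j).ϖ + (F.tp j).ϖ0)) :=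
  mdt_hyp_aux h j hgeo hC5 hC7 H5 hA H7

/-- the occupancy sizes of the field `j` -/
def mdtM (F : FCfg (n + 1)) (j : Fin (n + 1 + 1)) (i : ℕ) : ℝ := (F.D j).κ i ^ (n + 1 + 2) * (F.r j i / F.A j) ^ qk (n + 1)

/-- **THE SAME-FIELD TEST ON A CONFIGURATION** -/
theorem mdt_same {F : FCfg (n + 1)} {m : ℕ} (h : F.Ok m) (j : Fin (n + 1 + 1)) {Cg C5 C7 T : ℝ} (hgeo : (F.D j).geo.Ok ((F.D j).gp Cg))
    (hT : MdtAt F j Cg T) (hC5 : 0 ≤ C5) (hC7 : 1 ≤ C7)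
    (H5 : ∀ (y : (F.D j).Y) (ω : (F.D j).Lb 0), (∃ T : (F.D j).Cl F.c.tr, T.1.1 = (F.D j).anc F.c.tr ω ∧ (F.D j).near F.c.tr ((F.D j).pt y) T.1) →
      (F.D j).geo.leafw y ω ≤ C5 * (F.D j).G 0 ^ F.c.P * mdiAr (F.D j) ((F.D j).pt y) ω)
    {l u ηa tol : ℝ} {lam ip ic jp jc : ℕ} {R : (F.D j).geo.Restr} {J : (F.D j).Y → (F.D j).Lb 0 → ℝ} {Y' : Finset (F.D j).Y}
    (hA : AngOut F j l u ηa tol lam R J Y')
    (H7 : ∀ (z z' : ST (n + 1)) (ω₂ ω ω' : (F.D j).Lb 0), flo (natX ((F.D j).κ ip) ((F.D j).fr 0 ω₂) z) = flo (natX ((F.D j).κ ip) ((F.D j).fr 0 ω₂) z') →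
      (F.D j).anc lam ω = (F.D j).anc lam ω₂ → (F.D j).anc lam ω' = (F.D j).anc lam ω₂ →
      mdiAr (F.D j) z' ω * mdiAr (F.D j) z ω' ≤ C7 * (mdiAr (F.D j) z ω * mdiAr (F.D j) z' ω'))
    (hip : ip ≤ F.c.ℓ) (hic : ic ≤ F.c.ℓ) (hjp : jp ≤ F.c.ℓ) (hjc : jc ≤ F.c.ℓ) (htol : 2 * F.Λ ^ tol ≤ T)
    (hwpu : (F.D j).κ ip ≤ (F.D j).κ jp) (hucu : (F.D j).κ jc ≤ (F.D j).κ jp)
    (hdr : 4 * ((F.c.ℓ : ℝ) * F.c.Cc) / (F.D j).κ lam * (F.D j).κ ip ^ 2 ≤ (F.D j).κ jp)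
    (hδ : F.Λ ^ (-(ηa * u) + tol) * (2 * ((F.D j).ϖ + (F.tp j).ϖ0)) / F.Λ ^ (-tol) ≤ 1 / 8) :
    mdtM F j ip * mdtM F j jc ≤ Cg ^ F.c.ℓ * (C5 * (F.D j).G 0 ^ F.c.P) * C7 * (2 * ((F.D j).ϖ + (F.tp j).ϖ0)) / F.Λ ^ (-tol) * 40 ^ 6 *
      ((2 * (F.D j).κ ip / (F.D j).κ ic + 2) ^ (n + 1) *
        (2 * ((F.D j).κ ip + (F.D j).κ jc + 2 * 0) / (2 * F.Λ ^ (-u) / (((n : ℝ) + 1) * (F.D j).κ lam) * (F.D j).κ ic ^ 2) + 2) * 8 ^ (n + 3) * 6 ^ (n + 3)) *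
      ((T ^ 5) ^ 8 * (16 * T ^ 5) ^ 4) * (mdtM F j ic * mdtM F j jp) := by
  have hΛ0 : 0 < F.Λ := by
    have := h.Λ_ge
    have hm : (0 : ℝ) ≤ m := Nat.cast_nonneg m
    linarith
  have hΛt : 0 < F.Λ ^ tol := Real.rpow_pos_of_pos hΛ0 _
  have hϖl : 0 < F.Λ ^ (-tol) / 2 := by
    have := Real.rpow_pos_of_pos hΛ0 (-tol)
    linarith
  have e1 : 1 / (F.Λ ^ (-tol) / 2) = 2 * F.Λ ^ tol := by
    rw [Real.rpow_neg hΛ0.le]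
    field_simp
  have hok := mdt_fd_ok h j hgeo hT R hA.sub (Y'.map (F.e j).symm.toEmbedding) (ϖl := F.Λ ^ (-tol) / 2) (Ky := F.Λ ^ tol) hϖl
    (by rw [e1]; exact htol) (by linarith) (by rw [mdt_card_map, Fintype.card_congr (F.e j)]; exact hA.card)
  have hH := mdt_hyp h j hgeo hC5 hC7 H5 (ip := ip) hA H7
  have hκ : ∀ i, 0 < (F.D j).κ i := fun i => (F.D j).κ_pos (h.good j) i
  have hr0 : 0 < 2 * F.Λ ^ (-u) / (((n : ℝ) + 1) * (F.D j).κ lam) := by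
    have := Real.rpow_pos_of_pos hΛ0 (-u)
    have := hκ lam
    positivity
  exact mdy_same (mdtFd F j Cg R) (fun q (ω : (F.D j).Lb 0) => J (F.e j q) ω) (fun q ω => hA.J_le (F.e j q) ω) ((F.D j).anc lam) (fun q (ω : (F.D j).Lb 0) => mdiAr (F.D j) ((F.D j).pt (F.e j q)) ω)
    (Y'.map (F.e j).symm.toEmbedding) hok hH hip hic hjp hjc (fun θ => mdi_vel_zero ((F.D j).fr 0 θ)) (hκ ic) (hκ ip) (hκ jc) hwpu hucu hdr hr0 hδ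

end

end Claimed.Agent.R257.FR3
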