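import Claimed.Agent.R257.FR3.MidKer

/-!
# ROW 257, package FR3, unit MID, file 6: PRUNING OF ATYPICAL CAPS; THE SAME-FIELD AND THE CROSS-FIELD KERNELS      (architect helper276)

PAPER-FREE (no `TSys`, finite sums only).
PRUNING (H `frame.tex` l.893-899, l.985-993: "typical sampled labels").   `ρ z ω ≥ 0` reference weights, `∑_ω ρ z ω ≤ ϖ`.   A group `w` is GOOD at `z` if `p_z(w) ≥ ρ_z(w)/t₀`, i.e. `(∑_{cp ω = w} ρ z ω) (∑ J z ·) ≤ t₀ ∑_{cp ω = w} J z ω`.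
`mdpJ` = the kernel `J` restricted to the good groups: it loses at most the fraction `ϖ/t₀` of the mass at EVERY `z` (`mdp_mass`), and on its support the typical lower bound of the cap law is UNIFORM (`mdp_cap`).
(FR2 exports hold for ANY kernel `0 ≤ J' ≤ Jn R`: monotone form.)
SAME FIELD  `MdSame`:  kernel `J`, groups `cp` = caps `τ_l`, `ar` = SMOOTH reference weights of the directions (endpoint square weights, whole transition bins clipped proportionally; `f:conditioning`), `lw` = leaf weights (`TGeo.leafw`; the angular bound of `f:angular` is relative to them).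
            `mds_hyp` : `MdSame.Hyp ⟹ MdKer.Hyp` for the pruned kernel, `K = Ka Kr t₀/ϖl`, `K₁ = 1`, `δ = δa t₀/ϖl`.
CROSS FIELD `MdCross`: two kernels, no groups (`𝒲 = Unit`), no pruning;  `mdx_hyp` : `K = Ka Kr/ϖl`, `K₁ = ϖ`, `δ = 0`.
Prefix `mdp_`, `mds_`, `mdx_`.   Every `sorry` is a leaf `L-F3-M*` (statement frozen; prove in place).
-/

set_option autoImplicit false

namespace Claimed.Agent.R257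

open scoped BigOperators
open Classical

section prune

variable {Q 𝒲 D : Type} [Fintype 𝒲] [Fintype D] (cp : D → 𝒲) (J ρ : Q → D → ℝ) (t₀ : ℝ)

/-- the group `w` is good at `z` -/
def mdpGood (z : Q) (w : 𝒲) : Prop := (∑ ω with cp ω = w, ρ z ω) * (∑ ω, J z ω) ≤ t₀ * ∑ ω with cp ω = w, J z ω

/-- the pruned kernel -/
noncomputable def mdpJ (z : Q) (ω : D) : ℝ := if mdpGood cp J ρ t₀ z (cp ω) then J z ω else 0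

theorem mdp_nonneg (hJ : ∀ z ω, 0 ≤ J z ω) (z : Q) (ω : D) : 0 ≤ mdpJ cp J ρ t₀ z ω := by
  unfold mdpJ
  split_ifs
  exacts [hJ z ω, le_rfl]

theorem mdp_le (hJ : ∀ z ω, 0 ≤ J z ω) (z : Q) (ω : D) : mdpJ cp J ρ t₀ z ω ≤ J z ω := by
  unfold mdpJ
  split_ifs
  exacts [le_rfl, hJ z ω]

/-- on the support of the pruned kernel: the group is good and keeps its whole mass -/
theorem mdp_cap (z : Q) (ω₂ : D) (h : mdpJ cp J ρ t₀ z ω₂ ≠ 0) :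
    mdpGood cp J ρ t₀ z (cp ω₂) ∧ ∑ ω with cp ω = cp ω₂, mdpJ cp J ρ t₀ z ω = ∑ ω with cp ω = cp ω₂, J z ω := by
  have hg : mdpGood cp J ρ t₀ z (cp ω₂) := by
    by_contra hcon
    exact h (by unfold mdpJ; rw [if_neg hcon])
  refine ⟨hg, Finset.sum_congr rfl fun ω hω => ?_⟩
  unfold mdpJ
  rw [(Finset.mem_filter.1 hω).2, if_pos hg]

/-- LEAF `L-F3-M11`  **the pruning loses at most the fraction `ϖ/t₀` of the mass.**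
PLAN.  `W = ∑ J z ·`.   `W - ∑ mdpJ = ∑_ω [¬ good (cp ω)] J z ω = ∑_w [¬ good w] ∑_{cp ω = w} J z ω` (`Finset.sum_fiberwise` for `cp`, backwards; inside the fibre `cp ω = w`);
for a bad `w`: `t₀ ∑_{cp ω = w} J z ω < (∑_{cp ω = w} ρ z ω) W`;  so `t₀ (W - ∑ mdpJ) ≤ W ∑_w ∑_{cp ω = w} ρ z ω = W ∑_ω ρ z ω ≤ W ϖ` (`0 ≤ W`, `0 ≤ ρ`).   Divide by `t₀`. -/
theorem mdp_mass (hJ : ∀ z ω, 0 ≤ J z ω) (hρ : ∀ z ω, 0 ≤ ρ z ω) (ht₀ : 0 < t₀) (z : Q) {ϖ : ℝ} (hϖ : ∑ ω, ρ z ω ≤ ϖ) :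
    (1 - ϖ / t₀) * ∑ ω, J z ω ≤ ∑ ω, mdpJ cp J ρ t₀ z ω := by
  obtain ⟨W, hWd⟩ : ∃ W : ℝ, W = ∑ ω, J z ω := ⟨_, rfl⟩
  have hW : 0 ≤ W := by
    rw [hWd]
    exact Finset.sum_nonneg fun ω _ => hJ z ω
  have e1 : W = ∑ w, ∑ ω with cp ω = w, J z ω := by
    rw [hWd]
    exact (Finset.sum_fiberwise _ cp _).symm
  have e2 : ∑ ω, mdpJ cp J ρ t₀ z ω = ∑ w, ∑ ω with cp ω = w, mdpJ cp J ρ t₀ z ω := (Finset.sum_fiberwise _ cp _).symm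
  have e3 : ∑ ω, ρ z ω = ∑ w, ∑ ω with cp ω = w, ρ z ω := (Finset.sum_fiberwise _ cp _).symm
  have key : ∀ w, t₀ * (∑ ω with cp ω = w, J z ω) ≤ t₀ * (∑ ω with cp ω = w, mdpJ cp J ρ t₀ z ω) + (∑ ω with cp ω = w, ρ z ω) * W := by
    intro w
    by_cases hg : mdpGood cp J ρ t₀ z w
    · have e : ∑ ω with cp ω = w, mdpJ cp J ρ t₀ z ω = ∑ ω with cp ω = w, J z ω := by
        refine Finset.sum_congr rfl fun ω hω => ?_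
        unfold mdpJ
        rw [(Finset.mem_filter.1 hω).2, if_pos hg]
      rw [e]
      have : 0 ≤ (∑ ω with cp ω = w, ρ z ω) * W := mul_nonneg (Finset.sum_nonneg fun ω _ => hρ z ω) hW
      linarith
    · have e : ∑ ω with cp ω = w, mdpJ cp J ρ t₀ z ω = 0 := by
        refine Finset.sum_eq_zero fun ω hω => ?_
        unfold mdpJ
        rw [(Finset.mem_filter.1 hω).2, if_neg hg]
      rw [e, mul_zero, zero_add]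
      unfold mdpGood at hg
      rw [← hWd] at hg
      exact (not_le.1 hg).le
  have hsum : t₀ * W ≤ t₀ * ∑ ω, mdpJ cp J ρ t₀ z ω + (∑ ω, ρ z ω) * W := by
    calc t₀ * W = ∑ w, t₀ * ∑ ω with cp ω = w, J z ω := by rw [e1, Finset.mul_sum]
      _ ≤ ∑ w, (t₀ * (∑ ω with cp ω = w, mdpJ cp J ρ t₀ z ω) + (∑ ω with cp ω = w, ρ z ω) * W) := Finset.sum_le_sum fun w _ => key w
      _ = t₀ * ∑ ω, mdpJ cp J ρ t₀ z ω + (∑ ω, ρ z ω) * W := by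
        rw [Finset.sum_add_distrib, ← Finset.mul_sum, ← Finset.sum_mul, ← e2, ← e3]
  have h2 : (∑ ω, ρ z ω) * W ≤ ϖ * W := mul_le_mul_of_nonneg_right hϖ hW
  rw [← hWd]
  have h3 : (1 - ϖ / t₀) * W = (t₀ * W - ϖ * W) / t₀ := by
    field_simp
  rw [h3, div_le_iff₀ ht₀]
  linarith

end prune

theorem mdp_eqns_cite : True := by
  have := @mdpGood.eq_1
  have := @mdpJ.eq_1
  trivial

/-! ## same field -/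

/-- the data of the same-field test -/
structure MdSame (n : ℕ) (Q 𝒲 D : Type) where
  Y' : Finset Q
  J : Q → D → ℝ
  cp : D → 𝒲
  pos : Q → Fin (n + 2) → ℝ
  dir : D → Fin (n + 2) → ℝ
  ar : Q → D → ℝ
  lw : Q → D → ℝ

namespace MdSame

variable {n : ℕ} {Q 𝒲 D : Type} [Fintype Q] [Fintype 𝒲] [Fintype D] (𝔑 : MdSame n Q 𝒲 D)

/-- **the hypotheses of the same-field test on the kernel** -/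
structure Hyp (wp Ad r0 Ka Kr ϖ ϖl δa t₀ : ℝ) : Prop where
  ne : 𝔑.Y'.Nonempty
  J0 : ∀ z ω, 0 ≤ 𝔑.J z ω
  ar0 : ∀ z ω, 0 ≤ 𝔑.ar z ω
  lw0 : ∀ z ω, 0 ≤ 𝔑.lw z ω
  ϖl_pos : 0 < ϖl
  t₀_pos : 0 < t₀
  t₀_ge : 2 * ϖ ≤ t₀
  Ka_nonneg : 0 ≤ Ka
  one_le_Kr : 1 ≤ Kr
  δa_nonneg : 0 ≤ δa
  /-- lower bound of the path mass -/
  mass : ∀ z ∈ 𝔑.Y', ϖl ≤ ∑ ω, 𝔑.J z ω
  /-- the reference weights are summable -/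
  sum : ∀ z ∈ 𝔑.Y', ∑ ω, (𝔑.ar z ω + 𝔑.lw z ω) ≤ ϖ
  /-- path domination -/
  dom : ∀ z ∈ 𝔑.Y', ∀ ω, 𝔑.J z ω ≤ Ka * 𝔑.ar z ω
  /-- bounded drift, CROSS-RATIO FORM: the reference weights of the directions of the cap of `ω₂`, NORMALISED IN THE CAP, are comparable on a cell of width `wp` tilted by `ω₂`
  (a factor which depends only on the point and on the cap, e.g. the availability of a transition bin which contains the cap, cancels) -/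
  cmp : ∀ z ∈ 𝔑.Y', ∀ z' ∈ 𝔑.Y', ∀ ω₂ ω ω', mdCel wp (𝔑.pos z) (𝔑.dir ω₂) = mdCel wp (𝔑.pos z') (𝔑.dir ω₂) → 𝔑.J z ω₂ ≠ 0 → 𝔑.J z' ω₂ ≠ 0 →
    𝔑.cp ω = 𝔑.cp ω₂ → 𝔑.cp ω' = 𝔑.cp ω₂ → 𝔑.ar z' ω * 𝔑.ar z ω' ≤ Kr * (𝔑.ar z ω * 𝔑.ar z' ω')
  /-- diameter of a cap -/
  diam : ∀ ω ω', 𝔑.cp ω = 𝔑.cp ω' → ∀ l, |𝔑.dir ω l - 𝔑.dir ω' l| ≤ Ad
  /-- `f:angular` for balls of radius `r0` -/
  ang : ∀ z ∈ 𝔑.Y', ∀ ω₂, ∑ ω with (𝔑.cp ω = 𝔑.cp ω₂ ∧ ∀ l, |𝔑.dir ω l - 𝔑.dir ω₂ l| < r0), 𝔑.J z ω ≤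
    δa * ∑ ω with 𝔑.cp ω = 𝔑.cp ω₂, 𝔑.lw z ω

/-- the pruned kernel -/
noncomputable def Jp (t₀ : ℝ) : Q → D → ℝ := mdpJ 𝔑.cp 𝔑.J (fun z ω => 𝔑.ar z ω + 𝔑.lw z ω) t₀

/-- the reference law of the cell `c` tilted by `ω₂`: the reference weights at a chosen point of the cell (which sees `ω₂`), normalised in the cap of `ω₂` -/
noncomputable def ν (wp : ℝ) (cω : ((Fin (n + 2) → ℤ) × ℤ) × D) (ω₁ : D) : ℝ :=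
  if h : ∃ z ∈ 𝔑.Y', mdCel wp (𝔑.pos z) (𝔑.dir cω.2) = cω.1 ∧ 𝔑.J z cω.2 ≠ 0 then
    (if 𝔑.cp ω₁ = 𝔑.cp cω.2 then 𝔑.ar h.choose ω₁ / ∑ ω with 𝔑.cp ω = 𝔑.cp cω.2, 𝔑.ar h.choose ω else 0)
  else 0

/-- the two-kernel data of the same-field test -/
noncomputable def ker (wp t₀ : ℝ) : MdKer n Q 𝒲 D D :=
  ⟨𝔑.Y', 𝔑.Jp t₀, 𝔑.Jp t₀, 𝔑.cp, 𝔑.cp, 𝔑.pos, 𝔑.pos, 𝔑.dir, 𝔑.dir, 𝔑.ν wp⟩

end MdSame

theorem mds_eqns_cite : True := by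
  have := @MdSame.Jp.eq_1
  have := @MdSame.ν.eq_1
  have := @MdSame.ker.eq_1
  trivial

variable {n : ℕ} {Q 𝒲 D : Type} [Fintype Q] [Fintype 𝒲] [Fintype D]

/-- the pruned kernel keeps half of the mass -/
theorem mds_mass (𝔑 : MdSame n Q 𝒲 D) {wp Ad r0 Ka Kr ϖ ϖl δa t₀ : ℝ} (h : 𝔑.Hyp wp Ad r0 Ka Kr ϖ ϖl δa t₀) (z : Q)
    (hz : z ∈ 𝔑.Y') : ϖl / 2 ≤ ∑ ω, 𝔑.Jp t₀ z ω := by
  have h1 := mdp_mass 𝔑.cp 𝔑.J (fun z ω => 𝔑.ar z ω + 𝔑.lw z ω) t₀ h.J0 (fun z ω => add_nonneg (h.ar0 z ω) (h.lw0 z ω))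
    h.t₀_pos z (h.sum z hz)
  have h2 : (1 : ℝ) / 2 ≤ 1 - ϖ / t₀ := by
    have : ϖ / t₀ ≤ 1 / 2 := by
      rw [div_le_iff₀ h.t₀_pos]
      linarith [h.t₀_ge]
    linarith
  have h3 := h.mass z hz
  have h4 : (0 : ℝ) ≤ ∑ ω, 𝔑.J z ω := h.ϖl_pos.le.trans h3
  calc ϖl / 2 = 1 / 2 * ϖl := by ring
    _ ≤ (1 - ϖ / t₀) * ∑ ω, 𝔑.J z ω := mul_le_mul h2 h3 h.ϖl_pos.le (by linarith)
    _ ≤ _ := h1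

theorem mds_base (𝔑 : MdSame n Q 𝒲 D) {wp Ad r0 Ka Kr ϖ ϖl δa t₀ : ℝ} (h : 𝔑.Hyp wp Ad r0 Ka Kr ϖ ϖl δa t₀) :
    (𝔑.ker wp t₀).Base :=
  ⟨h.ne, fun z ω => mdp_nonneg _ _ _ _ h.J0 z ω, fun z ω => mdp_nonneg _ _ _ _ h.J0 z ω,
    fun z hz => lt_of_lt_of_le (by linarith [h.ϖl_pos]) (mds_mass 𝔑 h z hz),
    fun z hz => lt_of_lt_of_le (by linarith [h.ϖl_pos]) (mds_mass 𝔑 h z hz)⟩

/-- LEAF `L-F3-M12`  the reference laws are sub-probabilities.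
PLAN.  unfold `MdSame.ν`; `split_ifs`/`by_cases` on `h`; no point: `∑ 0 = 0`;  otherwise `∑_θ (if cp θ = w then a θ / Σ else 0) = (∑_{cp θ = w} a θ)/Σ = Σ/Σ ≤ 1` (`Finset.sum_filter` backwards, `Finset.sum_div`, `div_self_le_one`). -/
theorem mds_ν (𝔑 : MdSame n Q 𝒲 D) (har : ∀ z ω, 0 ≤ 𝔑.ar z ω) (wp : ℝ) (c : ((Fin (n + 2) → ℤ) × ℤ) × D) :
    (∀ θ, 0 ≤ 𝔑.ν wp c θ) ∧ ∑ θ, 𝔑.ν wp c θ ≤ 1 := by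
  by_cases h : ∃ z ∈ 𝔑.Y', mdCel wp (𝔑.pos z) (𝔑.dir c.2) = c.1 ∧ 𝔑.J z c.2 ≠ 0
  · have e : ∀ θ, 𝔑.ν wp c θ = if 𝔑.cp θ = 𝔑.cp c.2 then 𝔑.ar h.choose θ / ∑ ω with 𝔑.cp ω = 𝔑.cp c.2, 𝔑.ar h.choose ω else 0 := by
      intro θ
      unfold MdSame.ν
      rw [dif_pos h]
    constructor
    · intro θ
      rw [e]
      split_ifs
      · exact div_nonneg (har _ _) (Finset.sum_nonneg fun ω _ => har _ _)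
      · exact le_rfl
    · simp_rw [e]
      rw [← Finset.sum_filter, ← Finset.sum_div]
      exact div_self_le_one _
  · have e : ∀ θ, 𝔑.ν wp c θ = 0 := by
      intro θ
      unfold MdSame.ν
      rw [dif_neg h]
    exact ⟨fun θ => (e θ).ge, by simp [e]⟩

/-- LEAF `L-F3-M13`  **domination by the reference law of the cell.**      (statement changed 21:55Z: cross-ratio form of `cmp`, `K = Ka Kr t₀/ϖl`)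
PLAN.  `w = cp ω₂`, `c = mdCel wp (pos z) (dir ω₂)`; `J z ω₂ ≠ 0` (from `h2`: `mdpJ` is `J` or `0`); the `dite` in `ν` is positive (witness `z`); `zc = h.choose ∈ Y'`, `mdCel wp (pos zc) (dir ω₂) = c`, `J zc ω₂ ≠ 0` (`h.choose_spec`).
`Σc = ∑_{cp ω = w} ar zc ω`, `Σz = ∑_{cp ω = w} ar z ω`, `Σ' = ∑_{cp ω = w} Jp z ω`.
(0) `Σc > 0`: `0 < J zc ω₂ ≤ Ka ar zc ω₂` (`J0`, `dom`), so `ar zc ω₂ > 0` (`Ka ≥ 0`: otherwise the product is `≤ 0`), `Finset.single_le_sum`.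
(1) `Jp z ω₁ ≤ J z ω₁ ≤ Ka ar z ω₁` (`mdp_le`, `dom`).   (2) `ar z ω₁ Σc = ∑_{ω'} ar z ω₁ ar zc ω' ≤ Kr ∑_{ω'} ar zc ω₁ ar z ω' = Kr ar zc ω₁ Σz` (`cmp zc z ω₂ ω₁ ω'`, `Finset.mul_sum`).
(3) `mdp_cap`: `Σ' = ∑_{cp ω = w} J z ω` and `(∑_{cp ω = w} (ar + lw) z ω) W ≤ t₀ Σ'`, `W ≥ ϖl`, `lw ≥ 0`: `Σz ϖl ≤ t₀ Σ'`.
(4) RHS `= Ka Kr t₀/ϖl · ar zc ω₁/Σc · Σ' ≥ Ka Kr (ar zc ω₁/Σc) Σz ≥ Ka ar z ω₁`. -/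
theorem mds_dom (𝔑 : MdSame n Q 𝒲 D) {wp Ad r0 Ka Kr ϖ ϖl δa t₀ : ℝ} (h : 𝔑.Hyp wp Ad r0 Ka Kr ϖ ϖl δa t₀) (z : Q)
    (hz : z ∈ 𝔑.Y') (ω₂ ω₁ : D) (h2 : 𝔑.Jp t₀ z ω₂ ≠ 0) (h1 : 𝔑.cp ω₁ = 𝔑.cp ω₂) :
    𝔑.Jp t₀ z ω₁ ≤ Ka * Kr * t₀ / ϖl * 𝔑.ν wp (mdCel wp (𝔑.pos z) (𝔑.dir ω₂), ω₂) ω₁ *
      ∑ ω with 𝔑.cp ω = 𝔑.cp ω₂, 𝔑.Jp t₀ z ω := by
  have hJz : 𝔑.J z ω₂ ≠ 0 := by
    intro h0
    apply h2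
    unfold MdSame.Jp mdpJ
    split_ifs
    · exact h0
    · rfl
  have hex : ∃ z' ∈ 𝔑.Y', mdCel wp (𝔑.pos z') (𝔑.dir ω₂) = mdCel wp (𝔑.pos z) (𝔑.dir ω₂) ∧ 𝔑.J z' ω₂ ≠ 0 := ⟨z, hz, rfl, hJz⟩
  obtain ⟨zc, hzc, hcel, hJc, hν⟩ : ∃ zc ∈ 𝔑.Y', mdCel wp (𝔑.pos zc) (𝔑.dir ω₂) = mdCel wp (𝔑.pos z) (𝔑.dir ω₂) ∧ 𝔑.J zc ω₂ ≠ 0 ∧
      𝔑.ν wp (mdCel wp (𝔑.pos z) (𝔑.dir ω₂), ω₂) ω₁ = 𝔑.ar zc ω₁ / ∑ ω with 𝔑.cp ω = 𝔑.cp ω₂, 𝔑.ar zc ω := by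
    refine ⟨hex.choose, hex.choose_spec.1, hex.choose_spec.2.1, hex.choose_spec.2.2, ?_⟩
    unfold MdSame.ν
    rw [dif_pos hex, if_pos h1]
  rw [hν]
  obtain ⟨hg, hcap⟩ := mdp_cap 𝔑.cp 𝔑.J (fun z ω => 𝔑.ar z ω + 𝔑.lw z ω) t₀ z ω₂ h2
  unfold mdpGood at hg
  obtain ⟨Sc, hSc⟩ : ∃ Sc : ℝ, Sc = ∑ ω with 𝔑.cp ω = 𝔑.cp ω₂, 𝔑.ar zc ω := ⟨_, rfl⟩
  obtain ⟨Sz, hSz⟩ : ∃ Sz : ℝ, Sz = ∑ ω with 𝔑.cp ω = 𝔑.cp ω₂, 𝔑.ar z ω := ⟨_, rfl⟩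
  obtain ⟨S', hS'⟩ : ∃ S' : ℝ, S' = ∑ ω with 𝔑.cp ω = 𝔑.cp ω₂, 𝔑.Jp t₀ z ω := ⟨_, rfl⟩
  have hcap' : S' = ∑ ω with 𝔑.cp ω = 𝔑.cp ω₂, 𝔑.J z ω := hS'.trans hcap
  rw [← hcap'] at hg
  rw [← hSc, ← hS']
  have hKa := h.Ka_nonneg
  have hKr := h.one_le_Kr
  have hKr0 : 0 ≤ Kr := by linarith
  have ht := h.t₀_pos
  have hl := h.ϖl_pos
  have ha0 : 0 ≤ 𝔑.ar zc ω₁ := h.ar0 zc ω₁
  have hpos : 0 < Sc := by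
    have b1 : 0 < 𝔑.J zc ω₂ := lt_of_le_of_ne (h.J0 zc ω₂) (Ne.symm hJc)
    have b2 := h.dom zc hzc ω₂
    have b3 : 0 < 𝔑.ar zc ω₂ := by
      rcases (h.ar0 zc ω₂).eq_or_lt with h0 | h0
      · rw [← h0, mul_zero] at b2
        linarith
      · exact h0
    refine b3.trans_le ?_
    rw [hSc]
    exact Finset.single_le_sum (f := fun ω => 𝔑.ar zc ω) (fun ω _ => h.ar0 zc ω) (Finset.mem_filter.2 ⟨Finset.mem_univ _, rfl⟩)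
  have hJ1 : 𝔑.Jp t₀ z ω₁ ≤ Ka * 𝔑.ar z ω₁ := (mdp_le _ _ _ _ h.J0 z ω₁).trans (h.dom z hz ω₁)
  have hSz0 : 0 ≤ Sz := by
    rw [hSz]
    exact Finset.sum_nonneg fun ω _ => h.ar0 z ω
  have h2' : 𝔑.ar z ω₁ * Sc ≤ Kr * (𝔑.ar zc ω₁ * Sz) := by
    rw [hSc, hSz, Finset.mul_sum, Finset.mul_sum, Finset.mul_sum]
    exact Finset.sum_le_sum fun ω' hω' => h.cmp zc hzc z hz ω₂ ω₁ ω' hcel hJc hJz h1 (Finset.mem_filter.1 hω').2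
  have h3' : Sz * ϖl ≤ t₀ * S' := by
    refine le_trans ?_ hg
    refine mul_le_mul ?_ (h.mass z hz) hl.le (Finset.sum_nonneg fun ω _ => add_nonneg (h.ar0 z ω) (h.lw0 z ω))
    rw [hSz]
    exact Finset.sum_le_sum fun ω _ => le_add_of_nonneg_right (h.lw0 z ω)
  have e : Ka * Kr * t₀ / ϖl * (𝔑.ar zc ω₁ / Sc) * S' = Ka * (Kr * 𝔑.ar zc ω₁ * (t₀ * S')) / (ϖl * Sc) := by
    field_simp
  rw [e, le_div_iff₀ (by positivity)]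
  calc 𝔑.Jp t₀ z ω₁ * (ϖl * Sc) ≤ Ka * 𝔑.ar z ω₁ * (ϖl * Sc) := mul_le_mul_of_nonneg_right hJ1 (by positivity)
    _ = Ka * ϖl * (𝔑.ar z ω₁ * Sc) := by ring
    _ ≤ Ka * ϖl * (Kr * (𝔑.ar zc ω₁ * Sz)) := mul_le_mul_of_nonneg_left h2' (by positivity)
    _ = Ka * (Kr * 𝔑.ar zc ω₁ * (Sz * ϖl)) := by ring
    _ ≤ Ka * (Kr * 𝔑.ar zc ω₁ * (t₀ * S')) := by
      refine mul_le_mul_of_nonneg_left (mul_le_mul_of_nonneg_left h3' (by positivity)) hKa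

/-- LEAF `L-F3-M14`  **separation.**
PLAN.  `∑_{ball} Jp z ω₁ ≤ ∑_{ball} J z ω₁` (`mdp_le`) `≤ δa ∑_{cp ω = w} lw z ω` (`ang`) `≤ δa ∑_{cp ω = w} (ar + lw) z ω`;  `mdp_cap`: `(∑ (ar+lw)) W ≤ t₀ Σ'`, `ϖl ≤ W`, so `(∑ (ar+lw)) ϖl ≤ t₀ Σ'`;  `div`/`le_div_iff₀`. -/
theorem mds_sep (𝔑 : MdSame n Q 𝒲 D) {wp Ad r0 Ka Kr ϖ ϖl δa t₀ : ℝ} (h : 𝔑.Hyp wp Ad r0 Ka Kr ϖ ϖl δa t₀) (z : Q)
    (hz : z ∈ 𝔑.Y') (ω₂ : D) (h2 : 𝔑.Jp t₀ z ω₂ ≠ 0) :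
    ∑ ω₁ with (𝔑.cp ω₁ = 𝔑.cp ω₂ ∧ ∀ l, |𝔑.dir ω₁ l - 𝔑.dir ω₂ l| < r0), 𝔑.Jp t₀ z ω₁ ≤
      δa * t₀ / ϖl * ∑ ω with 𝔑.cp ω = 𝔑.cp ω₂, 𝔑.Jp t₀ z ω := by
  obtain ⟨hg, hcap⟩ := mdp_cap 𝔑.cp 𝔑.J (fun z ω => 𝔑.ar z ω + 𝔑.lw z ω) t₀ z ω₂ h2
  unfold mdpGood at hg
  obtain ⟨S', hS'⟩ : ∃ S' : ℝ, S' = ∑ ω with 𝔑.cp ω = 𝔑.cp ω₂, 𝔑.Jp t₀ z ω := ⟨_, rfl⟩
  obtain ⟨T, hT⟩ : ∃ T : ℝ, T = ∑ ω with 𝔑.cp ω = 𝔑.cp ω₂, (𝔑.ar z ω + 𝔑.lw z ω) := ⟨_, rfl⟩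
  have hcap' : S' = ∑ ω with 𝔑.cp ω = 𝔑.cp ω₂, 𝔑.J z ω := hS'.trans hcap
  rw [← hcap', ← hT] at hg
  rw [← hS']
  have hl := h.ϖl_pos
  have hδ := h.δa_nonneg
  have hT0 : 0 ≤ T := by
    rw [hT]
    exact Finset.sum_nonneg fun ω _ => add_nonneg (h.ar0 z ω) (h.lw0 z ω)
  have h1 : ∑ ω₁ with (𝔑.cp ω₁ = 𝔑.cp ω₂ ∧ ∀ l, |𝔑.dir ω₁ l - 𝔑.dir ω₂ l| < r0), 𝔑.Jp t₀ z ω₁ ≤ δa * T := by
    refine le_trans (Finset.sum_le_sum fun ω _ => mdp_le _ _ _ _ h.J0 z ω) ((h.ang z hz ω₂).trans ?_)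
    refine mul_le_mul_of_nonneg_left ?_ hδ
    rw [hT]
    exact Finset.sum_le_sum fun ω _ => le_add_of_nonneg_left (h.ar0 z ω)
  have h3 : T * ϖl ≤ t₀ * S' := (mul_le_mul_of_nonneg_left (h.mass z hz) hT0).trans hg
  refine h1.trans ?_
  have e : δa * t₀ / ϖl * S' = δa * (t₀ * S' / ϖl) := by ring
  rw [e]
  refine mul_le_mul_of_nonneg_left ?_ hδ
  rw [le_div_iff₀ hl]
  exact h3

/-- **same field: the hypotheses on the kernels hold for the pruned kernel** -/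
theorem mds_hyp (𝔑 : MdSame n Q 𝒲 D) {wp Ad r0 Ka Kr ϖ ϖl δa t₀ : ℝ} (h : 𝔑.Hyp wp Ad r0 Ka Kr ϖ ϖl δa t₀) :
    (𝔑.ker wp t₀).Hyp wp Ad r0 (Ka * Kr * t₀ / ϖl) 1 (δa * t₀ / ϖl) where
  marg := fun _ _ _ => rfl
  diff := fun _ _ ω₁ ω₂ _ _ hc => h.diam ω₁ ω₂ hc
  K_nonneg := by
    have := h.Ka_nonneg; have := h.one_le_Kr; have := h.t₀_pos; have := h.ϖl_pos
    positivity
  ν0 := fun c => (mds_ν 𝔑 h.ar0 wp c).1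
  ν1 := fun c => (mds_ν 𝔑 h.ar0 wp c).2
  dom := fun z hz ω₂ ω₁ h2 h1 => mds_dom 𝔑 h z hz ω₂ ω₁ h2 h1
  sep := fun z hz ω₂ h2 => mds_sep 𝔑 h z hz ω₂ h2

/-! ## cross field -/

/-- the data of the cross-field test -/
structure MdCross (n : ℕ) (Q D₁ D₂ : Type) where
  Y' : Finset Q
  J₁ : Q → D₁ → ℝ
  J₂ : Q → D₂ → ℝ
  pos₁ : Q → Fin (n + 2) → ℝ
  pos₂ : Q → Fin (n + 2) → ℝ
  dir₁ : D₁ → Fin (n + 2) → ℝ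
  dir₂ : D₂ → Fin (n + 2) → ℝ
  ar : Q → D₁ → ℝ

namespace MdCross

variable {D₁ D₂ : Type} [Fintype D₁] [Fintype D₂] (𝔛 : MdCross n Q D₁ D₂)

/-- **the hypotheses of the cross-field test on the kernels** -/
structure Hyp (wp Ad r0 Ka Kr ϖ ϖl : ℝ) : Prop where
  ne : 𝔛.Y'.Nonempty
  J₁0 : ∀ z ω, 0 ≤ 𝔛.J₁ z ω
  J₂0 : ∀ z ω, 0 ≤ 𝔛.J₂ z ω
  ar0 : ∀ z ω, 0 ≤ 𝔛.ar z ω
  ϖl_pos : 0 < ϖl
  Ka_nonneg : 0 ≤ Ka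
  Kr_nonneg : 0 ≤ Kr
  mass₁ : ∀ z ∈ 𝔛.Y', ϖl ≤ ∑ ω, 𝔛.J₁ z ω
  mass₂ : ∀ z ∈ 𝔛.Y', ϖl ≤ ∑ ω, 𝔛.J₂ z ω
  sum : ∀ z ∈ 𝔛.Y', ∑ ω, 𝔛.ar z ω ≤ ϖ
  dom : ∀ z ∈ 𝔛.Y', ∀ ω, 𝔛.J₁ z ω ≤ Ka * 𝔛.ar z ω
  /-- bounded drift: the reference weights of the FIRST field are comparable on a cell of width `wp` of the SECOND field -/
  cmp : ∀ z ∈ 𝔛.Y', ∀ z' ∈ 𝔛.Y', ∀ ω₂ ω, mdCel wp (𝔛.pos₂ z) (𝔛.dir₂ ω₂) = mdCel wp (𝔛.pos₂ z') (𝔛.dir₂ ω₂) →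
    𝔛.ar z' ω ≤ Kr * 𝔛.ar z ω
  diam : ∀ ω₁ ω₂ l, |𝔛.dir₁ ω₁ l - 𝔛.dir₂ ω₂ l| ≤ Ad
  /-- root transversality -/
  trans : ∀ ω₁ ω₂, ∃ l, r0 ≤ |𝔛.dir₁ ω₁ l - 𝔛.dir₂ ω₂ l|

/-- the reference law of a cell of the second field: the reference weights of the first field at a chosen point of the cell -/
noncomputable def ν (wp : ℝ) (cω : ((Fin (n + 2) → ℤ) × ℤ) × D₂) (ω₁ : D₁) : ℝ :=
  if h : ∃ z ∈ 𝔛.Y', mdCel wp (𝔛.pos₂ z) (𝔛.dir₂ cω.2) = cω.1 then 𝔛.ar h.choose ω₁ else 0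

/-- the two-kernel data of the cross-field test -/
noncomputable def ker (wp : ℝ) : MdKer n Q Unit D₁ D₂ :=
  ⟨𝔛.Y', 𝔛.J₁, 𝔛.J₂, fun _ => (), fun _ => (), 𝔛.pos₁, 𝔛.pos₂, 𝔛.dir₁, 𝔛.dir₂, 𝔛.ν wp⟩

end MdCross

theorem mdx_eqns_cite : True := by
  have := @MdCross.ν.eq_1
  have := @MdCross.ker.eq_1
  trivial

variable {D₁ D₂ : Type} [Fintype D₁] [Fintype D₂]

theorem mdx_base (𝔛 : MdCross n Q D₁ D₂) {wp Ad r0 Ka Kr ϖ ϖl : ℝ} (h : 𝔛.Hyp wp Ad r0 Ka Kr ϖ ϖl) : (𝔛.ker wp).Base :=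
  ⟨h.ne, h.J₁0, h.J₂0, fun z hz => h.ϖl_pos.trans_le (h.mass₁ z hz), fun z hz => h.ϖl_pos.trans_le (h.mass₂ z hz)⟩

theorem mdx_filter_univ45 {α : Type} [Fintype α] (p : α → Prop) (inst : DecidablePred p) (hp : ∀ a, p a) (g : α → ℝ) :
    (∑ a ∈ @Finset.filter α p inst Finset.univ, g a) = ∑ a, g a := by
  rw [Finset.filter_true_of_mem (fun a _ => hp a)]

theorem mdx_filter_mem45 {α : Type} [Fintype α] (p : α → Prop) (inst : DecidablePred p) (a : α) (h : a ∈ @Finset.filter α p inst Finset.univ) : p a :=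
  (Finset.mem_filter.1 h).2

/-- LEAF `L-F3-M15`  **cross field: the hypotheses on the kernels.**
PLAN.  All the filters `cp ω = w` are `univ` (`Finset.filter_true_of_mem`, `𝒲 = Unit`: `Subsingleton.elim`/`rfl`).   `marg`: `mul_comm`.   `diff` = `diam`.   `ν0`, `ν1`: `by_cases` on the `dite`; `h.sum h.choose h.choose_spec.1`; in the other case `0 ≤ ϖ` (from `h.ne`, `h.sum`, `h.ar0`).
`dom`: `zc = choose`; `J₁ z ω₁ ≤ Ka ar z ω₁ ≤ Ka Kr ar zc ω₁` (`cmp zc z`), and `Ka Kr/ϖl · ar zc ω₁ · W₁ ≥ Ka Kr ar zc ω₁` since `W₁ ≥ ϖl`.   `sep`: the filter is empty (`trans`, `not_lt`): `Finset.sum_eq_zero`/`Finset.filter_false_of_mem`; `zero_mul`. -/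
theorem mdx_hyp (𝔛 : MdCross n Q D₁ D₂) {wp Ad r0 Ka Kr ϖ ϖl : ℝ} (h : 𝔛.Hyp wp Ad r0 Ka Kr ϖ ϖl) :
    (𝔛.ker wp).Hyp wp Ad r0 (Ka * Kr / ϖl) ϖ 0 := by
  have hϖ0 : 0 ≤ ϖ := by
    obtain ⟨z, hz⟩ := h.ne
    exact (Finset.sum_nonneg fun ω _ => h.ar0 z ω).trans (h.sum z hz)
  have hν : ∀ c, (∃ zc ∈ 𝔛.Y', mdCel wp (𝔛.pos₂ zc) (𝔛.dir₂ c.2) = c.1 ∧ ∀ θ, 𝔛.ν wp c θ = 𝔛.ar zc θ) ∨ ((¬ ∃ z ∈ 𝔛.Y', mdCel wp (𝔛.pos₂ z) (𝔛.dir₂ c.2) = c.1) ∧ ∀ θ, 𝔛.ν wp c θ = 0) := by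
    intro c
    by_cases hc : ∃ z ∈ 𝔛.Y', mdCel wp (𝔛.pos₂ z) (𝔛.dir₂ c.2) = c.1
    · left
      refine ⟨hc.choose, hc.choose_spec.1, hc.choose_spec.2, fun θ => ?_⟩
      unfold MdCross.ν
      rw [dif_pos hc]
    · right
      refine ⟨hc, fun θ => ?_⟩
      unfold MdCross.ν
      rw [dif_neg hc]
  have hKa := h.Ka_nonneg
  have hKr := h.Kr_nonneg
  have hl := h.ϖl_pos
  refine ⟨?_, ?_, ?_, ?_, ?_, ?_, ?_⟩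
  · intro z hz w
    rw [mdx_filter_univ45 _ _ (fun _ => Subsingleton.elim _ _), mdx_filter_univ45 _ _ (fun _ => Subsingleton.elim _ _), mul_comm]
  · intro z hz ω₁ ω₂ _ _ _ l
    exact h.diam ω₁ ω₂ l
  · positivity
  · intro c θ
    change 0 ≤ 𝔛.ν wp c θ
    rcases hν c with ⟨zc, _, _, e⟩ | ⟨_, e⟩
    · rw [e]
      exact h.ar0 zc θ
    · rw [e]
  · intro c
    change ∑ θ, 𝔛.ν wp c θ ≤ ϖ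
    rcases hν c with ⟨zc, hzc, _, e⟩ | ⟨_, e⟩
    · simp_rw [e]
      exact h.sum zc hzc
    · simp_rw [e]
      simpa using hϖ0
  · intro z hz ω₂ ω₁ _ _
    rw [mdx_filter_univ45 _ _ (fun _ => rfl)]
    change 𝔛.J₁ z ω₁ ≤ Ka * Kr / ϖl * 𝔛.ν wp (mdCel wp (𝔛.pos₂ z) (𝔛.dir₂ ω₂), ω₂) ω₁ * ∑ ω, 𝔛.J₁ z ω
    rcases hν (mdCel wp (𝔛.pos₂ z) (𝔛.dir₂ ω₂), ω₂) with ⟨zc, hzc, hcel, e⟩ | ⟨hne, _⟩
    · rw [e]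
      have a2 := h.dom z hz ω₁
      have a3 := h.cmp zc hzc z hz ω₂ ω₁ hcel
      have a4 : Ka * 𝔛.ar z ω₁ ≤ Ka * (Kr * 𝔛.ar zc ω₁) := mul_le_mul_of_nonneg_left a3 hKa
      have ha0 := h.ar0 zc ω₁
      have a5 : Ka * Kr * 𝔛.ar zc ω₁ * ϖl ≤ Ka * Kr * 𝔛.ar zc ω₁ * ∑ ω, 𝔛.J₁ z ω := mul_le_mul_of_nonneg_left (h.mass₁ z hz) (by positivity)
      have e2 : Ka * Kr / ϖl * 𝔛.ar zc ω₁ * ∑ ω, 𝔛.J₁ z ω = Ka * Kr * 𝔛.ar zc ω₁ * (∑ ω, 𝔛.J₁ z ω) / ϖl := by ring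
      rw [e2, le_div_iff₀ hl]
      have a6 : 𝔛.J₁ z ω₁ * ϖl ≤ Ka * Kr * 𝔛.ar zc ω₁ * ϖl := mul_le_mul_of_nonneg_right (by linarith) hl.le
      linarith
    · exact absurd ⟨z, hz, rfl⟩ hne
  · intro z hz ω₂ _
    rw [zero_mul]
    refine le_of_eq (Finset.sum_eq_zero fun ω₁ hω => ?_)
    obtain ⟨l, hl'⟩ := h.trans ω₁ ω₂
    exact absurd ((mdx_filter_mem45 _ _ ω₁ hω).2 l) (not_lt.2 hl')

end Claimed.Agent.R257
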