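import Claimed.Agent.R257.FR2.PathTop
import Claimed.Agent.R257.FR3.MidPrune

/-!
# ROW 257, package FR3, unit MID, file 7: THE TWO TESTS AT THE LEVEL OF `TSys`      (architect helper276)

PAPER-FREE.   `MdFd n Q` = ONE FIELD: system `𝔖`, geometry `𝔊`, frozen tree `(A, K, G, S, r, Yf)`, restriction `R ⊆ S`, root points `e : Q ≃ 𝔖.Y`, positions `pos`, velocities `dir`, widths `κ i` of the tilted cells.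
* `MdFd.Ok Y' ϖl Kb Ko`   everything which `tp_occ_law` (`FR2/PathTop.lean`) needs for ANY kernel `0 ≤ J ≤ Jn R` with mass `≥ ϖl` on `Y'`, + `cel`: the tilted cells of `𝔊` are the cells `mdCel (κ i)`.
* `mdy_law`, `mdy_occ`    the law `mdkLaw` is a direction law of the field; (f:occupancy-law) for it, written with `mdCel`.
* `mdy_same`              **same field**:   `M_ip M_jc ≤ (losses) (2 κ_ip/κ_ic + 2)^(n+1) (2 (κ_ip + κ_jc)/(r0 κ_ic²) + 2) M_ic M_jp`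
* `mdy_cross`             **two fields**:   the same with the second path in the field `𝔉₂` (heights `ip`, `ic`) and the first path in the field `𝔉₁` (heights `jp`, `jc`).
Prefix `mdy_`.   Every `sorry` is a leaf `L-F3-M*` (statement frozen; prove in place).
-/

set_option autoImplicit false

namespace Claimed.Agent.R257

open scoped BigOperators
open Classical
open Claimed.Agent.R255 Claimed.Agent.R255.FLaw Claimed.Agent.R257.FR2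

/-- one field of MID -/
structure MdFd (n : ℕ) (Q : Type) where
  𝔖 : TSys
  𝔊 : TGeo 𝔖
  p : TPar
  g : GPar
  A : ℝ
  K : ℝ
  G : ℝ
  S : ∀ i, Finset (𝔖.C i)
  r : ℕ → ℝ
  Yf : Finset 𝔖.Y
  R : 𝔊.Restr
  e : Q ≃ 𝔖.Y
  pos : Q → Fin (n + 2) → ℝ
  dir : 𝔊.Dir → Fin (n + 2) → ℝ
  κ : ℕ → ℝ

namespace MdFd

variable {n : ℕ} {Q : Type} (𝔉 : MdFd n Q)

/-- the hypotheses on one field -/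
structure Ok (Y' : Finset Q) (ϖl Kb Ko : ℝ) : Prop where
  sys : 𝔉.𝔖.Ok 𝔉.p
  geo : 𝔉.𝔊.Ok 𝔉.g
  frozen : 𝔉.𝔖.Frozen 𝔉.p.q 𝔉.A 𝔉.K 𝔉.G 𝔉.S 𝔉.r 𝔉.Yf
  A_pos : 0 < 𝔉.A
  sub : ∀ i ω, 𝔉.R i ω ⊆ 𝔉.S i
  ϖl_pos : 0 < ϖl
  bal : 𝔉.𝔖.D ≤ Kb * (Y'.card * 𝔉.A ^ 𝔉.p.q)
  cel : ∀ i, i ≤ 𝔉.𝔖.ℓ → ∀ z z' ω, 𝔉.𝔊.cel i (𝔉.e z) ω = 𝔉.𝔊.cel i (𝔉.e z') ω ↔
    mdCel (𝔉.κ i) (𝔉.pos z) (𝔉.dir ω) = mdCel (𝔉.κ i) (𝔉.pos z') (𝔉.dir ω)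
  K1 : 𝔉.g.Γc ^ 𝔉.𝔖.ℓ / ϖl ≤ Ko
  K2 : 𝔉.p.ϖ0 ≤ Ko
  K3 : 𝔉.g.Kc ≤ Ko
  K4 : 𝔉.g.Γc ^ 𝔉.𝔖.ℓ * 𝔉.g.Γw / ϖl ≤ Ko
  K5 : 𝔉.g.m * 𝔉.K * Kb ≤ Ko
  K6 : 𝔉.g.m * 𝔉.G ≤ Ko

/-- the occupancy sizes -/
noncomputable def M (i : ℕ) : ℝ := 𝔉.𝔖.Mocc 𝔉.p.q 𝔉.A 𝔉.r i

/-- the path kernel on the root points -/
noncomputable def J (z : Q) (ω : 𝔉.𝔊.Dir) : ℝ := 𝔉.𝔊.Jn 𝔉.R (𝔉.e z) ω

/-- the leaf weights on the root points -/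
noncomputable def lw (z : Q) (ω : 𝔉.𝔊.Dir) : ℝ := 𝔉.𝔊.leafw (𝔉.e z) ω

end MdFd

theorem mdy_eqns_cite : True := by
  have := @MdFd.M.eq_1
  have := @MdFd.J.eq_1
  have := @MdFd.lw.eq_1
  trivial

variable {n : ℕ} {Q 𝒲 : Type} [Fintype Q] [Fintype 𝒲]

/-- the law `mdkLaw` is a direction law of the field -/
theorem mdy_law {𝔖 : TSys} {𝔊 : TGeo 𝔖} (e : Q ≃ 𝔖.Y) (J : Q → 𝔊.Dir → ℝ) (cp : 𝔊.Dir → 𝒲) (Y' : Finset Q)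
    (hJ : ∀ z ω, 0 ≤ J z ω) (hY : Y'.Nonempty) (hW : ∀ z ∈ Y', 0 < ∑ ω, J z ω) :
    𝔊.IsLaw (fun z ω => J (e.symm z) ω) (Y'.map e.toEmbedding) (mdkLaw J cp Y' hJ hY hW) (fun y => e y.1.1) (fun y => y.2) := by
  constructor
  intro z ω
  have h1 : (mdkLaw J cp Y' hJ hY hW).pr (fun y => e y.1.1 = z ∧ y.2 = ω) =
      (mdkLaw J cp Y' hJ hY hW).pr (fun y => y.1.1 = e.symm z ∧ y.2 = ω) :=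
    ent_pr_congr _ fun y _ => by rw [Equiv.eq_symm_apply]
  have h2 : (z ∈ Y'.map e.toEmbedding) ↔ e.symm z ∈ Y' := by
    rw [Finset.mem_map_equiv]
  rw [h1, mdk_joint]
  simp only [h2, Finset.card_map]

/-- **(f:occupancy-law) for `mdkLaw`, written with the cells `mdCel`** -/
theorem mdy_occ (𝔉 : MdFd n Q) {Y' : Finset Q} {ϖl Kb Ko : ℝ} (h : 𝔉.Ok Y' ϖl Kb Ko) (J : Q → 𝔉.𝔊.Dir → ℝ) (cp : 𝔉.𝔊.Dir → 𝒲)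
    (hJ0 : ∀ z ω, 0 ≤ J z ω) (hJR : ∀ z ω, J z ω ≤ 𝔉.J z ω) (hY : Y'.Nonempty) (hW : ∀ z ∈ Y', ϖl ≤ ∑ ω, J z ω)
    (hW' : ∀ z ∈ Y', 0 < ∑ ω, J z ω) (i : ℕ) (hi : i ≤ 𝔉.𝔖.ℓ) {t : ℝ} (ht : 0 < t) :
    (mdkLaw J cp Y' hJ0 hY hW').pr (fun y => ¬ (𝔉.M i / (Ko * t) * (mdkLaw J cp Y' hJ0 hY hW').fib (pair Prod.fst Prod.snd) y ≤
        (mdkLaw J cp Y' hJ0 hY hW').fib (pair (fun y => mdCel (𝔉.κ i) (𝔉.pos y.1.1) (𝔉.dir y.2)) Prod.snd) y ∧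
      (mdkLaw J cp Y' hJ0 hY hW').fib (pair (fun y => mdCel (𝔉.κ i) (𝔉.pos y.1.1) (𝔉.dir y.2)) Prod.snd) y ≤
        Ko ^ 3 * t * 𝔉.M i * (mdkLaw J cp Y' hJ0 hY hW').fib (pair Prod.fst Prod.snd) y)) ≤ 2 * Ko / t := by
  set P := mdkLaw J cp Y' hJ0 hY hW' with hP
  have hL := mdy_law 𝔉.e J cp Y' hJ0 hY hW'
  have hocc := TGeo.tp_occ_law h.sys h.geo h.frozen h.A_pos h.sub (J := fun z ω => J (𝔉.e.symm z) ω) (fun z ω => hJ0 _ _)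
    (fun z ω => by
      have := hJR (𝔉.e.symm z) ω
      unfold MdFd.J at this
      rwa [Equiv.apply_symm_apply] at this) hL (hY.map) ϖl h.ϖl_pos
    (fun z hz => by
      rw [Finset.mem_map_equiv] at hz
      exact hW _ hz) Kb (by rw [Finset.card_map]; exact h.bal) i hi Ko h.K1 h.K2 h.K3 h.K4 h.K5 h.K6 ht
  refine le_trans (le_of_eq (ent_pr_congr _ fun y hy => ?_)) hocc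
  have e1 : P.fib (pair Prod.fst Prod.snd) y = P.fib (pair (fun y : (Q × 𝒲) × 𝔉.𝔊.Dir => 𝔉.e y.1.1) (fun y => y.2)) y := by
    rw [hP, mdk_fib_point J cp Y' hJ0 hY hW' y hy, ent_fib_pair, ent_fib_pair]
    exact ent_pr_congr _ fun y' _ => by rw [𝔉.e.apply_eq_iff_eq]
  have e2 : P.fib (pair (fun y : (Q × 𝒲) × 𝔉.𝔊.Dir => mdCel (𝔉.κ i) (𝔉.pos y.1.1) (𝔉.dir y.2)) Prod.snd) y =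
      P.fib (pair (fun x : (Q × 𝒲) × 𝔉.𝔊.Dir => 𝔉.𝔊.cel i (𝔉.e x.1.1) x.2) (fun y => y.2)) y := by
    rw [ent_fib_pair, ent_fib_pair]
    refine ent_pr_congr _ fun y' _ => ⟨fun hh => ⟨?_, hh.2⟩, fun hh => ⟨?_, hh.2⟩⟩
    · have h2 : y'.2 = y.2 := hh.2
      have h1 := hh.1
      rw [h2] at h1 ⊢
      exact (h.cel i hi _ _ _).2 h1
    · have h2 : y'.2 = y.2 := hh.2
      have h1 := hh.1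
      rw [h2] at h1 ⊢
      exact (h.cel i hi _ _ _).1 h1
  rw [e1, e2]
  rfl

/-- the four halves of the occupancy law from `mdy_occ` (second path in `𝔉₂`, first path in `𝔉₁`) -/
theorem mdy_Occ {D₁ D₂ : Type} [Fintype D₁] [Fintype D₂] (𝔐 : MdKer n Q 𝒲 D₁ D₂) (hB : 𝔐.Base) {wp wc up uc M2p M2c M1p M1c Ko t : ℝ}
    (hKo : 0 < Ko) (ht : 0 < t) (hM2p : 0 < M2p) (hM1p : 0 < M1p)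
    (o2p : (𝔐.law₂ hB).pr (fun y => ¬ (M2p / (Ko * t) * (𝔐.law₂ hB).fib (pair Prod.fst Prod.snd) y ≤
        (𝔐.law₂ hB).fib (pair (fun y => mdCel wp (𝔐.pos₂ y.1.1) (𝔐.dir₂ y.2)) Prod.snd) y ∧
      (𝔐.law₂ hB).fib (pair (fun y => mdCel wp (𝔐.pos₂ y.1.1) (𝔐.dir₂ y.2)) Prod.snd) y ≤
        Ko ^ 3 * t * M2p * (𝔐.law₂ hB).fib (pair Prod.fst Prod.snd) y)) ≤ 2 * Ko / t)
    (o2c : (𝔐.law₂ hB).pr (fun y => ¬ (M2c / (Ko * t) * (𝔐.law₂ hB).fib (pair Prod.fst Prod.snd) y ≤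
        (𝔐.law₂ hB).fib (pair (fun y => mdCel wc (𝔐.pos₂ y.1.1) (𝔐.dir₂ y.2)) Prod.snd) y ∧
      (𝔐.law₂ hB).fib (pair (fun y => mdCel wc (𝔐.pos₂ y.1.1) (𝔐.dir₂ y.2)) Prod.snd) y ≤
        Ko ^ 3 * t * M2c * (𝔐.law₂ hB).fib (pair Prod.fst Prod.snd) y)) ≤ 2 * Ko / t)
    (o1p : (𝔐.law₁ hB).pr (fun y => ¬ (M1p / (Ko * t) * (𝔐.law₁ hB).fib (pair Prod.fst Prod.snd) y ≤
        (𝔐.law₁ hB).fib (pair (fun y => mdCel up (𝔐.pos₁ y.1.1) (𝔐.dir₁ y.2)) Prod.snd) y ∧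
      (𝔐.law₁ hB).fib (pair (fun y => mdCel up (𝔐.pos₁ y.1.1) (𝔐.dir₁ y.2)) Prod.snd) y ≤
        Ko ^ 3 * t * M1p * (𝔐.law₁ hB).fib (pair Prod.fst Prod.snd) y)) ≤ 2 * Ko / t)
    (o1c : (𝔐.law₁ hB).pr (fun y => ¬ (M1c / (Ko * t) * (𝔐.law₁ hB).fib (pair Prod.fst Prod.snd) y ≤
        (𝔐.law₁ hB).fib (pair (fun y => mdCel uc (𝔐.pos₁ y.1.1) (𝔐.dir₁ y.2)) Prod.snd) y ∧
      (𝔐.law₁ hB).fib (pair (fun y => mdCel uc (𝔐.pos₁ y.1.1) (𝔐.dir₁ y.2)) Prod.snd) y ≤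
        Ko ^ 3 * t * M1c * (𝔐.law₁ hB).fib (pair Prod.fst Prod.snd) y)) ≤ 2 * Ko / t) :
    𝔐.Occ hB wp wc up uc (M2p / (Ko * t)) (Ko ^ 3 * t * M2c) (Ko ^ 3 * t * M1p) (M1c / (Ko * t)) (2 * Ko / t) where
  Mp_pos := by positivity
  Np_pos := by positivity
  occ2p := le_trans (ent_pr_mono _ fun y _ hy hc => absurd hc.1 (not_le.2 hy)) o2p
  occ2c := le_trans (ent_pr_mono _ fun y _ hy hc => absurd hc.2 (not_le.2 hy)) o2c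
  occ1p := le_trans (ent_pr_mono _ fun y _ hy hc => absurd hc.2 (not_le.2 hy)) o1p
  occ1c := le_trans (ent_pr_mono _ fun y _ hy hc => absurd hc.1 (not_le.2 hy)) o1c

theorem mdy_M_pos (𝔉 : MdFd n Q) {Y' : Finset Q} {ϖl Kb Ko : ℝ} (h : 𝔉.Ok Y' ϖl Kb Ko) (i : ℕ) : 0 < 𝔉.M i :=
  mul_pos (h.sys.vol_pos i) (Real.rpow_pos_of_pos (div_pos (h.frozen.r_pos i) h.A_pos) _)

theorem mdy_Ko_pos (𝔉 : MdFd n Q) {Y' : Finset Q} {ϖl Kb Ko : ℝ} (h : 𝔉.Ok Y' ϖl Kb Ko) : 0 < Ko :=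
  lt_of_lt_of_le (lt_of_lt_of_le one_pos h.sys.one_le_ϖ0) h.K2

/-- the final algebra: from the inequality of `fm3_cfg` to the occupancy sizes -/
theorem mdy_alg {M2p M2c M1p M1c Ko t Kd X : ℝ} (hKo : 0 < Ko) (ht : 0 < t)
    (h : M2p / (Ko * t) * (M1c / (Ko * t)) ≤ Kd * X * (Ko ^ 3 * t * M2c * (Ko ^ 3 * t * M1p))) :
    M2p * M1c ≤ Kd * X * (Ko ^ 8 * t ^ 4) * (M2c * M1p) := by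
  have h0 : 0 < (Ko * t) * (Ko * t) := by positivity
  have e : M2p / (Ko * t) * (M1c / (Ko * t)) = M2p * M1c / ((Ko * t) * (Ko * t)) := by
    rw [div_mul_div_comm]
  rw [e, div_le_iff₀ h0] at h
  refine h.trans (le_of_eq ?_)
  ring

/-- the same-field data (`J` = ANY kernel `0 ≤ J ≤ 𝔉.J`) -/
noncomputable def MdFd.same (𝔉 : MdFd n Q) (J : Q → 𝔉.𝔊.Dir → ℝ) (cp : 𝔉.𝔊.Dir → 𝒲) (ar : Q → 𝔉.𝔊.Dir → ℝ) (Y' : Finset Q) : MdSame n Q 𝒲 𝔉.𝔊.Dir :=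
  ⟨Y', J, cp, 𝔉.pos, 𝔉.dir, ar, 𝔉.lw⟩

/-- **THE SAME-FIELD TEST at the level of `TSys`** -/
theorem mdy_same (𝔉 : MdFd n Q) (J : Q → 𝔉.𝔊.Dir → ℝ) (hJ : ∀ z ω, J z ω ≤ 𝔉.J z ω) (cp : 𝔉.𝔊.Dir → 𝒲) (ar : Q → 𝔉.𝔊.Dir → ℝ) (Y' : Finset Q)
    {ϖl Kb Ko Ad r0 Ka Kr ϖ δa t₀ : ℝ}
    {ip ic jp jc : ℕ} (h : 𝔉.Ok Y' (ϖl / 2) Kb Ko) (hH : (𝔉.same J cp ar Y').Hyp (𝔉.κ ip) Ad r0 Ka Kr ϖ ϖl δa t₀)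
    (hip : ip ≤ 𝔉.𝔖.ℓ) (hic : ic ≤ 𝔉.𝔖.ℓ) (hjp : jp ≤ 𝔉.𝔖.ℓ) (hjc : jc ≤ 𝔉.𝔖.ℓ)
    (hd0 : ∀ θ, 𝔉.dir θ 0 = 1) (hwc : 0 < 𝔉.κ ic) (hwp : 0 < 𝔉.κ ip) (huc : 0 < 𝔉.κ jc) (hwpu : 𝔉.κ ip ≤ 𝔉.κ jp)
    (hucu : 𝔉.κ jc ≤ 𝔉.κ jp) (hdr : Ad * 𝔉.κ ip ^ 2 ≤ 𝔉.κ jp) (hr0 : 0 < r0) (hδ : δa * t₀ / ϖl ≤ 1 / 8) :
    𝔉.M ip * 𝔉.M jc ≤ Ka * Kr * t₀ / ϖl * 40 ^ 6 * ((2 * 𝔉.κ ip / 𝔉.κ ic + 2) ^ (n + 1) *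
      (2 * (𝔉.κ ip + 𝔉.κ jc + 2 * 0) / (r0 * 𝔉.κ ic ^ 2) + 2) * 8 ^ (n + 3) * 6 ^ (n + 3)) * (Ko ^ 8 * (16 * Ko) ^ 4) * (𝔉.M ic * 𝔉.M jp) := by
  set 𝔑 := 𝔉.same J cp ar Y' with h𝔑
  have hKo := mdy_Ko_pos 𝔉 h
  have ht1 : 0 < 16 * Ko := by positivity
  have hB := mds_base 𝔑 hH
  have hyp := mds_hyp 𝔑 hH
  have hup : 0 < 𝔉.κ jp := hwp.trans_le hwpu
  have hw : (𝔑.ker (𝔉.κ ip) t₀).Wid (𝔉.κ ip) (𝔉.κ ic) (𝔉.κ jp) (𝔉.κ jc) Ad r0 0 0 :=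
    ⟨hd0, le_rfl, hup.le, by positivity, fun z => by simp [MdSame.ker], fun z θ l => by simp [MdSame.ker], hwc, hwp, huc, hwpu, hucu, hdr, hr0⟩
  have hJ0 : ∀ z ω, 0 ≤ 𝔑.Jp t₀ z ω := fun z ω => mdp_nonneg _ _ _ _ hH.J0 z ω
  have hJR : ∀ z ω, 𝔑.Jp t₀ z ω ≤ 𝔉.J z ω := fun z ω => (mdp_le _ _ _ _ hH.J0 z ω).trans (hJ z ω)
  have hW : ∀ z ∈ Y', ϖl / 2 ≤ ∑ ω, 𝔑.Jp t₀ z ω := fun z hz => mds_mass 𝔑 hH z hz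
  have ho : ∀ i, i ≤ 𝔉.𝔖.ℓ → _ := fun i hi => mdy_occ 𝔉 h (𝔑.Jp t₀) cp hJ0 hJR hH.ne hW hB.W₁ i hi ht1
  have hO := mdy_Occ (𝔑.ker (𝔉.κ ip) t₀) hB (wp := 𝔉.κ ip) (wc := 𝔉.κ ic) (up := 𝔉.κ jp) (uc := 𝔉.κ jc) hKo ht1
    (mdy_M_pos 𝔉 h ip) (mdy_M_pos 𝔉 h jp) (ho ip hip) (ho ic hic) (ho jp hjp) (ho jc hjc)
  have hok := mdk_ok _ hB hyp hw hO
  have hfin := fm3_cfg _ hok (ε' := 1 / 8) (t := 40) (by norm_num)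
    (by rw [div_le_iff₀ ht1]; linarith) hδ (by norm_num) (by norm_num)
  exact mdy_alg hKo ht1 hfin

/-- the cross-field data: first path in `𝔉₁`, second path in `𝔉₂` -/
noncomputable def mdyCross (𝔉₁ 𝔉₂ : MdFd n Q) (ar : Q → 𝔉₁.𝔊.Dir → ℝ) (Y' : Finset Q) : MdCross n Q 𝔉₁.𝔊.Dir 𝔉₂.𝔊.Dir :=
  ⟨Y', 𝔉₁.J, 𝔉₂.J, 𝔉₁.pos, 𝔉₂.pos, 𝔉₁.dir, 𝔉₂.dir, ar⟩

/-- **THE CROSS-FIELD TEST at the level of `TSys`** -/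
theorem mdy_cross (𝔉₁ 𝔉₂ : MdFd n Q) (ar : Q → 𝔉₁.𝔊.Dir → ℝ) (Y' : Finset Q) {ϖl Kb Ko Ad r0 Ka Kr ϖ c0 c1 t : ℝ}
    {ip ic jp jc : ℕ} (h₁ : 𝔉₁.Ok Y' ϖl Kb Ko) (h₂ : 𝔉₂.Ok Y' ϖl Kb Ko)
    (hH : (mdyCross 𝔉₁ 𝔉₂ ar Y').Hyp (𝔉₂.κ ip) Ad r0 Ka Kr ϖ ϖl)
    (hip : ip ≤ 𝔉₂.𝔖.ℓ) (hic : ic ≤ 𝔉₂.𝔖.ℓ) (hjp : jp ≤ 𝔉₁.𝔖.ℓ) (hjc : jc ≤ 𝔉₁.𝔖.ℓ)
    (hw : ((mdyCross 𝔉₁ 𝔉₂ ar Y').ker (𝔉₂.κ ip)).Wid (𝔉₂.κ ip) (𝔉₂.κ ic) (𝔉₁.κ jp) (𝔉₁.κ jc) Ad r0 c0 c1)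
    (ht : 40 ≤ t) (ht' : 8 * (ϖ + 1) ≤ t) :
    𝔉₂.M ip * 𝔉₁.M jc ≤ Ka * Kr / ϖl * t ^ 6 * ((2 * 𝔉₂.κ ip / 𝔉₂.κ ic + 2) ^ (n + 1) *
      (2 * (𝔉₂.κ ip + 𝔉₁.κ jc + 2 * c1) / (r0 * 𝔉₂.κ ic ^ 2) + 2) * 8 ^ (n + 3) * 6 ^ (n + 3)) * (Ko ^ 8 * (16 * Ko) ^ 4) * (𝔉₂.M ic * 𝔉₁.M jp) := by
  set 𝔛 := mdyCross 𝔉₁ 𝔉₂ ar Y' with h𝔛
  have hKo := mdy_Ko_pos 𝔉₁ h₁
  have ht1 : 0 < 16 * Ko := by positivity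
  have ht0 : 0 < t := by linarith
  have hB := mdx_base 𝔛 hH
  have hyp := mdx_hyp 𝔛 hH
  have ho₁ : ∀ i, i ≤ 𝔉₁.𝔖.ℓ → _ := fun i hi => mdy_occ 𝔉₁ h₁ 𝔉₁.J (fun _ => ()) hH.J₁0 (fun _ _ => le_rfl) hH.ne hH.mass₁ hB.W₁ i hi ht1
  have ho₂ : ∀ i, i ≤ 𝔉₂.𝔖.ℓ → _ := fun i hi => mdy_occ 𝔉₂ h₂ 𝔉₂.J (fun _ => ()) hH.J₂0 (fun _ _ => le_rfl) hH.ne hH.mass₂ hB.W₂ i hi ht1
  have hO := mdy_Occ (𝔛.ker (𝔉₂.κ ip)) hB (wp := 𝔉₂.κ ip) (wc := 𝔉₂.κ ic) (up := 𝔉₁.κ jp) (uc := 𝔉₁.κ jc) hKo ht1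
    (mdy_M_pos 𝔉₂ h₂ ip) (mdy_M_pos 𝔉₁ h₁ jp) (ho₂ ip hip) (ho₂ ic hic) (ho₁ jp hjp) (ho₁ jc hjc)
  have hok := mdk_ok _ hB hyp hw hO
  have hfin := fm3_cfg _ hok (ε' := 1 / 8) (t := t) ht0
    (by rw [div_le_iff₀ ht1]; linarith) (by norm_num) (by rw [div_le_iff₀ ht0]; linarith)
    (by
      have : 5 / t ≤ 1 / 8 := by rw [div_le_iff₀ ht0]; linarith
      linarith)
  exact mdy_alg hKo ht1 hfin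

end Claimed.Agent.R257
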