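import Claimed.Agent.R257.Tree.TG
import Claimed.Agent.R257.FR3.MidSys

/-!
# ROW 257, package FR3, unit MID, file 9: THE GEOMETRIC FACTS OF MID FOR THE CONCRETE TREES      (architect helper276)            CONTRACT

Language: `R257/Tree/{Defs,Alg,Geo,GeoD,Ref,Cau,TG}.lean` (INST).   `k = n + 1`.   Every `sorry` is a leaf `L-F3-N*`.   STATEMENTS ARE FROZEN (defect: one line to helper276).   Prove IN PLACE; helpers (prefix `mdi_`) directly above your theorem.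
* `mdiPos z = (t, x)`, `mdiVel ξ = (1, 2ξ)`:   `flo (natX K ξ z)` and `mdCel K (mdiPos z) (mdiVel ξ)` define the same partition (`mdi_cel`).
* `mdiA D z ω`    the PLAIN leaf square weight of the leaf label `ω` (order `Q`, no transition masks):  smooth in `z`.
* `mdiAr D z ω`   the same, the whole transition bin CLIPPED PROPORTIONALLY:  `mdiA · min(1, M_c / e_b(z))`   (H `frame.tex` l.985-993, `f:conditioning`: "endpoint square weights ... clip whole transition bins proportionally").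
* `mdi_sum`       `∑_ω mdiAr ≤ ϖ`  (`Good.clip`);      `mdi_leafw_le`  at an eligible point  `a_ω(z) ≤ C G₀^P mdiAr`  (path domination);
* `mdi_cmp_same`  BOUNDED DRIFT, cross-ratio form: cell of width `κ_ip` tilted by `ω₂`, `κ_ip² ≤ κ_lam κ_0`, labels in the `lam`-cap of `ω₂`;      `mdi_cmp_cross`  the same for a cell of ANOTHER field, `κ'_ip² ≤ κ_0`.
-/

set_option autoImplicit false

namespace Claimed.Agent.R257

open scoped BigOperators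
open Classical
open Claimed.Agent.R257.FR2 Claimed.Agent.R257.Tree

noncomputable section

variable {n : ℕ}

/-- position `(t, x)` -/
def mdiPos (z : ST (n + 1)) : Fin (n + 2) → ℝ := Fin.cons z.2 (fun l => z.1 l)

/-- velocity `(1, 2 ξ)` -/
def mdiVel (ξ : E (n + 1)) : Fin (n + 2) → ℝ := Fin.cons 1 (fun l => 2 * ξ l)

theorem mdi_vel_zero (ξ : E (n + 1)) : mdiVel ξ 0 = 1 := rfl

theorem mdi_cel_key (K : ℝ) (ξ : E (n + 1)) (z : ST (n + 1)) :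
    mdCel K (mdiPos z) (mdiVel ξ) = (Fin.cons 0 (flo (natX K ξ z)).1, (flo (natX K ξ z)).2) := by
  unfold mdCel mdTub flo natX
  refine Prod.ext ?_ ?_
  · funext l
    refine Fin.cases ?_ (fun i => ?_) l
    · simp [mdiPos, mdiVel]
    · simp only [mdiPos, mdiVel, Fin.cons_succ, Fin.cons_zero]
      congr 1
      simp only [PiLp.smul_apply, PiLp.sub_apply, smul_eq_mul]
      rw [div_eq_inv_mul]
      ring
  · simp [mdiPos]

/-- LEAF `L-F3-N1` (a)  **the two descriptions of a tilted cell.**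
PLAN.  `flo X = (fun j => ⌊X.1 j⌋, ⌊X.2⌋)`, `natX K ξ z = (K⁻¹ • (z.1 - (2 * z.2) • ξ), z.2 / K ^ 2)`, `mdCel K x v = (fun l => ⌊(x l - x 0 * v l) / K⌋, ⌊x 0 / K ^ 2⌋)`.
Key: `∀ z, mdCel K (mdiPos z) (mdiVel ξ) = (Fin.cons 0 (flo (natX K ξ z)).1, (flo (natX K ξ z)).2)`:  `funext l; refine Fin.cases ?_ (fun i => ?_) l`;  `l = 0`: `(t - t * 1)/K = 0`, `Int.floor_zero`;
`l = i.succ`: `(z.1 i - z.2 * (2 * ξ i)) / K = K⁻¹ * (z.1 i - 2 * z.2 * ξ i)` (`simp [mdiPos, mdiVel, natX, Fin.cons_succ]`, `PiLp.smul_apply`, `PiLp.sub_apply`, `ring`).   Then `Prod.ext_iff`, `Fin.cons_injective2` / `Fin.cons_right_injective` (`Fin.cons_inj`). -/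
theorem mdi_cel (K : ℝ) (ξ : E (n + 1)) (z z' : ST (n + 1)) :
    flo (natX K ξ z) = flo (natX K ξ z') ↔ mdCel K (mdiPos z) (mdiVel ξ) = mdCel K (mdiPos z') (mdiVel ξ) := by
  rw [mdi_cel_key, mdi_cel_key]
  constructor
  · intro h
    rw [h]
  · intro h
    have h1 := (Prod.ext_iff.1 h).1
    have h2 := (Prod.ext_iff.1 h).2
    refine Prod.ext (funext fun i => ?_) h2
    have h3 := congrFun h1 i.succ
    simpa only [Fin.cons_succ] using h3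

/-- LEAF `L-F3-N1` (b).   PLAN.  `Fin.cases`: `l = 0`: `|1 - 1| = 0`;  `l = i.succ`: `|2 ξ i - 2 ξ' i| = 2 |(ξ - ξ') i| ≤ 2 ‖ξ - ξ'‖` (`PiLp.norm_apply_le`, `Real.norm_eq_abs`). -/
theorem mdi_vel_sub (ξ ξ' : E (n + 1)) (l : Fin (n + 2)) : |mdiVel ξ l - mdiVel ξ' l| ≤ 2 * ‖ξ - ξ'‖ := by
  refine Fin.cases ?_ (fun i => ?_) l
  · simp [mdiVel]
  · simp only [mdiVel, Fin.cons_succ]
    have h := PiLp.norm_apply_le (ξ - ξ') i
    rw [Real.norm_eq_abs, PiLp.sub_apply] at h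
    rw [← mul_sub, abs_mul, abs_two]
    linarith

/-- LEAF `L-F3-N1` (c).   PLAN.  `‖x‖ ≤ ∑ i, |x i|` (`EuclideanSpace.norm_eq`, `Real.sqrt_le_left`/`Real.sqrt_le_iff`, `Finset.sum_sq_le_sq_sum_of_nonneg`; or `PiLp.norm_le_sum`-type; model: `ti_flo_near` in `Tree/TG.lean`),
`|(ξ - ξ') i| = |mdiVel ξ i.succ - mdiVel ξ' i.succ| / 2 < r0 / 2`, `Finset.sum_le_card_nsmul`. -/
theorem mdi_ball (ξ ξ' : E (n + 1)) (r0 : ℝ) (h : ∀ l, |mdiVel ξ l - mdiVel ξ' l| < r0) : ‖ξ - ξ'‖ ≤ ((n : ℝ) + 1) * r0 / 2 := by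
  have hn : (0 : ℝ) ≤ n := Nat.cast_nonneg n
  have hr : 0 < r0 := lt_of_le_of_lt (abs_nonneg _) (h 0)
  have h1 : ∀ i : Fin (n + 1), |(ξ - ξ') i| ≤ r0 / 2 := by
    intro i
    have := h i.succ
    simp only [mdiVel, Fin.cons_succ] at this
    rw [← mul_sub, abs_mul, abs_two] at this
    rw [PiLp.sub_apply]
    linarith
  have h2 : ‖ξ - ξ'‖ ^ 2 ≤ (((n : ℝ) + 1) * r0 / 2) ^ 2 := by
    rw [EuclideanSpace.real_norm_sq_eq]
    calc ∑ i, ((ξ - ξ') i) ^ 2 ≤ ∑ _i : Fin (n + 1), (r0 / 2) ^ 2 := by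
          refine Finset.sum_le_sum fun i _ => ?_
          exact sq_le_sq' (by linarith [(abs_le.1 (h1 i)).1]) (abs_le.1 (h1 i)).2
      _ = ((n : ℝ) + 1) * (r0 / 2) ^ 2 := by simp
      _ ≤ (((n : ℝ) + 1) * r0 / 2) ^ 2 := by
          have : (((n : ℝ) + 1) * r0 / 2) ^ 2 = ((n : ℝ) + 1) * (((n : ℝ) + 1) * (r0 / 2) ^ 2) := by ring
          rw [this]
          have h0 : 0 ≤ ((n : ℝ) + 1) * (r0 / 2) ^ 2 := by positivity
          nlinarith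
  exact le_of_sq_le_sq h2 (by positivity)

/-- separated labels have a separated coordinate -/
theorem mdi_sep (ξ ξ' : E (n + 1)) (r0 : ℝ) (h : ((n : ℝ) + 1) * r0 / 2 < ‖ξ - ξ'‖) : ∃ l, r0 ≤ |mdiVel ξ l - mdiVel ξ' l| := by
  by_contra hcon
  push Not at hcon
  exact absurd (mdi_ball ξ ξ' r0 hcon) (not_le.2 h)

/-- LEAF `L-F3-N1` (d)  two nearby witnesses.   PLAN.  `|z₁.2 - z₂.2| ≤ ‖z₁ - z₂‖` (`norm_snd_le`), `|(z₁.1 - z₂.1) i| ≤ ‖z₁ - z₂‖` (`norm_fst_le`, `PiLp.norm_apply_le`), `|ξ i| ≤ ‖ξ‖`;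
`l = 0`: `t₁ - t₁ * 1 - (t₂ - t₂ * 1) = 0`;  `l = i.succ`: `(x₁ i - t₁ 2ξ i) - (x₂ i - t₂ 2 ξ i) = (x₁ - x₂) i - (t₁ - t₂) 2 ξ i`. -/
theorem mdi_near (z₁ z₂ : ST (n + 1)) (ξ : E (n + 1)) {B : ℝ} (h : ‖z₁ - z₂‖ ≤ B) :
    |mdiPos z₁ 0 - mdiPos z₂ 0| ≤ B ∧
      ∀ l, |(mdiPos z₁ l - mdiPos z₁ 0 * mdiVel ξ l) - (mdiPos z₂ l - mdiPos z₂ 0 * mdiVel ξ l)| ≤ B * (1 + 2 * ‖ξ‖) := by
  have hB : 0 ≤ B := (norm_nonneg _).trans h
  have ht : |z₁.2 - z₂.2| ≤ B := by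
    have := norm_snd_le (z₁ - z₂)
    rw [Real.norm_eq_abs, Prod.snd_sub] at this
    exact this.trans h
  refine ⟨by simpa [mdiPos] using ht, fun l => ?_⟩
  refine Fin.cases ?_ (fun i => ?_) l
  · simp only [mdiPos, mdiVel, Fin.cons_zero, mul_one, sub_self, abs_zero]
    have := norm_nonneg ξ
    positivity
  · simp only [mdiPos, mdiVel, Fin.cons_succ, Fin.cons_zero]
    have hx : |z₁.1 i - z₂.1 i| ≤ B := by
      have a1 := PiLp.norm_apply_le (z₁ - z₂).1 i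
      rw [Real.norm_eq_abs, Prod.fst_sub, PiLp.sub_apply] at a1
      exact a1.trans ((norm_fst_le (z₁ - z₂)).trans h)
    have hξ : |ξ i| ≤ ‖ξ‖ := by
      have := PiLp.norm_apply_le ξ i
      rwa [Real.norm_eq_abs] at this
    have e : z₁.1 i - z₁.2 * (2 * ξ i) - (z₂.1 i - z₂.2 * (2 * ξ i)) = (z₁.1 i - z₂.1 i) - 2 * ((z₁.2 - z₂.2) * ξ i) := by ring
    rw [e]
    refine (abs_sub _ _).trans ?_
    rw [abs_mul, abs_two, abs_mul]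
    have : |z₁.2 - z₂.2| * |ξ i| ≤ B * ‖ξ‖ := mul_le_mul ht hξ (abs_nonneg _) hB
    linarith

/-- LEAF `L-F3-N2`  **bounded drift** (H l.1411-1417):  a cell of width `K` tilted by `w₂` is seen in the frame `(K0, w)`, `K ≤ K0`, `|w - w₂| K² ≤ a K0`, with bounded distortion.
PLAN.  `natX_sub` (`Pk/Defs`): both sides are `natX · · (z - z')`; put `Δ = z - z'`, `X = natX K w₂ Δ`: `Δ.1 - (2 Δ.2) • w₂ = K • X.1`, `Δ.2 = K² X.2`.   `Δ.1 - (2 Δ.2) • w = K • X.1 - (2 K² X.2) • (w - w₂)`.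
`Prod.norm_def`, `max_le`:  first component `≤ K0⁻¹ (K ‖X.1‖ + 2 K² |X.2| ‖w - w₂‖) ≤ ‖X‖ + 2 a ‖X‖`  (`norm_smul`, `norm_sub_le`, `norm_fst_le`, `norm_snd_le`, `K/K0 ≤ 1`);   second `|Δ.2|/K0² = |X.2| (K/K0)² ≤ ‖X‖`. -/
theorem mdi_drift {k : ℕ} {K K0 a : ℝ} (hK : 0 < K) (hKK : K ≤ K0) (ha : 0 ≤ a) (w w₂ : E k) (hw : ‖w - w₂‖ * K ^ 2 ≤ a * K0) (z z' : ST k) :
    ‖natX K0 w z - natX K0 w z'‖ ≤ (1 + 2 * a) * ‖natX K w₂ z - natX K w₂ z'‖ := by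
  rw [← natX_sub, ← natX_sub]
  set Δ : ST k := z - z' with hΔ
  set N : ℝ := ‖natX K w₂ Δ‖ with hN
  have hK0 : 0 < K0 := lt_of_lt_of_le hK hKK
  have hN0 : 0 ≤ N := norm_nonneg _
  have h1 : ‖Δ.1 - (2 * Δ.2) • w₂‖ ≤ K * N := by
    have h := norm_fst_le (natX K w₂ Δ)
    have h' : ‖K⁻¹ • (Δ.1 - (2 * Δ.2) • w₂)‖ ≤ N := h
    rw [norm_smul, Real.norm_eq_abs, abs_of_pos (inv_pos.2 hK), inv_mul_le_iff₀ hK] at h'
    exact h'
  have h2 : |Δ.2| ≤ K ^ 2 * N := by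
    have h := norm_snd_le (natX K w₂ Δ)
    have h' : ‖Δ.2 / K ^ 2‖ ≤ N := h
    rw [Real.norm_eq_abs, abs_div, abs_of_pos (pow_pos hK 2), div_le_iff₀ (pow_pos hK 2)] at h'
    linarith
  have h3 : ‖Δ.1 - (2 * Δ.2) • w‖ ≤ K0 * ((1 + 2 * a) * N) := by
    have e : Δ.1 - (2 * Δ.2) • w = (Δ.1 - (2 * Δ.2) • w₂) - (2 * Δ.2) • (w - w₂) := by
      rw [smul_sub]
      abel
    rw [e]
    refine le_trans (norm_sub_le _ _) ?_
    rw [norm_smul, Real.norm_eq_abs, abs_mul, abs_of_pos (by norm_num : (0 : ℝ) < 2)]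
    have h4 : |Δ.2| * ‖w - w₂‖ ≤ a * K0 * N := by
      calc |Δ.2| * ‖w - w₂‖ ≤ (K ^ 2 * N) * ‖w - w₂‖ := mul_le_mul_of_nonneg_right h2 (norm_nonneg _)
        _ = (‖w - w₂‖ * K ^ 2) * N := by ring
        _ ≤ a * K0 * N := mul_le_mul_of_nonneg_right hw hN0
    have h5 : K * N ≤ K0 * N := mul_le_mul_of_nonneg_right hKK hN0
    nlinarith
  have h6 : N ≤ (1 + 2 * a) * N := by nlinarith
  rw [Prod.norm_def]
  refine max_le ?_ ?_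
  · change ‖K0⁻¹ • (Δ.1 - (2 * Δ.2) • w)‖ ≤ _
    rw [norm_smul, Real.norm_eq_abs, abs_of_pos (inv_pos.2 hK0), inv_mul_le_iff₀ hK0]
    exact h3
  · change ‖Δ.2 / K0 ^ 2‖ ≤ _
    rw [Real.norm_eq_abs, abs_div, abs_of_pos (pow_pos hK0 2), div_le_iff₀ (pow_pos hK0 2)]
    have h7 : K ^ 2 ≤ K0 ^ 2 := pow_le_pow_left₀ hK.le hKK 2
    calc |Δ.2| ≤ K ^ 2 * N := h2
      _ ≤ K0 ^ 2 * N := mul_le_mul_of_nonneg_right h7 hN0
      _ ≤ K0 ^ 2 * ((1 + 2 * a) * N) := mul_le_mul_of_nonneg_left h6 (by positivity)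
      _ = (1 + 2 * a) * N * K0 ^ 2 := by ring

variable {c : TCls (n + 1)}

/-- LEAF `L-F3-N3` (a)  the polynomial weight varies by a constant over a bounded native displacement.   PLAN: last 12 lines of `ti_leaf_tilt` (`Tree/TG.lean`): `X 0 γ z = X 0 γ z' + (natX .. z - natX .. z')`, `1 + ‖X z‖ ≤ (1 + B)(1 + ‖X z'‖)`, `Real.rpow_le_rpow_of_nonpos`, `Real.div_rpow`/`Real.mul_rpow`. -/
theorem mdi_wA_cmp (D : TDat c) {A B : ℝ} (hA : 0 ≤ A) (hB : 0 ≤ B) (γ : D.Lb 0 × Lat (n + 1)) (z z' : ST (n + 1))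
    (h : ‖natX (D.κ 0) (D.fr 0 γ.1) z - natX (D.κ 0) (D.fr 0 γ.1) z'‖ ≤ B) : D.wA A 0 γ z' ≤ (1 + B) ^ A * D.wA A 0 γ z := by
  have h3 : ‖D.X 0 γ z‖ ≤ ‖D.X 0 γ z'‖ + B := by
    have h0 : D.X 0 γ z = D.X 0 γ z' + (natX (D.κ 0) (D.fr 0 γ.1) z - natX (D.κ 0) (D.fr 0 γ.1) z') := by
      unfold TDat.X
      abel
    rw [h0]
    refine (norm_add_le _ _).trans ?_
    linarith
  have h4 : (1 + ‖D.X 0 γ z‖) / (1 + B) ≤ 1 + ‖D.X 0 γ z'‖ := by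
    rw [div_le_iff₀ (by positivity)]
    nlinarith [norm_nonneg (D.X 0 γ z')]
  have h5 : (1 + ‖D.X 0 γ z'‖) ^ (-A) ≤ ((1 + ‖D.X 0 γ z‖) / (1 + B)) ^ (-A) :=
    Real.rpow_le_rpow_of_nonpos (by positivity) h4 (by linarith)
  refine h5.trans (le_of_eq ?_)
  unfold TDat.wA
  rw [Real.div_rpow (by positivity) (by positivity), Real.rpow_neg (by positivity : (0:ℝ) ≤ 1 + B), div_inv_eq_mul, mul_comm]

/-- LEAF `L-F3-N3` (b)  the leaf labels are bounded.   PLAN: `ti_anc_near hc D hD c.ℓ le_rfl ω`, `hD.top_bdd`, `hD.one_le_κ`, `div_le_self`; triangle inequality. -/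
theorem mdi_fr_le (hc : c.Ok) (D : TDat c) (hD : D.Good) (ω : D.Lb 0) : ‖D.fr 0 ω‖ ≤ ((c.ℓ : ℝ) + 1) * c.Cc := by
  have h1 := ti_anc_near hc D hD c.ℓ le_rfl ω
  have h2 := hD.top_bdd (D.anc c.ℓ ω)
  have hCc : 0 ≤ c.Cc := by linarith [hc.one_le_Cc]
  have h3 : (c.ℓ : ℝ) * c.Cc / D.κ c.ℓ ≤ (c.ℓ : ℝ) * c.Cc := div_le_self (by positivity) (hD.one_le_κ c.ℓ)
  have h4 : ‖D.fr 0 ω‖ ≤ ‖D.fr 0 ω - D.fr c.ℓ (D.anc c.ℓ ω)‖ + ‖D.fr c.ℓ (D.anc c.ℓ ω)‖ := by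
    have := norm_add_le (D.fr 0 ω - D.fr c.ℓ (D.anc c.ℓ ω)) (D.fr c.ℓ (D.anc c.ℓ ω))
    rwa [sub_add_cancel] at this
  linarith

/-- LEAF `L-F3-N3` (c)  two leaf labels of one cap.   PLAN: `ti_anc_near` twice, `h`, triangle inequality (`norm_sub_le_norm_sub_add_norm_sub` / `dist_triangle`). -/
theorem mdi_cap_diam (hc : c.Ok) (D : TDat c) (hD : D.Good) (lam : ℕ) (hl : lam ≤ c.ℓ) (ω ω' : D.Lb 0) (h : D.anc lam ω = D.anc lam ω') :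
    ‖D.fr 0 ω - D.fr 0 ω'‖ ≤ 2 * ((c.ℓ : ℝ) * c.Cc) / D.κ lam := by
  have h1 := ti_anc_near hc D hD lam hl ω
  have h2 := ti_anc_near hc D hD lam hl ω'
  rw [h] at h1
  have h3 := norm_sub_le (D.fr 0 ω - D.fr lam (D.anc lam ω')) (D.fr 0 ω' - D.fr lam (D.anc lam ω'))
  rw [sub_sub_sub_cancel_right] at h3
  have h4 : 2 * ((c.ℓ : ℝ) * c.Cc) / D.κ lam = (c.ℓ : ℝ) * c.Cc / D.κ lam + (c.ℓ : ℝ) * c.Cc / D.κ lam := by ring
  rw [h4]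
  linarith

/-- the plain leaf square weight of a leaf label (order `Q`) -/
def mdiA (D : TDat c) (z : ST (n + 1)) (ω : D.Lb 0) : ℝ := ∑ γ ∈ D.W 0, if γ.1 = ω then D.s0 γ ^ 2 * D.wA c.Q 0 γ z else 0

/-- the clipped plain leaf square weight -/
def mdiAr (D : TDat c) (z : ST (n + 1)) (ω : D.Lb 0) : ℝ := mdiA D z ω * min 1 (D.Mc / D.eb (D.bin 0 ω) z)

theorem mdi_A_nonneg (D : TDat c) (z : ST (n + 1)) (ω : D.Lb 0) : 0 ≤ mdiA D z ω :=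
  Finset.sum_nonneg fun γ _ => by
    split_ifs
    · exact mul_nonneg (sq_nonneg _) (D.wA_pos _ _ _ _).le
    · exact le_rfl

theorem mdi_eb_nonneg (D : TDat c) (β : D.Bin) (z : ST (n + 1)) : 0 ≤ D.eb β z :=
  Finset.sum_nonneg fun γ _ => by
    split_ifs
    · exact mul_nonneg (sq_nonneg _) (D.wA_pos _ _ _ _).le
    · exact le_rfl

theorem mdi_Ar_nonneg (D : TDat c) (hD : D.Good) (z : ST (n + 1)) (ω : D.Lb 0) : 0 ≤ mdiAr D z ω :=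
  mul_nonneg (mdi_A_nonneg D z ω) (le_min zero_le_one (div_nonneg hD.Mc_pos.le (mdi_eb_nonneg D _ z)))

theorem mdi_aux_clip {e Mc : ℝ} (he : 0 ≤ e) (hM : 0 < Mc) : e * min 1 (Mc / e) ≤ min e Mc := by
  refine le_min ?_ ?_
  · calc e * min 1 (Mc / e) ≤ e * 1 := mul_le_mul_of_nonneg_left (min_le_left _ _) he
      _ = e := mul_one e
  · rcases he.eq_or_lt with h0 | h0
    · rw [← h0, zero_mul]
      exact hM.le
    · calc e * min 1 (Mc / e) ≤ e * (Mc / e) := mul_le_mul_of_nonneg_left (min_le_right _ _) he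
        _ = Mc := by field_simp

theorem mdi_aux_fib (hc : c.Ok) (D : TDat c) (hD : D.Good) (z : ST (n + 1)) (v : D.Lb c.tr) :
    ∑ ω ∈ Finset.univ.filter (fun ω => D.anc c.tr ω = v), mdiA D z ω ≤ D.eb (D.bin c.tr v) z := by
  unfold mdiA TDat.eb
  rw [Finset.sum_comm]
  refine Finset.sum_le_sum fun γ _ => ?_
  rw [Finset.sum_ite_eq]
  by_cases h : γ.1 ∈ Finset.univ.filter (fun ω => D.anc c.tr ω = v)
  · rw [if_pos h]
    have h1 : D.anc c.tr γ.1 = v := (Finset.mem_filter.1 h).2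
    have h2 : D.bin 0 γ.1 = D.bin c.tr v := by
      rw [← h1]
      exact (ti_anc_bin D hD c.tr le_rfl γ.1).symm
    rw [if_pos h2]
    exact mul_le_mul_of_nonneg_left (D.wA_anti hc.P_lt.le 0 γ z) (sq_nonneg _)
  · rw [if_neg h]
    split_ifs
    · exact mul_nonneg (sq_nonneg _) (D.wA_pos _ _ _ _).le
    · exact le_rfl

/-- LEAF `L-F3-N4`  **the clipped weights are summable** (`Good.clip`).
PLAN.  `z = pt y`.   Group the labels by `v = anc tr ω` (`Finset.sum_fiberwise` backwards: `∑_ω f ω = ∑_v ∑_{ω : anc tr ω = v} f ω`).   For `anc tr ω = v`: `bin 0 ω = bin tr v =: β` (`ti_anc_bin D hD c.tr le_rfl ω`), so the inner sum is `(∑_{anc tr ω = v} mdiA z ω) * min 1 (Mc / eb β z)`.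
`∑_{anc tr ω = v} mdiA z ω ≤ eb β z`:  exchange the sums (`Finset.sum_comm`), for fixed `γ ∈ W 0` the sum over `ω` has at most the term `ω = γ.1` (`Finset.sum_ite_eq`), present only if `anc tr γ.1 = v`, then `bin 0 γ.1 = β`; `wA Q ≤ wA P` (`D.wA_anti hc.P_lt.le`).
`e * min 1 (Mc / e) ≤ min e Mc` for `e ≥ 0`, `Mc > 0` (`e = 0`: both `0`;  `e > 0`: `mul_min_of_nonneg`, `mul_div_cancel₀`).   `hD.clip y`. -/
theorem mdi_sum (hc : c.Ok) (D : TDat c) (hD : D.Good) (y : D.Y) : ∑ ω, mdiAr D (D.pt y) ω ≤ D.ϖ := by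
  rw [← Finset.sum_fiberwise Finset.univ (fun ω => D.anc c.tr ω) (fun ω => mdiAr D (D.pt y) ω)]
  refine le_trans (Finset.sum_le_sum fun v _ => ?_) (hD.clip y)
  have h1 : ∑ ω ∈ Finset.univ.filter (fun ω => D.anc c.tr ω = v), mdiAr D (D.pt y) ω
      = (∑ ω ∈ Finset.univ.filter (fun ω => D.anc c.tr ω = v), mdiA D (D.pt y) ω)
        * min 1 (D.Mc / D.eb (D.bin c.tr v) (D.pt y)) := by
    rw [Finset.sum_mul]
    refine Finset.sum_congr rfl fun ω hω => ?_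
    have h2 : D.anc c.tr ω = v := (Finset.mem_filter.1 hω).2
    unfold mdiAr
    rw [← h2, ti_anc_bin D hD c.tr le_rfl ω]
  rw [h1]
  have he := mdi_eb_nonneg D (D.bin c.tr v) (D.pt y)
  refine le_trans (mul_le_mul_of_nonneg_right (mdi_aux_fib hc D hD _ v) ?_) (mdi_aux_clip he hD.Mc_pos)
  exact le_min zero_le_one (div_nonneg hD.Mc_pos.le he)

/-- the available leaf weight in concrete terms -/
theorem mdi_leafw_eq (D : TDat c) (y : D.Y) (ω : D.Lb 0) :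
    D.geo.leafw y ω = ∑ γ ∈ D.W 0, if γ.1 = ω then D.s0 γ ^ 2 * D.ker c.Q 0 γ (D.pt y) else 0 := by
  rw [← Finset.sum_coe_sort (D.W 0)]
  rfl

/-- the plain weight of a label is dominated by the envelope of its bin -/
theorem mdi_A_le_eb (hc : c.Ok) (D : TDat c) (z : ST (n + 1)) (ω : D.Lb 0) : mdiA D z ω ≤ D.eb (D.bin 0 ω) z := by
  unfold mdiA TDat.eb
  refine Finset.sum_le_sum fun γ _ => ?_
  by_cases h : γ.1 = ω
  · rw [if_pos h, if_pos (by rw [h])]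
    exact mul_le_mul_of_nonneg_left (D.wA_anti hc.P_lt.le 0 γ z) (sq_nonneg _)
  · rw [if_neg h]
    split_ifs
    · exact mul_nonneg (sq_nonneg _) (D.wA_pos _ _ _ _).le
    · exact le_rfl

/-- LEAF `L-F3-N5`  **path domination: at an eligible point the available leaf weight is dominated by the clipped plain weight.**
PLAN.  `leafw y ω = ∑_{γ : Cl 0} if γ.1.1 = ω then s0 γ.1 ^ 2 * ker Q 0 γ.1 (pt y) else 0` (`rfl`/`unfold TGeo.leafw`; `bb 0 γ = s0 γ.1` by `rfl`);  `Finset.sum_coe_sort (D.W 0)` turns it into a sum over `γ ∈ W 0`.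
(1) `ker Q 0 γ z ≤ C₁ wA Q 0 γ z`:  `0 < tr`: `(ti_ker_two hc).1`;  `tr = 0`: `tg_ker_ge` (equality), `C₁ ≥ 1`.   So `leafw ≤ C₁ mdiA`.
(2) `β = bin 0 ω = bin tr T.1.1` (`hT`, `ti_anc_bin`);  `ti_eb_near hc D hD T.1 T.2 z`, `‖X tr T.1 z‖ ≤ G tr ≤ G 0` (`hn.1`, `ti_G_le`, `hc.tr_le`), `1 ≤ G 0`:  `eb β z ≤ C₂ G₀^P Mc`, `C₂ = (1 + 2 ℓ Cc)^P 2^P` (`Real.mul_rpow`, `Real.rpow_le_rpow`).
(3) `eb β z = 0`: every `γ ∈ W 0` of the bin has `s0 γ = 0` (`Finset.sum_eq_zero_iff_of_nonneg`, `wA_pos`), so `mdiA z ω = 0`: both sides `0`.    `eb β z > 0`: `1 ≤ C₂ G₀^P min 1 (Mc / eb)` (`le_min`-type: `min` of `C₂ G₀^P ≥ 1` and `C₂ G₀^P Mc/eb ≥ 1`). -/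
theorem mdi_leafw_le (hc : c.Ok) : ∃ C : ℝ, 1 ≤ C ∧ ∀ D : TDat c, D.Good → ∀ (y : D.Y) (ω : D.Lb 0),
    (∃ T : D.Cl c.tr, T.1.1 = D.anc c.tr ω ∧ D.near c.tr (D.pt y) T.1) → D.geo.leafw y ω ≤ C * D.G 0 ^ c.P * mdiAr D (D.pt y) ω := by
  have hk : (0 : ℝ) ≤ ((n + 1 : ℕ) : ℝ) := Nat.cast_nonneg _
  have hP0 : 0 ≤ c.P := by linarith [hc.P_gt]
  have hCc : 0 ≤ c.Cc := by linarith [hc.one_le_Cc]
  have hlc : 0 ≤ (c.ℓ : ℝ) * c.Cc := by positivity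
  obtain ⟨C₁, hC₁, H⟩ := ti_ker_two hc
  set L : ℝ := (1 + 2 * ((c.ℓ : ℝ) * c.Cc)) ^ c.P with hL
  have hL1 : 1 ≤ L := Real.one_le_rpow (by linarith) hP0
  have h2P : (1 : ℝ) ≤ 2 ^ c.P := Real.one_le_rpow (by norm_num) hP0
  have hC₂ : 1 ≤ L * 2 ^ c.P := by nlinarith
  refine ⟨C₁ * (L * 2 ^ c.P), by nlinarith, fun D hD y ω hT => ?_⟩
  obtain ⟨T, hlab, hn⟩ := hT
  set z : ST (n + 1) := D.pt y with hz
  have hG0 : 1 ≤ D.G 0 := hD.one_le_G 0 (Nat.zero_le _)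
  have hGP : 1 ≤ D.G 0 ^ c.P := Real.one_le_rpow hG0 hP0
  have hA0 := mdi_A_nonneg D z ω
  -- (1)
  have hker : ∀ γ : D.Lb 0 × Lat (n + 1), D.ker c.Q 0 γ z ≤ C₁ * D.wA c.Q 0 γ z := by
    intro γ
    by_cases htr : 0 < c.tr
    · exact (H D hD htr γ z).1
    · rw [tg_ker_ge D c.Q htr]
      have := (D.wA_pos c.Q 0 γ z).le
      nlinarith
  have h1 : D.geo.leafw y ω ≤ C₁ * mdiA D z ω := by
    rw [mdi_leafw_eq]
    unfold mdiA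
    rw [Finset.mul_sum]
    refine Finset.sum_le_sum fun γ _ => ?_
    split_ifs
    · calc D.s0 γ ^ 2 * D.ker c.Q 0 γ z ≤ D.s0 γ ^ 2 * (C₁ * D.wA c.Q 0 γ z) := mul_le_mul_of_nonneg_left (hker γ) (sq_nonneg _)
        _ = C₁ * (D.s0 γ ^ 2 * D.wA c.Q 0 γ z) := by ring
    · simp
  -- (2)
  have hβ : D.bin c.tr T.1.1 = D.bin 0 ω := by rw [hlab, ti_anc_bin D hD c.tr le_rfl]
  have hGle := ti_G_le hc D hD (Nat.zero_le c.tr) hc.tr_le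
  have h2 : D.eb (D.bin 0 ω) z ≤ L * 2 ^ c.P * D.G 0 ^ c.P * D.Mc := by
    have a1 := ti_eb_near hc D hD T.1 T.2 z
    rw [hβ] at a1
    have a2 : (1 + ‖D.X c.tr T.1 z‖) ^ c.P ≤ 2 ^ c.P * D.G 0 ^ c.P := by
      rw [← Real.mul_rpow (by norm_num) (by linarith)]
      exact Real.rpow_le_rpow (by positivity) (by linarith [hn.1]) hP0
    refine a1.trans ?_
    have a3 : L * (1 + ‖D.X c.tr T.1 z‖) ^ c.P ≤ L * (2 ^ c.P * D.G 0 ^ c.P) := mul_le_mul_of_nonneg_left a2 (by linarith)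
    calc L * (1 + ‖D.X c.tr T.1 z‖) ^ c.P * D.Mc ≤ L * (2 ^ c.P * D.G 0 ^ c.P) * D.Mc := mul_le_mul_of_nonneg_right a3 hD.Mc_pos.le
      _ = _ := by ring
  -- (3)
  have h3 : mdiA D z ω ≤ L * 2 ^ c.P * D.G 0 ^ c.P * mdiAr D z ω := by
    have he0 := mdi_eb_nonneg D (D.bin 0 ω) z
    rcases he0.eq_or_lt with he | he
    · have : mdiA D z ω = 0 := le_antisymm ((mdi_A_le_eb hc D z ω).trans he.symm.le) hA0
      unfold mdiAr
      rw [this]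
      simp
    · have b1 : 1 ≤ L * 2 ^ c.P * D.G 0 ^ c.P * min 1 (D.Mc / D.eb (D.bin 0 ω) z) := by
        rw [mul_min_of_nonneg _ _ (by positivity), mul_one]
        refine le_min (by nlinarith) ?_
        rw [← mul_div_assoc, le_div_iff₀ he, one_mul]
        exact h2
      unfold mdiAr
      calc mdiA D z ω = mdiA D z ω * 1 := (mul_one _).symm
        _ ≤ mdiA D z ω * (L * 2 ^ c.P * D.G 0 ^ c.P * min 1 (D.Mc / D.eb (D.bin 0 ω) z)) := mul_le_mul_of_nonneg_left b1 hA0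
        _ = _ := by ring
  calc D.geo.leafw y ω ≤ C₁ * mdiA D z ω := h1
    _ ≤ C₁ * (L * 2 ^ c.P * D.G 0 ^ c.P * mdiAr D z ω) := mul_le_mul_of_nonneg_left h3 (by linarith)
    _ = _ := by ring

/-- LEAF `L-F3-N6`  comparison of the clipped weights at two points from the comparison of the polynomial weights.
PLAN.  `mdiA z' ω ≤ CQ mdiA z ω` (termwise, `Finset.mul_sum`).   `e = eb β z`, `e' = eb β z'`, `β = bin 0 ω`: `e ≤ CP e'` (termwise).   `e' = 0`: `Mc / 0 = 0`, `min 1 0 = 0`, LHS `= 0`.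
`e' > 0`: then `e > 0` (if `e = 0` all `s0 γ = 0` in the bin by `wA_pos`, so `e' = 0`);  `Mc / e' ≤ CP * (Mc / e)` (`div_le_iff₀`, `e ≤ CP e'`);  `min 1 (CP x) ≤ CP min 1 x` for `CP ≥ 1`, `x ≥ 0`. -/
theorem mdi_ar_cmp (D : TDat c) (hD : D.Good) (z z' : ST (n + 1)) (ω : D.Lb 0) {CQ CP : ℝ} (hCQ : 1 ≤ CQ) (hCP : 1 ≤ CP)
    (hQ : ∀ γ ∈ D.W 0, γ.1 = ω → D.wA c.Q 0 γ z' ≤ CQ * D.wA c.Q 0 γ z)
    (hP : ∀ γ ∈ D.W 0, D.bin 0 γ.1 = D.bin 0 ω → D.wA c.P 0 γ z ≤ CP * D.wA c.P 0 γ z') :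
    mdiAr D z' ω ≤ CQ * CP * mdiAr D z ω := by
  have hMc := hD.Mc_pos
  have h1 : mdiA D z' ω ≤ CQ * mdiA D z ω := by
    unfold mdiA
    rw [Finset.mul_sum]
    refine Finset.sum_le_sum fun γ hγ => ?_
    split_ifs with h
    · calc D.s0 γ ^ 2 * D.wA c.Q 0 γ z' ≤ D.s0 γ ^ 2 * (CQ * D.wA c.Q 0 γ z) := mul_le_mul_of_nonneg_left (hQ γ hγ h) (sq_nonneg _)
        _ = CQ * (D.s0 γ ^ 2 * D.wA c.Q 0 γ z) := by ring
    · simp
  have h2 : D.eb (D.bin 0 ω) z ≤ CP * D.eb (D.bin 0 ω) z' := by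
    unfold TDat.eb
    rw [Finset.mul_sum]
    refine Finset.sum_le_sum fun γ hγ => ?_
    split_ifs with h
    · calc D.s0 γ ^ 2 * D.wA c.P 0 γ z ≤ D.s0 γ ^ 2 * (CP * D.wA c.P 0 γ z') := mul_le_mul_of_nonneg_left (hP γ hγ h) (sq_nonneg _)
        _ = CP * (D.s0 γ ^ 2 * D.wA c.P 0 γ z') := by ring
    · simp
  have hz : D.eb (D.bin 0 ω) z = 0 → D.eb (D.bin 0 ω) z' = 0 := by
    intro h0
    unfold TDat.eb at h0 ⊢
    rw [Finset.sum_eq_zero_iff_of_nonneg (fun γ _ => by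
      split_ifs
      · exact mul_nonneg (sq_nonneg _) (D.wA_pos _ _ _ _).le
      · exact le_rfl)] at h0
    refine Finset.sum_eq_zero fun γ hγ => ?_
    have := h0 γ hγ
    split_ifs at this ⊢ with hb
    · have hs : D.s0 γ ^ 2 = 0 := by
        rcases mul_eq_zero.1 this with h | h
        · exact h
        · exact absurd h (D.wA_pos _ _ _ _).ne'
      rw [hs, zero_mul]
    · rfl
  have he0 := mdi_eb_nonneg D (D.bin 0 ω) z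
  have he0' := mdi_eb_nonneg D (D.bin 0 ω) z'
  have hA0 := mdi_A_nonneg D z ω
  have hA0' := mdi_A_nonneg D z' ω
  have hr0 := mdi_Ar_nonneg D hD z ω
  unfold mdiAr at hr0 ⊢
  obtain ⟨e, he⟩ : ∃ e, e = D.eb (D.bin 0 ω) z := ⟨_, rfl⟩
  obtain ⟨e', he'⟩ : ∃ e', e' = D.eb (D.bin 0 ω) z' := ⟨_, rfl⟩
  rw [← he, ← he'] at hz h2
  rw [← he] at he0 hr0
  rw [← he'] at he0'
  rw [← he, ← he']
  rcases he0'.eq_or_lt with h | h
  · rw [← h, div_zero, min_eq_right zero_le_one, mul_zero]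
    positivity
  · have hepos : 0 < e := lt_of_le_of_ne he0 (fun h0 => h.ne' (hz h0.symm))
    have h3 : D.Mc / e' ≤ CP * (D.Mc / e) := by
      rw [div_le_iff₀ h]
      have : CP * (D.Mc / e) * e' = D.Mc * (CP * e') / e := by ring
      rw [this, le_div_iff₀ hepos]
      exact mul_le_mul_of_nonneg_left h2 hMc.le
    have h4 : min 1 (D.Mc / e') ≤ CP * min 1 (D.Mc / e) := by
      rw [mul_min_of_nonneg _ _ (by linarith : (0 : ℝ) ≤ CP), mul_one]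
      exact min_le_min hCP h3
    have h5 : 0 ≤ min 1 (D.Mc / e') := le_min zero_le_one (by positivity)
    calc mdiA D z' ω * min 1 (D.Mc / e') ≤ (CQ * mdiA D z ω) * (CP * min 1 (D.Mc / e)) :=
          mul_le_mul h1 h4 h5 (by positivity)
      _ = CQ * CP * (mdiA D z ω * min 1 (D.Mc / e)) := by ring

/-- two points of one tilted cell -/
theorem mdi_flo_two {k : ℕ} (X X' : ST k) (h : flo X = flo X') : ‖X - X'‖ ≤ 2 * ((k : ℝ) + 1) := by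
  have a1 := ti_flo_near X
  have a2 := ti_flo_near X'
  rw [h] at a1
  have := norm_sub_le (X - lat (flo X')) (X' - lat (flo X'))
  rw [sub_sub_sub_cancel_right] at this
  linarith

/-- termwise comparison of the plain weights -/
theorem mdi_A_cmp (D : TDat c) (z z' : ST (n + 1)) (ω : D.Lb 0) {CQ : ℝ}
    (hQ : ∀ γ ∈ D.W 0, γ.1 = ω → D.wA c.Q 0 γ z' ≤ CQ * D.wA c.Q 0 γ z) : mdiA D z' ω ≤ CQ * mdiA D z ω := by
  unfold mdiA
  rw [Finset.mul_sum]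
  refine Finset.sum_le_sum fun γ hγ => ?_
  split_ifs with h
  · calc D.s0 γ ^ 2 * D.wA c.Q 0 γ z' ≤ D.s0 γ ^ 2 * (CQ * D.wA c.Q 0 γ z) := mul_le_mul_of_nonneg_left (hQ γ hγ h) (sq_nonneg _)
      _ = CQ * (D.s0 γ ^ 2 * D.wA c.Q 0 γ z) := by ring
  · simp

/-- comparison of the clipped weights from a bounded native displacement in the frames of ALL the labels of the bin -/
theorem mdi_ar_disp (hc : c.Ok) (D : TDat c) (hD : D.Good) {B : ℝ} (hB : 0 ≤ B) (z z' : ST (n + 1)) (ω : D.Lb 0)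
    (h : ∀ v : D.Lb 0, D.bin 0 v = D.bin 0 ω → ‖natX (D.κ 0) (D.fr 0 v) z - natX (D.κ 0) (D.fr 0 v) z'‖ ≤ B) :
    mdiAr D z' ω ≤ (1 + B) ^ c.Q * (1 + B) ^ c.P * mdiAr D z ω := by
  have hk : (0 : ℝ) ≤ ((n + 1 : ℕ) : ℝ) := Nat.cast_nonneg _
  have hP0 : 0 ≤ c.P := by linarith [hc.P_gt]
  have hQ0 : 0 ≤ c.Q := by linarith [hc.P_lt]
  refine mdi_ar_cmp D hD z z' ω (Real.one_le_rpow (by linarith) hQ0) (Real.one_le_rpow (by linarith) hP0) ?_ ?_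
  · intro γ _ hγ
    exact mdi_wA_cmp D hQ0 hB γ z z' (h γ.1 (by rw [hγ]))
  · intro γ _ hγ
    refine mdi_wA_cmp D hP0 hB γ z' z ?_
    rw [norm_sub_rev]
    exact h γ.1 hγ

/-- the ancestors above a height are determined by the ancestor of that height -/
theorem mdi_anc_mono (D : TDat c) {i j : ℕ} (hij : i ≤ j) (ω ω' : D.Lb 0) (h : D.anc i ω = D.anc i ω') : D.anc j ω = D.anc j ω' := by
  induction j, hij using Nat.le_induction with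
  | base => exact h
  | succ j _ ih =>
    show D.par j (D.anc j ω) = D.par j (D.anc j ω')
    rw [ih]

/-- LEAF `L-F3-N7`  **bounded drift inside one cap, cross-ratio form.**
PLAN.  `K = κ ip ≤ κ 0` (`D.κ_le hD (Nat.zero_le _)`), `a = 2 ℓ Cc`, `B = (1 + 2 a) * (2 * (n + 2))`, `CA = (1 + B)^A`.
(A) for every `γ` with `anc lam γ.1 = anc lam ω₂` and both orders of `(z, z')`:  `‖natX K w₂ z - natX K w₂ z'‖ ≤ 2 ((n+1) + 1)` (`ti_flo_near` twice + `h`, as in `ti_leaf_tilt`);  `mdi_cap_diam`: `‖w - w₂‖ K² ≤ (2 ℓ Cc/κ lam) κ lam κ 0 = a κ 0`;  `mdi_drift`, `mdi_wA_cmp`.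
(B) `lam ≤ tr`:  `bin 0 ω = bin lam (anc lam ω) = bin lam (anc lam ω₂) = bin 0 ω'` (`ti_anc_bin`): the two clip factors are the same on both sides;  `mdiA z' ω ≤ CQ mdiA z ω`, `mdiA z ω' ≤ CQ mdiA z' ω'`;  `C = CQ²` suffices (`unfold mdiAr`, `nlinarith`/`calc` with nonnegativity).
(C) `tr < lam`:  a label `γ.1` with `bin 0 γ.1 = bin 0 ω` has `anc tr γ.1 = anc tr ω` (`ti_anc_bin`, `hD.bin_inj`), hence `anc lam γ.1 = anc lam ω` (auxiliary: `∀ d, anc (tr + d) ω` is determined by `anc tr ω`: induction on `d`, `TDat.anc` unfolds to `par`);  `mdi_ar_cmp` for `(z, z', ω)` and for `(z', z, ω')`:  `C = (CQ CP)²`.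
Take `C = (CQ CP)²` in both cases (`CP ≥ 1`). -/
theorem mdi_cmp_same (hc : c.Ok) : ∃ C : ℝ, 1 ≤ C ∧ ∀ D : TDat c, D.Good → ∀ lam ip : ℕ, lam ≤ c.ℓ → D.κ ip ^ 2 ≤ D.κ lam * D.κ 0 →
    ∀ (z z' : ST (n + 1)) (ω₂ ω ω' : D.Lb 0), flo (natX (D.κ ip) (D.fr 0 ω₂) z) = flo (natX (D.κ ip) (D.fr 0 ω₂) z') →
      D.anc lam ω = D.anc lam ω₂ → D.anc lam ω' = D.anc lam ω₂ → mdiAr D z' ω * mdiAr D z ω' ≤ C * (mdiAr D z ω * mdiAr D z' ω') := by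
  have hk : (0 : ℝ) ≤ ((n + 1 : ℕ) : ℝ) := Nat.cast_nonneg _
  have hP0 : 0 ≤ c.P := by linarith [hc.P_gt]
  have hQ0 : 0 ≤ c.Q := by linarith [hc.P_lt]
  have hCc : 0 ≤ c.Cc := by linarith [hc.one_le_Cc]
  have ha : 0 ≤ 2 * ((c.ℓ : ℝ) * c.Cc) := by positivity
  set a : ℝ := 2 * ((c.ℓ : ℝ) * c.Cc) with ha_def
  set B : ℝ := (1 + 2 * a) * (2 * (((n + 1 : ℕ) : ℝ) + 1)) with hB_def
  have hB : 0 ≤ B := by positivity
  set CQ : ℝ := (1 + B) ^ c.Q with hCQ_def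
  set CP : ℝ := (1 + B) ^ c.P with hCP_def
  have hCQ : 1 ≤ CQ := Real.one_le_rpow (by linarith) hQ0
  have hCP : 1 ≤ CP := Real.one_le_rpow (by linarith) hP0
  have hCC : 1 ≤ CQ * CP := by nlinarith
  refine ⟨(CQ * CP) ^ 2, one_le_pow₀ hCC, fun D hD lam ip hl hκ z z' ω₂ ω ω' hflo hω hω' => ?_⟩
  have hK : 0 < D.κ ip := D.κ_pos hD ip
  have hKK : D.κ ip ≤ D.κ 0 := D.κ_le hD (Nat.zero_le _)
  have hκl : 0 < D.κ lam := D.κ_pos hD lam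
  have hκ0 : 0 < D.κ 0 := D.κ_pos hD 0
  -- (A)
  have hA : ∀ v : D.Lb 0, D.anc lam v = D.anc lam ω₂ → ‖natX (D.κ 0) (D.fr 0 v) z - natX (D.κ 0) (D.fr 0 v) z'‖ ≤ B := by
    intro v hv
    have h1 := mdi_cap_diam hc D hD lam hl v ω₂ hv
    have h2 : ‖D.fr 0 v - D.fr 0 ω₂‖ * D.κ ip ^ 2 ≤ a * D.κ 0 := by
      calc ‖D.fr 0 v - D.fr 0 ω₂‖ * D.κ ip ^ 2 ≤ (a / D.κ lam) * (D.κ lam * D.κ 0) :=
            mul_le_mul h1 hκ (by positivity) (by positivity)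
        _ = a * D.κ 0 := by field_simp
    refine (mdi_drift hK hKK ha (D.fr 0 v) (D.fr 0 ω₂) h2 z z').trans ?_
    exact mul_le_mul_of_nonneg_left (mdi_flo_two _ _ hflo) (by positivity)
  have hA' : ∀ v : D.Lb 0, D.anc lam v = D.anc lam ω₂ → ‖natX (D.κ 0) (D.fr 0 v) z' - natX (D.κ 0) (D.fr 0 v) z‖ ≤ B := by
    intro v hv
    rw [norm_sub_rev]
    exact hA v hv
  have n1 := mdi_Ar_nonneg D hD z ω
  have n2 := mdi_Ar_nonneg D hD z' ω'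
  have n3 := mdi_Ar_nonneg D hD z' ω
  have n4 := mdi_Ar_nonneg D hD z ω'
  by_cases hlt : lam ≤ c.tr
  · -- (B)
    have hb : D.bin 0 ω = D.bin 0 ω' := by
      rw [← ti_anc_bin D hD lam hlt ω, ← ti_anc_bin D hD lam hlt ω', hω, hω']
    have h1 : mdiA D z' ω ≤ CQ * mdiA D z ω :=
      mdi_A_cmp D z z' ω fun γ _ hγ => mdi_wA_cmp D hQ0 hB γ z z' (hA γ.1 (by rw [hγ, hω]))
    have h2 : mdiA D z ω' ≤ CQ * mdiA D z' ω' :=
      mdi_A_cmp D z' z ω' fun γ _ hγ => mdi_wA_cmp D hQ0 hB γ z' z (hA' γ.1 (by rw [hγ, hω']))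
    unfold mdiAr
    rw [← hb]
    set m : ℝ := min 1 (D.Mc / D.eb (D.bin 0 ω) z) with hm
    set m' : ℝ := min 1 (D.Mc / D.eb (D.bin 0 ω) z') with hm'
    have hm0 : 0 ≤ m := le_min zero_le_one (div_nonneg hD.Mc_pos.le (mdi_eb_nonneg D _ z))
    have hm0' : 0 ≤ m' := le_min zero_le_one (div_nonneg hD.Mc_pos.le (mdi_eb_nonneg D _ z'))
    have p1 := mdi_A_nonneg D z ω
    have p2 := mdi_A_nonneg D z' ω'
    have p3 := mdi_A_nonneg D z' ω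
    have p4 := mdi_A_nonneg D z ω'
    have h3 : mdiA D z' ω * mdiA D z ω' ≤ (CQ * mdiA D z ω) * (CQ * mdiA D z' ω') := mul_le_mul h1 h2 p4 (by positivity)
    have h4 : CQ ^ 2 ≤ (CQ * CP) ^ 2 := pow_le_pow_left₀ (by linarith) (by nlinarith) 2
    calc mdiA D z' ω * m' * (mdiA D z ω' * m) = (mdiA D z' ω * mdiA D z ω') * (m * m') := by ring
      _ ≤ ((CQ * mdiA D z ω) * (CQ * mdiA D z' ω')) * (m * m') := mul_le_mul_of_nonneg_right h3 (by positivity)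
      _ = CQ ^ 2 * (mdiA D z ω * m * (mdiA D z' ω' * m')) := by ring
      _ ≤ (CQ * CP) ^ 2 * (mdiA D z ω * m * (mdiA D z' ω' * m')) := mul_le_mul_of_nonneg_right h4 (by positivity)
  · -- (C)
    have htl : c.tr ≤ lam := by omega
    have hbin : ∀ u v : D.Lb 0, D.anc lam u = D.anc lam ω₂ → D.bin 0 v = D.bin 0 u → D.anc lam v = D.anc lam ω₂ := by
      intro u v hu hv
      rw [← ti_anc_bin D hD c.tr le_rfl v, ← ti_anc_bin D hD c.tr le_rfl u] at hv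
      rw [mdi_anc_mono D htl v u (hD.bin_inj hv), hu]
    have h1 : mdiAr D z' ω ≤ CQ * CP * mdiAr D z ω := mdi_ar_disp hc D hD hB z z' ω fun v hv => hA v (hbin ω v hω hv)
    have h2 : mdiAr D z ω' ≤ CQ * CP * mdiAr D z' ω' := mdi_ar_disp hc D hD hB z' z ω' fun v hv => hA' v (hbin ω' v hω' hv)
    calc mdiAr D z' ω * mdiAr D z ω' ≤ (CQ * CP * mdiAr D z ω) * (CQ * CP * mdiAr D z' ω') := mul_le_mul h1 h2 n4 (by positivity)
      _ = (CQ * CP) ^ 2 * (mdiAr D z ω * mdiAr D z' ω') := by ring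

/-- LEAF `L-F3-N8`  **bounded drift on a cell of another field.**
PLAN.  `K = κ₂ ip ≥ 1`, `K ≤ K² ≤ κ₁ 0`;  `w₂ = fr₂ 0 ω₂`, `‖w₂‖ ≤ (ℓ+1) Cc =: b` (`mdi_fr_le`), for every leaf label `w` of `D₁`: `‖w - w₂‖ K² ≤ 2 b κ₁ 0`.
`‖natX K w₂ z₁ - natX K w₂ z₁'‖ ≤ ‖natX K w₂ (z₁ - z₂)‖ + ‖natX K w₂ z₂ - natX K w₂ z₂'‖ + ‖natX K w₂ (z₂' - z₁')‖ ≤ 2 (1 + 2 b)(n + 2) + 2 (n + 2)` (`natX_sub`, `ti_resc_lip`, `ti_flo_near`).
`mdi_drift` (`a = 2 b`), `mdi_wA_cmp` for ALL `γ`, both orders;  `mdi_ar_cmp`. -/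
theorem mdi_cmp_cross (hc : c.Ok) : ∃ C : ℝ, 1 ≤ C ∧ ∀ D₁ D₂ : TDat c, D₁.Good → D₂.Good → ∀ ip : ℕ, D₂.κ ip ^ 2 ≤ D₁.κ 0 →
    ∀ (z₁ z₁' z₂ z₂' : ST (n + 1)) (ω₂ : D₂.Lb 0) (ω : D₁.Lb 0), ‖z₁ - z₂‖ ≤ ((n + 1 : ℕ) : ℝ) + 1 → ‖z₁' - z₂'‖ ≤ ((n + 1 : ℕ) : ℝ) + 1 →
      flo (natX (D₂.κ ip) (D₂.fr 0 ω₂) z₂) = flo (natX (D₂.κ ip) (D₂.fr 0 ω₂) z₂') → mdiAr D₁ z₁' ω ≤ C * mdiAr D₁ z₁ ω := by
  have hk : (0 : ℝ) ≤ ((n + 1 : ℕ) : ℝ) := Nat.cast_nonneg _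
  have hP0 : 0 ≤ c.P := by linarith [hc.P_gt]
  have hQ0 : 0 ≤ c.Q := by linarith [hc.P_lt]
  have hCc : 0 ≤ c.Cc := by linarith [hc.one_le_Cc]
  set b : ℝ := ((c.ℓ : ℝ) + 1) * c.Cc with hb_def
  have hb : 0 ≤ b := by positivity
  set N0 : ℝ := ((n + 1 : ℕ) : ℝ) + 1 with hN0_def
  have hN0 : 0 ≤ N0 := by positivity
  set B : ℝ := (1 + 2 * (2 * b)) * (2 * ((1 + 2 * b) * N0) + 2 * N0) with hB_def
  have hB : 0 ≤ B := by positivity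
  have hCQ : 1 ≤ (1 + B) ^ c.Q := Real.one_le_rpow (by linarith) hQ0
  have hCP : 1 ≤ (1 + B) ^ c.P := Real.one_le_rpow (by linarith) hP0
  refine ⟨(1 + B) ^ c.Q * (1 + B) ^ c.P, by nlinarith, fun D₁ D₂ hD₁ hD₂ ip hκ z₁ z₁' z₂ z₂' ω₂ ω h1 h1' hflo => ?_⟩
  have hK1 : 1 ≤ D₂.κ ip := hD₂.one_le_κ ip
  have hK : 0 < D₂.κ ip := by linarith
  have hKK : D₂.κ ip ≤ D₁.κ 0 := by nlinarith
  have hw₂ : ‖D₂.fr 0 ω₂‖ ≤ b := mdi_fr_le hc D₂ hD₂ ω₂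
  have hdisp : ‖natX (D₂.κ ip) (D₂.fr 0 ω₂) z₁ - natX (D₂.κ ip) (D₂.fr 0 ω₂) z₁'‖ ≤ 2 * ((1 + 2 * b) * N0) + 2 * N0 := by
    have e : natX (D₂.κ ip) (D₂.fr 0 ω₂) z₁ - natX (D₂.κ ip) (D₂.fr 0 ω₂) z₁'
        = natX (D₂.κ ip) (D₂.fr 0 ω₂) (z₁ - z₂) + (natX (D₂.κ ip) (D₂.fr 0 ω₂) z₂ - natX (D₂.κ ip) (D₂.fr 0 ω₂) z₂')
          - natX (D₂.κ ip) (D₂.fr 0 ω₂) (z₁' - z₂') := by
      rw [natX_sub, natX_sub]
      abel
    rw [e]
    have a1 := ti_resc_lip hK1 hw₂ (z₁ - z₂)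
    have a2 := ti_resc_lip hK1 hw₂ (z₁' - z₂')
    have a3 := mdi_flo_two _ _ hflo
    have a4 : (1 + 2 * b) * ‖z₁ - z₂‖ ≤ (1 + 2 * b) * N0 := mul_le_mul_of_nonneg_left h1 (by positivity)
    have a5 : (1 + 2 * b) * ‖z₁' - z₂'‖ ≤ (1 + 2 * b) * N0 := mul_le_mul_of_nonneg_left h1' (by positivity)
    refine (norm_sub_le _ _).trans ?_
    have a6 := norm_add_le (natX (D₂.κ ip) (D₂.fr 0 ω₂) (z₁ - z₂)) (natX (D₂.κ ip) (D₂.fr 0 ω₂) z₂ - natX (D₂.κ ip) (D₂.fr 0 ω₂) z₂')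
    linarith
  refine mdi_ar_disp hc D₁ hD₁ hB z₁ z₁' ω fun v _ => ?_
  have hv : ‖D₁.fr 0 v‖ ≤ b := mdi_fr_le hc D₁ hD₁ v
  have h2 : ‖D₁.fr 0 v - D₂.fr 0 ω₂‖ * D₂.κ ip ^ 2 ≤ 2 * b * D₁.κ 0 := by
    have : ‖D₁.fr 0 v - D₂.fr 0 ω₂‖ ≤ 2 * b := (norm_sub_le _ _).trans (by linarith)
    exact mul_le_mul this hκ (by positivity) (by positivity)
  refine (mdi_drift hK hKK (by positivity) (D₁.fr 0 v) (D₂.fr 0 ω₂) h2 z₁ z₁').trans ?_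
  exact mul_le_mul_of_nonneg_left hdisp (by positivity)

end

theorem mdi_eqns_cite : True := by
  have := @mdiPos.eq_1
  have := @mdiVel.eq_1
  have := @mdiA.eq_1
  have := @mdiAr.eq_1
  trivial

end Claimed.Agent.R257
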