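import Claimed.Agent.R257.FR3.MidCfg

/-!
# ROW 257, package FR3, unit MID, file 5: FROM TWO DIRECTION KERNELS TO THE CONFIGURATION      (architect helper276)

PAPER-FREE (no `TSys`).   `Q` = root points, `Y' ⊆ Q` the root set, `D₁`, `D₂` = fine directions of the two paths, `J_j z ω ≥ 0` = path masses (kernels), `cp_j : D_j → 𝒲` = GROUP of a direction
(same field: `𝒲` = names of the caps `τ_l`, `cp₁ = cp₂`;   cross field: `𝒲 = Unit`).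
* `mdkLaw J cp Y'`   the law of `((Z, cp Ω), Ω)`:  `Z` uniform on `Y'`,  `P(Ω = ω | Z = z) = J z ω / ∑ J z ·`.
* `MdKer`            the data;  `MdKer.Base` (the laws exist);  `MdKer.Hyp` = the hypotheses `marg`, `diff`, `dom`, `sep` of `MdCfg.Ok` written on the KERNELS (no probability).
* `mdk_ok`           `Base + Hyp + occupancy + widths ⟹ MdCfg.Ok`.
Prefix `mdk_`.   Every `sorry` is a leaf `L-F3-M*` (statement frozen; prove in place).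
-/

set_option autoImplicit false

namespace Claimed.Agent.R257

open scoped BigOperators
open Classical
open Claimed.Agent.R255 Claimed.Agent.R255.FLaw

section law

variable {Q 𝒲 D : Type} [Fintype Q] [Fintype 𝒲] [Fintype D]

/-- the weights of the law of `((Z, cp Ω), Ω)` -/
noncomputable def mdkW (J : Q → D → ℝ) (cp : D → 𝒲) (Y' : Finset Q) (y : (Q × 𝒲) × D) : ℝ :=
  if y.1.1 ∈ Y' ∧ y.1.2 = cp y.2 then J y.1.1 y.2 / (Y'.card * ∑ ω, J y.1.1 ω) else 0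

/-- LEAF `L-F3-M7` (a).   PLAN.  `Fintype.sum_prod_type` (twice), for fixed `(z, ω)` the sum over `w` has the single term `w = cp ω` (`Finset.sum_ite_eq`, after splitting the conjunction: `ite_and`);
then as in `tp_law_exists` (`R257/FR2/PathTop.lean`): `∑_ω J z ω / (N W z) = 1/N` for `z ∈ Y'`, `Finset.sum_ite_mem`, `Finset.sum_const`. -/
theorem mdk_W_sum (J : Q → D → ℝ) (cp : D → 𝒲) (Y' : Finset Q) (hY : Y'.Nonempty) (hW : ∀ z ∈ Y', 0 < ∑ ω, J z ω) :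
    ∑ y, mdkW J cp Y' y = 1 := by
  rw [Fintype.sum_prod_type, Fintype.sum_prod_type]
  have h1 : ∀ z : Q, ∑ w : 𝒲, ∑ ω : D, mdkW J cp Y' ((z, w), ω) = if z ∈ Y' then (Y'.card : ℝ)⁻¹ else 0 := by
    intro z
    rw [Finset.sum_comm]
    by_cases hz : z ∈ Y'
    · rw [if_pos hz]
      have h2 : ∀ ω : D, ∑ w : 𝒲, mdkW J cp Y' ((z, w), ω) = J z ω / (Y'.card * ∑ ω, J z ω) := by
        intro ω
        rw [Finset.sum_eq_single (cp ω)]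
        · unfold mdkW
          rw [if_pos ⟨hz, rfl⟩]
        · intro w _ hw
          unfold mdkW
          rw [if_neg (fun h => hw h.2)]
        · intro h
          exact absurd (Finset.mem_univ _) h
      simp only [h2]
      rw [← Finset.sum_div]
      have := (hW z hz).ne'
      field_simp
    · rw [if_neg hz]
      refine Finset.sum_eq_zero fun ω _ => Finset.sum_eq_zero fun w _ => ?_
      unfold mdkW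
      rw [if_neg (fun h => hz h.1)]
  simp only [h1]
  rw [Finset.sum_ite_mem, Finset.univ_inter, Finset.sum_const, nsmul_eq_mul]
  have : (Y'.card : ℝ) ≠ 0 := by exact_mod_cast hY.card_pos.ne'
  exact mul_inv_cancel₀ this

/-- the law of `((Z, cp Ω), Ω)` -/
noncomputable def mdkLaw (J : Q → D → ℝ) (cp : D → 𝒲) (Y' : Finset Q) (hJ : ∀ z ω, 0 ≤ J z ω) (hY : Y'.Nonempty)
    (hW : ∀ z ∈ Y', 0 < ∑ ω, J z ω) : FLaw ((Q × 𝒲) × D) where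
  p := mdkW J cp Y'
  nonneg := fun y => by
    unfold mdkW
    split_ifs
    · exact div_nonneg (hJ _ _) (mul_nonneg (Nat.cast_nonneg _) (Finset.sum_nonneg fun ω _ => hJ _ _))
    · exact le_rfl
  sum_one := mdk_W_sum J cp Y' hY hW

variable (J : Q → D → ℝ) (cp : D → 𝒲) (Y' : Finset Q) (hJ : ∀ z ω, 0 ≤ J z ω) (hY : Y'.Nonempty)
  (hW : ∀ z ∈ Y', 0 < ∑ ω, J z ω)

theorem mdk_p (y : (Q × 𝒲) × D) : (mdkLaw J cp Y' hJ hY hW).p y = mdkW J cp Y' y := rfl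

/-- the support -/
theorem mdk_supp (y : (Q × 𝒲) × D) (hy : (mdkLaw J cp Y' hJ hY hW).p y ≠ 0) :
    y.1.1 ∈ Y' ∧ y.1.2 = cp y.2 ∧ J y.1.1 y.2 ≠ 0 := by
  rw [mdk_p] at hy
  unfold mdkW at hy
  split_ifs at hy with h
  · refine ⟨h.1, h.2, fun h0 => hy ?_⟩
    rw [h0, zero_div]
  · exact absurd rfl hy

/-- LEAF `L-F3-M7` (b)  the marginal of the point.   PLAN.  unfold `rdM`, `mdk_p`, `mdkW`; `z ∉ Y'`: all terms vanish; `z ∈ Y'`: `Finset.sum_filter`, `Finset.sum_div`. -/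
theorem mdk_M (z : Q) (w : 𝒲) : rdM (mdkLaw J cp Y' hJ hY hW) (z, w) =
    if z ∈ Y' then (∑ ω with cp ω = w, J z ω) / (Y'.card * ∑ ω, J z ω) else 0 := by
  unfold rdM
  simp only [mdk_p]
  by_cases hz : z ∈ Y'
  · rw [if_pos hz, Finset.sum_div, Finset.sum_filter]
    refine Finset.sum_congr rfl fun ω _ => ?_
    unfold mdkW
    by_cases hw : cp ω = w
    · rw [if_pos ⟨hz, hw.symm⟩, if_pos hw]
    · rw [if_neg (fun h => hw h.2.symm), if_neg hw]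
  · rw [if_neg hz]
    refine Finset.sum_eq_zero fun ω _ => ?_
    unfold mdkW
    rw [if_neg (fun h => hz h.1)]

/-- LEAF `L-F3-M7` (c)  the joint law of `(Z, Ω)`   (= field `joint` of `TGeo.IsLaw`, up to the injection of the root points).
PLAN.  `pr = ∑_y [y.1.1 = z ∧ y.2 = ω] mdkW y`; only `y = ((z, cp ω), ω)` contributes: `Finset.sum_eq_single ((z, cp ω), ω)`. -/
theorem mdk_joint (z : Q) (ω : D) : (mdkLaw J cp Y' hJ hY hW).pr (fun y => y.1.1 = z ∧ y.2 = ω) =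
    if z ∈ Y' then J z ω / (Y'.card * ∑ ω', J z ω') else 0 := by
  unfold FLaw.pr
  rw [Finset.sum_eq_single ((z, cp ω), ω)]
  · rw [if_pos ⟨rfl, rfl⟩, mdk_p]
    unfold mdkW
    by_cases hz : z ∈ Y'
    · rw [if_pos ⟨hz, rfl⟩, if_pos hz]
    · rw [if_neg (fun h => hz h.1), if_neg hz]
  · intro y _ hy
    by_cases h : y.1.1 = z ∧ y.2 = ω
    · rw [if_pos h, mdk_p]
      unfold mdkW
      rw [if_neg]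
      rintro ⟨-, h2⟩
      apply hy
      obtain ⟨⟨a, b⟩, c⟩ := y
      simp only at h h2
      obtain ⟨rfl, rfl⟩ := h
      rw [h2]
    · rw [if_neg h]
  · intro h
    exact absurd (Finset.mem_univ _) h

/-- on the support the group is a function of the direction: the fibres of `(x, Ω)` and of `(Z, Ω)` coincide -/
theorem mdk_fib_point (y : (Q × 𝒲) × D) (hy : (mdkLaw J cp Y' hJ hY hW).p y ≠ 0) :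
    (mdkLaw J cp Y' hJ hY hW).fib (pair Prod.fst Prod.snd) y =
      (mdkLaw J cp Y' hJ hY hW).fib (pair (fun y : (Q × 𝒲) × D => y.1.1) Prod.snd) y := by
  refine ent_pr_congr _ fun y' hy' => ?_
  have h1 := (mdk_supp J cp Y' hJ hY hW y hy).2.1
  have h2 := (mdk_supp J cp Y' hJ hY hW y' hy').2.1
  simp only [FLaw.pair, Prod.mk.injEq]
  constructor
  · rintro ⟨e1, e2⟩
    exact ⟨congrArg Prod.fst e1, e2⟩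
  · rintro ⟨e1, e2⟩
    exact ⟨Prod.ext e1 (by rw [h1, h2, e2]), e2⟩

end law

theorem mdk_eqns_cite : True := by
  have := @mdkW.eq_1
  have := @mdkLaw.eq_1
  trivial

/-- the data: two kernels over one root set -/
structure MdKer (n : ℕ) (Q 𝒲 D₁ D₂ : Type) where
  Y' : Finset Q
  J₁ : Q → D₁ → ℝ
  J₂ : Q → D₂ → ℝ
  cp₁ : D₁ → 𝒲
  cp₂ : D₂ → 𝒲
  pos₁ : Q → Fin (n + 2) → ℝ
  pos₂ : Q → Fin (n + 2) → ℝ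
  dir₁ : D₁ → Fin (n + 2) → ℝ
  dir₂ : D₂ → Fin (n + 2) → ℝ
  ν : ((Fin (n + 2) → ℤ) × ℤ) × D₂ → D₁ → ℝ

namespace MdKer

variable {n : ℕ} {Q 𝒲 D₁ D₂ : Type} [Fintype Q] [Fintype 𝒲] [Fintype D₁] [Fintype D₂] (𝔐 : MdKer n Q 𝒲 D₁ D₂)

/-- the laws exist -/
structure Base : Prop where
  ne : 𝔐.Y'.Nonempty
  J₁0 : ∀ z ω, 0 ≤ 𝔐.J₁ z ω
  J₂0 : ∀ z ω, 0 ≤ 𝔐.J₂ z ω
  W₁ : ∀ z ∈ 𝔐.Y', 0 < ∑ ω, 𝔐.J₁ z ω
  W₂ : ∀ z ∈ 𝔐.Y', 0 < ∑ ω, 𝔐.J₂ z ω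

/-- the law of the first path -/
noncomputable def law₁ (hB : 𝔐.Base) : FLaw ((Q × 𝒲) × D₁) := mdkLaw 𝔐.J₁ 𝔐.cp₁ 𝔐.Y' hB.J₁0 hB.ne hB.W₁

/-- the law of the second path -/
noncomputable def law₂ (hB : 𝔐.Base) : FLaw ((Q × 𝒲) × D₂) := mdkLaw 𝔐.J₂ 𝔐.cp₂ 𝔐.Y' hB.J₂0 hB.ne hB.W₂

/-- the configuration -/
noncomputable def cfg (hB : 𝔐.Base) : MdCfg n (Q × 𝒲) D₁ D₂ := ⟨𝔐.law₁ hB, 𝔐.law₂ hB, fun x => 𝔐.pos₁ x.1, fun x => 𝔐.pos₂ x.1, 𝔐.dir₁, 𝔐.dir₂, 𝔐.ν⟩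

/-- **the hypotheses on the kernels** -/
structure Hyp (wp Ad r0 K K₁ δ : ℝ) : Prop where
  /-- the two paths give the same law to the group -/
  marg : ∀ z ∈ 𝔐.Y', ∀ w, (∑ ω with 𝔐.cp₁ ω = w, 𝔐.J₁ z ω) * (∑ ω, 𝔐.J₂ z ω) = (∑ ω with 𝔐.cp₂ ω = w, 𝔐.J₂ z ω) * (∑ ω, 𝔐.J₁ z ω)
  diff : ∀ z ∈ 𝔐.Y', ∀ ω₁ ω₂, 𝔐.J₁ z ω₁ ≠ 0 → 𝔐.J₂ z ω₂ ≠ 0 → 𝔐.cp₁ ω₁ = 𝔐.cp₂ ω₂ → ∀ l, |𝔐.dir₁ ω₁ l - 𝔐.dir₂ ω₂ l| ≤ Ad
  K_nonneg : 0 ≤ K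
  ν0 : ∀ c θ, 0 ≤ 𝔐.ν c θ
  ν1 : ∀ c, ∑ θ, 𝔐.ν c θ ≤ K₁
  dom : ∀ z ∈ 𝔐.Y', ∀ ω₂ ω₁, 𝔐.J₂ z ω₂ ≠ 0 → 𝔐.cp₁ ω₁ = 𝔐.cp₂ ω₂ →
    𝔐.J₁ z ω₁ ≤ K * 𝔐.ν (mdCel wp (𝔐.pos₂ z) (𝔐.dir₂ ω₂), ω₂) ω₁ * ∑ ω with 𝔐.cp₁ ω = 𝔐.cp₂ ω₂, 𝔐.J₁ z ω
  sep : ∀ z ∈ 𝔐.Y', ∀ ω₂, 𝔐.J₂ z ω₂ ≠ 0 →
    ∑ ω₁ with (𝔐.cp₁ ω₁ = 𝔐.cp₂ ω₂ ∧ ∀ l, |𝔐.dir₁ ω₁ l - 𝔐.dir₂ ω₂ l| < r0), 𝔐.J₁ z ω₁ ≤
      δ * ∑ ω with 𝔐.cp₁ ω = 𝔐.cp₂ ω₂, 𝔐.J₁ z ω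

/-- the widths -/
structure Wid (wp wc up uc Ad r0 c0 c1 : ℝ) : Prop where
  dir₂0 : ∀ θ, 𝔐.dir₂ θ 0 = 1
  c1_nonneg : 0 ≤ c1
  c1_le : c1 ≤ up
  c0_le : c0 ≤ up ^ 2
  near0 : ∀ z, |𝔐.pos₁ z 0 - 𝔐.pos₂ z 0| ≤ c0
  near1 : ∀ z θ₁ l, |(𝔐.pos₁ z l - 𝔐.pos₁ z 0 * 𝔐.dir₁ θ₁ l) - (𝔐.pos₂ z l - 𝔐.pos₂ z 0 * 𝔐.dir₁ θ₁ l)| ≤ c1
  wc_pos : 0 < wc
  wp_pos : 0 < wp
  uc_pos : 0 < uc
  wp_le : wp ≤ up
  uc_le : uc ≤ up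
  drift : Ad * wp ^ 2 ≤ up
  r0_pos : 0 < r0

/-- the four halves of the occupancy law -/
structure Occ (hB : 𝔐.Base) (wp wc up uc Mp Mc Np Nc ε : ℝ) : Prop where
  Mp_pos : 0 < Mp
  Np_pos : 0 < Np
  occ2p : (𝔐.law₂ hB).pr (fun y => (𝔐.law₂ hB).fib (pair ((𝔐.cfg hB).cel₂ wp) Prod.snd) y <
    Mp * (𝔐.law₂ hB).fib (pair Prod.fst Prod.snd) y) ≤ ε
  occ2c : (𝔐.law₂ hB).pr (fun y => Mc * (𝔐.law₂ hB).fib (pair Prod.fst Prod.snd) y <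
    (𝔐.law₂ hB).fib (pair ((𝔐.cfg hB).cel₂ wc) Prod.snd) y) ≤ ε
  occ1p : (𝔐.law₁ hB).pr (fun y => Np * (𝔐.law₁ hB).fib (pair Prod.fst Prod.snd) y <
    (𝔐.law₁ hB).fib (pair ((𝔐.cfg hB).cel₁ up) Prod.snd) y) ≤ ε
  occ1c : (𝔐.law₁ hB).pr (fun y => (𝔐.law₁ hB).fib (pair ((𝔐.cfg hB).cel₁ uc) Prod.snd) y <
    Nc * (𝔐.law₁ hB).fib (pair Prod.fst Prod.snd) y) ≤ ε

end MdKer

theorem mdk_eqns_cite2 : True := by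
  have := @MdKer.law₁.eq_1
  have := @MdKer.law₂.eq_1
  have := @MdKer.cfg.eq_1
  trivial

variable {n : ℕ} {Q 𝒲 D₁ D₂ : Type} [Fintype Q] [Fintype 𝒲] [Fintype D₁] [Fintype D₂]

/-- LEAF `L-F3-M8`  the marginals of the point agree.   PLAN.  `x = (z, w)`; `mdk_M` on both sides; `z ∉ Y'`: `0 = 0`; `z ∈ Y'`: `div_eq_div_iff` (positivity: `hB.W₁`, `hB.W₂`, `hB.ne`) and `h.marg z hz w`. -/
theorem mdk_marg (𝔐 : MdKer n Q 𝒲 D₁ D₂) (hB : 𝔐.Base) {wp Ad r0 K K₁ δ : ℝ} (h : 𝔐.Hyp wp Ad r0 K K₁ δ) (x : Q × 𝒲) :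
    rdM (𝔐.law₁ hB) x = rdM (𝔐.law₂ hB) x := by
  obtain ⟨z, w⟩ := x
  unfold MdKer.law₁ MdKer.law₂
  rw [mdk_M, mdk_M]
  by_cases hz : z ∈ 𝔐.Y'
  · rw [if_pos hz, if_pos hz]
    have hN : (0 : ℝ) < 𝔐.Y'.card := by exact_mod_cast hB.ne.card_pos
    have h1 := hB.W₁ z hz
    have h2 := hB.W₂ z hz
    rw [div_eq_div_iff (by positivity) (by positivity)]
    have := h.marg z hz w
    linear_combination (𝔐.Y'.card : ℝ) * this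
  · rw [if_neg hz, if_neg hz]

/-- LEAF `L-F3-M9`  domination on the laws.
PLAN.  `x = (z, w)`.  `mdk_supp` for `((z,w),θ₂)`: `z ∈ Y'`, `w = cp₂ θ₂`, `J₂ z θ₂ ≠ 0`.   `(law₁).p ((z,w),θ₁) = mdkW ..`: if `w ≠ cp₁ θ₁` it is `0 ≤` RHS (`h.K_nonneg`, `h.ν0`, `rd_M_nonneg`);
otherwise `J₁ z θ₁/(N W₁)`, `rdM = (∑_{cp₁ ω = w} J₁ z ω)/(N W₁)` (`mdk_M`), divide `h.dom z hz θ₂ θ₁` by `N W₁ > 0`.   `(cfg).cel₂ wp ((z,w),θ₂) = mdCel wp (pos₂ z) (dir₂ θ₂)` is `rfl`. -/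
theorem mdk_dom (𝔐 : MdKer n Q 𝒲 D₁ D₂) (hB : 𝔐.Base) {wp Ad r0 K K₁ δ : ℝ} (h : 𝔐.Hyp wp Ad r0 K K₁ δ) (x : Q × 𝒲) (θ₂ : D₂)
    (θ₁ : D₁) (hx : (𝔐.law₂ hB).p (x, θ₂) ≠ 0) :
    (𝔐.law₁ hB).p (x, θ₁) ≤ K * 𝔐.ν ((𝔐.cfg hB).cel₂ wp (x, θ₂), θ₂) θ₁ * rdM (𝔐.law₁ hB) x := by
  obtain ⟨z, w⟩ := x
  obtain ⟨hz, hw, hJ⟩ := mdk_supp _ _ _ hB.J₂0 hB.ne hB.W₂ ((z, w), θ₂) hx
  simp only at hz hw hJ
  have hN : (0 : ℝ) < 𝔐.Y'.card := by exact_mod_cast hB.ne.card_pos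
  have h1 := hB.W₁ z hz
  have hM : rdM (𝔐.law₁ hB) (z, w) = (∑ ω with 𝔐.cp₁ ω = w, 𝔐.J₁ z ω) / (𝔐.Y'.card * ∑ ω, 𝔐.J₁ z ω) := by
    unfold MdKer.law₁
    rw [mdk_M, if_pos hz]
  by_cases hc : w = 𝔐.cp₁ θ₁
  · have hp : (𝔐.law₁ hB).p ((z, w), θ₁) = 𝔐.J₁ z θ₁ / (𝔐.Y'.card * ∑ ω, 𝔐.J₁ z ω) := by
      show mdkW _ _ _ _ = _
      unfold mdkW
      rw [if_pos ⟨hz, hc⟩]
    rw [hp, hM]
    have h2 := h.dom z hz θ₂ θ₁ hJ (hc.symm.trans hw)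
    rw [← hw] at h2
    rw [← mul_div_assoc]
    exact div_le_div_of_nonneg_right h2 (by positivity)
  · have hp : (𝔐.law₁ hB).p ((z, w), θ₁) = 0 := by
      show mdkW _ _ _ _ = _
      unfold mdkW
      rw [if_neg (fun h => hc h.2)]
    rw [hp]
    exact mul_nonneg (mul_nonneg h.K_nonneg (h.ν0 _ _)) (rd_M_nonneg _ _)

/-- LEAF `L-F3-M10`  separation on the laws.
PLAN.  As in `mdk_dom`: `z ∈ Y'`, `w = cp₂ θ₂`.   `∑_{θ₁ ∈ ball} (law₁).p ((z,w),θ₁) = (∑_{θ₁ : cp₁ θ₁ = w ∧ ball} J₁ z θ₁)/(N W₁)` (`Finset.sum_filter`, `mdkW`, `Finset.sum_div`; merge the two conditions with `Finset.sum_congr`/`ite_and`), `h.sep`, `mdk_M`. -/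
theorem mdk_sep (𝔐 : MdKer n Q 𝒲 D₁ D₂) (hB : 𝔐.Base) {wp Ad r0 K K₁ δ : ℝ} (h : 𝔐.Hyp wp Ad r0 K K₁ δ) (x : Q × 𝒲) (θ₂ : D₂)
    (hx : (𝔐.law₂ hB).p (x, θ₂) ≠ 0) :
    ∑ θ₁ with (∀ l, |𝔐.dir₁ θ₁ l - 𝔐.dir₂ θ₂ l| < r0), (𝔐.law₁ hB).p (x, θ₁) ≤ δ * rdM (𝔐.law₁ hB) x := by
  obtain ⟨z, w⟩ := x
  obtain ⟨hz, hw, hJ⟩ := mdk_supp _ _ _ hB.J₂0 hB.ne hB.W₂ ((z, w), θ₂) hx
  simp only at hz hw hJ
  have hN : (0 : ℝ) < 𝔐.Y'.card := by exact_mod_cast hB.ne.card_pos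
  have h1 := hB.W₁ z hz
  have hM : rdM (𝔐.law₁ hB) (z, w) = (∑ ω with 𝔐.cp₁ ω = w, 𝔐.J₁ z ω) / (𝔐.Y'.card * ∑ ω, 𝔐.J₁ z ω) := by
    unfold MdKer.law₁
    rw [mdk_M, if_pos hz]
  have h2 := h.sep z hz θ₂ hJ
  rw [← hw] at h2
  rw [hM, ← mul_div_assoc]
  have h3 : ∑ θ₁ with (∀ l, |𝔐.dir₁ θ₁ l - 𝔐.dir₂ θ₂ l| < r0), (𝔐.law₁ hB).p ((z, w), θ₁) =
      (∑ ω₁ with (𝔐.cp₁ ω₁ = w ∧ ∀ l, |𝔐.dir₁ ω₁ l - 𝔐.dir₂ θ₂ l| < r0), 𝔐.J₁ z ω₁) /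
        (𝔐.Y'.card * ∑ ω, 𝔐.J₁ z ω) := by
    rw [Finset.sum_div, Finset.sum_filter, Finset.sum_filter]
    refine Finset.sum_congr rfl fun θ₁ _ => ?_
    by_cases hb : ∀ l, |𝔐.dir₁ θ₁ l - 𝔐.dir₂ θ₂ l| < r0
    · rw [if_pos hb]
      by_cases hc : 𝔐.cp₁ θ₁ = w
      · rw [if_pos ⟨hc, hb⟩]
        show mdkW _ _ _ _ = _
        unfold mdkW
        rw [if_pos ⟨hz, hc.symm⟩]
      · rw [if_neg (fun h => hc h.1)]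
        show mdkW _ _ _ _ = _
        unfold mdkW
        rw [if_neg (fun h => hc h.2.symm)]
    · rw [if_neg hb, if_neg (fun h => hb h.2)]
  rw [h3]
  exact div_le_div_of_nonneg_right h2 (by positivity)

/-- **kernels ⟹ configuration** -/
theorem mdk_ok (𝔐 : MdKer n Q 𝒲 D₁ D₂) (hB : 𝔐.Base) {wp wc up uc Mp Mc Np Nc Ad r0 c0 c1 K K₁ δ ε : ℝ}
    (h : 𝔐.Hyp wp Ad r0 K K₁ δ) (hw : 𝔐.Wid wp wc up uc Ad r0 c0 c1) (ho : 𝔐.Occ hB wp wc up uc Mp Mc Np Nc ε) :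
    (𝔐.cfg hB).Ok wp wc up uc Mp Mc Np Nc Ad r0 c0 c1 K K₁ δ ε where
  marg := mdk_marg 𝔐 hB h
  dir₂0 := hw.dir₂0
  wc_pos := hw.wc_pos
  wp_pos := hw.wp_pos
  uc_pos := hw.uc_pos
  wp_le := hw.wp_le
  uc_le := hw.uc_le
  drift := hw.drift
  r0_pos := hw.r0_pos
  Mp_pos := ho.Mp_pos
  Np_pos := ho.Np_pos
  K_nonneg := h.K_nonneg
  c1_nonneg := hw.c1_nonneg
  c1_le := hw.c1_le
  c0_le := hw.c0_le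
  near0 := fun x => hw.near0 x.1
  near1 := fun x θ₁ _ l => hw.near1 x.1 θ₁ l
  diff := fun x θ₁ θ₂ h1 h2 => by
    obtain ⟨a1, a2, a3⟩ := mdk_supp _ _ _ hB.J₁0 hB.ne hB.W₁ (x, θ₁) h1
    obtain ⟨-, b2, b3⟩ := mdk_supp _ _ _ hB.J₂0 hB.ne hB.W₂ (x, θ₂) h2
    exact h.diff x.1 a1 θ₁ θ₂ a3 b3 (a2.symm.trans b2)
  occ2p := ho.occ2p
  occ2c := ho.occ2c
  occ1p := ho.occ1p
  occ1c := ho.occ1c
  ν0 := h.ν0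
  ν1 := h.ν1
  dom := fun x θ₂ θ₁ hx => mdk_dom 𝔐 hB h x θ₂ θ₁ hx
  sep := fun x θ₂ hx => mdk_sep 𝔐 hB h x θ₂ hx

end Claimed.Agent.R257
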