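import Claimed.Agent.R257.FR3.Redraw
import Claimed.Agent.R257.FR3.MidCore

/-!
# ROW 257, package FR3, unit MID, file 2: THE LAW OF A POINT WITH TWO CONDITIONALLY INDEPENDENT DIRECTIONS      (architect helper276)

PAPER-FREE.   `P₁` = joint law of (point, first direction), `P₂` = joint law of (point, second direction), SAME marginal of the point (`rdM P₁ = rdM P₂`).
`md2Law P₁ P₂ hM` = law of `(x, θ₁, θ₂)`, the two directions independent given `x`.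
 * same field (`f:midpoint`, first part):  `x = (Z, τ_l)`, `P₁ = P₂` = law of `((Z, τ_l), Ω)`;      * cross field (power case, last part):  `x = Z`, `P_j` = law of `(Z, Ω_j)`.
Prefix `md2_`.   Every `sorry` is a leaf `L-F3-M*` (statement frozen; prove in place).
-/

set_option autoImplicit false

namespace Claimed.Agent.R257

open scoped BigOperators
open Classical
open Claimed.Agent.R255 Claimed.Agent.R255.FLaw

variable {𝒳 𝒯₁ 𝒯₂ : Type} [Fintype 𝒳] [Fintype 𝒯₁] [Fintype 𝒯₂] {α γ : Type}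

/-- the weights of the two-direction law -/
noncomputable def md2W (P₁ : FLaw (𝒳 × 𝒯₁)) (P₂ : FLaw (𝒳 × 𝒯₂)) (y : 𝒳 × 𝒯₁ × 𝒯₂) : ℝ :=
  P₁.p (y.1, y.2.1) * P₂.p (y.1, y.2.2) / rdM P₁ y.1

theorem md2_W_nonneg (P₁ : FLaw (𝒳 × 𝒯₁)) (P₂ : FLaw (𝒳 × 𝒯₂)) (y : 𝒳 × 𝒯₁ × 𝒯₂) : 0 ≤ md2W P₁ P₂ y :=
  div_nonneg (mul_nonneg (P₁.nonneg _) (P₂.nonneg _)) (rd_M_nonneg P₁ _)

theorem md2_p_le_M (P : FLaw (𝒳 × 𝒯₁)) (x : 𝒳) (θ : 𝒯₁) : P.p (x, θ) ≤ rdM P x :=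
  Finset.single_le_sum (f := fun θ => P.p (x, θ)) (fun θ _ => P.nonneg _) (Finset.mem_univ θ)

/-- summing out the first direction -/
theorem md2_W_sum1 (P₁ : FLaw (𝒳 × 𝒯₁)) (P₂ : FLaw (𝒳 × 𝒯₂)) (hM : ∀ x, rdM P₁ x = rdM P₂ x) (x : 𝒳) (θ₂ : 𝒯₂) :
    ∑ θ₁, md2W P₁ P₂ (x, θ₁, θ₂) = P₂.p (x, θ₂) := by
  unfold md2W
  simp only
  rw [← Finset.sum_div, ← Finset.sum_mul]
  by_cases h0 : rdM P₁ x = 0
  · have h1 : P₂.p (x, θ₂) = 0 := le_antisymm ((md2_p_le_M P₂ x θ₂).trans (by rw [← hM, h0])) (P₂.nonneg _)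
    rw [h1, mul_zero, zero_div]
  · have : ∑ θ₁, P₁.p (x, θ₁) = rdM P₁ x := rfl
    rw [this]
    field_simp

/-- summing out the second direction -/
theorem md2_W_sum2 (P₁ : FLaw (𝒳 × 𝒯₁)) (P₂ : FLaw (𝒳 × 𝒯₂)) (hM : ∀ x, rdM P₁ x = rdM P₂ x) (x : 𝒳) (θ₁ : 𝒯₁) :
    ∑ θ₂, md2W P₁ P₂ (x, θ₁, θ₂) = P₁.p (x, θ₁) := by
  unfold md2W
  simp only
  rw [← Finset.sum_div, ← Finset.mul_sum]
  by_cases h0 : rdM P₁ x = 0
  · have h1 : P₁.p (x, θ₁) = 0 := le_antisymm ((md2_p_le_M P₁ x θ₁).trans h0.le) (P₁.nonneg _)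
    rw [h1, zero_mul, zero_div]
  · have : ∑ θ₂, P₂.p (x, θ₂) = rdM P₁ x := (hM x).symm
    rw [this]
    field_simp

/-- the law of the point with two conditionally independent directions -/
noncomputable def md2Law (P₁ : FLaw (𝒳 × 𝒯₁)) (P₂ : FLaw (𝒳 × 𝒯₂)) (hM : ∀ x, rdM P₁ x = rdM P₂ x) :
    FLaw (𝒳 × 𝒯₁ × 𝒯₂) where
  p := md2W P₁ P₂
  nonneg := md2_W_nonneg P₁ P₂
  sum_one := by
    rw [Fintype.sum_prod_type]
    simp only [Fintype.sum_prod_type, md2_W_sum2 P₁ P₂ hM]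
    rw [← Fintype.sum_prod_type']
    exact P₁.sum_one

theorem md2_eqns_cite : True := by
  have := @md2W.eq_1
  have := @md2Law.eq_1
  trivial

variable (P₁ : FLaw (𝒳 × 𝒯₁)) (P₂ : FLaw (𝒳 × 𝒯₂)) (hM : ∀ x, rdM P₁ x = rdM P₂ x)

/-- `pr` with an arbitrary decidability instance -/
theorem md2_pr_eq {Ω : Type} [Fintype Ω] (R : FLaw Ω) (E : Ω → Prop) [DecidablePred E] :
    R.pr E = ∑ ω, if E ω then R.p ω else 0 := by
  unfold FLaw.pr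
  refine Finset.sum_congr rfl fun ω _ => ?_
  by_cases h : E ω
  · simp only [if_pos h]
  · simp only [if_neg h]

/-- LEAF `L-F3-M1`  the pair (point, first direction) has the law `P₁`.
PLAN.  `ent_law_ext`; `(R.map φ).p (x, θ₁) = ∑_y if φ y = (x, θ₁) then R.p y else 0` (unfold `FLaw.map`; see `ent_map_pr` for the shape); `Fintype.sum_prod_type` twice, `Finset.sum_ite_eq`, then `md2_W_sum2`. -/
theorem md2_map1 : (md2Law P₁ P₂ hM).map (fun y => (y.1, y.2.1)) = P₁ := by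
  refine ent_law_ext _ _ fun z => ?_
  obtain ⟨x, θ₁⟩ := z
  have e : ((md2Law P₁ P₂ hM).map fun y => (y.1, y.2.1)).p (x, θ₁) = (md2Law P₁ P₂ hM).pr (fun y => (y.1, y.2.1) = (x, θ₁)) := rfl
  rw [e, md2_pr_eq]
  show ∑ y : 𝒳 × 𝒯₁ × 𝒯₂, (if (y.1, y.2.1) = (x, θ₁) then md2W P₁ P₂ y else 0) = P₁.p (x, θ₁)
  rw [← md2_W_sum2 P₁ P₂ hM x θ₁, Fintype.sum_prod_type]
  simp only [Fintype.sum_prod_type, Prod.mk.injEq]
  calc ∑ x', ∑ t1, ∑ t2, (if x' = x ∧ t1 = θ₁ then md2W P₁ P₂ (x', t1, t2) else 0)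
      = ∑ t1, ∑ t2, (if x = x ∧ t1 = θ₁ then md2W P₁ P₂ (x, t1, t2) else 0) :=
        Finset.sum_eq_single x (fun x' _ hx' => by simp [hx']) (fun h => absurd (Finset.mem_univ _) h)
    _ = ∑ t2, (if x = x ∧ θ₁ = θ₁ then md2W P₁ P₂ (x, θ₁, t2) else 0) :=
        Finset.sum_eq_single θ₁ (fun t _ ht => by simp [ht]) (fun h => absurd (Finset.mem_univ _) h)
    _ = _ := by simp

/-- LEAF `L-F3-M1` (b)  the pair (point, second direction) has the law `P₂`.   PLAN.  The same with `md2_W_sum1`. -/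
theorem md2_map2 : (md2Law P₁ P₂ hM).map (fun y => (y.1, y.2.2)) = P₂ := by
  refine ent_law_ext _ _ fun z => ?_
  obtain ⟨x, θ₂⟩ := z
  have e : ((md2Law P₁ P₂ hM).map fun y => (y.1, y.2.2)).p (x, θ₂) = (md2Law P₁ P₂ hM).pr (fun y => (y.1, y.2.2) = (x, θ₂)) := rfl
  rw [e, md2_pr_eq]
  show ∑ y : 𝒳 × 𝒯₁ × 𝒯₂, (if (y.1, y.2.2) = (x, θ₂) then md2W P₁ P₂ y else 0) = P₂.p (x, θ₂)
  rw [← md2_W_sum1 P₁ P₂ hM x θ₂, Fintype.sum_prod_type]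
  simp only [Fintype.sum_prod_type, Prod.mk.injEq]
  calc ∑ x', ∑ t1, ∑ t2, (if x' = x ∧ t2 = θ₂ then md2W P₁ P₂ (x', t1, t2) else 0)
      = ∑ t1, ∑ t2, (if x = x ∧ t2 = θ₂ then md2W P₁ P₂ (x, t1, t2) else 0) :=
        Finset.sum_eq_single x (fun x' _ hx' => by simp [hx']) (fun h => absurd (Finset.mem_univ _) h)
    _ = ∑ t1, (if x = x ∧ θ₂ = θ₂ then md2W P₁ P₂ (x, t1, θ₂) else 0) :=
        Finset.sum_congr rfl fun t1 _ =>
          Finset.sum_eq_single θ₂ (fun t _ ht => by simp [ht]) (fun h => absurd (Finset.mem_univ _) h)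
    _ = _ := by simp

/-- LEAF `L-F3-M2`  **exposure of the first direction.**
PLAN.  `pr = ∑_x ∑_θ₂ ∑_θ₁ [B] P₁.p (x,θ₁) P₂.p (x,θ₂) / rdM x  ≤ ∑_x ∑_θ₂ δ P₂.p (x,θ₂) = δ`  (`Fintype.sum_prod_type`, `Finset.sum_comm`; for `rdM P₁ x = 0` all the terms vanish; `Finset.sum_filter`; `P₂.sum_one`). -/
theorem md2_expose (B : 𝒳 → 𝒯₂ → 𝒯₁ → Prop) (δ : ℝ)
    (h : ∀ x θ₂, P₂.p (x, θ₂) ≠ 0 → ∑ θ₁ with B x θ₂ θ₁, P₁.p (x, θ₁) ≤ δ * rdM P₁ x) :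
    (md2Law P₁ P₂ hM).pr (fun y => B y.1 y.2.2 y.2.1) ≤ δ := by
  have hterm : ∀ x t2, ∑ t1, (if B x t2 t1 then md2W P₁ P₂ (x, t1, t2) else 0) ≤ δ * P₂.p (x, t2) := by
    intro x t2
    by_cases h0 : P₂.p (x, t2) = 0
    · rw [h0, mul_zero]
      refine le_of_eq (Finset.sum_eq_zero fun t1 _ => ?_)
      unfold md2W
      simp [h0]
    · have hMpos : 0 < rdM P₁ x := by
        rw [hM]
        exact lt_of_lt_of_le (lt_of_le_of_ne (P₂.nonneg _) (Ne.symm h0)) (md2_p_le_M P₂ x t2)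
      have h1 := h x t2 h0
      have e : ∑ t1, (if B x t2 t1 then md2W P₁ P₂ (x, t1, t2) else 0)
          = (∑ t1 with B x t2 t1, P₁.p (x, t1)) * (P₂.p (x, t2) / rdM P₁ x) := by
        rw [Finset.sum_filter, Finset.sum_mul]
        refine Finset.sum_congr rfl fun t1 _ => ?_
        unfold md2W
        split_ifs
        · simp only
          ring
        · rw [zero_mul]
      rw [e]
      calc _ ≤ δ * rdM P₁ x * (P₂.p (x, t2) / rdM P₁ x) := mul_le_mul_of_nonneg_right h1 (div_nonneg (P₂.nonneg _) hMpos.le)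
        _ = _ := by field_simp
  show ∑ y : 𝒳 × 𝒯₁ × 𝒯₂, (if B y.1 y.2.2 y.2.1 then md2W P₁ P₂ y else 0) ≤ δ
  rw [Fintype.sum_prod_type]
  simp only [Fintype.sum_prod_type]
  calc ∑ x, ∑ t1, ∑ t2, (if B x t2 t1 then md2W P₁ P₂ (x, t1, t2) else 0)
      = ∑ x, ∑ t2, ∑ t1, (if B x t2 t1 then md2W P₁ P₂ (x, t1, t2) else 0) := Finset.sum_congr rfl fun x _ => Finset.sum_comm
    _ ≤ ∑ x, ∑ t2, δ * P₂.p (x, t2) := Finset.sum_le_sum fun x _ => Finset.sum_le_sum fun t2 _ => hterm x t2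
    _ = δ * ∑ z, P₂.p z := by
        rw [Fintype.sum_prod_type, Finset.mul_sum]
        simp only [Finset.mul_sum]
    _ = δ := by rw [P₂.sum_one, mul_one]

theorem md2_pr_A (G : 𝒳 → 𝒯₂ → Prop) (θ₁ : 𝒯₁) :
    (md2Law P₁ P₂ hM).pr (fun y' => y'.2.1 = θ₁ ∧ G y'.1 y'.2.2) = ∑ x', ∑ t2, if G x' t2 then md2W P₁ P₂ (x', θ₁, t2) else 0 := by
  rw [md2_pr_eq]
  show ∑ y : 𝒳 × 𝒯₁ × 𝒯₂, (if y.2.1 = θ₁ ∧ G y.1 y.2.2 then md2W P₁ P₂ y else 0) = _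
  rw [Fintype.sum_prod_type]
  refine Finset.sum_congr rfl fun x' _ => ?_
  rw [Fintype.sum_prod_type]
  simp only
  calc ∑ t1, ∑ t2, (if t1 = θ₁ ∧ G x' t2 then md2W P₁ P₂ (x', t1, t2) else 0)
      = ∑ t2, (if θ₁ = θ₁ ∧ G x' t2 then md2W P₁ P₂ (x', θ₁, t2) else 0) :=
        Finset.sum_eq_single θ₁ (fun t _ ht => by simp [ht]) (fun h => absurd (Finset.mem_univ _) h)
    _ = _ := by simp

theorem md2_pr_B (G : 𝒳 → 𝒯₂ → Prop) :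
    (md2Law P₁ P₂ hM).pr (fun y' => G y'.1 y'.2.2) = ∑ x', ∑ t2, if G x' t2 then P₂.p (x', t2) else 0 := by
  show ∑ y : 𝒳 × 𝒯₁ × 𝒯₂, (if G y.1 y.2.2 then md2W P₁ P₂ y else 0) = _
  rw [Fintype.sum_prod_type]
  refine Finset.sum_congr rfl fun x' _ => ?_
  rw [Fintype.sum_prod_type, Finset.sum_comm]
  refine Finset.sum_congr rfl fun t2 _ => ?_
  simp only
  by_cases h : G x' t2
  · simp only [if_pos h]
    exact md2_W_sum1 P₁ P₂ hM x' t2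
  · simp only [if_neg h, Finset.sum_const_zero]

/-- LEAF `L-F3-M3`  **domination of the first direction by a reference law of the cell** (= hypothesis `hdom` of `fp_cond`).   `a` = label of the point, `c` = label of (point, second direction).
PLAN.  With `R = md2Law`, `y = (x, θ₁, θ₂)`:  `fib (pair O1 (pair A C)) y = ∑_{x', θ₂'} [a x' = a x ∧ c (x',θ₂') = c (x,θ₂)] md2W (x', θ₁, θ₂')`  and  `fib (pair A C) y = ∑_{x', θ₂'} [same] P₂.p (x', θ₂')` (`md2_W_sum1`).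
Termwise: `md2W (x', θ₁, θ₂') = P₁.p (x',θ₁) P₂.p (x',θ₂') / rdM x' ≤ K ν (c (x',θ₂')) θ₁ P₂.p (x',θ₂')`  (if `P₂.p (x',θ₂') = 0` both sides vanish; otherwise `rdM P₁ x' = rdM P₂ x' > 0` and `h`). -/
theorem md2_dom (a : 𝒳 → α) (c : 𝒳 × 𝒯₂ → γ) (ν : γ → 𝒯₁ → ℝ) (K : ℝ)
    (h : ∀ x θ₂ θ₁, P₂.p (x, θ₂) ≠ 0 → P₁.p (x, θ₁) ≤ K * ν (c (x, θ₂)) θ₁ * rdM P₁ x) (y : 𝒳 × 𝒯₁ × 𝒯₂) :
    (md2Law P₁ P₂ hM).fib (pair (fun y => y.2.1) (pair (fun y => a y.1) (fun y => c (y.1, y.2.2)))) y ≤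
      K * ν (c (y.1, y.2.2)) y.2.1 * (md2Law P₁ P₂ hM).fib (pair (fun y => a y.1) (fun y => c (y.1, y.2.2))) y := by
  obtain ⟨x, θ₁, θ₂⟩ := y
  have hL : (md2Law P₁ P₂ hM).fib (pair (fun y => y.2.1) (pair (fun y => a y.1) (fun y => c (y.1, y.2.2)))) (x, θ₁, θ₂)
      = (md2Law P₁ P₂ hM).pr (fun y' => y'.2.1 = θ₁ ∧ (a y'.1, c (y'.1, y'.2.2)) = (a x, c (x, θ₂))) := ent_fib_pair _ _ _ _
  have hR : (md2Law P₁ P₂ hM).fib (pair (fun y => a y.1) (fun y => c (y.1, y.2.2))) (x, θ₁, θ₂)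
      = (md2Law P₁ P₂ hM).pr (fun y' => (a y'.1, c (y'.1, y'.2.2)) = (a x, c (x, θ₂))) := rfl
  rw [hL, hR, md2_pr_A P₁ P₂ hM (fun x' t2 => (a x', c (x', t2)) = (a x, c (x, θ₂))) θ₁,
    md2_pr_B P₁ P₂ hM (fun x' t2 => (a x', c (x', t2)) = (a x, c (x, θ₂))), Finset.mul_sum]
  refine Finset.sum_le_sum fun x' _ => ?_
  rw [Finset.mul_sum]
  refine Finset.sum_le_sum fun t2 _ => ?_
  by_cases hG : (a x', c (x', t2)) = (a x, c (x, θ₂))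
  · rw [if_pos hG, if_pos hG]
    have hc : c (x', t2) = c (x, θ₂) := congrArg Prod.snd hG
    by_cases h0 : P₂.p (x', t2) = 0
    · unfold md2W
      simp [h0]
    · have hMpos : 0 < rdM P₁ x' := by
        rw [hM]
        exact lt_of_lt_of_le (lt_of_le_of_ne (P₂.nonneg _) (Ne.symm h0)) (md2_p_le_M P₂ x' t2)
      have h1 := h x' t2 θ₁ h0
      rw [hc] at h1
      unfold md2W
      simp only
      rw [div_le_iff₀ hMpos]
      calc P₁.p (x', θ₁) * P₂.p (x', t2) ≤ K * ν (c (x, θ₂)) θ₁ * rdM P₁ x' * P₂.p (x', t2) :=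
            mul_le_mul_of_nonneg_right h1 (P₂.nonneg _)
        _ = _ := by ring
  · rw [if_neg hG, if_neg hG, mul_zero]

/-- the support of the two-direction law -/
theorem md2_supp (y : 𝒳 × 𝒯₁ × 𝒯₂) (hy : (md2Law P₁ P₂ hM).p y ≠ 0) : P₁.p (y.1, y.2.1) ≠ 0 ∧ P₂.p (y.1, y.2.2) ≠ 0 := by
  have h1 : md2W P₁ P₂ y ≠ 0 := hy
  unfold md2W at h1
  constructor
  · intro h0
    rw [h0, zero_mul, zero_div] at h1
    exact h1 rfl
  · intro h0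
    rw [h0, mul_zero, zero_div] at h1
    exact h1 rfl

end Claimed.Agent.R257
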