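import Claimed.Agent.R257.Tree.TG
import Claimed.Agent.R257.FR3.MidGeo
import Claimed.Agent.R257.Frame.Stmt

/-!
# ROW 257, package FR3, unit MID-X (cross-field halving, H `frame.tex` l.1440-1448), file 1: GEOMETRY OF THE CONCRETE TREES IN THE COORDINATES OF `MidGeo`      (architect helper245)

PAPER-FREE.   `k = n + 1`.   Dictionary between `ST (n+1) = E (n+1) × ℝ` (`Pk/Defs`, `Tree/TG`) and the space-time `Fin (n+2) → ℝ` of `FR3/MidGeo.lean` (coordinate `0` = TIME):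
* `fmxPos z = (z.2, z.1)`,   `fmxDir v = (1, 2 v)`   (the velocity of the frequency `v` is `2 v`: `natX N v (x,t) = ((x - 2 t v)/N, t/N²)`)
* `fmx_cel`    the tilted cells `flo (natX K v ·)` of `TDat.geo` and the cells `mdCel K · (fmxDir v)` define the SAME partition      (field `cel` of `MdFd.Ok`; also for GTestM)
* `fmx_sep`    `Transv Q ξ`, `j ≠ j'`  ⟹  one coordinate of the velocities differs by `≥ 1/(Q (n+1))`
* `fmx_diam`, `fmx_near`   bounded velocities; two witnesses in one unit cube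
* `fmx_move`   two points in one cell of width `wp` tilted by `v₂` (up to `c`): their native coordinates of scale `N ≥ wp²` in ANY bounded direction differ by `O(1)`      (bounded drift, H l.1443)
* `fmx_pw_cmp` the polynomial weights are then comparable.
Prefix `fmx_`.
-/

set_option autoImplicit false

namespace Claimed.Agent.R257.FR3

open scoped BigOperators
open Claimed.Agent.R257 Claimed.Agent.R257.Tree

variable {n : ℕ}

/-- physical position, coordinate `0` = time -/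
noncomputable def fmxPos (z : ST (n + 1)) : Fin (n + 2) → ℝ := Fin.cons z.2 (fun l => z.1 l)

/-- direction `(1, velocity)` of the frequency `v` -/
noncomputable def fmxDir (v : E (n + 1)) : Fin (n + 2) → ℝ := Fin.cons 1 (fun l => 2 * v l)

theorem fmx_eqns_cite1 : True := by
  have := @fmxPos.eq_1
  have := @fmxDir.eq_1
  trivial

@[simp] theorem fmx_pos_zero (z : ST (n + 1)) : fmxPos z 0 = z.2 := rfl

@[simp] theorem fmx_pos_succ (z : ST (n + 1)) (l : Fin (n + 1)) : fmxPos z l.succ = z.1 l := rfl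

@[simp] theorem fmx_dir_zero (v : E (n + 1)) : fmxDir v 0 = 1 := rfl

@[simp] theorem fmx_dir_succ (v : E (n + 1)) (l : Fin (n + 1)) : fmxDir v l.succ = 2 * v l := rfl

/-- the cell `mdCel` in terms of the tilted cell of `TDat.geo` -/
theorem fmx_cel_eq (K : ℝ) (v : E (n + 1)) (z : ST (n + 1)) :
    mdCel K (fmxPos z) (fmxDir v) = (Fin.cons 0 (flo (natX K v z)).1, (flo (natX K v z)).2) := by
  unfold mdCel
  refine Prod.ext ?_ rfl
  funext l
  refine Fin.cases ?_ (fun l => ?_) l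
  · simp [mdTub]
  · simp only [mdTub, fmx_pos_succ, fmx_pos_zero, fmx_dir_succ, Fin.cons_succ, flo, natX]
    congr 1
    simp only [PiLp.smul_apply, PiLp.sub_apply, smul_eq_mul]
    rw [div_eq_inv_mul]
    ring

/-- **the two families of cells define the same partition** -/
theorem fmx_cel (K : ℝ) (v : E (n + 1)) (z z' : ST (n + 1)) :
    flo (natX K v z) = flo (natX K v z') ↔ mdCel K (fmxPos z) (fmxDir v) = mdCel K (fmxPos z') (fmxDir v) := by
  rw [fmx_cel_eq, fmx_cel_eq]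
  constructor
  · intro h
    rw [h]
  · intro h
    have h1 := congrArg Prod.fst h
    have h2 := congrArg Prod.snd h
    simp only at h1 h2
    refine Prod.ext ?_ h2
    funext l
    have := congrFun h1 l.succ
    simpa using this

/-- the Euclidean norm is at most the sum of the coordinates -/
theorem fmx_norm_le_sum {m : ℕ} (x : E m) : ‖x‖ ≤ ∑ l, |x l| := by
  have h0 : 0 ≤ ∑ l, |x l| := Finset.sum_nonneg fun l _ => abs_nonneg _
  refine abs_le_of_sq_le_sq' ?_ h0 |>.2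
  rw [EuclideanSpace.real_norm_sq_eq]
  calc ∑ l, x l ^ 2 = ∑ l, |x l| * |x l| := Finset.sum_congr rfl fun l _ => by rw [← abs_mul_abs_self, ← sq]; simp [sq]
    _ ≤ ∑ l, |x l| * ∑ l', |x l'| := Finset.sum_le_sum fun l _ =>
        mul_le_mul_of_nonneg_left (Finset.single_le_sum (f := fun l' => |x l'|) (fun l' _ => abs_nonneg _) (Finset.mem_univ l)) (abs_nonneg _)
    _ = (∑ l, |x l|) ^ 2 := by rw [← Finset.sum_mul, sq]

theorem fmx_coord_le {m : ℕ} (x : E m) (l : Fin m) : |x l| ≤ ‖x‖ := by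
  have := PiLp.norm_apply_le x l
  simpa using this

/-- **LEAF L-257-MX-G1: root transversality separates one coordinate of the velocities.**
PLAN.  `h t` with `t = Pi.single j 1 - Pi.single j' 1` (or `fun i => if i = j then 1 else if i = j' then -1 else 0`): `∑ |t i| = 2`, `∑ t i • ξ i = ξ j - ξ j'`, `∑ t i = 0` (`Finset.sum_sub_distrib`, `Finset.sum_pi_single'`/`Finset.sum_ite_eq'`; `hj`), so `2 ≤ Q ‖ξ j - ξ j'‖`.
By contradiction (`by_contra`, `push Not`): all `l.succ` give `2 |ξ j l - ξ j' l| < 1/(Q (n+1))`, so `‖ξ j - ξ j'‖ ≤ ∑_l |(ξ j - ξ j') l| ≤ (n+1) · 1/(2 Q (n+1)) = 1/(2Q)` (`fmx_norm_le_sum`, `Finset.sum_le_card_nsmul` or `Finset.sum_le_sum` + `Finset.sum_const`, `Finset.card_univ`, `Fintype.card_fin`), `Q ‖..‖ ≤ 1/2 < 2`. -/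
theorem fmx_sep {Q : ℝ} (hQ : 0 < Q) {ξ : Fin (n + 2) → E (n + 1)} (h : Transv Q ξ) {j j' : Fin (n + 2)} (hj : j ≠ j') :
    ∃ l, 1 / (Q * ((n : ℝ) + 1)) ≤ |fmxDir (ξ j) l - fmxDir (ξ j') l| := by
  classical
  have ht : ∀ i : Fin (n + 2), |(if i = j then (1 : ℝ) else 0) - (if i = j' then 1 else 0)| = (if i = j then (1 : ℝ) else 0) + (if i = j' then 1 else 0) := by
    intro i
    by_cases h1 : i = j
    · have h2 : i ≠ j' := fun h2 => hj (h1.symm.trans h2)
      rw [if_pos h1, if_neg h2]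
      norm_num
    · by_cases h2 : i = j'
      · rw [if_neg h1, if_pos h2]
        norm_num
      · rw [if_neg h1, if_neg h2]
        norm_num
  have h1 := h (fun i => (if i = j then (1 : ℝ) else 0) - (if i = j' then 1 else 0))
  simp only [ht, Finset.sum_add_distrib, Finset.sum_sub_distrib, sub_smul, ite_smul, one_smul, zero_smul, Finset.sum_ite_eq', Finset.mem_univ,
    if_true, sub_self, abs_zero, add_zero] at h1
  by_contra hcon
  push Not at hcon
  have hn : (0 : ℝ) < (n : ℝ) + 1 := by positivity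
  have h2 : ∀ l : Fin (n + 1), |(ξ j - ξ j') l| ≤ 1 / (2 * (Q * ((n : ℝ) + 1))) := by
    intro l
    have h3 := hcon l.succ
    rw [fmx_dir_succ, fmx_dir_succ, ← mul_sub, abs_mul, abs_two] at h3
    have e : (ξ j - ξ j') l = ξ j l - ξ j' l := rfl
    rw [e, one_div, mul_inv, ← one_div (Q * ((n : ℝ) + 1))]
    linarith
  have h4 : ‖ξ j - ξ j'‖ ≤ 1 / (2 * Q) := by
    calc ‖ξ j - ξ j'‖ ≤ ∑ l, |(ξ j - ξ j') l| := fmx_norm_le_sum _
      _ ≤ ∑ _l : Fin (n + 1), 1 / (2 * (Q * ((n : ℝ) + 1))) := Finset.sum_le_sum fun l _ => h2 l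
      _ = 1 / (2 * Q) := by
          rw [Finset.sum_const, Finset.card_univ, Fintype.card_fin, nsmul_eq_mul]
          push_cast
          field_simp
  have h5 : Q * ‖ξ j - ξ j'‖ ≤ 1 / 2 := by
    calc Q * ‖ξ j - ξ j'‖ ≤ Q * (1 / (2 * Q)) := mul_le_mul_of_nonneg_left h4 hQ.le
      _ = 1 / 2 := by field_simp
  linarith

theorem fmx_diam {B : ℝ} {v v' : E (n + 1)} (hv : ‖v‖ ≤ B) (hv' : ‖v'‖ ≤ B) (l : Fin (n + 2)) : |fmxDir v l - fmxDir v' l| ≤ 4 * B := by
  have hB : 0 ≤ B := (norm_nonneg _).trans hv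
  refine Fin.cases ?_ (fun l => ?_) l
  · simp only [fmx_dir_zero, sub_self, abs_zero]
    positivity
  · simp only [fmx_dir_succ]
    have h1 := fmx_coord_le v l
    have h2 := fmx_coord_le v' l
    rw [← mul_sub, abs_mul, abs_two]
    have := abs_sub (v l) (v' l)
    linarith

/-- **LEAF L-257-MX-G2: two witnesses at distance `≤ c`.**
PLAN.  `‖z - z'‖ = max ‖(z - z').1‖ |(z - z').2|` (`Prod.norm_def`; `norm_fst_le`, `norm_snd_le`).   `l = 0` (`Fin.cases`): the expression is `(z.2 - z.2 * 1) - (z'.2 - z'.2 * 1) = 0`, `0 ≤ c (1 + 2B)`.   `l.succ`: `(z.1 l - z'.1 l) - (z.2 - z'.2) (2 v l)`, `|·| ≤ c + c · 2 B` (`fmx_coord_le`, `abs_sub`, `abs_mul`). -/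
theorem fmx_near {c B : ℝ} {z z' : ST (n + 1)} (h : ‖z - z'‖ ≤ c) {v : E (n + 1)} (hv : ‖v‖ ≤ B) :
    |fmxPos z 0 - fmxPos z' 0| ≤ c ∧
      ∀ l, |(fmxPos z l - fmxPos z 0 * fmxDir v l) - (fmxPos z' l - fmxPos z' 0 * fmxDir v l)| ≤ c * (1 + 2 * B) := by
  have hc : 0 ≤ c := (norm_nonneg _).trans h
  have hB : 0 ≤ B := (norm_nonneg _).trans hv
  have h1 : ‖z.1 - z'.1‖ ≤ c := (norm_fst_le (z - z')).trans h
  have h2 : |z.2 - z'.2| ≤ c := by
    have := (norm_snd_le (z - z')).trans h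
    simpa [Real.norm_eq_abs] using this
  refine ⟨by simpa using h2, fun l => ?_⟩
  refine Fin.cases ?_ (fun l => ?_) l
  · simp only [fmx_pos_zero, fmx_dir_zero, mul_one, sub_self, abs_zero]
    positivity
  · simp only [fmx_pos_zero, fmx_pos_succ, fmx_dir_succ]
    have h3 : |z.1 l - z'.1 l| ≤ c := by
      have := fmx_coord_le (z.1 - z'.1) l
      simp only [PiLp.sub_apply] at this
      exact this.trans h1
    have h4 : |v l| ≤ B := (fmx_coord_le v l).trans hv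
    have h5 : (z.1 l - z.2 * (2 * v l)) - (z'.1 l - z'.2 * (2 * v l)) = (z.1 l - z'.1 l) - (z.2 - z'.2) * (2 * v l) := by ring
    rw [h5]
    have h6 : |(z.2 - z'.2) * (2 * v l)| ≤ c * (2 * B) := by
      rw [abs_mul, abs_mul, abs_two]
      exact mul_le_mul h2 (by linarith) (by positivity) hc
    have h7 := abs_sub (z.1 l - z'.1 l) ((z.2 - z'.2) * (2 * v l))
    linarith

/-- `natX N v` is additive -/
theorem fmx_natX_add {m : ℕ} (N : ℝ) (v : E m) (z z' : ST m) : natX N v (z + z') = natX N v z + natX N v z' := by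
  unfold natX
  refine Prod.ext ?_ ?_
  · simp only [Prod.fst_add, Prod.snd_add, Prod.mk_add_mk]
    rw [← smul_add]
    congr 1
    rw [mul_add, add_smul]
    abel
  · simp only [Prod.snd_add, Prod.mk_add_mk]
    rw [add_div]

theorem fmx_natX_sub {m : ℕ} (N : ℝ) (v : E m) (z z' : ST m) : natX N v z - natX N v z' = natX N v (z - z') := by
  have := fmx_natX_add N v (z - z') z'
  rw [sub_add_cancel] at this
  rw [this, add_sub_cancel_right]

/-- a bounded displacement has a bounded native displacement -/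
theorem fmx_natX_small {m : ℕ} {N c B : ℝ} (hN : 1 ≤ N) {v : E m} (hv : ‖v‖ ≤ B) {e : ST m} (he : ‖e‖ ≤ c) :
    ‖natX N v e‖ ≤ c * (1 + 2 * B) := by
  have hc : 0 ≤ c := (norm_nonneg _).trans he
  have hB : 0 ≤ B := (norm_nonneg _).trans hv
  have h1 : ‖e.1‖ ≤ c := (norm_fst_le e).trans he
  have h2 : |e.2| ≤ c := by
    have := (norm_snd_le e).trans he
    simpa using this
  have hN0 : 0 < N := by linarith
  unfold natX
  rw [Prod.norm_def]
  refine max_le ?_ ?_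
  · simp only
    rw [norm_smul, Real.norm_eq_abs, abs_of_pos (inv_pos.2 hN0)]
    have h3 : ‖e.1 - (2 * e.2) • v‖ ≤ c + 2 * c * B := by
      refine (norm_sub_le _ _).trans ?_
      rw [norm_smul, Real.norm_eq_abs, abs_mul, abs_two]
      have : 2 * |e.2| * ‖v‖ ≤ 2 * c * B := by
        apply mul_le_mul (by linarith) hv (norm_nonneg _) (by positivity)
      linarith
    have h4 : N⁻¹ ≤ 1 := inv_le_one_of_one_le₀ hN
    calc N⁻¹ * ‖e.1 - (2 * e.2) • v‖ ≤ 1 * ‖e.1 - (2 * e.2) • v‖ := mul_le_mul_of_nonneg_right h4 (norm_nonneg _)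
      _ ≤ c * (1 + 2 * B) := by linarith
  · simp only
    rw [Real.norm_eq_abs, abs_div, abs_of_pos (by positivity : 0 < N ^ 2)]
    have h5 : (1 : ℝ) ≤ N ^ 2 := by nlinarith
    have : |e.2| / N ^ 2 ≤ |e.2| := div_le_self (abs_nonneg _) h5
    nlinarith [mul_nonneg hc hB]

/-- **LEAF L-257-MX-G3: bounded drift.**
PLAN.  `natX N v` is additive: `natX N v z₁ - natX N v z₁' = natX N v (z₁ - z₁')` (`unfold natX; ext`/`Prod.ext`, `smul_sub`, `sub_div`), `z₁ - z₁' = (z₁ - z₂) + (z₂ - z₂') + (z₂' - z₁')`.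
(a) `‖e‖ ≤ c ⟹ ‖natX N v e‖ ≤ c (1 + 2B)`: first component `N⁻¹ ‖e.1 - 2 e.2 v‖ ≤ ‖e.1‖ + 2 |e.2| ‖v‖` (`N ≥ 1`), second `|e.2|/N² ≤ |e.2|`.
(b) `Δ = z₂ - z₂'`: from `hcel` (`Prod.ext_iff`, `congrFun _ l.succ`, `fm3_floor_close`): `|Δ.2| ≤ wp²` and `|Δ.1 l - Δ.2 * (2 v₂ l)| ≤ wp` for all `l`; so `‖Δ.1 - (2 Δ.2) • v₂‖ ≤ (n+1) wp` (`fmx_norm_le_sum`), `‖Δ.1 - (2Δ.2) • v‖ ≤ (n+1) wp + 2 wp² · 2B`, divide by `N ≥ wp, wp²`: `≤ (n+1) + 4B`; time: `wp²/N² ≤ 1`. -/
theorem fmx_move {wp N c B : ℝ} (hwp : 0 < wp) (hN : 1 ≤ N) (hwN : wp ≤ N) (hw2 : wp ^ 2 ≤ N) {v v₂ : E (n + 1)} (hv : ‖v‖ ≤ B) (hv₂ : ‖v₂‖ ≤ B)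
    {z₁ z₁' z₂ z₂' : ST (n + 1)} (h1 : ‖z₁ - z₂‖ ≤ c) (h1' : ‖z₁' - z₂'‖ ≤ c)
    (hcel : mdCel wp (fmxPos z₂) (fmxDir v₂) = mdCel wp (fmxPos z₂') (fmxDir v₂)) :
    ‖natX N v z₁ - natX N v z₁'‖ ≤ ((n : ℝ) + 1) + 4 * B + 2 * (c * (1 + 2 * B)) := by
  have hB : 0 ≤ B := (norm_nonneg _).trans hv
  have hN0 : 0 < N := by linarith
  have e0 : z₁ - z₁' = (z₁ - z₂) + (z₂ - z₂') + (z₂' - z₁') := by abel
  rw [fmx_natX_sub, e0, fmx_natX_add, fmx_natX_add]
  have a1 := fmx_natX_small hN hv h1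
  have a2 : ‖natX N v (z₂' - z₁')‖ ≤ c * (1 + 2 * B) := fmx_natX_small hN hv (by rw [norm_sub_rev]; exact h1')
  have hc1 := congrArg Prod.fst hcel
  have hc2 := congrArg Prod.snd hcel
  unfold mdCel at hc1 hc2
  simp only at hc1 hc2
  have ht : |z₂.2 - z₂'.2| ≤ wp ^ 2 := by
    have := fm3_floor_close (by positivity : 0 < wp ^ 2) hc2
    simpa using this
  have hx : ∀ l : Fin (n + 1), |(z₂.1 l - z₂.2 * (2 * v₂ l)) - (z₂'.1 l - z₂'.2 * (2 * v₂ l))| ≤ wp := by
    intro l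
    have h := congrFun hc1 l.succ
    unfold mdTub at h
    have := fm3_floor_close hwp h
    simpa using this
  have b1 : ‖(z₂ - z₂').1 - (2 * (z₂ - z₂').2) • v₂‖ ≤ ((n : ℝ) + 1) * wp := by
    refine (fmx_norm_le_sum _).trans ?_
    calc ∑ l, |((z₂ - z₂').1 - (2 * (z₂ - z₂').2) • v₂) l| ≤ ∑ _l : Fin (n + 1), wp := by
          refine Finset.sum_le_sum fun l _ => ?_
          refine le_trans (le_of_eq ?_) (hx l)
          congr 1
          simp only [PiLp.sub_apply, PiLp.smul_apply, smul_eq_mul, Prod.fst_sub, Prod.snd_sub]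
          ring
      _ = ((n : ℝ) + 1) * wp := by
          rw [Finset.sum_const, Finset.card_univ, Fintype.card_fin, nsmul_eq_mul]
          push_cast
          ring
  have b2 : ‖(z₂ - z₂').1 - (2 * (z₂ - z₂').2) • v‖ ≤ ((n : ℝ) + 1) * wp + 4 * B * wp ^ 2 := by
    have e1 : (z₂ - z₂').1 - (2 * (z₂ - z₂').2) • v = ((z₂ - z₂').1 - (2 * (z₂ - z₂').2) • v₂) + (2 * (z₂ - z₂').2) • (v₂ - v) := by
      rw [smul_sub]; abel
    rw [e1]
    refine (norm_add_le _ _).trans ?_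
    have h3 : ‖(2 * (z₂ - z₂').2) • (v₂ - v)‖ ≤ 4 * B * wp ^ 2 := by
      rw [norm_smul, Real.norm_eq_abs, abs_mul, abs_two, Prod.snd_sub]
      have h4 : ‖v₂ - v‖ ≤ 2 * B := (norm_sub_le _ _).trans (by linarith)
      calc 2 * |z₂.2 - z₂'.2| * ‖v₂ - v‖ ≤ 2 * wp ^ 2 * (2 * B) :=
            mul_le_mul (by linarith) h4 (norm_nonneg _) (by positivity)
        _ = 4 * B * wp ^ 2 := by ring
    linarith
  have a3 : ‖natX N v (z₂ - z₂')‖ ≤ ((n : ℝ) + 1) + 4 * B := by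
    unfold natX
    rw [Prod.norm_def]
    refine max_le ?_ ?_
    · simp only
      rw [norm_smul, Real.norm_eq_abs, abs_of_pos (inv_pos.2 hN0), inv_mul_le_iff₀ hN0]
      have hn : (0 : ℝ) ≤ (n : ℝ) + 1 := by positivity
      have c1 : ((n : ℝ) + 1) * wp ≤ ((n : ℝ) + 1) * N := mul_le_mul_of_nonneg_left hwN hn
      have c2 : 4 * B * wp ^ 2 ≤ 4 * B * N := mul_le_mul_of_nonneg_left hw2 (by positivity)
      linarith
    · simp only
      rw [Real.norm_eq_abs, abs_div, abs_of_pos (by positivity : 0 < N ^ 2), div_le_iff₀ (by positivity), Prod.snd_sub]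
      have hn : (0 : ℝ) ≤ (n : ℝ) := Nat.cast_nonneg _
      have c3 : N ≤ N ^ 2 := by nlinarith
      have c4 : N ^ 2 ≤ ((n : ℝ) + 1 + 4 * B) * N ^ 2 := by
        have : (0 : ℝ) ≤ ((n : ℝ) + 4 * B) * N ^ 2 := by positivity
        linarith
      linarith
  have t1 := norm_add_le (natX N v (z₁ - z₂) + natX N v (z₂ - z₂')) (natX N v (z₂' - z₁'))
  have t2 := norm_add_le (natX N v (z₁ - z₂)) (natX N v (z₂ - z₂'))
  linarith

/-- comparison of the polynomial weights of two points at bounded native distance -/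
theorem fmx_pw_cmp {m : ℕ} {A d : ℝ} (hA : 0 ≤ A) (hd : 0 ≤ d) {X X' : ST m} (u : ST m) (h : ‖X - X'‖ ≤ d) :
    (1 + ‖X' - u‖) ^ (-A) ≤ (1 + d) ^ A * (1 + ‖X - u‖) ^ (-A) := by
  have h3 : ‖X - u‖ ≤ ‖X' - u‖ + d := by
    have : X - u = (X' - u) + (X - X') := by abel
    rw [this]
    exact (norm_add_le _ _).trans (by linarith)
  have h4 : (1 + ‖X - u‖) / (1 + d) ≤ 1 + ‖X' - u‖ := by
    rw [div_le_iff₀ (by positivity)]
    nlinarith [norm_nonneg (X' - u)]
  have h5 : (1 + ‖X' - u‖) ^ (-A) ≤ ((1 + ‖X - u‖) / (1 + d)) ^ (-A) :=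
    Real.rpow_le_rpow_of_nonpos (by positivity) h4 (by linarith)
  refine h5.trans (le_of_eq ?_)
  rw [Real.div_rpow (by positivity) (by positivity), Real.rpow_neg (by positivity : (0:ℝ) ≤ 1 + d), div_inv_eq_mul, mul_comm]

end Claimed.Agent.R257.FR3
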