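import Claimed.Agent.R257.FR3.MidX1
import Claimed.Agent.R257.FR3.MidSys
import Claimed.Agent.R257.FR3.LlPath
import Claimed.Agent.R257.FR3.FinAd

/-!
# ROW 257, package FR3, unit MID-X (cross-field halving, H `frame.tex` l.1440-1448), file 2: THE TWO FIELDS OF A CONFIGURATION AS FIELDS OF MID      (architect helper245)

From `FCfg (n+1)` (`FR3/TopDefs.lean`, helper41) to the hypotheses of `mdy_cross` (`FR3/MidSys.lean`, helper276).     FIRST path = field `j` (full slope at `a`), SECOND path = field `j'` (tested at `a/2`).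
* `FCfg.PowX`    the two facts of the power case which `FCfg.Pow` must contain: transversality of the LEAF labels, FULL leaf squares bounded at the witnesses (H l.812 "In the power case these are full squares", l.982).
* `fmxFd F j Cg : MdFd n F.Qc`   the field `j` (`R = ofMask S`, `Yf = univ`, `pos = fmxPos (pt ·)`, `dir = fmxDir (fr 0 ·)`).       ALSO FOR GTestM.
* `fmxϖ F = ((2 K^(ℓ+8))^k)⁻¹`   lower bound of the path mass,  `fmxKo F Cg`  the common loss of the occupancy laws (`fl3Ko` with `G 0` replaced by `Go`: the same for all the fields).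
* `fmx_bad`, `fmx_root`   a COMMON root set `Y' ⊆ Qc` (`#Qc ≤ 2 #Y'`) on which the near path masses of BOTH fields are `≥ fmxϖ/2`  (each field loses at most a quarter of the cubes).
* `fmx_fd_ok`    `MdFd.Ok Y' (fmxϖ/2) (2K) (fmxKo)`.
* `fmxAr F j`    reference weights of the directions of the first field = FULL leaf squares of order `Q`;  `fmx_ar_sum`, `fmx_ar_dom`, `fmx_ar_cmp`;   `fmx_hyp : MdCross.Hyp`,  `fmx_wid : MdKer.Wid`.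
* EXIT `fmx_ineq`: the inequality of `mdy_cross` for four heights.
Every `sorry` is a leaf `L-257-MX-*` (statement frozen: defect = one line to helper245; prove IN PLACE; auxiliary lemmas with prefix `fmx_` directly above).
-/

set_option autoImplicit false

namespace Claimed.Agent.R257.FR3

open scoped BigOperators
open Classical
open Claimed.Agent.R255 Claimed.Agent.R255.FLaw Claimed.Agent.R257 Claimed.Agent.R257.FR2 Claimed.Agent.R257.Tree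

noncomputable section

/-- the two facts of the power case used by the cross-field test -/
structure FCfg.PowX {k : ℕ} (F : FCfg k) : Prop where
  /-- transversality of ALL the leaf labels -/
  trans0 : ∀ lb : ∀ j, (F.D j).Lb 0, Transv F.K (fun j => (F.D j).fr 0 (lb j))
  /-- the FULL leaf squares (no transition masks) are bounded at the witnesses -/
  full : ∀ j y, ∑ T ∈ (F.D j).W 0, (F.D j).s0 T ^ 2 * (F.D j).wA F.c.P 0 T ((F.D j).pt y) ≤ F.K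

variable {n : ℕ}

/-- the field `j` of a configuration as a field of MID -/
def fmxFd (F : FCfg (n + 1)) (j : Fin (n + 2)) (Cg : ℝ) : MdFd n F.Qc where
  𝔖 := (F.D j).sys
  𝔊 := (F.D j).geo
  p := F.tp j
  g := (F.D j).gp Cg
  A := F.A j
  K := F.K
  G := F.Go
  S := F.S j
  r := F.r j
  Yf := Finset.univ
  R := (F.D j).geo.ofMask (F.S j)
  e := F.e j
  pos := fun q => fmxPos ((F.D j).pt (F.e j q))
  dir := fun ω => fmxDir ((F.D j).fr 0 ω)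
  κ := (F.D j).κ

/-- lower bound of the path mass -/
def fmxϖ (F : FCfg (n + 1)) : ℝ := ((2 * F.K ^ (F.c.ℓ + 8)) ^ (n + 1))⁻¹

/-- the common loss of the occupancy laws -/
def fmxKo (F : FCfg (n + 1)) (Cg : ℝ) : ℝ := fl3Ko F.c.ℓ (n + 1) Cg F.K F.Go F.Go (2 * F.c.Q)

/-- the reference weights: full leaf squares of order `Q` -/
def fmxAr (F : FCfg (n + 1)) (j : Fin (n + 2)) (q : F.Qc) (ω : (F.D j).Lb 0) : ℝ :=
  ∑ γ : (F.D j).Cl 0, if γ.1.1 = ω then (F.D j).s0 γ.1 ^ 2 * (F.D j).wA F.c.Q 0 γ.1 ((F.D j).pt (F.e j q)) else 0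

/-- bound of the leaf frequencies -/
def fmxB (c : TCls (n + 1)) : ℝ := ((c.ℓ : ℝ) + 1) * c.Cc

/-- bound of the native displacement in `fmx_move` -/
def fmxMv (c : TCls (n + 1)) : ℝ := ((n : ℝ) + 1) + 4 * fmxB c + 2 * (((n : ℝ) + 2) * (1 + 2 * fmxB c))

theorem fmx_eqns_cite2 : True := by
  have := @fmxFd.eq_1
  have := @fmxϖ.eq_1
  have := @fmxKo.eq_1
  have := @fmxAr.eq_1
  have := @fmxB.eq_1
  have := @fmxMv.eq_1
  trivial

theorem fmx_ϖ_pos {F : FCfg (n + 1)} {m : ℕ} (h : F.Ok m) : 0 < fmxϖ F := by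
  have := h.two_le_K
  unfold fmxϖ
  have hK : 0 < F.K := by linarith
  positivity

/-- **LEAF L-257-MX-B1: the leaf frequencies are bounded.**   PLAN: `ti_anc_near hc D hD c.ℓ le_rfl ω`, `κ ℓ ≥ 1` (`div_le_self`), `hD.top_bdd`, triangle inequality. -/
theorem fmx_fr_le {c : TCls (n + 1)} (hc : c.Ok) (D : TDat c) (hD : D.Good) (ω : D.Lb 0) : ‖D.fr 0 ω‖ ≤ fmxB c := by
  have hw := ti_anc_near hc D hD c.ℓ le_rfl ω
  have h1 := hD.top_bdd (D.anc c.ℓ ω)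
  have h2 := hD.one_le_κ c.ℓ
  have hCc : 0 ≤ c.Cc := by linarith [hc.one_le_Cc]
  have h3 : (c.ℓ : ℝ) * c.Cc / D.κ c.ℓ ≤ c.ℓ * c.Cc := div_le_self (by positivity) h2
  have e : D.fr 0 ω = (D.fr 0 ω - D.fr c.ℓ (D.anc c.ℓ ω)) + D.fr c.ℓ (D.anc c.ℓ ω) := by abel
  rw [e]
  refine (norm_add_le _ _).trans ?_
  unfold fmxB
  linarith

/-! ## the common root set -/

theorem fmx_F_low_gen {k : ℕ} {F : FCfg k} {m : ℕ} (h : F.Ok m) (j : Fin (k + 1)) :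
    (F.tp j).L0 * (F.A j / F.K) ^ (-(qk k)) * (((2 * F.K ^ (F.c.ℓ + 8)) ^ k)⁻¹) ^ (qk k / 2 - 1) * ((F.tp j).L ^ F.c.ℓ * (F.D j).sys.D) ≤ (Fintype.card F.Qc : ℝ) / 4 := by
  have hK2 := h.two_le_K
  have hK0 : 0 < F.K := by linarith
  have hK1 : 1 ≤ F.K := by linarith
  have hA : 1 ≤ F.A j := h.one_le_A j
  have hA0 : 0 < F.A j := by linarith
  have hk : 1 ≤ k := h.cls.k_pos
  have hkR : (1 : ℝ) ≤ k := by exact_mod_cast hk
  have hk0 : (0 : ℝ) < k := by linarith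
  have hq6 : qk k ≤ 6 := by
    unfold qk
    rw [div_le_iff₀ hk0]
    linarith
  have hq2 : qk k / 2 - 1 = 2 / (k : ℝ) := by
    unfold qk
    field_simp
    ring
  have hAq : 0 < F.A j ^ qk k := Real.rpow_pos_of_pos hA0 _
  have e1 : (F.A j / F.K) ^ (-(qk k)) = F.K ^ qk k / F.A j ^ qk k := by
    rw [Real.rpow_neg (by positivity), Real.div_rpow hA0.le hK0.le, inv_div]
  have hKq : F.K ^ qk k ≤ F.K ^ 6 := by
    have := Real.rpow_le_rpow_of_exponent_le hK1 hq6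
    have e : F.K ^ (6 : ℝ) = F.K ^ 6 := by
      exact_mod_cast Real.rpow_natCast F.K 6
    rwa [e] at this
  have hB0 : 0 < 2 * F.K ^ (F.c.ℓ + 8) := by positivity
  have e2 : (((2 * F.K ^ (F.c.ℓ + 8)) ^ k)⁻¹) ^ (qk k / 2 - 1) = ((2 * F.K ^ (F.c.ℓ + 8)) ^ 2)⁻¹ := by
    rw [hq2, Real.inv_rpow (by positivity), ← Real.rpow_natCast (2 * F.K ^ (F.c.ℓ + 8)) k, ← Real.rpow_mul hB0.le]
    have : (k : ℝ) * (2 / (k : ℝ)) = ((2 : ℕ) : ℝ) := by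
      push_cast
      field_simp
    rw [this, Real.rpow_natCast]
  have hL0 : (F.tp j).L0 ≤ F.K := h.L0_le j
  have hL00 : 0 ≤ (F.tp j).L0 := by linarith [(h.sys j).one_le_L0]
  have hL : (F.tp j).L ^ F.c.ℓ ≤ F.K ^ F.c.ℓ := pow_le_pow_left₀ (by linarith [(h.sys j).one_le_L]) (h.L_le j) _
  have hL1 : 0 ≤ (F.tp j).L ^ F.c.ℓ := pow_nonneg (by linarith [(h.sys j).one_le_L]) _
  have hD := h.bal j
  have hD0 := (h.D_pos j).le
  have hc0 : (0 : ℝ) ≤ Fintype.card F.Qc := Nat.cast_nonneg _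
  rw [e1, e2]
  calc (F.tp j).L0 * (F.K ^ qk k / F.A j ^ qk k) * ((2 * F.K ^ (F.c.ℓ + 8)) ^ 2)⁻¹ * ((F.tp j).L ^ F.c.ℓ * (F.D j).sys.D)
      ≤ F.K * (F.K ^ 6 / F.A j ^ qk k) * ((2 * F.K ^ (F.c.ℓ + 8)) ^ 2)⁻¹ * (F.K ^ F.c.ℓ * (F.K * (Fintype.card F.Qc * F.A j ^ qk k))) := by
        have a1 : F.K ^ qk k / F.A j ^ qk k ≤ F.K ^ 6 / F.A j ^ qk k := div_le_div_of_nonneg_right hKq hAq.le
        have a0 : 0 ≤ F.K ^ qk k / F.A j ^ qk k := by positivity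
        refine mul_le_mul (mul_le_mul_of_nonneg_right (mul_le_mul hL0 a1 a0 hK0.le) (by positivity)) (mul_le_mul hL hD hD0 (by positivity)) (by positivity) (by positivity)
    _ = (Fintype.card F.Qc : ℝ) / (4 * F.K ^ (F.c.ℓ + 8)) := by
        field_simp
        ring
    _ ≤ (Fintype.card F.Qc : ℝ) / 4 := by
        refine div_le_div_of_nonneg_left hc0 (by norm_num) ?_
        have : 1 ≤ F.K ^ (F.c.ℓ + 8) := one_le_pow₀ hK1
        linarith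

/-- **LEAF L-257-MX-R0: the low-mass condition with a quarter.**   PLAN: copy the proof of `fl3_F_low` (`FR3/LlPath.lean`): its last but one line is `#Qc / (4 K^(ℓ+8))`, and `4 ≤ 4 K^(ℓ+8)`. -/
theorem fmx_F_low {F : FCfg (n + 1)} {m : ℕ} (h : F.Ok m) (j : Fin (n + 2)) :
    (F.tp j).L0 * (F.A j / F.K) ^ (-(qk (n + 1))) * (fmxϖ F) ^ (qk (n + 1) / 2 - 1) * ((F.tp j).L ^ F.c.ℓ * (F.D j).sys.D) ≤ (Fintype.card F.Qc : ℝ) / 4 := by
  exact fmx_F_low_gen h j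

/-- **LEAF L-257-MX-R1: each field loses at most a quarter of the cubes.**
PLAN.  `𝔖 = (F.D j).sys`, `𝔊 = (F.D j).geo`, `S = F.S j`;  `∑ ω, (fmxFd F j Cg).J q ω = 𝔊.Wn (𝔊.ofMask S) (F.e j q)` (`rfl`).   If `¬ ϖ/2 ≤ Wn` then `Wf S z ≤ ϖ` (`TGeo.tp_far (h.sys j) hgeo`, `TGeo.tp_Wa_eq_Wf`, `hδ`), and `A/K ≤ ‖Ev ℓ ..‖` (`(h.frozen j).high ℓ le_rfl z (mem_univ _)`, `div_le_iff₀'`).
So the filter maps by `F.e j` (injective: `Finset.card_le_card_of_injOn` / `Finset.card_map`) into the filter of `TSys.tp_lowmass (h.sys j) S (A/K) ϖ`, range condition `fl3_F_range h hm j`, then `fmx_F_low`.   (As in `TGeo.tp_root_set`.) -/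
theorem fmx_bad {F : FCfg (n + 1)} {m : ℕ} (h : F.Ok m) (hm : F.c.ℓ + 1 ≤ m) (j : Fin (n + 2)) {Cg : ℝ} (hgeo : (F.D j).geo.Ok ((F.D j).gp Cg))
    (hδ : ((F.D j).gp Cg).δ * ((F.c.ℓ : ℝ) * (F.tp j).ϖ0 + ((F.D j).gp Cg).ϖb) ≤ fmxϖ F / 2) :
    ((Finset.univ.filter fun q : F.Qc => ¬ fmxϖ F / 2 ≤ ∑ ω, (fmxFd F j Cg).J q ω).card : ℝ) ≤ (Fintype.card F.Qc : ℝ) / 4 := by
  have hK0 : 0 < F.K := by linarith [h.two_le_K]
  have hA0 : 0 < F.A j := by linarith [h.one_le_A j]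
  have hθ : 0 < F.A j / F.K := div_pos hA0 hK0
  have hϖ := fmx_ϖ_pos h
  have hlow := TSys.tp_lowmass (h.sys j) (F.S j) (F.A j / F.K) (fmxϖ F) hθ hϖ (fl3_F_range h hm j)
  refine le_trans ?_ (hlow.trans (fmx_F_low h j))
  refine Nat.cast_le.2 (Finset.card_le_card_of_injOn (F.e j) ?_ ((F.e j).injective.injOn))
  intro q hq
  have hq2 : ¬ fmxϖ F / 2 ≤ (F.D j).geo.Wn ((F.D j).geo.ofMask (F.S j)) (F.e j q) := (Finset.mem_filter.1 hq).2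
  have h2 := TGeo.tp_far (h.sys j) hgeo ((F.D j).geo.ofMask (F.S j)) (F.e j q)
  have h2e := TGeo.tp_Wa_eq_Wf (𝔊 := (F.D j).geo) (F.S j) (F.e j q)
  refine Finset.mem_coe.2 (Finset.mem_filter.2 ⟨Finset.mem_univ _, ?_, ?_⟩)
  · rw [div_le_iff₀' hK0]
    exact (h.frozen j).high _ le_rfl _ (Finset.mem_univ _)
  · have h3 : ((F.D j).gp Cg).δ * (((F.D j).sys.ℓ : ℝ) * (F.tp j).ϖ0 + ((F.D j).gp Cg).ϖb) ≤ fmxϖ F / 2 := hδ
    have hq3 := not_le.1 hq2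
    linarith

/-- **the common root set of two fields** -/
theorem fmx_root {F : FCfg (n + 1)} {m : ℕ} (h : F.Ok m) (j j' : Fin (n + 2)) {Cg : ℝ}
    (hb : ((Finset.univ.filter fun q : F.Qc => ¬ fmxϖ F / 2 ≤ ∑ ω, (fmxFd F j Cg).J q ω).card : ℝ) ≤ (Fintype.card F.Qc : ℝ) / 4)
    (hb' : ((Finset.univ.filter fun q : F.Qc => ¬ fmxϖ F / 2 ≤ ∑ ω, (fmxFd F j' Cg).J q ω).card : ℝ) ≤ (Fintype.card F.Qc : ℝ) / 4) :
    ∃ Y' : Finset F.Qc, Y'.Nonempty ∧ (Fintype.card F.Qc : ℝ) ≤ 2 * Y'.card ∧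
      ∀ q ∈ Y', fmxϖ F / 2 ≤ ∑ ω, (fmxFd F j Cg).J q ω ∧ fmxϖ F / 2 ≤ ∑ ω, (fmxFd F j' Cg).J q ω := by
  set p₁ : F.Qc → Prop := fun q => fmxϖ F / 2 ≤ ∑ ω, (fmxFd F j Cg).J q ω with hp₁
  set p₂ : F.Qc → Prop := fun q => fmxϖ F / 2 ≤ ∑ ω, (fmxFd F j' Cg).J q ω with hp₂
  have hc0 : (0 : ℝ) < Fintype.card F.Qc := by
    have := h.ne
    exact_mod_cast Fintype.card_pos
  have hsub : (Finset.univ.filter fun q => ¬ (p₁ q ∧ p₂ q)) ⊆ (Finset.univ.filter fun q => ¬ p₁ q) ∪ (Finset.univ.filter fun q => ¬ p₂ q) := by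
    intro q hq
    have hq' := (Finset.mem_filter.1 hq).2
    rw [Finset.mem_union, Finset.mem_filter, Finset.mem_filter]
    by_cases h1 : p₁ q
    · exact Or.inr ⟨Finset.mem_univ _, fun h2 => hq' ⟨h1, h2⟩⟩
    · exact Or.inl ⟨Finset.mem_univ _, h1⟩
  have hcard : ((Finset.univ.filter fun q => ¬ (p₁ q ∧ p₂ q)).card : ℝ) ≤ (Fintype.card F.Qc : ℝ) / 2 := by
    have h1 : ((Finset.univ.filter fun q => ¬ (p₁ q ∧ p₂ q)).card : ℝ) ≤
        ((Finset.univ.filter fun q => ¬ p₁ q).card : ℝ) + ((Finset.univ.filter fun q => ¬ p₂ q).card : ℝ) := by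
      exact_mod_cast (Finset.card_le_card hsub).trans (Finset.card_union_le _ _)
    linarith
  have hsplit := Finset.card_filter_add_card_filter_not (s := (Finset.univ : Finset F.Qc)) (fun q => p₁ q ∧ p₂ q)
  have hsplit' : ((Finset.univ.filter fun q => p₁ q ∧ p₂ q).card : ℝ) + ((Finset.univ.filter fun q => ¬ (p₁ q ∧ p₂ q)).card : ℝ) = Fintype.card F.Qc := by
    rw [Finset.card_univ] at hsplit
    exact_mod_cast hsplit
  have h2 : (Fintype.card F.Qc : ℝ) ≤ 2 * (Finset.univ.filter fun q => p₁ q ∧ p₂ q).card := by linarith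
  refine ⟨Finset.univ.filter fun q => p₁ q ∧ p₂ q, ?_, h2, fun q hq => (Finset.mem_filter.1 hq).2⟩
  rw [← Finset.card_pos]
  have : (0 : ℝ) < (Finset.univ.filter fun q => p₁ q ∧ p₂ q).card := by linarith
  exact_mod_cast this

/-! ## the field is a field of MID -/

/-- **LEAF L-257-MX-F1: `MdFd.Ok` for a field of a configuration.**
PLAN.  `sys := h.sys j`, `geo := hgeo`, `frozen := h.frozen j`, `A_pos`: `h.one_le_A j`, `sub := fun _ _ => Finset.Subset.refl _`, `ϖl_pos`: `fmx_ϖ_pos h`.   `bal`: `h.bal j` and `#Qc ≤ 2 #Y'`, `0 ≤ A^q`, `0 ≤ K`.   `cel := fun i _ z z' ω => fmx_cel _ _ _ _`.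
`K1 … K6`: exactly as at the end of `fl3_path` (`FR3/LlPath.lean`; there `Ko = fl3Ko .. (G 0) ..`): unfold `fmxKo`, `fl3Ko`, `fmxϖ`; `x / (ϖ/2) = x * (2 (2K^(ℓ+8))^k)` (`field_simp`); all five summands of `fl3Ko` are `≥ 0`;
`G 0 ≤ Go`, `K ≤ G 0` (`fl3_F_sizes h hm j`) give `G 0 ^ (2Q) ≤ Go ^ (2Q)` (`Real.rpow_le_rpow`, `0 ≤ 2 Q` from `h.cls.P_gt`, `h.cls.P_lt`), `G 0 ^ (k+1) ≤ Go ^ (k+1)` (`pow_le_pow_left₀`). -/
theorem fmx_fd_ok {F : FCfg (n + 1)} {m : ℕ} (h : F.Ok m) (hm : 1 ≤ m) (j : Fin (n + 2)) {Cg : ℝ} (hCg : 1 ≤ Cg) (hgeo : (F.D j).geo.Ok ((F.D j).gp Cg))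
    (Y' : Finset F.Qc) (hY : (Fintype.card F.Qc : ℝ) ≤ 2 * Y'.card) : (fmxFd F j Cg).Ok Y' (fmxϖ F / 2) (2 * F.K) (fmxKo F Cg) := by
  obtain ⟨s1, s2, s3, s4⟩ := fl3_F_sizes h hm j
  have hK2 := h.two_le_K
  have hK0 : 0 < F.K := by linarith
  have hA0 : 0 < F.A j := by linarith [h.one_le_A j]
  have hG0 : 0 < (F.D j).G 0 := by linarith
  have hGo : 0 < F.Go := by linarith
  have hCg0 : 0 < Cg := by linarith
  have hQ2 : 0 ≤ 2 * F.c.Q := by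
    have : (0 : ℝ) ≤ ((n + 1 : ℕ) : ℝ) := Nat.cast_nonneg _
    linarith [h.cls.P_gt, h.cls.P_lt]
  have t1 : 0 ≤ Cg ^ (F.c.ℓ + 1) * (2 * (2 * F.K ^ (F.c.ℓ + 8)) ^ (n + 1)) := by positivity
  have t3 : 0 ≤ Cg * F.Go ^ (2 * F.c.Q) := by positivity
  have t4 : 0 ≤ Cg * F.Go ^ (n + 1 + 1) * F.K * (2 * F.K) := by positivity
  have t5 : 0 ≤ Cg * F.Go ^ (n + 1 + 1) * F.Go := by positivity
  have g1 : (F.D j).G 0 ^ (2 * F.c.Q) ≤ F.Go ^ (2 * F.c.Q) := Real.rpow_le_rpow hG0.le s2 hQ2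
  have g2 : (F.D j).G 0 ^ (n + 1 + 1) ≤ F.Go ^ (n + 1 + 1) := pow_le_pow_left₀ hG0.le s2 _
  have e2 : ∀ x : ℝ, x / (fmxϖ F / 2) = x * (2 * (2 * F.K ^ (F.c.ℓ + 8)) ^ (n + 1)) := by
    intro x
    unfold fmxϖ
    field_simp
  refine ⟨h.sys j, hgeo, h.frozen j, hA0, fun _ _ => Finset.Subset.refl _, half_pos (fmx_ϖ_pos h), ?_, fun i _ z z' ω => fmx_cel _ _ _ _, ?_, ?_, ?_, ?_, ?_, ?_⟩
  · refine (h.bal j).trans ?_
    show F.K * (Fintype.card F.Qc * F.A j ^ qk (n + 1)) ≤ 2 * F.K * (Y'.card * F.A j ^ qk (n + 1))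
    have hAq : 0 ≤ F.A j ^ qk (n + 1) := by positivity
    have := mul_le_mul_of_nonneg_left (mul_le_mul_of_nonneg_right hY hAq) hK0.le
    linarith
  · show Cg ^ F.c.ℓ / (fmxϖ F / 2) ≤ fmxKo F Cg
    rw [e2, fmxKo, fl3Ko]
    have : Cg ^ F.c.ℓ ≤ Cg ^ (F.c.ℓ + 1) := pow_le_pow_right₀ hCg (Nat.le_succ _)
    have := mul_le_mul_of_nonneg_right this (by positivity : (0 : ℝ) ≤ 2 * (2 * F.K ^ (F.c.ℓ + 8)) ^ (n + 1))
    linarith
  · have := h.ϖ0_le j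
    show (F.tp j).ϖ0 ≤ fmxKo F Cg
    rw [fmxKo, fl3Ko]
    linarith
  · show Cg * (F.D j).G 0 ^ (2 * F.c.Q) ≤ fmxKo F Cg
    rw [fmxKo, fl3Ko]
    have := mul_le_mul_of_nonneg_left g1 hCg0.le
    linarith
  · show Cg ^ F.c.ℓ * Cg / (fmxϖ F / 2) ≤ fmxKo F Cg
    rw [e2, fmxKo, fl3Ko, ← pow_succ]
    linarith
  · show Cg * (F.D j).G 0 ^ (n + 1 + 1) * F.K * (2 * F.K) ≤ fmxKo F Cg
    rw [fmxKo, fl3Ko]
    have := mul_le_mul_of_nonneg_right (mul_le_mul_of_nonneg_right (mul_le_mul_of_nonneg_left g2 hCg0.le) hK0.le) (by positivity : 0 ≤ 2 * F.K)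
    linarith
  · show Cg * (F.D j).G 0 ^ (n + 1 + 1) * F.Go ≤ fmxKo F Cg
    rw [fmxKo, fl3Ko]
    have := mul_le_mul_of_nonneg_right (mul_le_mul_of_nonneg_left g2 hCg0.le) hGo.le
    linarith

/-! ## the reference weights -/

theorem fmx_ar_nonneg (F : FCfg (n + 1)) (j : Fin (n + 2)) (q : F.Qc) (ω : (F.D j).Lb 0) : 0 ≤ fmxAr F j q ω := by
  unfold fmxAr
  refine Finset.sum_nonneg fun γ _ => ?_
  split_ifs
  · exact mul_nonneg (sq_nonneg _) ((F.D j).wA_pos _ _ _ _).le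
  · exact le_rfl

/-- **LEAF L-257-MX-A1: the reference weights are summable.**
PLAN.  `Finset.sum_comm`, `Finset.sum_ite_eq` (as in `TGeo.tp_sum_leafw`): `∑_ω fmxAr = ∑_{γ : Cl 0} s0² wA Q 0 γ z`;  `Finset.sum_coe_sort (D.W 0)` (sum over the subtype = sum over `W 0`);  `TDat.wA_anti h.cls.P_lt.le`;  `hX.full j (F.e j q)`. -/
theorem fmx_ar_sum {F : FCfg (n + 1)} {m : ℕ} (h : F.Ok m) (hX : F.PowX) (j : Fin (n + 2)) (q : F.Qc) : ∑ ω, fmxAr F j q ω ≤ F.K := by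
  unfold fmxAr
  rw [Finset.sum_comm]
  have e : ∀ γ : (F.D j).Cl 0, ∑ ω, (if γ.1.1 = ω then (F.D j).s0 γ.1 ^ 2 * (F.D j).wA F.c.Q 0 γ.1 ((F.D j).pt (F.e j q)) else 0)
      = (F.D j).s0 γ.1 ^ 2 * (F.D j).wA F.c.Q 0 γ.1 ((F.D j).pt (F.e j q)) := fun γ => by
    rw [Finset.sum_ite_eq, if_pos (Finset.mem_univ _)]
  rw [Finset.sum_congr rfl fun γ _ => e γ]
  rw [Finset.sum_coe_sort ((F.D j).W 0) (fun T => (F.D j).s0 T ^ 2 * (F.D j).wA F.c.Q 0 T ((F.D j).pt (F.e j q)))]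
  refine le_trans (Finset.sum_le_sum fun T _ => ?_) (hX.full j (F.e j q))
  exact mul_le_mul_of_nonneg_left (TDat.wA_anti _ h.cls.P_lt.le 0 T _) (sq_nonneg _)

/-- **LEAF L-257-MX-A2: path domination by the full leaf squares.**
PLAN.  `Ck` := the constant of `ti_ker_two hc`.   `(fmxFd F j Cg).J q ω = geo.Jn (ofMask S) (e q) ω ≤ Cg^ℓ leafw (e q) ω` (`TGeo.tp_Jn_le_leaf (h.sys j) hgeo`; `((F.D j).gp Cg).Γc = Cg`, `sys.ℓ = c.ℓ` by `rfl`);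
`leafw z ω = ∑_{γ : Cl 0} if γ.1.1 = ω then s0 γ.1 ^ 2 * ker Q 0 γ.1 (pt z) else 0` (`rfl` after `unfold TGeo.leafw`; `bb 0 γ = s0 γ.1`);   termwise `ker Q 0 γ z ≤ Ck wA Q 0 γ z`: if `0 < c.tr` by `ti_ker_two`, otherwise `tg_ker_ge` (equality) and `1 ≤ Ck`;  `Finset.mul_sum`. -/
theorem fmx_ar_dom {c : TCls (n + 1)} (hc : c.Ok) : ∃ Ck : ℝ, 1 ≤ Ck ∧ ∀ (F : FCfg (n + 1)) (m : ℕ), F.c = c → F.Ok m → ∀ (j : Fin (n + 2)) (Cg : ℝ), (F.D j).geo.Ok ((F.D j).gp Cg) →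
    ∀ (q : F.Qc) (ω : (F.D j).Lb 0), (fmxFd F j Cg).J q ω ≤ Cg ^ c.ℓ * Ck * fmxAr F j q ω := by
  obtain ⟨Ck, hCk1, hCk⟩ := ti_ker_two hc
  refine ⟨Ck, hCk1, ?_⟩
  rintro F m rfl h j Cg hgeo q ω
  have h1 : (fmxFd F j Cg).J q ω ≤ Cg ^ F.c.ℓ * (F.D j).geo.leafw (F.e j q) ω := TGeo.tp_Jn_le_leaf (h.sys j) hgeo _ _ _
  refine h1.trans ?_
  rw [mul_assoc]
  have hCg : 0 ≤ Cg ^ F.c.ℓ := pow_nonneg (zero_le_one.trans hgeo.one_le_Γc) _
  refine mul_le_mul_of_nonneg_left ?_ hCg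
  unfold TGeo.leafw fmxAr
  rw [Finset.mul_sum]
  refine Finset.sum_le_sum fun γ _ => ?_
  show (if γ.1.1 = ω then (F.D j).s0 γ.1 ^ 2 * (F.D j).ker F.c.Q 0 γ.1 ((F.D j).pt (F.e j q)) else 0) ≤ _
  split_ifs with hd
  · have h2 : (F.D j).ker F.c.Q 0 γ.1 ((F.D j).pt (F.e j q)) ≤ Ck * (F.D j).wA F.c.Q 0 γ.1 ((F.D j).pt (F.e j q)) := by
      by_cases htr : 0 < F.c.tr
      · exact (hCk (F.D j) (h.good j) htr γ.1 _).1
      · rw [tg_ker_ge _ _ htr]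
        exact le_mul_of_one_le_left ((F.D j).wA_pos _ _ _ _).le hCk1
    calc _ ≤ (F.D j).s0 γ.1 ^ 2 * (Ck * (F.D j).wA F.c.Q 0 γ.1 ((F.D j).pt (F.e j q))) := mul_le_mul_of_nonneg_left h2 (sq_nonneg _)
      _ = _ := by ring
  · rw [mul_zero]

/-- **LEAF L-257-MX-A3: bounded drift: the reference weights of the field `j` are comparable on a cell of width `wp` of the field `j'`**, `wp² ≤ κ_0`.
PLAN.  Termwise in `γ` (`Finset.mul_sum`, `Finset.sum_le_sum`, `split_ifs`): `wA Q 0 γ z₁' ≤ (1 + Mv)^Q wA Q 0 γ z₁` by `fmx_pw_cmp` (`u = lat γ.2`, `X = natX (κ 0) (fr 0 γ.1) z₁`; `TDat.wA`, `TDat.X` unfold to this) and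
`fmx_move` with `N = (F.D j).κ 0`, `c = n + 2` (`h.cube q j j'`; cast `((n+1 : ℕ) : ℝ) + 1 = n + 2`: `push_cast; ring`), `B = fmxB F.c` (`fmx_fr_le` for both fields), `z₁ = pt_j (e j q)`, `z₂ = pt_j' (e j' q)`.   `wp ≤ κ 0` from `1 ≤ wp`, `wp² ≤ κ 0`. -/
theorem fmx_ar_cmp {F : FCfg (n + 1)} {m : ℕ} (h : F.Ok m) (j j' : Fin (n + 2)) {wp : ℝ} (hwp : 1 ≤ wp) (hw2 : wp ^ 2 ≤ (F.D j).κ 0) (q q' : F.Qc) (ω₂ : (F.D j').Lb 0) (ω : (F.D j).Lb 0)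
    (hcel : mdCel wp (fmxPos ((F.D j').pt (F.e j' q))) (fmxDir ((F.D j').fr 0 ω₂)) = mdCel wp (fmxPos ((F.D j').pt (F.e j' q'))) (fmxDir ((F.D j').fr 0 ω₂))) :
    fmxAr F j q' ω ≤ (1 + fmxMv F.c) ^ F.c.Q * fmxAr F j q ω := by
  have hn : (0 : ℝ) ≤ n := Nat.cast_nonneg n
  have hQ : 0 ≤ F.c.Q := by
    have h1 := h.cls.P_gt
    have h2 := h.cls.P_lt
    have h3 : (0 : ℝ) ≤ ((n + 1 : ℕ) : ℝ) := Nat.cast_nonneg _
    linarith
  have hκ : 1 ≤ (F.D j).κ 0 := (h.good j).one_le_κ 0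
  have hwN : wp ≤ (F.D j).κ 0 := by nlinarith
  have hB : 0 ≤ fmxB F.c := by
    unfold fmxB
    have := h.cls.one_le_Cc
    positivity
  have hMv : 0 ≤ fmxMv F.c := by
    unfold fmxMv
    positivity
  have hcube : ∀ q : F.Qc, ‖(F.D j).pt (F.e j q) - (F.D j').pt (F.e j' q)‖ ≤ (n : ℝ) + 2 := by
    intro q
    have := h.cube q j j'
    push_cast at this
    linarith
  unfold fmxAr
  rw [Finset.mul_sum]
  refine Finset.sum_le_sum fun γ _ => ?_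
  split_ifs with hd
  · have hmove := fmx_move (wp := wp) (N := (F.D j).κ 0) (c := (n : ℝ) + 2) (B := fmxB F.c) (by linarith) hκ hwN hw2
      (v := (F.D j).fr 0 γ.1.1) (v₂ := (F.D j').fr 0 ω₂) (fmx_fr_le h.cls _ (h.good j) _) (fmx_fr_le h.cls _ (h.good j') _)
      (hcube q) (hcube q') hcel
    have hw : (F.D j).wA F.c.Q 0 γ.1 ((F.D j).pt (F.e j q')) ≤ (1 + fmxMv F.c) ^ F.c.Q * (F.D j).wA F.c.Q 0 γ.1 ((F.D j).pt (F.e j q)) :=
      fmx_pw_cmp hQ hMv (lat γ.1.2) hmove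
    calc _ ≤ (F.D j).s0 γ.1 ^ 2 * ((1 + fmxMv F.c) ^ F.c.Q * (F.D j).wA F.c.Q 0 γ.1 ((F.D j).pt (F.e j q))) :=
          mul_le_mul_of_nonneg_left hw (sq_nonneg _)
      _ = _ := by ring
  · rw [mul_zero]

end

end Claimed.Agent.R257.FR3
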