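import Claimed.Agent.R257.FR3.MidX2

/-!
# ROW 257, package FR3, unit MID-X (cross-field halving, H `frame.tex` l.1440-1448), file 3: THE GRID-LEVEL TEST (X)      (architect helper245)

`fmx_hyp`, `fmx_wid` (glue) ⟹ `fmx_ineq` = the inequality of `mdy_cross` for four heights of a configuration ⟹ `fmx_testX : GTestX' k` (= `GTestX k` with the hypothesis `F.PowX`).
CHOICES.  `e0 = 1/24`, `V = 4`, `s0 = a/8`, `μ0 = s/16`.    Nodes (`fmx_node`):  SECOND path (field `j'`): parent `σp ∈ [a/2 + s - μ0, a/2 + s]`, child `σc ≤ a/2 - s`;   FIRST path (field `j`): parent `τp ∈ [a + 3s - μ0, a + 3s]`, child `τc ∈ [a - μ0, a]`.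
Drift: `2 σp ≤ a + 2 s < τp`;  bounded drift of the leaf weights: `2 σp ≤ a + 4 s ≤ 1 = log_Λ κ_0`.    Count: `2 σp - τc ≤ 2 q e0 s + log_Λ(losses)`, i.e. `(15/8) s ≤ s`: contradiction.
Every `sorry` is a leaf `L-257-MX-*` (statement frozen: defect = one line to helper245; prove IN PLACE; auxiliary lemmas with prefix `fmx_` directly above).
-/

set_option autoImplicit false

namespace Claimed.Agent.R257.FR3

open scoped BigOperators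
open Classical
open Claimed.Agent.R255 Claimed.Agent.R255.FLaw Claimed.Agent.R257 Claimed.Agent.R257.FR2 Claimed.Agent.R257.Tree

noncomputable section

variable {n : ℕ}

/-- **LEAF L-257-MX-T1: the velocities of two different fields are separated.**
PLAN.  Every `(F.D i).Lb 0` is nonempty: `h.D_pos i : 0 < sys.D = ∑_{T : Cl 0} …` (if `Cl 0` were empty the sum would be `0`: `Finset.sum_eq_zero`/`isEmpty`), take `T.1.1`.   `lb := Function.update (Function.update lb0 j ω₁) j' ω₂` (dependent `Function.update`; `Function.update_self`, `Function.update_of_ne hj`);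
`fmx_sep (K > 0) (hX.trans0 lb) hj`, then rewrite `lb j = ω₁`, `lb j' = ω₂`. -/
theorem fmx_trans {F : FCfg (n + 1)} {m : ℕ} (h : F.Ok m) (hX : F.PowX) {j j' : Fin (n + 2)} (hj : j ≠ j') (ω₁ : (F.D j).Lb 0) (ω₂ : (F.D j').Lb 0) :
    ∃ l, 1 / (F.K * ((n : ℝ) + 1)) ≤ |fmxDir ((F.D j).fr 0 ω₁) l - fmxDir ((F.D j').fr 0 ω₂) l| := by
  have hne : ∀ i, Nonempty ((F.D i).Lb 0) := by
    intro i
    by_contra hE
    rw [not_nonempty_iff] at hE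
    have hD := h.D_pos i
    have h0 : (F.D i).sys.D = 0 := by
      unfold TSys.D TSys.en
      refine Finset.sum_eq_zero fun T _ => ?_
      exact (hE.false (T : (F.D i).Cl 0).1.1).elim
    linarith
  have hK : 0 < F.K := by linarith [h.two_le_K]
  obtain ⟨l, hl⟩ := fmx_sep hK (hX.trans0 (Function.update (Function.update (fun i => (hne i).some) j ω₁) j' ω₂)) hj
  refine ⟨l, ?_⟩
  simp only [Function.update_self, Function.update_of_ne hj] at hl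
  exact hl

theorem fmx_B_nonneg {c : TCls (n + 1)} (hc : c.Ok) : 0 ≤ fmxB c := by
  unfold fmxB
  have := hc.one_le_Cc
  positivity

theorem fmx_Mv_nonneg {c : TCls (n + 1)} (hc : c.Ok) : 0 ≤ fmxMv c := by
  unfold fmxMv
  have := fmx_B_nonneg hc
  positivity

/-- **the hypotheses of the cross-field test on the kernels** -/
theorem fmx_hyp {F : FCfg (n + 1)} {m : ℕ} (h : F.Ok m) (hX : F.PowX) {j j' : Fin (n + 2)} (hj : j ≠ j') {Cg Ck : ℝ} (hCg : 1 ≤ Cg) (hCk : 1 ≤ Ck)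
    (hdom : ∀ (q : F.Qc) (ω : (F.D j).Lb 0), (fmxFd F j Cg).J q ω ≤ Cg ^ F.c.ℓ * Ck * fmxAr F j q ω)
    (Y' : Finset F.Qc) (hne : Y'.Nonempty)
    (hmass : ∀ q ∈ Y', fmxϖ F / 2 ≤ ∑ ω, (fmxFd F j Cg).J q ω ∧ fmxϖ F / 2 ≤ ∑ ω, (fmxFd F j' Cg).J q ω)
    {wp : ℝ} (hwp : 1 ≤ wp) (hw2 : wp ^ 2 ≤ (F.D j).κ 0) :
    (mdyCross (fmxFd F j Cg) (fmxFd F j' Cg) (fmxAr F j) Y').Hyp wp (4 * fmxB F.c) (1 / (F.K * ((n : ℝ) + 1))) (Cg ^ F.c.ℓ * Ck)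
      ((1 + fmxMv F.c) ^ F.c.Q) F.K (fmxϖ F / 2) where
  ne := hne
  J₁0 := fun z ω => TGeo.Jn_nonneg (h.sys j) _ _ _
  J₂0 := fun z ω => TGeo.Jn_nonneg (h.sys j') _ _ _
  ar0 := fmx_ar_nonneg F j
  ϖl_pos := half_pos (fmx_ϖ_pos h)
  Ka_nonneg := by positivity
  Kr_nonneg := Real.rpow_nonneg (by have := fmx_Mv_nonneg h.cls; linarith) _
  mass₁ := fun z hz => (hmass z hz).1
  mass₂ := fun z hz => (hmass z hz).2
  sum := fun z _ => fmx_ar_sum h hX j z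
  dom := fun z _ ω => hdom z ω
  cmp := fun z _ z' _ ω₂ ω hcel => fmx_ar_cmp h j j' hwp hw2 z z' ω₂ ω hcel
  diam := fun ω₁ ω₂ l => fmx_diam (fmx_fr_le h.cls _ (h.good j) ω₁) (fmx_fr_le h.cls _ (h.good j') ω₂) l
  trans := fun ω₁ ω₂ => fmx_trans h hX hj ω₁ ω₂

/-- **the widths** -/
theorem fmx_wid {F : FCfg (n + 1)} {m : ℕ} (h : F.Ok m) (j j' : Fin (n + 2)) (Cg : ℝ) (Y' : Finset F.Qc) {ip ic jp jc : ℕ}
    (h1 : (F.D j').κ ip ≤ (F.D j).κ jp) (h2 : (F.D j).κ jc ≤ (F.D j).κ jp) (h3 : 4 * fmxB F.c * (F.D j').κ ip ^ 2 ≤ (F.D j).κ jp)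
    (h4 : ((n : ℝ) + 2) * (1 + 2 * fmxB F.c) ≤ (F.D j).κ jp) :
    ((mdyCross (fmxFd F j Cg) (fmxFd F j' Cg) (fmxAr F j) Y').ker ((F.D j').κ ip)).Wid ((F.D j').κ ip) ((F.D j').κ ic) ((F.D j).κ jp) ((F.D j).κ jc)
      (4 * fmxB F.c) (1 / (F.K * ((n : ℝ) + 1))) ((n : ℝ) + 2) (((n : ℝ) + 2) * (1 + 2 * fmxB F.c)) := by
  have hB := fmx_B_nonneg h.cls
  have hK : 0 < F.K := by linarith [h.two_le_K]
  have hcube : ∀ q, ‖(F.D j).pt (F.e j q) - (F.D j').pt (F.e j' q)‖ ≤ (n : ℝ) + 2 := by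
    intro q
    have := h.cube q j j'
    push_cast at this
    linarith
  have hup : 1 ≤ (F.D j).κ jp := (h.good j).one_le_κ jp
  exact
    { dir₂0 := fun θ => rfl
      c1_nonneg := by positivity
      c1_le := h4
      c0_le := by
        have a1 : (n : ℝ) + 2 ≤ ((n : ℝ) + 2) * (1 + 2 * fmxB F.c) := le_mul_of_one_le_right (by positivity) (by linarith)
        nlinarith
      near0 := fun q => (fmx_near (hcube q) (v := 0) (B := fmxB F.c) (by simpa using hB)).1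
      near1 := fun q θ l => (fmx_near (hcube q) (fmx_fr_le h.cls _ (h.good j) θ)).2 l
      wc_pos := (F.D j').κ_pos (h.good j') ic
      wp_pos := (F.D j').κ_pos (h.good j') ip
      uc_pos := (F.D j).κ_pos (h.good j) jc
      wp_le := h1
      uc_le := h2
      drift := h3
      r0_pos := by positivity }

/-- the loss of `fmx_ineq` -/
def fmxL (F : FCfg (n + 1)) (Cg Ck : ℝ) : ℝ :=
  Cg ^ F.c.ℓ * Ck * (1 + fmxMv F.c) ^ F.c.Q / (fmxϖ F / 2) * (48 * F.K) ^ 6 * (8 ^ (n + 3) * 6 ^ (n + 3)) * (fmxKo F Cg ^ 8 * (16 * fmxKo F Cg) ^ 4)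

theorem fmx_eqns_cite3 : True := by
  have := @fmxL.eq_1
  trivial

theorem fmx_alg (a t X Y c8 c6 KK MM : ℝ) : a * t * (X * Y * c8 * c6) * KK * MM = a * t * (c8 * c6) * KK * (X * Y) * MM := by ring

/-- **THE INEQUALITY OF THE CROSS-FIELD TEST for four heights of a configuration** (second path: field `j'`, heights `ip`, `ic`; first path: field `j`, heights `jp`, `jc`) -/
theorem fmx_ineq {F : FCfg (n + 1)} {m : ℕ} (h : F.Ok m) (hm : F.c.ℓ + 1 ≤ m) (hX : F.PowX) {j j' : Fin (n + 2)} (hj : j ≠ j') {Cg Ck : ℝ} (hCg : 1 ≤ Cg) (hCk : 1 ≤ Ck)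
    (hgeo : ∀ i, (F.D i).geo.Ok ((F.D i).gp Cg))
    (hδ : ∀ i, ((F.D i).gp Cg).δ * ((F.c.ℓ : ℝ) * (F.tp i).ϖ0 + ((F.D i).gp Cg).ϖb) ≤ fmxϖ F / 2)
    (hdom : ∀ (q : F.Qc) (ω : (F.D j).Lb 0), (fmxFd F j Cg).J q ω ≤ Cg ^ F.c.ℓ * Ck * fmxAr F j q ω)
    {ip ic jp jc : ℕ} (hip : ip ≤ F.c.ℓ) (hic : ic ≤ F.c.ℓ) (hjp : jp ≤ F.c.ℓ) (hjc : jc ≤ F.c.ℓ)
    (h1 : (F.D j').κ ip ≤ (F.D j).κ jp) (h2 : (F.D j).κ jc ≤ (F.D j).κ jp) (h3 : 4 * fmxB F.c * (F.D j').κ ip ^ 2 ≤ (F.D j).κ jp)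
    (h4 : ((n : ℝ) + 2) * (1 + 2 * fmxB F.c) ≤ (F.D j).κ jp) (hw2 : (F.D j').κ ip ^ 2 ≤ (F.D j).κ 0) :
    (F.D j').κ ip ^ (n + 1 + 2) * (F.r j' ip / F.A j') ^ qk (n + 1) * ((F.D j).κ jc ^ (n + 1 + 2) * (F.r j jc / F.A j) ^ qk (n + 1)) ≤
      fmxL F Cg Ck * ((2 * (F.D j').κ ip / (F.D j').κ ic + 2) ^ (n + 1) *
        (2 * ((F.D j').κ ip + (F.D j).κ jc + 2 * (((n : ℝ) + 2) * (1 + 2 * fmxB F.c))) / (1 / (F.K * ((n : ℝ) + 1)) * (F.D j').κ ic ^ 2) + 2)) *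
      ((F.D j').κ ic ^ (n + 1 + 2) * (F.r j' ic / F.A j') ^ qk (n + 1) * ((F.D j).κ jp ^ (n + 1 + 2) * (F.r j jp / F.A j) ^ qk (n + 1))) := by
  have hK2 := h.two_le_K
  obtain ⟨Y', hne, hcard, hmass⟩ := fmx_root h j j' (fmx_bad h hm j (hgeo j) (hδ j)) (fmx_bad h hm j' (hgeo j') (hδ j'))
  have hO₁ := fmx_fd_ok h (by omega) j hCg (hgeo j) Y' hcard
  have hO₂ := fmx_fd_ok h (by omega) j' hCg (hgeo j') Y' hcard
  have hH := fmx_hyp h hX hj hCg hCk hdom Y' hne hmass ((h.good j').one_le_κ ip) hw2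
  have hW := fmx_wid h j j' Cg Y' (ic := ic) (jc := jc) h1 h2 h3 h4
  have key := mdy_cross (fmxFd F j Cg) (fmxFd F j' Cg) (fmxAr F j) Y' (t := 48 * F.K) hO₁ hO₂ hH hip hic hjp hjc hW (by linarith) (by linarith)
  exact le_trans key (le_of_eq (fmx_alg _ _ _ _ _ _ _ _))

/-! ## nodes -/

/-- **LEAF L-257-MX-N0: a node of the grid just below a given parameter.**
PLAN.  `hM = ⟨mesh, s_ℓ ≤ lo, hi ≤ s_0⟩`.   `P i := F.s j i ≤ x`; `P F.c.ℓ` holds; `i := Nat.find ⟨F.c.ℓ, _⟩`, `i ≤ ℓ` (`Nat.find_min'`).   `i = 0`: `x ≤ hi ≤ s_0`, so `x - μ ≤ s_0`.   `i = i' + 1`: `¬ P i'` (`Nat.find_min`), i.e. `x < s_{i'}`, and `s_{i'} - s_{i'+1} ≤ μ` (`i' < ℓ`). -/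
theorem fmx_node {k : ℕ} {F : FCfg k} {j : Fin (k + 1)} {μ lo hi x : ℝ} (hμ : 0 ≤ μ) (hM : F.Mesh j μ lo hi) (h1 : lo ≤ x) (h2 : x ≤ hi) :
    ∃ i, i ≤ F.c.ℓ ∧ x - μ ≤ F.s j i ∧ F.s j i ≤ x := by
  obtain ⟨hm, hlo, hhi⟩ := hM
  have hP : ∃ i, F.s j i ≤ x := ⟨F.c.ℓ, hlo.trans h1⟩
  have hle : Nat.find hP ≤ F.c.ℓ := Nat.find_min' hP (hlo.trans h1)
  refine ⟨Nat.find hP, hle, ?_, Nat.find_spec hP⟩
  rcases Nat.eq_zero_or_pos (Nat.find hP) with h0 | h0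
  · rw [h0]; linarith
  · obtain ⟨i', hi'⟩ : ∃ i', Nat.find hP = i' + 1 := ⟨Nat.find hP - 1, by omega⟩
    have h3 : ¬ F.s j i' ≤ x := Nat.find_min hP (by omega)
    have h5 := hm i' (by omega)
    rw [hi']
    rw [not_le] at h3
    linarith

/-! ## numbers -/

/-- **LEAF L-257-MX-N1: the conditions on the widths.**   REALS ONLY.
PLAN.  `x ≤ y ↔ logb Λ x ≤ logb Λ y` (`Real.logb_le_logb hΛ`), `Real.logb_mul`, `Real.logb_pow`, `Real.logb_le_iff_le_rpow` / `Real.le_logb_iff_rpow_le` for `B4 ≤ Λ^(s/2)`, `c1 ≤ Λ^(a/2)` (if `B4 = 0` resp. `c1 ≤ 0` trivial; or avoid logs: `wp = Λ^(logb Λ wp)` (`Real.rpow_logb`), `Real.rpow_add`, `Real.rpow_le_rpow_of_exponent_le`).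
`logb wp ≤ a/2 + s ≤ a + 3s - s/16`;  `logb uc ≤ a`;  `s/2 + 2 (a/2 + s) ≤ a + 3s - s/16`;  `a/2 ≤ a - s/16`;  `2 (a/2 + s) ≤ a + 4 s`. -/
theorem fmx_num_wid {Λ a s wp up uc κ0 B4 c1 : ℝ} (hΛ : 1 < Λ) (hs : 0 < s) (hsa : s ≤ a / 8) (hwp : 0 < wp) (hup : 0 < up) (huc : 0 < uc) (hκ0 : 0 < κ0) (hB4 : 0 ≤ B4)
    (hσp : Real.logb Λ wp ≤ a / 2 + s) (hτp : a + 3 * s - s / 16 ≤ Real.logb Λ up) (hτc : a - s / 16 ≤ Real.logb Λ uc) (hτc' : Real.logb Λ uc ≤ a)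
    (h0 : a + 4 * s ≤ Real.logb Λ κ0) (hB : B4 ≤ Λ ^ (s / 2)) (hc1 : c1 ≤ Λ ^ (a / 2)) :
    wp ≤ up ∧ uc ≤ up ∧ B4 * wp ^ 2 ≤ up ∧ c1 ≤ uc ∧ wp ^ 2 ≤ κ0 := by
  have hΛ0 : 0 < Λ := by linarith
  have w1 : wp ≤ Λ ^ (a / 2 + s) := (Real.logb_le_iff_le_rpow hΛ hwp).1 hσp
  have u1 : Λ ^ (a + 3 * s - s / 16) ≤ up := (Real.le_logb_iff_rpow_le hΛ hup).1 hτp
  have u2 : Λ ^ (a - s / 16) ≤ uc := (Real.le_logb_iff_rpow_le hΛ huc).1 hτc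
  have k1 : Λ ^ (a + 4 * s) ≤ κ0 := (Real.le_logb_iff_rpow_le hΛ hκ0).1 h0
  have w2 : wp ^ 2 ≤ Λ ^ (a + 2 * s) := by
    calc wp ^ 2 ≤ (Λ ^ (a / 2 + s)) ^ 2 := pow_le_pow_left₀ hwp.le w1 2
      _ = Λ ^ (a + 2 * s) := by
          rw [← Real.rpow_natCast, ← Real.rpow_mul hΛ0.le]
          congr 1
          push_cast
          ring
  refine ⟨?_, ?_, ?_, ?_, ?_⟩
  · exact (Real.logb_le_logb hΛ hwp hup).1 (by linarith)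
  · exact (Real.logb_le_logb hΛ huc hup).1 (by linarith)
  · calc B4 * wp ^ 2 ≤ Λ ^ (s / 2) * Λ ^ (a + 2 * s) := mul_le_mul hB w2 (by positivity) (Real.rpow_pos_of_pos hΛ0 _).le
      _ = Λ ^ (s / 2 + (a + 2 * s)) := (Real.rpow_add hΛ0 _ _).symm
      _ ≤ Λ ^ (a + 3 * s - s / 16) := Real.rpow_le_rpow_of_exponent_le hΛ.le (by linarith)
      _ ≤ up := u1
  · exact (hc1.trans (Real.rpow_le_rpow_of_exponent_le hΛ.le (by linarith))).trans u2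
  · exact (w2.trans (Real.rpow_le_rpow_of_exponent_le hΛ.le (by linarith))).trans k1

/-- **LEAF L-257-MX-N2: the loss is a subpower.**   REALS ONLY.
PLAN.  LHS `= [C₁ (2 · 2^(n+1) · 48^6 · 8^(n+3) · 6^(n+3) · 16^4 · 4^(n+1) · 10 · (n+1))] K^((ℓ+8)(n+1)+7) · Ko^12` (`field_simp`, `ring`; `(2 K^(ℓ+8))^(n+1) = 2^(n+1) K^((ℓ+8)(n+1))`: `mul_pow`, `← pow_mul`), `Ko^12 ≤ (Λ^(β/24))^12 = Λ^(β/2)` (`pow_le_pow_left₀`, `← Real.rpow_natCast`, `← Real.rpow_mul`), `Λ^(β/2) Λ^(β/2) = Λ^β` (`← Real.rpow_add`). -/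
theorem fmx_loss (n ℓ : ℕ) {C₁ Λ K Ko β : ℝ} (hC₁ : 0 ≤ C₁) (hΛ : 1 < Λ) (hK : 2 ≤ K) (hKo : 0 < Ko)
    (h1 : C₁ * (2 * 2 ^ (n + 1) * 48 ^ 6 * 8 ^ (n + 3) * 6 ^ (n + 3) * 16 ^ 4 * 4 ^ (n + 1) * 10 * ((n : ℝ) + 1)) * K ^ ((ℓ + 8) * (n + 1) + 7) ≤ Λ ^ (β / 2))
    (h2 : Ko ≤ Λ ^ (β / 24)) :
    C₁ / (((2 * K ^ (ℓ + 8)) ^ (n + 1))⁻¹ / 2) * (48 * K) ^ 6 * (8 ^ (n + 3) * 6 ^ (n + 3)) * (Ko ^ 8 * (16 * Ko) ^ 4) * (4 ^ (n + 1) * (10 / (1 / (K * ((n : ℝ) + 1))))) ≤ Λ ^ β := by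
  have hΛ0 : 0 < Λ := by linarith
  have hK0 : 0 < K := by linarith
  have hn : (0 : ℝ) < (n : ℝ) + 1 := by positivity
  have e : C₁ / (((2 * K ^ (ℓ + 8)) ^ (n + 1))⁻¹ / 2) * (48 * K) ^ 6 * (8 ^ (n + 3) * 6 ^ (n + 3)) * (Ko ^ 8 * (16 * Ko) ^ 4) * (4 ^ (n + 1) * (10 / (1 / (K * ((n : ℝ) + 1)))))
      = C₁ * (2 * 2 ^ (n + 1) * 48 ^ 6 * 8 ^ (n + 3) * 6 ^ (n + 3) * 16 ^ 4 * 4 ^ (n + 1) * 10 * ((n : ℝ) + 1)) * K ^ ((ℓ + 8) * (n + 1) + 7) * Ko ^ 12 := by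
    have e1 : C₁ / (((2 * K ^ (ℓ + 8)) ^ (n + 1))⁻¹ / 2) = C₁ * (2 * (2 * K ^ (ℓ + 8)) ^ (n + 1)) := by
      field_simp
    have e2 : (10 : ℝ) / (1 / (K * ((n : ℝ) + 1))) = 10 * (K * ((n : ℝ) + 1)) := by
      field_simp
    rw [e1, e2]
    ring
  rw [e]
  have h3 : Ko ^ 12 ≤ Λ ^ (β / 2) := by
    calc Ko ^ 12 ≤ (Λ ^ (β / 24)) ^ 12 := pow_le_pow_left₀ hKo.le h2 12
      _ = Λ ^ (β / 2) := by
          rw [← Real.rpow_natCast, ← Real.rpow_mul hΛ0.le]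
          congr 1
          push_cast
          ring
  calc _ ≤ Λ ^ (β / 2) * Λ ^ (β / 2) := mul_le_mul h1 h3 (by positivity) (Real.rpow_pos_of_pos hΛ0 _).le
    _ = Λ ^ β := by
        rw [← Real.rpow_add hΛ0]
        congr 1
        ring

theorem fmx_num_term {Λ w r A q : ℝ} (m : ℕ) (hw : 0 < w) (hr : 0 < r) (hA : 0 < A) :
    Real.logb Λ (w ^ m * (r / A) ^ q) = m * Real.logb Λ w + q * (Real.logb Λ r - Real.logb Λ A) := by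
  have h1 : 0 < r / A := div_pos hr hA
  rw [Real.logb_mul (pow_pos hw m).ne' (Real.rpow_pos_of_pos h1 q).ne', Real.logb_pow, Real.logb_rpow_eq_mul_logb_of_pos h1,
    Real.logb_div hr.ne' hA.ne']

theorem fmx_num_fac (n : ℕ) {Λ s wp wc uc L c1 r0 : ℝ} (hwp : 0 < wp) (hwc : 0 < wc) (huc : 0 < uc)
    (hL : 0 ≤ L) (hc1 : 0 ≤ c1) (hc1u : c1 ≤ uc) (hr0 : 0 < r0) (hr01 : r0 ≤ 1)
    (c1' : wc ≤ wp) (c2' : wp ≤ uc) (c3' : wc ^ 2 ≤ uc) (hloss : L * (4 ^ (n + 1) * (10 / r0)) ≤ Λ ^ (s / 2)) :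
    L * ((2 * wp / wc + 2) ^ (n + 1) * (2 * (wp + uc + 2 * c1) / (r0 * wc ^ 2) + 2)) ≤ Λ ^ (s / 2) * ((wp / wc) ^ (n + 1) * (uc / wc ^ 2)) := by
  have hden : 0 < r0 * wc ^ 2 := by positivity
  have c4' : r0 * wc ^ 2 ≤ uc := by
    calc r0 * wc ^ 2 ≤ 1 * wc ^ 2 := by gcongr
      _ = wc ^ 2 := one_mul _
      _ ≤ uc := c3'
  have d1 : 2 * wp / wc + 2 ≤ 4 * (wp / wc) := by
    have h1 : 1 ≤ wp / wc := (one_le_div hwc).2 c1'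
    have e : 2 * wp / wc = 2 * (wp / wc) := by ring
    rw [e]
    linarith
  have d2 : 2 * (wp + uc + 2 * c1) / (r0 * wc ^ 2) + 2 ≤ 10 / r0 * (uc / wc ^ 2) := by
    have h1 : 1 ≤ uc / (r0 * wc ^ 2) := (one_le_div hden).2 c4'
    have h2 : 2 * (wp + uc + 2 * c1) / (r0 * wc ^ 2) ≤ 2 * (4 * uc) / (r0 * wc ^ 2) := by
      gcongr
      linarith
    have e : 10 / r0 * (uc / wc ^ 2) = 10 * (uc / (r0 * wc ^ 2)) := by
      field_simp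
    have e2 : 2 * (4 * uc) / (r0 * wc ^ 2) = 8 * (uc / (r0 * wc ^ 2)) := by ring
    rw [e]
    rw [e2] at h2
    linarith
  have hW0 : 0 < (wp / wc) ^ (n + 1) * (uc / wc ^ 2) := by positivity
  calc L * ((2 * wp / wc + 2) ^ (n + 1) * (2 * (wp + uc + 2 * c1) / (r0 * wc ^ 2) + 2))
      ≤ L * ((4 * (wp / wc)) ^ (n + 1) * (10 / r0 * (uc / wc ^ 2))) := by
        have p1 : 0 ≤ 2 * wp / wc + 2 := by positivity
        have p2 : 0 ≤ 2 * (wp + uc + 2 * c1) / (r0 * wc ^ 2) + 2 := by positivity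
        gcongr
    _ = L * (4 ^ (n + 1) * (10 / r0)) * ((wp / wc) ^ (n + 1) * (uc / wc ^ 2)) := by
        rw [mul_pow]
        ring
    _ ≤ Λ ^ (s / 2) * ((wp / wc) ^ (n + 1) * (uc / wc ^ 2)) := mul_le_mul_of_nonneg_right hloss hW0.le

theorem fmx_num_log (n : ℕ) {Λ s q wp wc up uc rp' rc' rp rc A A' : ℝ} (hΛ : 1 < Λ)
    (hwp : 0 < wp) (hwc : 0 < wc) (hup : 0 < up) (huc : 0 < uc) (hrp' : 0 < rp') (hrc' : 0 < rc') (hrp : 0 < rp) (hrc : 0 < rc) (hA : 0 < A) (hA' : 0 < A')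
    (hI2 : wp ^ (n + 1 + 2) * (rp' / A') ^ q * (uc ^ (n + 1 + 2) * (rc / A) ^ q) ≤
      Λ ^ (s / 2) * ((wp / wc) ^ (n + 1) * (uc / wc ^ 2)) * (wc ^ (n + 1 + 2) * (rc' / A') ^ q * (up ^ (n + 1 + 2) * (rp / A) ^ q))) :
    ((n + 1 + 2 : ℕ) : ℝ) * Real.logb Λ wp + q * (Real.logb Λ rp' - Real.logb Λ A') + (((n + 1 + 2 : ℕ) : ℝ) * Real.logb Λ uc + q * (Real.logb Λ rc - Real.logb Λ A)) ≤
      s / 2 + (((n + 1 : ℕ) : ℝ) * (Real.logb Λ wp - Real.logb Λ wc) + (Real.logb Λ uc - ((2 : ℕ) : ℝ) * Real.logb Λ wc)) +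
        (((n + 1 + 2 : ℕ) : ℝ) * Real.logb Λ wc + q * (Real.logb Λ rc' - Real.logb Λ A') + (((n + 1 + 2 : ℕ) : ℝ) * Real.logb Λ up + q * (Real.logb Λ rp - Real.logb Λ A))) := by
  have hΛ0 : 0 < Λ := by linarith
  have hW0 : 0 < (wp / wc) ^ (n + 1) * (uc / wc ^ 2) := by positivity
  have hT1 : 0 < wp ^ (n + 1 + 2) * (rp' / A') ^ q := mul_pos (pow_pos hwp _) (Real.rpow_pos_of_pos (div_pos hrp' hA') q)
  have hT2 : 0 < uc ^ (n + 1 + 2) * (rc / A) ^ q := mul_pos (pow_pos huc _) (Real.rpow_pos_of_pos (div_pos hrc hA) q)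
  have hT3 : 0 < wc ^ (n + 1 + 2) * (rc' / A') ^ q := mul_pos (pow_pos hwc _) (Real.rpow_pos_of_pos (div_pos hrc' hA') q)
  have hT4 : 0 < up ^ (n + 1 + 2) * (rp / A) ^ q := mul_pos (pow_pos hup _) (Real.rpow_pos_of_pos (div_pos hrp hA) q)
  have hlog := Real.logb_le_logb_of_le hΛ (mul_pos hT1 hT2) hI2
  have eL : Real.logb Λ (wp ^ (n + 1 + 2) * (rp' / A') ^ q * (uc ^ (n + 1 + 2) * (rc / A) ^ q)) =
      ((n + 1 + 2 : ℕ) : ℝ) * Real.logb Λ wp + q * (Real.logb Λ rp' - Real.logb Λ A') + (((n + 1 + 2 : ℕ) : ℝ) * Real.logb Λ uc + q * (Real.logb Λ rc - Real.logb Λ A)) := by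
    rw [Real.logb_mul hT1.ne' hT2.ne', fmx_num_term _ hwp hrp' hA', fmx_num_term _ huc hrc hA]
  have eW : Real.logb Λ ((wp / wc) ^ (n + 1) * (uc / wc ^ 2)) =
      ((n + 1 : ℕ) : ℝ) * (Real.logb Λ wp - Real.logb Λ wc) + (Real.logb Λ uc - ((2 : ℕ) : ℝ) * Real.logb Λ wc) := by
    rw [Real.logb_mul (pow_pos (div_pos hwp hwc) _).ne' (div_pos huc (pow_pos hwc 2)).ne', Real.logb_pow, Real.logb_div hwp.ne' hwc.ne',
      Real.logb_div huc.ne' (pow_pos hwc 2).ne', Real.logb_pow]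
  have eR : Real.logb Λ (wc ^ (n + 1 + 2) * (rc' / A') ^ q * (up ^ (n + 1 + 2) * (rp / A) ^ q)) =
      ((n + 1 + 2 : ℕ) : ℝ) * Real.logb Λ wc + q * (Real.logb Λ rc' - Real.logb Λ A') + (((n + 1 + 2 : ℕ) : ℝ) * Real.logb Λ up + q * (Real.logb Λ rp - Real.logb Λ A)) := by
    rw [Real.logb_mul hT3.ne' hT4.ne', fmx_num_term _ hwc hrc' hA', fmx_num_term _ hup hrp hA]
  rw [eL, Real.logb_mul (mul_pos (Real.rpow_pos_of_pos hΛ0 _) hW0).ne' (mul_pos hT3 hT4).ne', Real.logb_mul (Real.rpow_pos_of_pos hΛ0 _).ne' hW0.ne',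
    eW, eR, Real.logb_rpow hΛ0 hΛ.ne'] at hlog
  exact hlog

theorem fmx_num_lin {a s q kr σp σc τp τc x1 x2 x3 x4 y1 y2 : ℝ} (hs : 0 < s) (hq0 : 0 < q) (hq6 : q ≤ 6) (hqk : q * (kr / 2) = kr + 2)
    (hσp : a / 2 + s - s / 16 ≤ σp) (hτc' : τc ≤ a) (hz : |x1 - x2| ≤ s / 24) (hf : |x4 - x3 + kr / 2 * (τc - τp)| ≤ s / 24)
    (hlog : (kr + 2) * σp + q * (x1 - y2) + ((kr + 2) * τc + q * (x4 - y1)) ≤
      s / 2 + (kr * (σp - σc) + (τc - 2 * σc)) + ((kr + 2) * σc + q * (x2 - y2) + ((kr + 2) * τp + q * (x3 - y1)))) : False := by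
  have hz1 := (abs_le.1 hz).1
  have hf1 := (abs_le.1 hf).1
  have m1 : -(s / 4) ≤ q * (x1 - x2) := by
    have h1 : q * (-(s / 24)) ≤ q * (x1 - x2) := mul_le_mul_of_nonneg_left hz1 hq0.le
    have h2 : q * (s / 24) ≤ 6 * (s / 24) := mul_le_mul_of_nonneg_right hq6 (by positivity)
    linarith
  have m2 : -(s / 4) ≤ q * (x4 - x3) + (kr + 2) * (τc - τp) := by
    have h1 : q * (-(s / 24)) ≤ q * (x4 - x3 + kr / 2 * (τc - τp)) := mul_le_mul_of_nonneg_left hf1 hq0.le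
    have h2 : q * (s / 24) ≤ 6 * (s / 24) := mul_le_mul_of_nonneg_right hq6 (by positivity)
    have e : q * (x4 - x3 + kr / 2 * (τc - τp)) = q * (x4 - x3) + (q * (kr / 2)) * (τc - τp) := by ring
    rw [e, hqk] at h1
    linarith
  have e3 : 2 * σp + q * (x1 - x2) + (q * (x4 - x3) + (kr + 2) * (τc - τp)) ≤ s / 2 + τc := by
    linarith
  linarith

/-- **LEAF L-257-MX-N3: THE COUNT.**   REALS ONLY.   `k = n + 1`, `q = qk k = 2 (k+2)/k`, `2 < q ≤ 6` (`ffa_qk`), `q k/2 = k + 2`.   Notation `lg = logb Λ`, `σp = lg wp`, `σc = lg wc`, `τp = lg up`, `τc = lg uc`.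
PLAN.  (1) `wc ≤ wp ≤ uc`, `r0 wc² ≤ wc² ≤ uc` (logs: `σc ≤ a/2 - s ≤ σp`, `σp ≤ a/2 + s ≤ a - s/16 ≤ τc`, `2 σc ≤ a - 2s ≤ τc`), so `2 wp/wc + 2 ≤ 4 wp/wc` and `2 (wp + uc + 2 c1)/(r0 wc²) + 2 ≤ 10 uc/(r0 wc²)`.
(2) So `LHS ≤ [L 4^k (10/r0)] (wp/wc)^k (uc/wc²) (…) ≤ Λ^(s/2) (wp/wc)^k (uc/wc²) (…)`.   (3) Take `lg` (`Real.logb_le_logb`, all factors `> 0`; `Real.logb_mul`, `Real.logb_pow`, `Real.logb_rpow_eq_mul_logb_of_pos`, `Real.logb_div`, `Real.logb_rpow`):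
`(k+2) σp + q (lg rp' - lg A') + (k+2) τc + q (lg rc - lg A) ≤ s/2 + k (σp - σc) + τc - 2 σc + (k+2) σc + q (lg rc' - lg A') + (k+2) τp + q (lg rp - lg A)`, i.e.
`2 σp + q (lg rp' - lg rc') + [(k+2)(τc - τp) + q (lg rc - lg rp)] ≤ s/2 + τc`.   (4) `hz`: `q (lg rp' - lg rc') ≥ - q s/24 ≥ - s/4`;  `hf`: the bracket is `≥ - q s/24 ≥ - s/4` (`q k/2 = k+2`);  `2 σp ≥ a + 2s - s/8`, `τc ≤ a`:   `(11/8) s ≤ s/2`, absurd. -/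
theorem fmx_num (n : ℕ) {Λ a s wp wc up uc rp' rc' rp rc A A' L c1 r0 : ℝ} (hΛ : 1 < Λ) (hs : 0 < s) (hsa : s ≤ a / 8)
    (hwp : 0 < wp) (hwc : 0 < wc) (hup : 0 < up) (huc : 0 < uc) (hrp' : 0 < rp') (hrc' : 0 < rc') (hrp : 0 < rp) (hrc : 0 < rc) (hA : 0 < A) (hA' : 0 < A')
    (hL : 0 ≤ L) (hc1 : 0 ≤ c1) (hc1u : c1 ≤ uc) (hr0 : 0 < r0) (hr01 : r0 ≤ 1)
    (hσp : a / 2 + s - s / 16 ≤ Real.logb Λ wp) (hσp' : Real.logb Λ wp ≤ a / 2 + s) (hσc : Real.logb Λ wc ≤ a / 2 - s)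
    (hτc : a - s / 16 ≤ Real.logb Λ uc) (hτc' : Real.logb Λ uc ≤ a)
    (hz : |Real.logb Λ rp' - Real.logb Λ rc'| ≤ s / 24)
    (hf : |Real.logb Λ rc - Real.logb Λ rp + ((n + 1 : ℕ) : ℝ) / 2 * (Real.logb Λ uc - Real.logb Λ up)| ≤ s / 24)
    (hloss : L * (4 ^ (n + 1) * (10 / r0)) ≤ Λ ^ (s / 2))
    (hI : wp ^ (n + 1 + 2) * (rp' / A') ^ qk (n + 1) * (uc ^ (n + 1 + 2) * (rc / A) ^ qk (n + 1)) ≤
      L * ((2 * wp / wc + 2) ^ (n + 1) * (2 * (wp + uc + 2 * c1) / (r0 * wc ^ 2) + 2)) *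
        (wc ^ (n + 1 + 2) * (rc' / A') ^ qk (n + 1) * (up ^ (n + 1 + 2) * (rp / A) ^ qk (n + 1)))) : False := by
  obtain ⟨q, hq⟩ : ∃ q, q = qk (n + 1) := ⟨_, rfl⟩
  rw [← hq] at hI
  have hkr : (0 : ℝ) < ((n + 1 : ℕ) : ℝ) := by positivity
  have hqk : q * (((n + 1 : ℕ) : ℝ) / 2) = ((n + 1 : ℕ) : ℝ) + 2 := by
    rw [hq]
    show 2 * (((n + 1 : ℕ) : ℝ) + 2) / ((n + 1 : ℕ) : ℝ) * (((n + 1 : ℕ) : ℝ) / 2) = _
    field_simp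
  have hq0 : 0 < q := by
    rw [hq]
    show 0 < 2 * (((n + 1 : ℕ) : ℝ) + 2) / ((n + 1 : ℕ) : ℝ)
    positivity
  have hq6 : q ≤ 6 := by
    rw [hq]
    show 2 * (((n + 1 : ℕ) : ℝ) + 2) / ((n + 1 : ℕ) : ℝ) ≤ 6
    rw [div_le_iff₀ hkr]
    have h1 : (1 : ℝ) ≤ ((n + 1 : ℕ) : ℝ) := by
      push_cast
      have : (0 : ℝ) ≤ n := Nat.cast_nonneg n
      linarith
    linarith
  have c1' : wc ≤ wp := (Real.logb_le_logb hΛ hwc hwp).1 (by linarith)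
  have c2' : wp ≤ uc := (Real.logb_le_logb hΛ hwp huc).1 (by linarith)
  have c3' : wc ^ 2 ≤ uc := by
    refine (Real.logb_le_logb hΛ (by positivity) huc).1 ?_
    rw [Real.logb_pow]
    push_cast
    linarith
  have hR0 : 0 ≤ wc ^ (n + 1 + 2) * (rc' / A') ^ q * (up ^ (n + 1 + 2) * (rp / A) ^ q) := by
    have h1 := Real.rpow_pos_of_pos (div_pos hrc' hA') q
    have h2 := Real.rpow_pos_of_pos (div_pos hrp hA) q
    positivity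
  have hI2 := hI.trans (mul_le_mul_of_nonneg_right (fmx_num_fac n hwp hwc huc hL hc1 hc1u hr0 hr01 c1' c2' c3' hloss) hR0)
  have hlog := fmx_num_log n hΛ hwp hwc hup huc hrp' hrc' hrp hrc hA hA' hI2
  have hcast : ((n + 1 + 2 : ℕ) : ℝ) = ((n + 1 : ℕ) : ℝ) + 2 := by
    push_cast
    ring
  rw [hcast] at hlog
  exact fmx_num_lin hs hq0 hq6 hqk hσp hτc' hz hf (by exact_mod_cast hlog)

end

end Claimed.Agent.R257.FR3
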