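import Claimed.Agent.R257.FR3.MidX3

/-!
# ROW 257, package FR3, unit MID-X (cross-field halving), file 4: EXIT `fmx_testX : GTestX' k`      (architect helper245)

GLUE ONLY (no own `sorry`).   `GTestX' k` = `GTestX k` (`FR3/TopDefs.lean`) with the additional hypothesis `F.PowX` (`FR3/MidX2.lean`).
-/

set_option autoImplicit false

namespace Claimed.Agent.R257.FR3

open scoped BigOperators
open Classical
open Claimed.Agent.R255 Claimed.Agent.R255.FLaw Claimed.Agent.R257 Claimed.Agent.R257.FR2 Claimed.Agent.R257.Tree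

noncomputable section

/-- **(X)** with the two facts `PowX` of the power case as a hypothesis -/
def GTestX' (k : ℕ) : Prop :=
  ∀ (o : TOrd) (a : ℝ), 0 < a → a < 1 → ∃ e0 V s0 : ℝ, 0 < e0 ∧ 0 < V ∧ 0 < s0 ∧ ∀ s, 0 < s → s < s0 → ∃ μ0 : ℝ, 0 < μ0 ∧
    ∀ (c : TCls k) (cx : ℕ), ordOf c = o → ∃ m0 : ℕ, ∀ F : FCfg k, F.c = c → F.cx = cx → F.Ok m0 → F.Pow → F.PowX → ∀ j j', j ≠ j' →
      F.Mesh j μ0 μ0 (a + V * s) → F.Mesh j' μ0 μ0 (a + V * s) → F.Off j a (V * s) → F.Off j' (a / 2) (V * s) →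
      ¬ (F.Aff j a ((k : ℝ) / 2) (V * s) (e0 * s) ∧ F.Aff j' (a / 2) 0 (V * s) (e0 * s))

theorem fmx_eqns_cite4 : True := by
  have := @GTestX'.eq_1
  trivial

variable {n : ℕ}

/-- the far paths are negligible (as in `fl3_path`) -/
theorem fmx_delta {F : FCfg (n + 1)} {m : ℕ} (h : F.Ok m) (hm : 1 ≤ m) {Cg : ℝ} (hCg : 1 ≤ Cg) (i : Fin (n + 2)) (hgeo : (F.D i).geo.Ok ((F.D i).gp Cg))
    (H1 : (1 + (F.D i).G F.c.ℓ / 2) ^ (-(F.c.Q - F.c.P)) * (((F.c.ℓ : ℝ) + Cg) * F.K) ≤ ((2 * F.K ^ (F.c.ℓ + 8)) ^ (n + 1))⁻¹ / 2) :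
    ((F.D i).gp Cg).δ * ((F.c.ℓ : ℝ) * (F.tp i).ϖ0 + ((F.D i).gp Cg).ϖb) ≤ fmxϖ F / 2 := by
  obtain ⟨-, -, -, s4⟩ := fl3_F_sizes h hm i
  refine le_trans (mul_le_mul_of_nonneg_left ?_ hgeo.δ_nonneg) H1
  show (F.c.ℓ : ℝ) * (F.tp i).ϖ0 + Cg * (F.D i).ϖ ≤ ((F.c.ℓ : ℝ) + Cg) * F.K
  have a1 := h.ϖ0_le i
  have a2 : (0 : ℝ) ≤ F.c.ℓ := Nat.cast_nonneg _
  nlinarith

/-- **the grid-level test (X)**, with `PowX` -/
theorem fmx_testX (k : ℕ) : GTestX' k := by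
  intro o a ha ha1
  refine ⟨1 / 24, 4, a / 8, by norm_num, by norm_num, by positivity, fun s hs hsa => ⟨s / 16, by positivity, fun c cx hco => ?_⟩⟩
  by_cases hc : c.Ok
  swap
  · exact ⟨0, fun F hFc _ h => absurd (hFc ▸ h.cls) hc⟩
  obtain ⟨n, rfl⟩ : ∃ n, k = n + 1 := ⟨k - 1, by have := hc.k_pos; omega⟩
  obtain ⟨Cg, hCg, Hg⟩ := ti_geo_ok hc
  obtain ⟨Ck, hCk, Hdom⟩ := fmx_ar_dom hc
  have hd : 0 < c.Q - c.P := by linarith [hc.P_lt]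
  have hQ0 : 0 ≤ c.Q := by
    have : (0 : ℝ) ≤ ((n + 1 : ℕ) : ℝ) := Nat.cast_nonneg _
    linarith [hc.P_gt, hc.P_lt]
  have hB := fmx_B_nonneg hc
  have hMv := fmx_Mv_nonneg hc
  obtain ⟨m1, H1⟩ := fl3_num_delta c.ℓ (n + 1) (c.Q - c.P) Cg hd hCg
  obtain ⟨m2, H2⟩ := fl3_num_Ko c.ℓ (n + 1) (2 * c.Q) Cg (s / 2 / 24) (by linarith) hCg (by positivity)
  obtain ⟨m3, H3⟩ := ffa_small (Cg ^ c.ℓ * Ck * (1 + fmxMv c) ^ c.Q * (2 * 2 ^ (n + 1) * 48 ^ 6 * 8 ^ (n + 3) * 6 ^ (n + 3) * 16 ^ 4 * 4 ^ (n + 1) * 10 * ((n : ℝ) + 1)))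
    (s / 2 / 2) ((c.ℓ + 8) * (n + 1) + 7) (by positivity)
  obtain ⟨m4, H4⟩ := ffa_small (4 * fmxB c) (s / 2) 0 (by positivity)
  obtain ⟨m5, H5⟩ := ffa_small (((n : ℝ) + 2) * (1 + 2 * fmxB c)) (a / 2) 0 (by positivity)
  refine ⟨m1 + m2 + m3 + m4 + m5 + c.ℓ + 1, fun F hFc _ h hP hX j j' hj hM hM' _ _ hAA => ?_⟩
  obtain ⟨hA, hA'⟩ := hAA
  subst hFc
  set m := m1 + m2 + m3 + m4 + m5 + F.c.ℓ + 1 with hm
  have hΛ1 : 1 < F.Λ := ft_one_lt_Λ h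
  have hK2 := h.two_le_K
  have hK0 : 0 < F.K := by linarith
  have hKm : F.K ^ m ≤ F.Λ := ft_K_le h (by omega)
  have hgeo : ∀ i, (F.D i).geo.Ok ((F.D i).gp Cg) := fun i => Hg Cg le_rfl (F.D i) (h.good i)
  have hδ : ∀ i, ((F.D i).gp Cg).δ * ((F.c.ℓ : ℝ) * (F.tp i).ϖ0 + ((F.D i).gp Cg).ϖb) ≤ fmxϖ F / 2 := fun i =>
    fmx_delta h (by omega) hCg i (hgeo i) (H1 m (by omega) F.K ((F.D i).G F.c.ℓ) hK2 (h.K_G i))
  -- the nodes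
  have hsκ : ∀ i l, F.s i l = Real.logb F.Λ ((F.D i).κ l) := by
    intro i l
    unfold FCfg.s
    rw [hP.κr_one, div_one]
  have hμ : (0 : ℝ) ≤ s / 16 := by positivity
  obtain ⟨ip, hip, hip1, hip2⟩ := fmx_node hμ hM' (x := a / 2 + s) (by linarith) (by linarith)
  obtain ⟨ic, hic, hic1, hic2⟩ := fmx_node hμ hM' (x := a / 2 - s) (by linarith) (by linarith)
  obtain ⟨jp, hjp, hjp1, hjp2⟩ := fmx_node hμ hM (x := a + 3 * s) (by linarith) (by linarith)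
  obtain ⟨jc, hjc, hjc1, hjc2⟩ := fmx_node hμ hM (x := a) (by linarith) (by linarith)
  have hz := hA' ic ip hic hip (by rw [abs_le]; constructor <;> linarith) (by rw [abs_le]; constructor <;> linarith)
  have hf := hA jp jc hjp hjc (by rw [abs_le]; constructor <;> linarith) (by rw [abs_le]; constructor <;> linarith)
  have h0 := hM.2.2
  rw [hsκ] at hip1 hip2 hic1 hic2 hjp1 hjp2 hjc1 hjc2 h0
  rw [hsκ, hsκ] at hf
  rw [zero_mul, add_zero] at hz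
  have hκ : ∀ i l, 0 < (F.D i).κ l := fun i l => (F.D i).κ_pos (h.good i) l
  -- the widths
  have hB4 : 4 * fmxB F.c ≤ F.Λ ^ (s / 2) := by
    have := H4 m (by omega) F.Λ F.K h.Λ_ge hK2 hKm
    rwa [pow_zero, mul_one] at this
  have hc1 : ((n : ℝ) + 2) * (1 + 2 * fmxB F.c) ≤ F.Λ ^ (a / 2) := by
    have := H5 m (by omega) F.Λ F.K h.Λ_ge hK2 hKm
    rwa [pow_zero, mul_one] at this
  obtain ⟨w1, w2, w3, w4, w5⟩ := fmx_num_wid hΛ1 hs hsa.le (hκ j' ip) (hκ j jp) (hκ j jc) (hκ j 0) (by positivity) hip2 hjp1 hjc1 hjc2 h0 hB4 hc1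
  -- the inequality
  have hI := fmx_ineq h (by omega) hX hj hCg hCk hgeo hδ (fun q ω => Hdom F m rfl h j Cg (hgeo j) q ω) hip hic hjp hjc w1 w2 w3 (w4.trans w2) w5
  -- the loss
  obtain ⟨s1, s2, -, -⟩ := fl3_F_sizes h (by omega) j
  have hKo : fmxKo F Cg ≤ F.Λ ^ (s / 2 / 24) := H2 m (by omega) F.Λ F.K F.Go F.Go h.Λ_ge hK2 (s1.trans s2) le_rfl h.Go_Λ
  have hKo0 : 0 < fmxKo F Cg := by
    have hGo : 0 < F.Go := by linarith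
    have hCg0 : 0 < Cg := by linarith
    unfold fmxKo fl3Ko
    positivity
  have hloss := fmx_loss n F.c.ℓ (C₁ := Cg ^ F.c.ℓ * Ck * (1 + fmxMv F.c) ^ F.c.Q) (β := s / 2) (by positivity) hΛ1 hK2 hKo0
    (H3 m (by omega) F.Λ F.K h.Λ_ge hK2 hKm) hKo
  have hr : ∀ i l, 0 < F.r i l := fun i l => (h.frozen i).r_pos l
  have hAp : ∀ i, 0 < F.A i := fun i => by linarith [h.one_le_A i]
  refine fmx_num n hΛ1 hs hsa.le (hκ j' ip) (hκ j' ic) (hκ j jp) (hκ j jc) (hr j' ip) (hr j' ic) (hr j jp) (hr j jc) (hAp j) (hAp j')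
    (L := fmxL F Cg Ck) ?_ (c1 := ((n : ℝ) + 2) * (1 + 2 * fmxB F.c)) (by positivity) w4 (r0 := 1 / (F.K * ((n : ℝ) + 1))) (by positivity) ?_
    hip1 hip2 hic2 hjc1 hjc2 ?_ ?_ hloss hI
  · unfold fmxL
    have := fmx_ϖ_pos h
    positivity
  · rw [div_le_one (by positivity)]
    have : (0 : ℝ) ≤ n := Nat.cast_nonneg n
    nlinarith
  · refine hz.trans (le_of_eq ?_)
    ring
  · refine hf.trans (le_of_eq ?_)
    ring

/-- **EXIT: THE GRID-LEVEL TEST (X)**, literally `GTestX k` of `FR3/TopDefs.lean` (`PowX` = `FCfg.Ok.trans0` + `FCfg.Pow.env0`) -/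
theorem fmx_gtestX (k : ℕ) : GTestX k := by
  intro o _ a ha ha1
  obtain ⟨e0, V, s0, he0, hV, hs0, H⟩ := fmx_testX k o a ha ha1
  refine ⟨e0, V, s0, he0, hV, hs0, fun s hs hss => ?_⟩
  obtain ⟨μ0, hμ0, H2⟩ := H s hs hss
  refine ⟨μ0, hμ0, fun c cx hco => ?_⟩
  obtain ⟨m0, H3⟩ := H2 c cx hco
  exact ⟨m0, fun F hFc hcx h hP => H3 F hFc hcx h hP ⟨h.trans0, hP.env0⟩⟩

end

end Claimed.Agent.R257.FR3
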