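import Claimed.Agent.R257.FR3.EntKit

/-!
# ROW 257, package FR3, file `Redraw`: CONDITIONALLY INDEPENDENT REDRAWS OF A DIRECTION      (architect helper121)

PAPER-FREE.  `P` = joint law of a point `x : 𝒳` and a direction `θ : 𝒯`.   `rdLaw P d` = law of `(x, θ_0, …, θ_{d-1})`, the `θ_j` i.i.d. given `x` with the conditional law `P(θ | x)`
(H frame.tex l.1292 "Draw k+1 directions conditionally independently").   Prefix `rd_`.
-/

set_option autoImplicit false

namespace Claimed.Agent.R257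

open scoped BigOperators
open Classical
open Claimed.Agent.R255 Claimed.Agent.R255.FLaw

variable {𝒳 𝒯 : Type} [Fintype 𝒳] [Fintype 𝒯] {γ : Type}

/-- the marginal of the point -/
noncomputable def rdM (P : FLaw (𝒳 × 𝒯)) (x : 𝒳) : ℝ := ∑ θ, P.p (x, θ)

theorem rd_M_nonneg (P : FLaw (𝒳 × 𝒯)) (x : 𝒳) : 0 ≤ rdM P x := Finset.sum_nonneg fun θ _ => P.nonneg _

theorem rd_M_sum (P : FLaw (𝒳 × 𝒯)) : ∑ x, rdM P x = 1 := by
  unfold rdM
  rw [← Fintype.sum_prod_type']
  exact P.sum_one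

/-- the weights of the redraw law -/
noncomputable def rdW (P : FLaw (𝒳 × 𝒯)) (d : ℕ) (y : 𝒳 × (Fin d → 𝒯)) : ℝ := rdM P y.1 * ∏ j, (P.p (y.1, y.2 j) / rdM P y.1)

theorem rd_W_sum_fibre (P : FLaw (𝒳 × 𝒯)) (d : ℕ) (x : 𝒳) : ∑ θ : Fin d → 𝒯, rdW P d (x, θ) = rdM P x := by
  unfold rdW
  simp only
  rw [← Finset.mul_sum]
  have h := (Finset.prod_univ_sum (fun _ : Fin d => (Finset.univ : Finset 𝒯)) (fun _ θ => P.p (x, θ) / rdM P x)).symm
  rw [Fintype.piFinset_univ] at h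
  rw [h]
  by_cases h0 : rdM P x = 0
  · rw [h0, zero_mul]
  · have : ∑ θ, P.p (x, θ) / rdM P x = 1 := by
      rw [← Finset.sum_div]; exact div_self h0
    simp [this]

/-- the law of the point with `d` i.i.d. redraws of the direction -/
noncomputable def rdLaw (P : FLaw (𝒳 × 𝒯)) (d : ℕ) : FLaw (𝒳 × (Fin d → 𝒯)) where
  p := rdW P d
  nonneg := fun y => mul_nonneg (rd_M_nonneg P _) (Finset.prod_nonneg fun j _ => div_nonneg (P.nonneg _) (rd_M_nonneg P _))
  sum_one := by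
    rw [Fintype.sum_prod_type]
    simp only [rd_W_sum_fibre, rd_M_sum]

/-- `P.p (x, t) = 0` where the marginal vanishes -/
theorem rd_p_eq_zero (P : FLaw (𝒳 × 𝒯)) {x : 𝒳} (h : rdM P x = 0) (t : 𝒯) : P.p (x, t) = 0 := by
  unfold rdM at h
  exact (Finset.sum_eq_zero_iff_of_nonneg fun θ _ => P.nonneg _).1 h t (Finset.mem_univ t)

/-- the weight with one coordinate split off -/
theorem rd_W_insert (P : FLaw (𝒳 × 𝒯)) (n : ℕ) (j : Fin (n + 1)) (x : 𝒳) (t : 𝒯) (θ : Fin n → 𝒯) :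
    rdW P (n + 1) (x, j.insertNth t θ) = P.p (x, t) * ∏ i, (P.p (x, θ i) / rdM P x) := by
  unfold rdW
  simp only
  rw [Fin.prod_univ_succAbove _ j]
  simp only [Fin.insertNth_apply_same, Fin.insertNth_apply_succAbove]
  by_cases h0 : rdM P x = 0
  · rw [h0, rd_p_eq_zero P h0 t]
    simp
  · field_simp

/-- the sum over the tuples with one coordinate split off -/
theorem rd_sum_split (P : FLaw (𝒳 × 𝒯)) (n : ℕ) (j : Fin (n + 1)) (x : 𝒳) (G : (Fin (n + 1) → 𝒯) → ℝ) :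
    ∑ θ, rdW P (n + 1) (x, θ) * G θ
      = ∑ θ' : Fin n → 𝒯, (∏ i, (P.p (x, θ' i) / rdM P x)) * ∑ t, P.p (x, t) * G (j.insertNth t θ') := by
  rw [← (Fin.insertNthEquiv (fun _ => 𝒯) j).sum_comp, Fintype.sum_prod_type, Finset.sum_comm]
  refine Finset.sum_congr rfl fun θ' _ => ?_
  rw [Finset.mul_sum]
  refine Finset.sum_congr rfl fun t _ => ?_
  show rdW P (n + 1) (x, j.insertNth t θ') * G (j.insertNth t θ') = _
  rw [rd_W_insert]
  ring

theorem rd_prod_sum (P : FLaw (𝒳 × 𝒯)) (n : ℕ) (x : 𝒳) (h0 : rdM P x ≠ 0) :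
    ∑ θ' : Fin n → 𝒯, ∏ i, (P.p (x, θ' i) / rdM P x) = 1 := by
  have h1 : ∑ θ' : Fin n → 𝒯, rdM P x * ∏ i, (P.p (x, θ' i) / rdM P x) = rdM P x := rd_W_sum_fibre P n x
  rw [← Finset.mul_sum] at h1
  apply mul_left_cancel₀ h0
  rw [h1, mul_one]

theorem rd_pr_eq (P : FLaw (𝒳 × 𝒯)) (d : ℕ) (E : 𝒳 × (Fin d → 𝒯) → Prop) :
    (rdLaw P d).pr E = ∑ x, ∑ θ, rdW P d (x, θ) * (if E (x, θ) then 1 else 0) := by
  unfold FLaw.pr
  rw [Fintype.sum_prod_type]
  refine Finset.sum_congr rfl fun x _ => Finset.sum_congr rfl fun θ _ => ?_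
  by_cases h : E (x, θ)
  · rw [if_pos h, if_pos h, mul_one]
    rfl
  · rw [if_neg h, if_neg h, mul_zero]

theorem rd_fib_fst {S : Type} [Fintype S] (R : FLaw (𝒳 × S)) (y : 𝒳 × S) : R.fib Prod.fst y = ∑ s, R.p (y.1, s) := by
  unfold FLaw.fib FLaw.pr
  rw [Fintype.sum_prod_type, Finset.sum_eq_single y.1]
  · simp
  · intro x' _ hx'
    exact Finset.sum_eq_zero fun s _ => if_neg hx'
  · intro h
    exact absurd (Finset.mem_univ _) h

theorem rd_fib_pair {S : Type} [Fintype S] (R : FLaw (𝒳 × S)) (y : 𝒳 × S) : R.fib (pair Prod.snd Prod.fst) y = R.p y := by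
  rw [← ent_fib_id R y]
  unfold FLaw.fib
  refine ent_pr_congr R fun y' _ => ?_
  simp only [pair, Prod.mk.injEq]
  constructor
  · rintro ⟨a, b⟩
    exact Prod.ext b a
  · rintro rfl
    exact ⟨rfl, rfl⟩

theorem rd_surC {S : Type} [Fintype S] (R : FLaw (𝒳 × S)) (y : 𝒳 × S) :
    R.surC Prod.snd Prod.fst y = - Real.log (R.p y / ∑ s, R.p (y.1, s)) := by
  unfold FLaw.surC
  rw [rd_fib_pair, rd_fib_fst]

/-- LEAF `L-F3-R1`  every single redraw has the law `P`.
PLAN.  `ent_law_ext`; `(map φ).p (x,θ) = ∑_{y : y.1 = x ∧ y.2 j = θ} rdW`.  Split the product at `j` (`Fin.prod_univ_succAbove _ j`, re-index `Fin d → 𝒯` by `Fin.insertNthEquiv`/`Equiv.piFinSuccAbove`; `d = d' + 1` since `j` exists),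
the sum over the other coordinates is `1` as in `rd_W_sum_fibre` (if `rdM P x = 0` then `P.p (x,θ) = 0`, both sides vanish). -/
theorem rd_map (P : FLaw (𝒳 × 𝒯)) (d : ℕ) (j : Fin d) : (rdLaw P d).map (fun y => (y.1, y.2 j)) = P := by
  obtain ⟨n, rfl⟩ : ∃ n, d = n + 1 := ⟨d - 1, by have := j.isLt; omega⟩
  refine ent_law_ext _ _ fun ω => ?_
  obtain ⟨x, t₀⟩ := ω
  show (rdLaw P (n + 1)).pr (fun y => (y.1, y.2 j) = (x, t₀)) = P.p (x, t₀)
  rw [rd_pr_eq, Finset.sum_eq_single x]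
  · refine Eq.trans (Finset.sum_congr rfl fun θ _ => ?_)
      (?_ : ∑ θ, rdW P (n + 1) (x, θ) * (if θ j = t₀ then 1 else 0) = P.p (x, t₀))
    · by_cases h : θ j = t₀ <;> simp [h]
    rw [rd_sum_split P n j x (fun θ => if θ j = t₀ then 1 else 0)]
    simp only [Fin.insertNth_apply_same, mul_ite, mul_one, mul_zero, Finset.sum_ite_eq', Finset.mem_univ, if_true]
    rw [← Finset.sum_mul]
    by_cases h0 : rdM P x = 0
    · rw [rd_p_eq_zero P h0 t₀, mul_zero]
    · rw [rd_prod_sum P n x h0, one_mul]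
  · intro x' _ hx'
    refine Finset.sum_eq_zero fun θ _ => ?_
    rw [if_neg, mul_zero]
    intro h
    exact hx' (congrArg Prod.fst h)
  · intro h
    exact absurd (Finset.mem_univ x) h

/-- LEAF `L-F3-R2`  `H(θ_0, …, θ_{d-1} | x) = d H(θ | x)`.
PLAN.  Sampled identity at a point of the support: `fib (pair snd fst) y = rdW y` (`pair snd fst` is injective: `ent_fib_id`-style), `fib fst y = rdM P y.1` (`rd_W_sum_fibre`), so `surC snd fst y = ∑_j - log (P.p (x, θ_j)/rdM P x)`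
(`Real.log_prod`), and `- log (P.p (x,θ)/rdM P x) = P.surC snd fst (x,θ)`.   Take `ev` (`ent_entC_eq_ev`, `ent_ev_sum`), each term by `rd_map` + `ent_map_ev`. -/
theorem rd_entC_dirs (P : FLaw (𝒳 × 𝒯)) (d : ℕ) :
    (rdLaw P d).entC (fun y => y.2) (fun y => y.1) = (d : ℝ) * P.entC Prod.snd Prod.fst := by
  show (rdLaw P d).entC Prod.snd Prod.fst = _
  rw [ent_entC_eq_ev, ent_entC_eq_ev]
  have key : ∀ y, (rdLaw P d).p y ≠ 0 →
      (rdLaw P d).surC Prod.snd Prod.fst y = ∑ j, P.surC Prod.snd Prod.fst (y.1, y.2 j) := by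
    intro y hy
    rw [rd_surC]
    have e1 : ∑ s, (rdLaw P d).p (y.1, s) = rdM P y.1 := rd_W_sum_fibre P d y.1
    rw [e1]
    have hW : rdW P d y ≠ 0 := hy
    have hM : rdM P y.1 ≠ 0 := by
      intro h0
      apply hW
      unfold rdW
      rw [h0, zero_mul]
    have hf : ∀ j, P.p (y.1, y.2 j) / rdM P y.1 ≠ 0 := by
      intro j h0
      apply hW
      unfold rdW
      rw [Finset.prod_eq_zero (Finset.mem_univ j) h0, mul_zero]
    have e2 : (rdLaw P d).p y / rdM P y.1 = ∏ j, (P.p (y.1, y.2 j) / rdM P y.1) := by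
      show rdW P d y / rdM P y.1 = _
      unfold rdW
      rw [mul_div_assoc, mul_comm, div_mul_cancel₀ _ hM]
    rw [e2, Real.log_prod (fun j _ => hf j), ← Finset.sum_neg_distrib]
    refine Finset.sum_congr rfl fun j _ => ?_
    rw [rd_surC]
    rfl
  rw [ent_ev_congr _ key, ent_ev_sum]
  have h1 : ∀ j : Fin d, (rdLaw P d).ev (fun y => P.surC Prod.snd Prod.fst (y.1, y.2 j)) = P.ev (P.surC Prod.snd Prod.fst) := by
    intro j
    rw [← ent_map_ev (rdLaw P d) (fun y => (y.1, y.2 j)) (P.surC Prod.snd Prod.fst), rd_map]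
  rw [Finset.sum_congr rfl fun j _ => h1 j, Finset.sum_const, Finset.card_univ, Fintype.card_fin, nsmul_eq_mul]

/-- LEAF `L-F3-R3`  the redraws together carry at most `d` times the information of one direction about the point inside a cell `Q`.
PLAN.  `I(x ; θ⃗ | Q) = H(θ⃗ | Q) - H(θ⃗ | x, Q)` (`ent_miC_comm`, `ent_miC_eq`); `H(θ⃗ | x, Q) = H(θ⃗ | x)` (`ent_entC_congr`) `= d H(θ | x)` (`rd_entC_dirs`); `H(θ⃗ | Q) ≤ ∑_j H(θ_j | Q)` (`ek_pi_le`), each `= P.entC snd (Q ∘ fst)`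
(`rd_map`, `ent_map_entC`);  and `P.miC fst snd Q = H(θ|Q) - H(θ|x)` in the same way. -/
theorem rd_miC (P : FLaw (𝒳 × 𝒯)) (d : ℕ) (Q : 𝒳 → γ) :
    (rdLaw P d).miC (fun y => y.1) (fun y => y.2) (fun y => Q y.1) ≤ (d : ℝ) * P.miC Prod.fst Prod.snd (fun y => Q y.1) := by
  rw [ent_miC_comm, ent_miC_eq, ent_miC_comm P, ent_miC_eq P]
  have a1 : (rdLaw P d).entC (fun y => y.2) (pair (fun y => y.1) (fun y => Q y.1)) = (d : ℝ) * P.entC Prod.snd Prod.fst := by
    rw [← rd_entC_dirs]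
    refine ent_entC_congr _ _ _ _ _ (fun ω ω' _ _ => ?_) fun ω ω' _ _ _ => Iff.rfl
    simp only [pair, Prod.mk.injEq]
    constructor
    · rintro ⟨a, -⟩
      exact a
    · intro a
      exact ⟨a, by rw [a]⟩
  have a2 : P.entC Prod.snd (pair Prod.fst (fun y => Q y.1)) = P.entC Prod.snd Prod.fst := by
    refine ent_entC_congr _ _ _ _ _ (fun ω ω' _ _ => ?_) fun ω ω' _ _ _ => Iff.rfl
    simp only [pair, Prod.mk.injEq]
    constructor
    · rintro ⟨a, -⟩
      exact a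
    · intro a
      exact ⟨a, by rw [a]⟩
  have a3 : (rdLaw P d).entC (fun y => y.2) (fun y => Q y.1) ≤ (d : ℝ) * P.entC Prod.snd (fun y => Q y.1) := by
    have b1 := ek_pi_le (rdLaw P d) d (fun j y => y.2 j) (fun y => Q y.1)
    have b2 : ∀ j : Fin d, (rdLaw P d).entC (fun y => y.2 j) (fun y => Q y.1) = P.entC Prod.snd (fun y => Q y.1) := by
      intro j
      have := ent_map_entC (rdLaw P d) (fun y => (y.1, y.2 j)) (Prod.snd : 𝒳 × 𝒯 → 𝒯) (fun y => Q y.1)
      rw [rd_map] at this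
      exact this.symm
    rw [Finset.sum_congr rfl fun j _ => b2 j, Finset.sum_const, Finset.card_univ, Fintype.card_fin, nsmul_eq_mul] at b1
    exact b1
  rw [a1, a2]
  linarith

/-- LEAF `L-F3-R4`  **Jensen for i.i.d. redraws.**
PLAN.  `pr (∀ j, E (x, θ_j)) = ∑_x rdM x (e x)^d`, `e x = (∑_{θ : E (x,θ)} P.p (x,θ))/rdM x` (`Finset.prod_univ_sum` with the filtered sets, as in `rd_W_sum_fibre`), `P.pr E = ∑_x rdM x e x`;
`Real.pow_arith_mean_le_arith_mean_pow` (or `inner_le_nnorm_mul_nnorm`-free: `pj_jensen` of `R257/Proj/Select.lean` is NOT imported; reprove in 10 lines) with the weights `rdM` (`rd_M_sum`). -/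
theorem rd_jensen (P : FLaw (𝒳 × 𝒯)) (d : ℕ) (E : 𝒳 × 𝒯 → Prop) :
    P.pr E ^ d ≤ (rdLaw P d).pr (fun y => ∀ j, E (y.1, y.2 j)) := by
  obtain ⟨e, he⟩ : ∃ e : 𝒳 → ℝ, e = fun x => ∑ t, (P.p (x, t) / rdM P x) * (if E (x, t) then 1 else 0) := ⟨_, rfl⟩
  have he0 : ∀ x, 0 ≤ e x := by
    intro x
    rw [he]
    refine Finset.sum_nonneg fun t _ => mul_nonneg (div_nonneg (P.nonneg _) (rd_M_nonneg P x)) ?_
    split_ifs <;> norm_num
  have h1 : P.pr E = ∑ x, rdM P x * e x := by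
    unfold FLaw.pr
    rw [Fintype.sum_prod_type]
    refine Finset.sum_congr rfl fun x _ => ?_
    rw [he]
    simp only
    rw [Finset.mul_sum]
    refine Finset.sum_congr rfl fun t _ => ?_
    by_cases h0 : rdM P x = 0
    · rw [rd_p_eq_zero P h0 t, h0]
      simp
    · by_cases hE : E (x, t)
      · rw [if_pos hE, if_pos hE]
        field_simp
      · rw [if_neg hE, if_neg hE]
        ring
  have h2 : (rdLaw P d).pr (fun y => ∀ j, E (y.1, y.2 j)) = ∑ x, rdM P x * e x ^ d := by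
    rw [rd_pr_eq]
    refine Finset.sum_congr rfl fun x _ => ?_
    have hp := Finset.prod_univ_sum (fun _ : Fin d => (Finset.univ : Finset 𝒯))
      (fun _ t => (P.p (x, t) / rdM P x) * (if E (x, t) then 1 else 0))
    rw [Fintype.piFinset_univ, Finset.prod_const, Finset.card_univ, Fintype.card_fin] at hp
    rw [he]
    simp only
    rw [hp, Finset.mul_sum]
    refine Finset.sum_congr rfl fun θ _ => ?_
    rw [Finset.prod_mul_distrib]
    by_cases hall : ∀ j, E (x, θ j)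
    · rw [if_pos hall, mul_one, Finset.prod_eq_one (fun i _ => if_pos (hall i)), mul_one]
      rfl
    · rw [if_neg hall, mul_zero]
      push Not at hall
      obtain ⟨j, hj⟩ := hall
      rw [Finset.prod_eq_zero (f := fun i : Fin d => if E (x, θ i) then (1 : ℝ) else 0) (Finset.mem_univ j) (if_neg hj),
        mul_zero, mul_zero]
  rw [h1, h2]
  exact Real.pow_arith_mean_le_arith_mean_pow Finset.univ (rdM P) e (fun x _ => rd_M_nonneg P x) (rd_M_sum P) (fun x _ => he0 x) d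

/-- LEAF `L-F3-R5`  **exposure of one coordinate.**  `B x θ⃗ t` does not depend on `θ⃗ j`; if for all `(x, θ⃗)` the conditional probability of `{t : B x θ⃗ t}` is `≤ δ`, then `P(B x θ⃗ (θ⃗ j)) ≤ δ`.
PLAN.  As in `rd_map`: split off the coordinate `j`; for fixed `x` and fixed other coordinates sum over `θ_j` first. -/
theorem rd_expose (P : FLaw (𝒳 × 𝒯)) (d : ℕ) (j : Fin d) (B : 𝒳 → (Fin d → 𝒯) → 𝒯 → Prop)
    (hB : ∀ x θ t' t, B x (Function.update θ j t') t ↔ B x θ t) (δ : ℝ)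
    (h : ∀ x θ, ∑ t with B x θ t, P.p (x, t) ≤ δ * rdM P x) :
    (rdLaw P d).pr (fun y => B y.1 y.2 (y.2 j)) ≤ δ := by
  obtain ⟨n, rfl⟩ : ∃ n, d = n + 1 := ⟨d - 1, by have := j.isLt; omega⟩
  obtain ⟨ω₀, -⟩ := ent_exists_supp P
  rw [rd_pr_eq]
  calc ∑ x, ∑ θ, rdW P (n + 1) (x, θ) * (if B x θ (θ j) then 1 else 0) ≤ ∑ x, δ * rdM P x := by
        refine Finset.sum_le_sum fun x _ => ?_
        rw [rd_sum_split P n j x (fun θ => if B x θ (θ j) then 1 else 0)]
        calc ∑ θ' : Fin n → 𝒯, (∏ i, (P.p (x, θ' i) / rdM P x)) *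
              ∑ t, P.p (x, t) * (if B x (j.insertNth t θ') ((j.insertNth t θ' : Fin (n + 1) → 𝒯) j) then 1 else 0)
            ≤ ∑ θ' : Fin n → 𝒯, (∏ i, (P.p (x, θ' i) / rdM P x)) * (δ * rdM P x) := by
              refine Finset.sum_le_sum fun θ' _ => mul_le_mul_of_nonneg_left ?_
                (Finset.prod_nonneg fun i _ => div_nonneg (P.nonneg _) (rd_M_nonneg P x))
              refine le_trans (le_of_eq ?_) (h x (j.insertNth ω₀.2 θ'))
              rw [Finset.sum_filter]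
              refine Finset.sum_congr rfl fun t _ => ?_
              simp only [Fin.insertNth_apply_same]
              have hiff : B x (j.insertNth t θ') t ↔ B x (j.insertNth ω₀.2 θ') t := by
                have hu := Fin.update_insertNth (α := fun _ => 𝒯) j ω₀.2 t θ'
                rw [← hu]
                exact hB _ _ _ _
              by_cases hb : B x (j.insertNth ω₀.2 θ') t
              · rw [if_pos (hiff.2 hb), if_pos hb, mul_one]
              · rw [if_neg (fun h => hb (hiff.1 h)), if_neg hb, mul_zero]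
          _ = δ * ∑ θ' : Fin n → 𝒯, rdW P n (x, θ') := by
              rw [Finset.mul_sum]
              refine Finset.sum_congr rfl fun θ' _ => ?_
              unfold rdW
              ring
          _ = δ * rdM P x := by rw [rd_W_sum_fibre]
    _ = δ := by rw [← Finset.mul_sum, rd_M_sum, mul_one]

/-- LEAF `L-F3-R6`  domination by a product of reference laws -/
theorem rd_dom (P : FLaw (𝒳 × 𝒯)) (d : ℕ) (ν : 𝒳 → 𝒯 → ℝ) (K : ℝ) (hK : 0 ≤ K) (hν : ∀ x θ, 0 ≤ ν x θ)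
    (h : ∀ x θ, P.p (x, θ) ≤ K * ν x θ * rdM P x) (y : 𝒳 × (Fin d → 𝒯)) :
    (rdLaw P d).p y ≤ K ^ d * rdM P y.1 * ∏ j, ν y.1 (y.2 j) := by
  show rdW P d y ≤ _
  unfold rdW
  have h1 : ∏ j, (P.p (y.1, y.2 j) / rdM P y.1) ≤ ∏ j, (K * ν y.1 (y.2 j)) := by
    refine Finset.prod_le_prod (fun j _ => div_nonneg (P.nonneg _) (rd_M_nonneg P _)) fun j _ => ?_
    by_cases h0 : rdM P y.1 = 0
    · rw [h0, div_zero]
      exact mul_nonneg hK (hν _ _)
    · rw [div_le_iff₀ (lt_of_le_of_ne (rd_M_nonneg P _) (Ne.symm h0))]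
      exact h _ _
  calc rdM P y.1 * ∏ j, (P.p (y.1, y.2 j) / rdM P y.1) ≤ rdM P y.1 * ∏ j, (K * ν y.1 (y.2 j)) :=
        mul_le_mul_of_nonneg_left h1 (rd_M_nonneg P _)
    _ = K ^ d * rdM P y.1 * ∏ j, ν y.1 (y.2 j) := by
        rw [Finset.prod_mul_distrib, Finset.prod_const, Finset.card_univ, Fintype.card_fin]
        ring

end Claimed.Agent.R257
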