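import Claimed.Agent.R257.Tree.GridRaw
import Claimed.Agent.R257.Tree.Full

/-!
# ROW 257, package FR3, unit TOP, file 4: A FAILING `CoreSub` PRODUCES A RAW TOWER      (architect helper41; proof helper238)

NO sorry in this file.   (The power case `RawExitPow` is `Tree/GridPow.lean`, helper155.   Bricks: `Tree/Grid.lean` (`ti_exists_gsp`, `NCfg.ti_grid_main`, `ti_gr_ok`), `Tree/GridRaw.lean` (`NCfg.toF`, `ti_raw`, `ti_raw_sub`, `ti_raw_exc`), `R255/Base/Ulim.lean`.)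

## the proof of `ftg_sub`
0. `¬ CoreSub c`: `C₁` and, for all `β E Λ₀`, `0 < β`, a configuration with `Sub C₁ β E Λ₀`.   `𝔫 n` := the choice for `β = 1/(n+1)`, `E = n`, `Λ₀ = n + 3`.
1. `ftgy 𝔫 j = logb S (κ0 j / H j) ∈ [0, C₁]`,  `e := ulim (y · 0)`;  `ftg_y_close`: `y i ≤ y j + 2 β` (`Ok.H_cmp`, hypothesis `hcmp`), so `y · j → e` for ALL `j`.
2. GRID number `N`:  `tr = if 0 < e then N + 1 else 1`,  `ℓ = tr + (N+1)²`,  NODES `ftgσ y N tr i` = `(1 - i/tr) y` (`i ≤ tr`), `-(min i ℓ - tr)/(N+1)` (`i > tr`);   SCALES `ftgκ = H S^σ`;   `G i = g^{ℓ - i}`;   `ηw = (κ0^k S^n)⁻¹`;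
   `ftgS` completes the free parameters by windows (junk windows if the numerical conditions fail);  `ftgF` = the raw configuration.
3. A (nodes), B (scales): real-variable lemmas.   C: the configuration, `ftg_F_s` (nodes `= ftgσ`, ALWAYS), `ftg_s_ok`.   D: `ftg_one` = ONE configuration is `Raw m`, `Sub m C₁ C₁`, excess `S ≤ σo² A²`, under EXPLICIT numerical conditions.
   E: the conditions hold eventually (`ftg_ev_S`, `ftg_ev_K`, `ftg_ev_K7`, `ftg_ev_K2`: abstract sequences `n + 3 ≤ S n`, `1 ≤ K n ≤ S n^{1/(n+1)}`; reusable).   F: the tower.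
`hcmp` = the field `NCfg.Sub.leaf_cmp` (`κ0_i = min (H_i S^L, h)`); it is needed because ONE class (`ℓ`, `tr`) serves all the `k + 1` fields.
-/

set_option autoImplicit false

namespace Claimed.Agent.R257.FR3

open Filter Topology
open Claimed.Agent.R255 Claimed.Agent.R257 Claimed.Agent.R257.FR1 Claimed.Agent.R257.FR2 Claimed.Agent.R257.Tree
open scoped Classical

noncomputable section

/-! ## A. the nodes -/

/-- the nodes of the grid: `tr` equal steps from `y` down to `0`, then `(N+1)²` steps of length `1/(N+1)`, then constant -/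
def ftgσ (y : ℝ) (N tr i : ℕ) : ℝ :=
  if i ≤ tr then (1 - (i : ℝ) / tr) * y else -(((min i (tr + (N + 1) ^ 2) : ℕ) : ℝ) - tr) / (N + 1)

theorem ftg_σ_zero (y : ℝ) (N tr : ℕ) : ftgσ y N tr 0 = y := by
  unfold ftgσ
  rw [if_pos (Nat.zero_le _)]
  simp

theorem ftg_σ_tr (y : ℝ) (N : ℕ) {tr : ℕ} (htr : 1 ≤ tr) : ftgσ y N tr tr = 0 := by
  unfold ftgσ
  rw [if_pos (le_refl _)]
  have : (tr : ℝ) ≠ 0 := by
    have : (1 : ℝ) ≤ tr := by exact_mod_cast htr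
    linarith
  rw [div_self this]
  simp

theorem ftg_σ_hi (y : ℝ) (N : ℕ) {tr i : ℕ} (h : i < tr) : ftgσ y N tr i - ftgσ y N tr (i + 1) = y / tr := by
  unfold ftgσ
  rw [if_pos h.le, if_pos (Nat.succ_le_of_lt h)]
  push_cast
  ring

theorem ftg_σ_lo (y : ℝ) (N : ℕ) {tr i : ℕ} (htr : 1 ≤ tr) (h : tr ≤ i) (h' : i < tr + (N + 1) ^ 2) :
    ftgσ y N tr i - ftgσ y N tr (i + 1) = 1 / ((N : ℝ) + 1) := by
  have h1 : ftgσ y N tr (i + 1) = -(((i : ℝ) + 1) - tr) / (N + 1) := by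
    unfold ftgσ
    rw [if_neg (by omega), min_eq_left (by omega)]
    push_cast
    ring
  have h2 : ftgσ y N tr i = -((i : ℝ) - tr) / (N + 1) := by
    rcases h.eq_or_lt with rfl | hlt
    · rw [ftg_σ_tr y N htr]
      simp
    · unfold ftgσ
      rw [if_neg (by omega), min_eq_left (by omega)]
  rw [h1, h2]
  ring

theorem ftg_σ_top (y : ℝ) (N : ℕ) {tr i : ℕ} (h : tr + (N + 1) ^ 2 ≤ i) : ftgσ y N tr i = -((N : ℝ) + 1) := by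
  have hp : 0 < (N + 1) ^ 2 := by positivity
  unfold ftgσ
  rw [if_neg (by omega), min_eq_right h]
  have hN : (N : ℝ) + 1 ≠ 0 := by positivity
  push_cast
  field_simp
  ring

theorem ftg_σ_anti {y : ℝ} (hy : 0 ≤ y) (N : ℕ) {tr : ℕ} (htr : 1 ≤ tr) (i : ℕ) : ftgσ y N tr (i + 1) ≤ ftgσ y N tr i := by
  rcases lt_or_ge i tr with h | h
  · have := ftg_σ_hi y N h
    have h2 : 0 ≤ y / tr := by positivity
    linarith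
  · rcases lt_or_ge i (tr + (N + 1) ^ 2) with h' | h'
    · have := ftg_σ_lo y N htr h h'
      have h2 : 0 ≤ 1 / ((N : ℝ) + 1) := by positivity
      linarith
    · rw [ftg_σ_top y N h', ftg_σ_top y N (h'.trans (Nat.le_succ i))]

theorem ftg_σ_antitone {y : ℝ} (hy : 0 ≤ y) (N : ℕ) {tr : ℕ} (htr : 1 ≤ tr) : Antitone (ftgσ y N tr) :=
  antitone_nat_of_succ_le (ftg_σ_anti hy N htr)

theorem ftg_σ_ge {y : ℝ} (hy : 0 ≤ y) (N : ℕ) {tr : ℕ} (htr : 1 ≤ tr) (i : ℕ) : -((N : ℝ) + 1) ≤ ftgσ y N tr i := by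
  rw [← ftg_σ_top y N (le_max_right i (tr + (N + 1) ^ 2))]
  exact ftg_σ_antitone hy N htr (le_max_left _ _)

theorem ftg_σ_le {y : ℝ} (hy : 0 ≤ y) (N : ℕ) {tr : ℕ} (htr : 1 ≤ tr) (i : ℕ) : ftgσ y N tr i ≤ y := by
  have := ftg_σ_antitone hy N htr (Nat.zero_le i)
  rwa [ftg_σ_zero y N tr] at this

/-- every step is `y / tr` or `1 / (N + 1)` -/
theorem ftg_σ_step {y : ℝ} (N : ℕ) {tr : ℕ} (htr : 1 ≤ tr) {i : ℕ} (h' : i < tr + (N + 1) ^ 2) {d : ℝ} (h1 : y / tr ≤ d) (h2 : 1 / ((N : ℝ) + 1) ≤ d) :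
    ftgσ y N tr i - ftgσ y N tr (i + 1) ≤ d := by
  rcases lt_or_ge i tr with h | h
  · rw [ftg_σ_hi y N h]; exact h1
  · rw [ftg_σ_lo y N htr h h']; exact h2

/-! ## B. the scales -/

/-- the scales of the grid -/
def ftgκ (S H y : ℝ) (N tr i : ℕ) : ℝ := H * S ^ ftgσ y N tr i

theorem ftg_κ_zero {S H κ0 : ℝ} (hS : 1 < S) (hH : 0 < H) (hκ : 0 < κ0) (N tr : ℕ) : ftgκ S H (Real.logb S (κ0 / H)) N tr 0 = κ0 := by
  unfold ftgκ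
  rw [ftg_σ_zero, Real.rpow_logb (by linarith) hS.ne' (div_pos hκ hH)]
  field_simp

theorem ftg_κ_tr (S H y : ℝ) (N : ℕ) {tr : ℕ} (htr : 1 ≤ tr) : ftgκ S H y N tr tr = H := by
  unfold ftgκ
  rw [ftg_σ_tr y N htr, Real.rpow_zero, mul_one]

theorem ftg_κ_pos {S H : ℝ} (hS : 1 < S) (hH : 0 < H) (y : ℝ) (N tr i : ℕ) : 0 < ftgκ S H y N tr i :=
  mul_pos hH (Real.rpow_pos_of_pos (by linarith) _)

theorem ftg_κ_anti {S H y : ℝ} (hS : 1 < S) (hH : 0 < H) (hy : 0 ≤ y) (N : ℕ) {tr : ℕ} (htr : 1 ≤ tr) (i : ℕ) :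
    ftgκ S H y N tr (i + 1) ≤ ftgκ S H y N tr i :=
  mul_le_mul_of_nonneg_left (Real.rpow_le_rpow_of_exponent_le hS.le (ftg_σ_anti hy N htr i)) hH.le

theorem ftg_κ_top (S H y : ℝ) (N : ℕ) {tr i : ℕ} (h : tr + (N + 1) ^ 2 ≤ i) : ftgκ S H y N tr i = ftgκ S H y N tr (tr + (N + 1) ^ 2) := by
  unfold ftgκ
  rw [ftg_σ_top y N h, ftg_σ_top y N (le_refl _)]

/-- the coarsest scale is still large -/
theorem ftg_κ_ge {S H y : ℝ} (hS : 1 < S) (hy : 0 ≤ y) (N : ℕ) {tr : ℕ} (htr : 1 ≤ tr) {p : ℕ} (hH : S ^ (p + N + 1) ≤ H) (i : ℕ) :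
    S ^ p ≤ ftgκ S H y N tr i := by
  have hS0 : 0 < S := by linarith
  unfold ftgκ
  have h1 : S ^ (-((N : ℝ) + 1)) ≤ S ^ ftgσ y N tr i := Real.rpow_le_rpow_of_exponent_le hS.le (ftg_σ_ge hy N htr i)
  have h2 : S ^ p = S ^ (p + N + 1) * S ^ (-((N : ℝ) + 1)) := by
    rw [← Real.rpow_natCast S p, ← Real.rpow_natCast S (p + N + 1), ← Real.rpow_add hS0]
    congr 1
    push_cast
    ring
  rw [h2]
  exact mul_le_mul hH h1 (Real.rpow_nonneg hS0.le _) ((pow_pos hS0 _).le.trans hH)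

/-- the grid is lacunary at all the steps but possibly the first one -/
theorem ftg_κ_lac {S H y : ℝ} (hS : 1 < S) (hH : 0 < H) (N : ℕ) {tr : ℕ} (htr : 1 ≤ tr) (ha : 2 ≤ S ^ (1 / ((N : ℝ) + 1))) (hb : tr = 1 ∨ 2 ≤ S ^ (y / tr))
    {i : ℕ} (h1 : 1 ≤ i) (h2 : i < tr + (N + 1) ^ 2) : 2 * ftgκ S H y N tr (i + 1) ≤ ftgκ S H y N tr i := by
  have hS0 : 0 < S := by linarith
  have key : 2 ≤ S ^ (ftgσ y N tr i - ftgσ y N tr (i + 1)) := by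
    rcases lt_or_ge i tr with h | h
    · rw [ftg_σ_hi y N h]
      rcases hb with hb | hb
      · omega
      · exact hb
    · rw [ftg_σ_lo y N htr h h2]
      exact ha
  unfold ftgκ
  have h3 : S ^ ftgσ y N tr i = S ^ (ftgσ y N tr i - ftgσ y N tr (i + 1)) * S ^ ftgσ y N tr (i + 1) := by
    rw [← Real.rpow_add hS0]
    congr 1
    ring
  rw [h3]
  have h4 : 0 < S ^ ftgσ y N tr (i + 1) := Real.rpow_pos_of_pos hS0 _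
  calc 2 * (H * S ^ ftgσ y N tr (i + 1)) = H * (2 * S ^ ftgσ y N tr (i + 1)) := by ring
    _ ≤ H * (S ^ (ftgσ y N tr i - ftgσ y N tr (i + 1)) * S ^ ftgσ y N tr (i + 1)) :=
      mul_le_mul_of_nonneg_left (mul_le_mul_of_nonneg_right key h4.le) hH.le

/-- the nodes -/
theorem ftg_κ_node {S H : ℝ} (hS : 1 < S) (hH : 0 < H) (y : ℝ) (N tr i : ℕ) : Real.logb S (ftgκ S H y N tr i / H) = ftgσ y N tr i := by
  unfold ftgκ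
  rw [mul_div_cancel_left₀ _ hH.ne', Real.logb_rpow (by linarith) hS.ne']

/-- the span of the grid is polynomial -/
theorem ftg_κ_span {S H y : ℝ} (hS : 1 < S) (hH : 0 < H) (N tr k cx : ℕ) (hcx : (k : ℝ) * (y + N + 1) ≤ cx) :
    (ftgκ S H y N tr 0 / ftgκ S H y N tr (tr + (N + 1) ^ 2)) ^ k ≤ S ^ cx := by
  have hS0 : 0 < S := by linarith
  unfold ftgκ
  rw [ftg_σ_zero, ftg_σ_top y N (le_refl _), mul_div_mul_left _ _ hH.ne', ← Real.rpow_sub hS0, ← Real.rpow_natCast _ k, ← Real.rpow_mul hS0.le,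
    ← Real.rpow_natCast S cx]
  refine Real.rpow_le_rpow_of_exponent_le hS.le ?_
  linarith

/-- the finest scale against the threshold -/
theorem ftg_κ_root {S H y K : ℝ} (hS : 1 < S) (hH : 0 < H) (hK : K ^ 2 ≤ S) (N tr k cx : ℕ) (hcx : (k : ℝ) * y + 1 ≤ cx) :
    ftgκ S H y N tr 0 ^ k * K ^ 2 ≤ S ^ cx * H ^ k := by
  have hS0 : 0 < S := by linarith
  unfold ftgκ
  rw [ftg_σ_zero, mul_pow, ← Real.rpow_natCast (S ^ y) k, ← Real.rpow_mul hS0.le]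
  have h1 : S ^ (y * (k : ℝ)) * S ≤ S ^ cx := by
    rw [← Real.rpow_natCast S cx]
    nth_rewrite 2 [← Real.rpow_one S]
    rw [← Real.rpow_add hS0]
    refine Real.rpow_le_rpow_of_exponent_le hS.le ?_
    linarith
  have h2 : 0 < H ^ k := pow_pos hH k
  have h3 : 0 < S ^ (y * (k : ℝ)) := Real.rpow_pos_of_pos hS0 _
  calc H ^ k * S ^ (y * (k : ℝ)) * K ^ 2 ≤ H ^ k * S ^ (y * (k : ℝ)) * S := mul_le_mul_of_nonneg_left hK (mul_pos h2 h3).le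
    _ = (S ^ (y * (k : ℝ)) * S) * H ^ k := by ring
    _ ≤ S ^ cx * H ^ k := mul_le_mul_of_nonneg_right h1 h2.le

/-- the enlargements -/
def ftgG (g : ℝ) (ℓ i : ℕ) : ℝ := g ^ (ℓ - i)

theorem ftg_G_ge {g : ℝ} (hg : 1 ≤ g) (ℓ i : ℕ) : 1 ≤ ftgG g ℓ i := one_le_pow₀ hg

theorem ftg_G_step (g : ℝ) {ℓ i : ℕ} (h : i < ℓ) : g * ftgG g ℓ (i + 1) ≤ ftgG g ℓ i := by
  unfold ftgG
  have : ℓ - i = (ℓ - (i + 1)) + 1 := by omega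
  rw [this, pow_succ, mul_comm]

/-! ## C. the configuration on the grid -/

variable {k : ℕ} {c : TCls k}

/-- completion of the free parameters by windows (junk windows if the numerical conditions fail) -/
def ftgS (D : TDat c) (ℓ tr : ℕ) (κ G : ℕ → ℝ) (η : ℝ) : GSp k :=
  if h : ∃ s : GSp k, s.κ = κ ∧ s.G = G ∧ s.ηw = η ∧ s.Ok D ℓ tr ∧ ∀ Cm : ℝ, (D.grid ℓ tr Cm s).Full then h.choose else ⟨κ, G, η, fun _ => ∅⟩

theorem ftg_S_κ (D : TDat c) (ℓ tr : ℕ) (κ G : ℕ → ℝ) (η : ℝ) : (ftgS D ℓ tr κ G η).κ = κ := by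
  unfold ftgS
  split_ifs with h
  · exact h.choose_spec.1
  · rfl

theorem ftg_S_G (D : TDat c) (ℓ tr : ℕ) (κ G : ℕ → ℝ) (η : ℝ) : (ftgS D ℓ tr κ G η).G = G := by
  unfold ftgS
  split_ifs with h
  · exact h.choose_spec.2.1
  · rfl

theorem ftg_S_η (D : TDat c) (ℓ tr : ℕ) (κ G : ℕ → ℝ) (η : ℝ) : (ftgS D ℓ tr κ G η).ηw = η := by
  unfold ftgS
  split_ifs with h
  · exact h.choose_spec.2.2.1
  · rfl

theorem ftg_S_ok {D : TDat c} {ℓ tr : ℕ} {κ G : ℕ → ℝ} {η : ℝ} (h : ∃ s : GSp k, s.κ = κ ∧ s.G = G ∧ s.ηw = η ∧ s.Ok D ℓ tr ∧ ∀ Cm : ℝ, (D.grid ℓ tr Cm s).Full) :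
    (ftgS D ℓ tr κ G η).Ok D ℓ tr ∧ ∀ Cm : ℝ, (D.grid ℓ tr Cm (ftgS D ℓ tr κ G η)).Full := by
  unfold ftgS
  rw [dif_pos h]
  exact h.choose_spec.2.2.2

/-- the fine endpoint `log_S (κ₀ / H)` of the field `j` -/
def ftgy (𝔫 : NCfg k c) (j : Fin (k + 1)) : ℝ := Real.logb 𝔫.S ((𝔫.D j).κ 0 / 𝔫.H j)

/-- the free parameters of the field `j` on the grid number `N` with `tr` steps above the seam; defect of the windows `(κ₀^k S^n)⁻¹` -/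
def ftgs (𝔫 : NCfg k c) (N tr n : ℕ) (j : Fin (k + 1)) : GSp k :=
  ftgS (𝔫.D j) (tr + (N + 1) ^ 2) tr (ftgκ 𝔫.S (𝔫.H j) (ftgy 𝔫 j) N tr) (ftgG (2 * (1 + 2 * (c.Cc + k))) (tr + (N + 1) ^ 2)) ((𝔫.D j).κ 0 ^ k * 𝔫.S ^ n)⁻¹

/-- the refined configuration -/
def ftgN (𝔫 : NCfg k c) (Cm' : ℝ) (N tr n : ℕ) : NCfg k (c.gr (tr + (N + 1) ^ 2) tr Cm') := 𝔫.grid (tr + (N + 1) ^ 2) tr Cm' (ftgs 𝔫 N tr n)

/-- the raw configuration -/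
def ftgF (𝔫 : NCfg k c) (Cm' : ℝ) (N tr n cx : ℕ) : FCfg k := (ftgN 𝔫 Cm' N tr n).toF cx 𝔫.S (ftgN 𝔫 Cm' N tr n).gH

theorem ftg_N_κ (𝔫 : NCfg k c) (Cm' : ℝ) (N tr n : ℕ) (j : Fin (k + 1)) (i : ℕ) : ((ftgN 𝔫 Cm' N tr n).D j).κ i = ftgκ 𝔫.S (𝔫.H j) (ftgy 𝔫 j) N tr i :=
  congrFun (ftg_S_κ _ _ _ _ _ _) i

theorem ftg_N_η (𝔫 : NCfg k c) (Cm' : ℝ) (N tr n : ℕ) (j : Fin (k + 1)) : ((ftgN 𝔫 Cm' N tr n).D j).ηw = ((𝔫.D j).κ 0 ^ k * 𝔫.S ^ n)⁻¹ :=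
  ftg_S_η _ _ _ _ _ _

theorem ftg_N_gH (𝔫 : NCfg k c) (Cm' : ℝ) (N : ℕ) {tr : ℕ} (htr : 1 ≤ tr) (n : ℕ) (j : Fin (k + 1)) : (ftgN 𝔫 Cm' N tr n).gH j = 𝔫.H j := by
  show ((ftgN 𝔫 Cm' N tr n).D j).κ tr = 𝔫.H j
  rw [ftg_N_κ, ftg_κ_tr _ _ _ _ htr]

/-- **the nodes of the raw configuration** -/
theorem ftg_F_s {𝔫 : NCfg k c} (hS : 1 < 𝔫.S) (hH : ∀ j, 0 < 𝔫.H j) (Cm' : ℝ) (N : ℕ) {tr : ℕ} (htr : 1 ≤ tr) (n cx : ℕ) (j : Fin (k + 1)) (i : ℕ) :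
    (ftgF 𝔫 Cm' N tr n cx).s j i = ftgσ (ftgy 𝔫 j) N tr i := by
  show Real.logb 𝔫.S (((ftgN 𝔫 Cm' N tr n).D j).κ i / (ftgN 𝔫 Cm' N tr n).gH j) = _
  rw [ftg_N_κ, ftg_N_gH 𝔫 Cm' N htr, ftg_κ_node hS (hH j)]

theorem ftg_y_nonneg {𝔫 : NCfg k c} (h : 𝔫.Ok) (hS : 1 < 𝔫.S) (j : Fin (k + 1)) : 0 ≤ ftgy 𝔫 j := by
  have h1 : 1 ≤ 𝔫.H j := (h.good j).one_le_κ 1
  refine Real.logb_nonneg hS ?_
  rw [le_div_iff₀ (by linarith), one_mul]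
  exact (h.good j).κ_anti 0

theorem ftg_y_le {𝔫 : NCfg k c} {C₁ β E Λ₀ : ℝ} (h : 𝔫.Sub C₁ β E Λ₀) (hS : 1 < 𝔫.S) (j : Fin (k + 1)) : ftgy 𝔫 j ≤ C₁ := by
  have h1 : 1 ≤ 𝔫.H j := (h.good j).one_le_κ 1
  have h0 : 1 ≤ (𝔫.D j).κ 0 := (h.good j).one_le_κ 0
  have hS0 : 0 < 𝔫.S := by linarith
  unfold ftgy
  rw [← Real.logb_rpow hS0 hS.ne' (x := C₁)]
  refine Real.logb_le_logb_of_le hS (div_pos (by linarith) (by linarith)) ?_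
  rw [div_le_iff₀ (by linarith), mul_comm]
  exact h.leaf j

/-- **the free parameters are admissible, the windows are nested** -/
theorem ftg_s_okf (hc : c.Ok) {𝔫 : NCfg k c} (h : 𝔫.Ok) (hS : 1 < 𝔫.S) (N : ℕ) {tr : ℕ} (htr : 1 ≤ tr) (n : ℕ) (ha : 2 ≤ 𝔫.S ^ (1 / ((N : ℝ) + 1)))
    (hb : tr = 1 ∨ ∀ j, 2 ≤ 𝔫.S ^ (ftgy 𝔫 j / tr)) (hH : ∀ j, 𝔫.S ^ (0 + N + 1) ≤ 𝔫.H j) (j : Fin (k + 1)) :
    (ftgs 𝔫 N tr n j).Ok (𝔫.D j) (tr + (N + 1) ^ 2) tr ∧ ∀ Cm : ℝ, ((𝔫.D j).grid (tr + (N + 1) ^ 2) tr Cm (ftgs 𝔫 N tr n j)).Full := by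
  have h1 : 1 ≤ 𝔫.H j := (h.good j).one_le_κ 1
  have h0 : 1 ≤ (𝔫.D j).κ 0 := (h.good j).one_le_κ 0
  have hS0 : 0 < 𝔫.S := by linarith
  have hH0 : 0 < 𝔫.H j := by linarith
  have hy := ftg_y_nonneg h hS j
  have hg : (1 : ℝ) ≤ 2 * (1 + 2 * (c.Cc + k)) := by
    have := hc.one_le_Cc
    have hk : (0 : ℝ) ≤ k := Nat.cast_nonneg k
    linarith
  refine ftg_S_ok (ti_exists_gsp_full hc (𝔫.D j) _ _ (inv_pos.2 (mul_pos (pow_pos (by linarith) _) (pow_pos hS0 _))) htr (Nat.le_add_right _ _) ?_ ?_ ?_ ?_ ?_ ?_ ?_ ?_)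
  · exact ftg_κ_zero hS hH0 (by linarith) N tr
  · exact ftg_κ_tr _ _ _ _ htr
  · intro i
    have := ftg_κ_ge hS hy N htr (hH j) i
    rwa [pow_zero] at this
  · exact ftg_κ_anti hS hH0 hy N htr
  · intro i hi
    exact ftg_κ_top _ _ _ N hi
  · intro i hi h0 _ _
    exact ftg_κ_lac hS hH0 N htr ha (hb.imp id fun hb => hb j) (Nat.one_le_iff_ne_zero.2 h0) hi
  · intro i _
    exact ftg_G_ge hg _ _
  · intro i hi
    exact ftg_G_step _ hi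

/-- **the free parameters are admissible** -/
theorem ftg_s_ok (hc : c.Ok) {𝔫 : NCfg k c} (h : 𝔫.Ok) (hS : 1 < 𝔫.S) (N : ℕ) {tr : ℕ} (htr : 1 ≤ tr) (n : ℕ) (ha : 2 ≤ 𝔫.S ^ (1 / ((N : ℝ) + 1)))
    (hb : tr = 1 ∨ ∀ j, 2 ≤ 𝔫.S ^ (ftgy 𝔫 j / tr)) (hH : ∀ j, 𝔫.S ^ (0 + N + 1) ≤ 𝔫.H j) (j : Fin (k + 1)) : (ftgs 𝔫 N tr n j).Ok (𝔫.D j) (tr + (N + 1) ^ 2) tr :=
  (ftg_s_okf hc h hS N htr n ha hb hH j).1

/-! ## D. one configuration: `Raw`, `Sub`, the excess -/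

/-- **one refined configuration is raw of quality `m`**, under explicit numerical conditions -/
theorem ftg_one (hc : c.Ok) {Cm' : ℝ} (hCm : 1 ≤ Cm')
    (hmain : ∀ (𝔫 : NCfg k c) (ℓ tr : ℕ) (s : Fin (k + 1) → GSp k), (∀ i, (s i).Ok (𝔫.D i) ℓ tr) → ∀ C₁ β E Λ₀ : ℝ, 𝔫.Sub C₁ β E Λ₀ → (𝔫.grid ℓ tr Cm' s).GSub C₁ β E Λ₀)
    {𝔫 : NCfg k c} {C₁ β E Λ₀ : ℝ} (h : 𝔫.Sub C₁ β E Λ₀) {N tr n m cx : ℕ} (htr : 1 ≤ tr) (ha : 2 ≤ 𝔫.S ^ (1 / ((N : ℝ) + 1)))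
    (hb : tr = 1 ∨ ∀ j, 2 ≤ 𝔫.S ^ (ftgy 𝔫 j / tr)) (hH : ∀ j, 𝔫.S ^ (m + 2 + N + 1) ≤ 𝔫.H j) (hK7 : (2 * 𝔫.K ^ 7) ^ m ≤ 𝔫.S) (hK2 : 𝔫.K ^ 2 ≤ 𝔫.S)
    (hCc : 2 * (c.Cc + k) ≤ 𝔫.S) (hm : (m : ℝ) + 3 ≤ 𝔫.S) (hmn : m ≤ n) (hcx : ∀ j, (k : ℝ) * (ftgy 𝔫 j + N + 1) + 1 ≤ cx) :
    (ftgF 𝔫 Cm' N tr n cx).Raw m ∧ (ftgF 𝔫 Cm' N tr n cx).Sub m C₁ C₁ ∧
      (ftgF 𝔫 Cm' N tr n cx).Λ ^ (1 : ℝ) ≤ (ftgF 𝔫 Cm' N tr n cx).σo ^ 2 * (ftgF 𝔫 Cm' N tr n cx).A (ftgF 𝔫 Cm' N tr n cx).j0 ^ 2 := by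
  have hk := hc.k_pos
  have hkR : (1 : ℝ) ≤ k := by exact_mod_cast hk
  have hS : 1 < 𝔫.S := by
    have : (0 : ℝ) ≤ m := Nat.cast_nonneg m
    linarith
  have hS0 : 0 < 𝔫.S := by linarith
  have hK1 := h.one_le_K
  have hK0 : 0 < 𝔫.K := by linarith
  have hH1 : ∀ j, 1 ≤ 𝔫.H j := fun j => (h.good j).one_le_κ 1
  have hH0 : ∀ j, 0 < 𝔫.H j := fun j => by linarith [hH1 j]
  have hκ1 : ∀ j, 1 ≤ (𝔫.D j).κ 0 := fun j => (h.good j).one_le_κ 0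
  have hκ0 : ∀ j, 0 < (𝔫.D j).κ 0 := fun j => by linarith [hκ1 j]
  have hy := ftg_y_nonneg h.toOk hS
  have hHp : ∀ p, p ≤ m + 2 → ∀ j, 𝔫.S ^ (p + N + 1) ≤ 𝔫.H j := fun p hp j =>
    (pow_le_pow_right₀ hS.le (by omega)).trans (hH j)
  have hs := ftg_s_ok hc h.toOk hS N htr n ha hb (hHp 0 (Nat.zero_le _))
  have hG : (ftgN 𝔫 Cm' N tr n).GSub C₁ β E Λ₀ := hmain 𝔫 _ _ _ hs C₁ β E Λ₀ h
  have hcl : (c.gr (tr + (N + 1) ^ 2) tr Cm').Ok := ti_gr_ok hc (Nat.le_add_right _ _) hCm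
  have hgH := ftg_N_gH 𝔫 Cm' N htr n
  have hκ := ftg_N_κ 𝔫 Cm' N tr n
  have hKS : 𝔫.K ≤ 𝔫.S := by
    refine le_trans ?_ hK2
    calc 𝔫.K = 𝔫.K ^ 1 := (pow_one _).symm
      _ ≤ 𝔫.K ^ 2 := pow_le_pow_right₀ hK1 (by norm_num)
  refine ⟨?_, ?_, ?_⟩
  · refine NCfg.ti_raw hk hcl hG.toGOk hS0.le cx m 𝔫.S _ (fun j => by rw [hgH]; exact hH0 j) ?_ hm hK7 ?_ ?_ ?_ ?_ ?_ (fun j => (ftg_s_okf hc h.toOk hS N htr n ha hb (hHp 0 (Nat.zero_le _)) j).2 Cm')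
    · -- n1
      intro j
      rw [hgH]
      show 𝔫.K ≤ 𝔫.H j ^ ((k : ℝ) / 2)
      have h1 : 𝔫.K ^ 2 ≤ 𝔫.H j := by
        refine hK2.trans (le_trans ?_ (hHp 0 (Nat.zero_le _) j))
        calc 𝔫.S = 𝔫.S ^ 1 := (pow_one _).symm
          _ ≤ 𝔫.S ^ (0 + N + 1) := pow_le_pow_right₀ hS.le (by omega)
      have h2 : 𝔫.K = (𝔫.K ^ 2) ^ ((1 : ℝ) / 2) := by
        rw [← Real.rpow_natCast 𝔫.K 2, ← Real.rpow_mul hK0.le]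
        norm_num
      calc 𝔫.K = (𝔫.K ^ 2) ^ ((1 : ℝ) / 2) := h2
        _ ≤ 𝔫.H j ^ ((1 : ℝ) / 2) := Real.rpow_le_rpow (by positivity) h1 (by norm_num)
        _ ≤ 𝔫.H j ^ ((k : ℝ) / 2) := Real.rpow_le_rpow_of_exponent_le (hH1 j) (by linarith)
    · -- n4
      intro j
      show (((ftgN 𝔫 Cm' N tr n).D j).κ 0 / ((ftgN 𝔫 Cm' N tr n).D j).κ (tr + (N + 1) ^ 2)) ^ k ≤ 𝔫.S ^ cx
      rw [hκ, hκ]
      exact ftg_κ_span hS (hH0 j) N tr k cx (by linarith [hcx j])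
    · -- n5
      intro j
      rw [hgH, hκ]
      show ftgκ 𝔫.S (𝔫.H j) (ftgy 𝔫 j) N tr 0 ^ k * 𝔫.K ^ 2 ≤ 𝔫.S ^ cx * 𝔫.H j ^ k
      refine ftg_κ_root hS (hH0 j) hK2 N tr k cx ?_
      have h1 := hcx j
      have h2 : (0 : ℝ) ≤ (k : ℝ) * ((N : ℝ) + 1) := by positivity
      linarith
    · -- n6
      intro j i h1 h2
      rw [hκ, hκ]
      exact ftg_κ_lac hS (hH0 j) N htr ha (hb.imp id fun hb => hb j) h1 h2
    · -- n7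
      intro j
      rw [ftg_N_η, hκ]
      have h1 : ftgκ 𝔫.S (𝔫.H j) (ftgy 𝔫 j) N tr 0 = (𝔫.D j).κ 0 := ftg_κ_zero hS (hH0 j) (hκ0 j) N tr
      rw [h1]
      have h2 : 0 < (𝔫.D j).κ 0 ^ k := pow_pos (hκ0 j) k
      have h3 : 0 < 𝔫.S ^ n := pow_pos hS0 n
      have h4 : 𝔫.S ^ m ≤ 𝔫.S ^ n := pow_le_pow_right₀ hS.le hmn
      rw [mul_assoc, inv_mul_le_iff₀ (mul_pos h2 h3), mul_one]
      exact mul_le_mul_of_nonneg_left h4 h2.le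
    · -- n8
      intro j
      show 2 * (𝔫.K * (c.Cc + k)) ≤ ((ftgN 𝔫 Cm' N tr n).D j).κ (tr + (N + 1) ^ 2)
      rw [hκ]
      refine le_trans ?_ (ftg_κ_ge hS (hy j) N htr (hHp 2 (by omega) j) _)
      calc 2 * (𝔫.K * (c.Cc + k)) = 𝔫.K * (2 * (c.Cc + k)) := by ring
        _ ≤ 𝔫.K * 𝔫.S := mul_le_mul_of_nonneg_left hCc hK0.le
        _ ≤ 𝔫.S * 𝔫.S := mul_le_mul_of_nonneg_right hKS hS0.le
        _ = 𝔫.S ^ 2 := by ring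
  · refine NCfg.ti_raw_sub hG cx m ?_
    intro j
    show 𝔫.S ^ m ≤ ((ftgN 𝔫 Cm' N tr n).D j).κ (tr + (N + 1) ^ 2)
    rw [hκ]
    exact ftg_κ_ge hS (hy j) N htr (hHp m (by omega) j) _
  · have h1 := NCfg.ti_raw_exc hG.toGOk cx 𝔫.S (ftgN 𝔫 Cm' N tr n).gH
    unfold ftgF
    rw [h1]
    show 𝔫.S ^ (1 : ℝ) ≤ 𝔫.S ^ 2 / 𝔫.K ^ 2
    rw [Real.rpow_one, le_div_iff₀ (pow_pos hK0 2)]
    calc 𝔫.S * 𝔫.K ^ 2 ≤ 𝔫.S * 𝔫.S := mul_le_mul_of_nonneg_left hK2 hS0.le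
      _ = 𝔫.S ^ 2 := by ring

/-! ## E. eventual conditions, limits -/

theorem ftg_ev_S {S : ℕ → ℝ} (hS : ∀ n : ℕ, (n : ℝ) + 3 ≤ S n) {a : ℝ} (ha : 0 < a) (B : ℝ) : ∀ᶠ n in atTop, B ≤ S n ^ a := by
  have h1 : Tendsto S atTop atTop := tendsto_atTop_mono (fun n => by linarith [hS n]) tendsto_natCast_atTop_atTop
  exact ((tendsto_rpow_atTop ha).comp h1).eventually_ge_atTop B

theorem ftg_ev_K {S K : ℕ → ℝ} (hS : ∀ n : ℕ, (n : ℝ) + 3 ≤ S n) (hK1 : ∀ n, 1 ≤ K n) (hK : ∀ n : ℕ, K n ≤ S n ^ (1 / ((n : ℝ) + 1))) (p : ℕ) :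
    ∀ᶠ n in atTop, K n ^ p ≤ S n ^ ((1 : ℝ) / 2) := by
  filter_upwards [eventually_ge_atTop (2 * p)] with n hn
  have hn0 : (0 : ℝ) ≤ n := Nat.cast_nonneg n
  have hS1 : 1 ≤ S n := by linarith [hS n]
  have hn' : (2 : ℝ) * p ≤ n := by exact_mod_cast hn
  calc K n ^ p ≤ (S n ^ (1 / ((n : ℝ) + 1))) ^ p := pow_le_pow_left₀ (by linarith [hK1 n]) (hK n) p
    _ = S n ^ ((1 / ((n : ℝ) + 1)) * p) := by rw [← Real.rpow_natCast, ← Real.rpow_mul (by linarith)]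
    _ ≤ S n ^ ((1 : ℝ) / 2) := by
      refine Real.rpow_le_rpow_of_exponent_le hS1 ?_
      rw [div_mul_eq_mul_div, one_mul, div_le_div_iff₀ (by linarith) (by norm_num)]
      linarith

theorem ftg_half_mul {S : ℝ} (hS : 0 < S) : S ^ ((1 : ℝ) / 2) * S ^ ((1 : ℝ) / 2) = S := by
  rw [← Real.rpow_add hS]
  norm_num

theorem ftg_ev_K7 {S K : ℕ → ℝ} (hS : ∀ n : ℕ, (n : ℝ) + 3 ≤ S n) (hK1 : ∀ n, 1 ≤ K n) (hK : ∀ n : ℕ, K n ≤ S n ^ (1 / ((n : ℝ) + 1))) (m : ℕ) :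
    ∀ᶠ n in atTop, (2 * K n ^ 7) ^ m ≤ S n := by
  filter_upwards [ftg_ev_K hS hK1 hK (7 * m), ftg_ev_S hS (a := (1 : ℝ) / 2) (by norm_num) (2 ^ m)] with n h1 h2
  have hn0 : (0 : ℝ) ≤ n := Nat.cast_nonneg n
  have hS0 : 0 < S n := by linarith [hS n]
  have hK0 : 0 < K n := by linarith [hK1 n]
  calc (2 * K n ^ 7) ^ m = 2 ^ m * K n ^ (7 * m) := by rw [mul_pow, ← pow_mul]
    _ ≤ S n ^ ((1 : ℝ) / 2) * S n ^ ((1 : ℝ) / 2) := mul_le_mul h2 h1 (pow_pos hK0 _).le (Real.rpow_nonneg hS0.le _)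
    _ = S n := ftg_half_mul hS0

theorem ftg_ev_K2 {S K : ℕ → ℝ} (hS : ∀ n : ℕ, (n : ℝ) + 3 ≤ S n) (hK1 : ∀ n, 1 ≤ K n) (hK : ∀ n : ℕ, K n ≤ S n ^ (1 / ((n : ℝ) + 1))) :
    ∀ᶠ n in atTop, K n ^ 2 ≤ S n := by
  filter_upwards [ftg_ev_K hS hK1 hK 2] with n h1
  have hn0 : (0 : ℝ) ≤ n := Nat.cast_nonneg n
  have hS1 : 1 ≤ S n := by linarith [hS n]
  calc K n ^ 2 ≤ S n ^ ((1 : ℝ) / 2) := h1
    _ ≤ S n ^ (1 : ℝ) := Real.rpow_le_rpow_of_exponent_le hS1 (by norm_num)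
    _ = S n := Real.rpow_one _

/-- the fine endpoints of two fields are close -/
theorem ftg_y_close {𝔫 : NCfg k c} {C₁ β E Λ₀ : ℝ} (h : 𝔫.Sub C₁ β E Λ₀) (hS : 1 < 𝔫.S) (hcmp : ∀ i j, (𝔫.D i).κ 0 ≤ 𝔫.K * (𝔫.D j).κ 0) (i j : Fin (k + 1)) :
    ftgy 𝔫 i ≤ ftgy 𝔫 j + 2 * β := by
  have hS0 : 0 < 𝔫.S := by linarith
  have hK1 := h.one_le_K
  have hK0 : 0 < 𝔫.K := by linarith
  have hH0 : ∀ j, 0 < 𝔫.H j := fun j => by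
    have : 1 ≤ 𝔫.H j := (h.good j).one_le_κ 1
    linarith
  have hκ0 : ∀ j, 0 < (𝔫.D j).κ 0 := fun j => by linarith [(h.good j).one_le_κ 0]
  have h1 : (𝔫.D i).κ 0 / 𝔫.H i ≤ 𝔫.S ^ (2 * β) * ((𝔫.D j).κ 0 / 𝔫.H j) := by
    have h2 : 𝔫.K ^ 2 ≤ 𝔫.S ^ (2 * β) := by
      rw [mul_comm, Real.rpow_mul hS0.le, Real.rpow_ofNat]
      exact pow_le_pow_left₀ hK0.le h.loss 2
    have h3 : (𝔫.D i).κ 0 / 𝔫.H i ≤ 𝔫.K ^ 2 * ((𝔫.D j).κ 0 / 𝔫.H j) := by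
      rw [div_le_iff₀ (hH0 i)]
      have h4 := hcmp i j
      have h5 := h.H_cmp j i
      have h6 : 𝔫.K ^ 2 * ((𝔫.D j).κ 0 / 𝔫.H j) * 𝔫.H i = (𝔫.K * (𝔫.D j).κ 0) * ((𝔫.K * 𝔫.H i) / 𝔫.H j) := by
        field_simp
      rw [h6]
      have h7 : 1 ≤ (𝔫.K * 𝔫.H i) / 𝔫.H j := by
        rw [le_div_iff₀ (hH0 j), one_mul]
        exact h5
      calc (𝔫.D i).κ 0 ≤ 𝔫.K * (𝔫.D j).κ 0 := h4
        _ ≤ (𝔫.K * (𝔫.D j).κ 0) * ((𝔫.K * 𝔫.H i) / 𝔫.H j) := le_mul_of_one_le_right (mul_pos hK0 (hκ0 j)).le h7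
    exact h3.trans (mul_le_mul_of_nonneg_right h2 (div_pos (hκ0 j) (hH0 j)).le)
  unfold ftgy
  have h8 := Real.logb_le_logb_of_le hS (div_pos (hκ0 i) (hH0 i)) h1
  rw [Real.logb_mul (Real.rpow_pos_of_pos hS0 _).ne' (div_pos (hκ0 j) (hH0 j)).ne', Real.logb_rpow hS0 hS.ne'] at h8
  linarith

/-! ## F. the tower -/

/-- **the exit of GRID, subpower case** -/
theorem ftg_sub (c : TCls k) (hc : c.Ok) (hr : FR1.Room c) (hℓ : c.ℓ = 1) (htr : c.tr = 1) : RawExitSub c := by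
  intro hne
  have hcmp : ∀ (C₁ β E Λ₀ : ℝ) (𝔫 : NCfg k c), 𝔫.Sub C₁ β E Λ₀ → ∀ i j, (𝔫.D i).κ 0 ≤ 𝔫.K * (𝔫.D j).κ 0 := fun _ _ _ _ _ h => h.leaf_cmp
  have hne' : ∃ C₁ : ℝ, ∀ β E Λ₀ : ℝ, 0 < β → ∃ 𝔫 : NCfg k c, 𝔫.Sub C₁ β E Λ₀ := by
    by_contra hcon
    refine hne fun C₁ => ?_
    by_contra h2
    refine hcon ⟨C₁, fun β E Λ₀ hβ => ?_⟩
    by_contra h3
    exact h2 ⟨β, E, Λ₀, hβ, fun 𝔫 h𝔫 => h3 ⟨𝔫, h𝔫⟩⟩
  obtain ⟨C₁, hC⟩ := hne'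
  have hex : ∀ n : ℕ, ∃ 𝔫 : NCfg k c, 𝔫.Sub C₁ (1 / ((n : ℝ) + 1)) n ((n : ℝ) + 3) := fun n => hC _ _ _ (by positivity)
  choose 𝔫 h𝔫 using hex
  obtain ⟨Cm', hCm', hmain⟩ := NCfg.ti_grid_main k c.Cc c.Cm
  have hmain' : ∀ (𝔫 : NCfg k c) (ℓ tr : ℕ) (s : Fin (k + 1) → GSp k), (∀ i, (s i).Ok (𝔫.D i) ℓ tr) → ∀ C₁ β E Λ₀ : ℝ, 𝔫.Sub C₁ β E Λ₀ →
      (𝔫.grid ℓ tr Cm' s).GSub C₁ β E Λ₀ := fun 𝔫 ℓ tr s hs => (hmain c hc hℓ htr rfl rfl 𝔫 ℓ tr s hs Cm' le_rfl).2.2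
  -- pointwise facts
  have hS3 : ∀ n : ℕ, (n : ℝ) + 3 ≤ (𝔫 n).S := fun n => (h𝔫 n).big
  have hS1 : ∀ n, 1 < (𝔫 n).S := fun n => by
    have : (0 : ℝ) ≤ n := Nat.cast_nonneg n
    linarith [hS3 n]
  have hK1 : ∀ n, 1 ≤ (𝔫 n).K := fun n => (h𝔫 n).one_le_K
  have hK : ∀ n : ℕ, (𝔫 n).K ≤ (𝔫 n).S ^ (1 / ((n : ℝ) + 1)) := fun n => (h𝔫 n).loss
  have hH0 : ∀ n j, 0 < (𝔫 n).H j := fun n j => by
    have : 1 ≤ (𝔫 n).H j := ((h𝔫 n).good j).one_le_κ 1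
    linarith
  have hy0 : ∀ n j, 0 ≤ ftgy (𝔫 n) j := fun n j => ftg_y_nonneg (h𝔫 n).toOk (hS1 n) j
  have hy1 : ∀ n j, ftgy (𝔫 n) j ≤ C₁ := fun n j => ftg_y_le (h𝔫 n) (hS1 n) j
  have hC₁ : 0 ≤ C₁ := (hy0 0 0).trans (hy1 0 0)
  -- the limit of the fine endpoints
  obtain ⟨e, he⟩ : ∃ e, e = ulim (fun n => ftgy (𝔫 n) 0) := ⟨_, rfl⟩
  have hlim0 : Tendsto (fun n => ftgy (𝔫 n) 0) uf (𝓝 e) := by
    rw [he]
    exact ulim_tendsto _ (UBdd.of_le 0 C₁ (Eventually.of_forall fun n => ⟨hy0 n 0, hy1 n 0⟩))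
  have hz : Tendsto (fun n : ℕ => 2 * (1 / ((n : ℝ) + 1))) uf (𝓝 0) := by
    have := (tendsto_one_div_add_atTop_nhds_zero_nat (𝕜 := ℝ)).const_mul 2
    rw [mul_zero] at this
    exact this.mono_left uf_le_atTop
  have hlim : ∀ j, Tendsto (fun n => ftgy (𝔫 n) j) uf (𝓝 e) := by
    intro j
    have hlo : Tendsto (fun n : ℕ => ftgy (𝔫 n) 0 - 2 * (1 / ((n : ℝ) + 1))) uf (𝓝 e) := by
      have := hlim0.sub hz
      rwa [sub_zero] at this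
    have hhi : Tendsto (fun n : ℕ => ftgy (𝔫 n) 0 + 2 * (1 / ((n : ℝ) + 1))) uf (𝓝 e) := by
      have := hlim0.add hz
      rwa [add_zero] at this
    refine tendsto_of_tendsto_of_tendsto_of_le_of_le hlo hhi (fun n => ?_) (fun n => ?_)
    · have := ftg_y_close (h𝔫 n) (hS1 n) (hcmp _ _ _ _ _ (h𝔫 n)) 0 j
      show ftgy (𝔫 n) 0 - 2 * (1 / ((n : ℝ) + 1)) ≤ ftgy (𝔫 n) j
      linarith
    · exact ftg_y_close (h𝔫 n) (hS1 n) (hcmp _ _ _ _ _ (h𝔫 n)) j 0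
  have he0 : 0 ≤ e := by
    have := uf_neBot
    exact ge_of_tendsto hlim0 (Eventually.of_forall fun n => hy0 n 0)
  -- the grids
  obtain ⟨tr, htrd⟩ : ∃ tr : ℕ → ℕ, tr = fun N => if 0 < e then N + 1 else 1 := ⟨_, rfl⟩
  have htr1 : ∀ N, 1 ≤ tr N := fun N => by
    rw [htrd]
    show 1 ≤ if 0 < e then N + 1 else 1
    split_ifs
    · omega
    · exact le_refl _
  obtain ⟨cx, hcxd⟩ : ∃ cx : ℕ → ℕ, cx = fun N => k * (⌈C₁⌉₊ + N + 1) + 1 := ⟨_, rfl⟩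
  have hcx : ∀ N n j, (k : ℝ) * (ftgy (𝔫 n) j + N + 1) + 1 ≤ cx N := fun N n j => by
    rw [hcxd]
    push_cast
    have h1 : ftgy (𝔫 n) j ≤ (⌈C₁⌉₊ : ℝ) := (hy1 n j).trans (Nat.le_ceil C₁)
    have h2 : (k : ℝ) * (ftgy (𝔫 n) j + N + 1) ≤ (k : ℝ) * ((⌈C₁⌉₊ : ℝ) + N + 1) := mul_le_mul_of_nonneg_left (by linarith) (Nat.cast_nonneg k)
    linarith
  -- the eventual conditions
  have hb : ∀ N, ∀ᶠ n in uf, tr N = 1 ∨ ∀ j, 2 ≤ (𝔫 n).S ^ (ftgy (𝔫 n) j / tr N) := by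
    intro N
    by_cases hpos : 0 < e
    · have h1 : ∀ᶠ n in uf, ∀ j, e / 2 < ftgy (𝔫 n) j := eventually_all.2 fun j => (hlim j).eventually (lt_mem_nhds (by linarith))
      have htN : (0 : ℝ) < tr N := by exact_mod_cast htr1 N
      have h2 : ∀ᶠ n in uf, 2 ≤ (𝔫 n).S ^ (e / 2 / tr N) := uf_le_atTop (ftg_ev_S hS3 (by positivity) 2)
      filter_upwards [h1, h2] with n h1 h2
      refine Or.inr fun j => h2.trans (Real.rpow_le_rpow_of_exponent_le (hS1 n).le ?_)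
      exact div_le_div_of_nonneg_right (h1 j).le htN.le
    · refine Eventually.of_forall fun n => Or.inl ?_
      rw [htrd]
      exact if_neg hpos
  have hone : ∀ N m, ∀ᶠ n in uf, (ftgF (𝔫 n) Cm' N (tr N) n (cx N)).Raw m ∧ (ftgF (𝔫 n) Cm' N (tr N) n (cx N)).Sub m C₁ C₁ ∧
      (ftgF (𝔫 n) Cm' N (tr N) n (cx N)).Λ ^ (1 : ℝ) ≤ (ftgF (𝔫 n) Cm' N (tr N) n (cx N)).σo ^ 2 * (ftgF (𝔫 n) Cm' N (tr N) n (cx N)).A (ftgF (𝔫 n) Cm' N (tr N) n (cx N)).j0 ^ 2 := by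
    intro N m
    have e1 : ∀ᶠ n in uf, 2 ≤ (𝔫 n).S ^ (1 / ((N : ℝ) + 1)) := uf_le_atTop (ftg_ev_S hS3 (by positivity) 2)
    have e2 : ∀ᶠ n in uf, (2 * (𝔫 n).K ^ 7) ^ m ≤ (𝔫 n).S := uf_le_atTop (ftg_ev_K7 hS3 hK1 hK m)
    have e3 : ∀ᶠ n in uf, (𝔫 n).K ^ 2 ≤ (𝔫 n).S := uf_le_atTop (ftg_ev_K2 hS3 hK1 hK)
    have e4 : ∀ᶠ n in uf, 2 * (c.Cc + k) ≤ (𝔫 n).S ^ (1 : ℝ) := uf_le_atTop (ftg_ev_S hS3 one_pos _)
    have e5 : ∀ᶠ n in uf, m + 2 + N + 1 ≤ n := uf_le_atTop (eventually_ge_atTop _)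
    filter_upwards [hb N, e1, e2, e3, e4, e5] with n hb e1 e2 e3 e4 e5
    rw [Real.rpow_one] at e4
    refine ftg_one hc hCm' hmain' (h𝔫 n) (htr1 N) e1 hb ?_ e2 e3 e4 ?_ (by omega) (hcx N n)
    · intro j
      refine le_trans ?_ ((h𝔫 n).H_ge j)
      rw [Real.rpow_natCast]
      exact pow_le_pow_right₀ (hS1 n).le e5
    · have : (m : ℝ) ≤ n := by exact_mod_cast (by omega : m ≤ n)
      linarith [hS3 n]
  have hs : ∀ N n j i, (ftgF (𝔫 n) Cm' N (tr N) n (cx N)).s j i = ftgσ (ftgy (𝔫 n) j) N (tr N) i := fun N n j i =>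
    ftg_F_s (hS1 n) (hH0 n) Cm' N (htr1 N) n (cx N) j i
  refine ⟨⟨fun N n => ftgF (𝔫 n) Cm' N (tr N) n (cx N), fun N => c.gr (tr N + (N + 1) ^ 2) (tr N) Cm', cx, fun N => (C₁ + 1) / ((N : ℝ) + 1), ordOf (c.gr 0 0 Cm')⟩,
    rfl, rfl, fun _ => e, C₁, C₁, ?_⟩
  exact
    { cls := fun _ _ => rfl
      cxs := fun _ _ => rfl
      ord := fun _ => rfl
      room := hr
      clsok := fun N => ti_gr_ok hc (Nat.le_add_right _ _) hCm'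
      raw := fun N m => (hone N m).mono fun n h => h.1
      μ_pos := fun N => by
        show 0 < (C₁ + 1) / ((N : ℝ) + 1)
        positivity
      μ_lim := by
        have := (tendsto_one_div_add_atTop_nhds_zero_nat (𝕜 := ℝ)).const_mul (C₁ + 1)
        rw [mul_zero] at this
        refine (this.mono_left uf_le_atTop).congr fun N => ?_
        show (C₁ + 1) * (1 / ((N : ℝ) + 1)) = (C₁ + 1) / ((N : ℝ) + 1)
        rw [mul_one_div]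
      mesh := fun N => by
        have hN0 : (0 : ℝ) < (N : ℝ) + 1 := by positivity
        have h2 : 1 / ((N : ℝ) + 1) ≤ (C₁ + 1) / ((N : ℝ) + 1) := div_le_div_of_nonneg_right (by linarith) hN0.le
        have h1 : ∀ᶠ n in uf, ∀ j, ftgy (𝔫 n) j / tr N ≤ (C₁ + 1) / ((N : ℝ) + 1) := by
          by_cases hpos : 0 < e
          · refine Eventually.of_forall fun n j => ?_
            have : (tr N : ℝ) = (N : ℝ) + 1 := by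
              rw [htrd]
              show (((if 0 < e then N + 1 else 1 : ℕ)) : ℝ) = (N : ℝ) + 1
              rw [if_pos hpos]
              push_cast
              ring
            rw [this]
            exact div_le_div_of_nonneg_right (by linarith [hy1 n j]) hN0.le
          · have he' : e = 0 := le_antisymm (not_lt.1 hpos) he0
            have : (tr N : ℝ) = 1 := by
              rw [htrd]
              show (((if 0 < e then N + 1 else 1 : ℕ)) : ℝ) = 1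
              rw [if_neg hpos]
              norm_num
            rw [this]
            have h3 : ∀ᶠ n in uf, ∀ j, ftgy (𝔫 n) j < 1 / ((N : ℝ) + 1) :=
              eventually_all.2 fun j => (hlim j).eventually (gt_mem_nhds (by rw [he']; positivity))
            filter_upwards [h3] with n h3 j
            rw [div_one]
            exact (h3 j).le.trans h2
        filter_upwards [h1] with n h1 j i hi
        show (ftgF (𝔫 n) Cm' N (tr N) n (cx N)).s j i - (ftgF (𝔫 n) Cm' N (tr N) n (cx N)).s j (i + 1) ≤ (C₁ + 1) / ((N : ℝ) + 1)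
        rw [hs, hs]
        exact ftg_σ_step N (htr1 N) hi (h1 j) h2
      exc := ⟨1, one_pos, fun N => (hone N 0).mono fun n h => h.2.2⟩
      sub := fun N m => (hone N m).mono fun n h => h.2.1
      e_nonneg := fun _ => he0
      top := fun N j => by
        refine (hlim j).congr fun n => ?_
        show ftgy (𝔫 n) j = (ftgF (𝔫 n) Cm' N (tr N) n (cx N)).s j 0
        rw [hs, ftg_σ_zero]
      bot := fun a => by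
        have h1 : ∀ᶠ N : ℕ in uf, -a ≤ (N : ℝ) := uf_le_atTop (tendsto_natCast_atTop_atTop.eventually_ge_atTop _)
        filter_upwards [h1] with N hN
        refine Eventually.of_forall fun n j => ?_
        show (ftgF (𝔫 n) Cm' N (tr N) n (cx N)).s j (tr N + (N + 1) ^ 2) ≤ a
        rw [hs, ftg_σ_top _ N (le_refl _)]
        linarith }

end

end Claimed.Agent.R257.FR3
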