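import Claimed.Agent.R257.FR3.Top
import Claimed.Agent.R257.FR2.Multi
import Claimed.Agent.R257.Tree.Ok
import Claimed.Agent.R257.FR1.Defs

/-!
# ROW 257, package FR3, unit TOP, file 3: RAW CONFIGURATIONS, FREEZING, FROM RAW TOWERS TO TOWERS      (architect helper41)

`FCfg.Raw m` = what FR1 + GRID deliver for one member of the countersequence on one grid, BEFORE the selection (the fields `Cp εp L0 Rm S r Go` of `FCfg` are junk, `K` = the raw loss, the radii `(D j).G` are arbitrary).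
`ft_freeze` : a raw configuration of high quality has a frozen version of quality `m'`:  choose `ε`, the constant `C'` of INST (`ti_ok_sub`: root count from `p:near-cauchy`, in BOTH cases), `X' = Λ^{cx+1}`, `Rm = X'^{M2}`, norm loss `K0 = C' K Rm^ε`,
frozen loss `Ks = (K0 log X')^{cs}` (`cs` from `tm_select`), `K1 = K0 Ks`, radii `G i = g^{ℓ-i} K1^{m'}`, `g = 2 (1 + 2 Cc)`, occupancy cut-off `Go = C' (G 0)^{2P} K Ks`;  `tm_select`;  restrict the trees to the retained cubes.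
`ft_tower` : diagonal (`ulim_diag`): for every grid `N` the quality of the frozen versions tends to infinity along `uf`.
EXIT `ft_core` : `FR1.CoreStmt k` from the five grid-level tests, the three analytic contracts of INST and `RawExitPow`, `RawExitSub` (a failing `CorePow` / `CoreSub` produces a RAW tower: unit GRID, `FR3/TopGrid.lean`).
LEAVES `L-257-FR-*`: prove IN PLACE, statements verbatim (defect: one line to helper41), auxiliary lemmas with prefix `ft_` directly above.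
-/

set_option autoImplicit false

namespace Claimed.Agent.R257.Tree

open Claimed.Agent.R257 Claimed.Agent.R257.FR2
open scoped BigOperators Classical BoundedContinuousFunction

noncomputable section

variable {k : ℕ} {c : TCls k}

namespace TDat

/-- change of the radii of the incidence relation -/
def setG (D : TDat c) (G' : ℕ → ℝ) : TDat c := { D with G := G' }

/-- restriction to a set of witnesses -/
def restrY (D : TDat c) (Y₁ : Finset D.Y) : TDat c :=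
  { D with Y := {y : D.Y // y ∈ Y₁}, fY := inferInstance, pt := fun y => D.pt y.1 }

theorem Good.setG {D : TDat c} (hD : D.Good) (G' : ℕ → ℝ) (h1 : ∀ i, i ≤ c.ℓ → 1 ≤ G' i) (h2 : ∀ i, i < c.ℓ → 2 * (1 + 2 * c.Cc) * G' (i + 1) ≤ G' i) : (D.setG G').Good :=
  { one_le_κ := hD.one_le_κ
    κ_anti := hD.κ_anti
    par_near := hD.par_near
    top_bdd := hD.top_bdd
    mult := hD.mult
    nlab := hD.nlab
    nch := hD.nch
    bin_par := hD.bin_par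
    bin_inj := hD.bin_inj
    leaf := hD.leaf
    sep := hD.sep
    ηw_nonneg := hD.ηw_nonneg
    win := hD.win
    one_le_G := h1
    G_step := h2
    one_le_ϖ := hD.one_le_ϖ
    Mc_pos := hD.Mc_pos
    sq0 := hD.sq0
    ret := hD.ret
    clip := hD.clip }

theorem Good.restrY {D : TDat c} (hD : D.Good) (Y₁ : Finset D.Y) : (D.restrY Y₁).Good :=
  { one_le_κ := hD.one_le_κ
    κ_anti := hD.κ_anti
    par_near := hD.par_near
    top_bdd := hD.top_bdd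
    mult := hD.mult
    nlab := hD.nlab
    nch := hD.nch
    bin_par := hD.bin_par
    bin_inj := hD.bin_inj
    leaf := hD.leaf
    sep := fun y y' h => hD.sep y.1 y'.1 fun h' => h (Subtype.ext h')
    ηw_nonneg := hD.ηw_nonneg
    win := fun i hi hi' y v => hD.win i hi hi' y.1 v
    one_le_G := hD.one_le_G
    G_step := hD.G_step
    one_le_ϖ := hD.one_le_ϖ
    Mc_pos := hD.Mc_pos
    sq0 := fun y => hD.sq0 y.1
    ret := hD.ret
    clip := fun y => hD.clip y.1 }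

theorem restrY_bb (D : TDat c) (Y₁ : Finset D.Y) : (D.restrY Y₁).bb = D.bb := by
  funext i
  induction i with
  | zero => rfl
  | succ i ih =>
    funext T
    show Real.sqrt (∑ T' : D.Cl i, (D.restrY Y₁).bb i T' ^ 2 * D.edge c.P i T'.1 T.1) = Real.sqrt (∑ T' : D.Cl i, D.bb i T' ^ 2 * D.edge c.P i T'.1 T.1)
    rw [ih]

/-- the system of the restricted data is the restricted system (ALL the fields but `b` agree by `rfl`) -/
theorem restrY_sys (D : TDat c) (Y₁ : Finset D.Y) : (D.restrY Y₁).sys = D.sys.restr Y₁ := by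
  unfold TDat.sys TSys.restr
  simp only [restrY_bb]
  rfl

theorem setG_restrY (D : TDat c) (Y₁ : Finset D.Y) (G' : ℕ → ℝ) : (D.restrY Y₁).setG G' = (D.setG G').restrY Y₁ := rfl

end TDat

end

end Claimed.Agent.R257.Tree

namespace Claimed.Agent.R257.FR3

open Filter Topology Set
open scoped BigOperators
open Claimed.Agent.R255 Claimed.Agent.R257 Claimed.Agent.R257.FR2 Claimed.Agent.R257.Tree

noncomputable section

variable {k : ℕ}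

namespace FCfg

variable (F : FCfg k)

/-- **a raw configuration of quality `m`** -/
structure Raw (m : ℕ) : Prop where
  cls : F.c.Ok
  good : ∀ j, (F.D j).Good
  ne : Nonempty F.Qc
  one_le_A : ∀ j, 1 ≤ F.A j
  D_pos : ∀ j, 0 < (F.D j).sys.D
  /-- the leaf field (through the original transition masks) is high at all the witnesses -/
  high : ∀ j y, F.A j ≤ ‖(F.D j).sys.Ev 0 (F.D j).sys.g0 y‖
  /-- (f:hbalance) / (f:subbalance) -/
  bal : ∀ j, (F.D j).sys.D ≤ F.K * (Fintype.card F.Qc * F.A j ^ qk k)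
  κr_pos : ∀ j, 0 < F.κr j
  Λ_ge : (m : ℝ) + 3 ≤ F.Λ
  two_le_K : 2 ≤ F.K
  K_Λ : F.K ^ m ≤ F.Λ
  ϖ_le : ∀ j, (F.D j).ϖ ≤ F.K
  /-- polynomial sizes -/
  step_le : ∀ j i, i < F.c.ℓ → ((F.D j).κ i / (F.D j).κ (i + 1)) ^ k ≤ F.X
  span_le : ∀ j, (F.D j).κ 0 / (F.D j).κ F.c.ℓ ≤ F.X
  root_le : ∀ j i, i ≤ F.c.ℓ → (F.D j).κ i ^ k ≤ F.X * F.A j ^ 2
  lac : ∀ j i, 1 ≤ i → i < F.c.ℓ → 2 * (F.D j).κ (i + 1) ≤ (F.D j).κ i
  /-- the windows are huge -/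
  win : ∀ j, (F.D j).ηw * (F.D j).κ 0 ^ k * F.Λ ^ m ≤ 1
  trans : ∀ lb : ∀ j, (F.D j).Lb F.c.ℓ, Transv F.K (fun j => (F.D j).fr F.c.ℓ (lb j))
  trans0 : ∀ lb : ∀ j, (F.D j).Lb 0, Transv F.K (fun j => (F.D j).fr 0 (lb j))
  full : ∀ j, (F.D j).Full
  cube : ∀ q j j', ‖(F.D j).pt (F.e j q) - (F.D j').pt (F.e j' q)‖ ≤ (k : ℝ) + 1
  tr_vol : ∀ j, F.A j ^ qk k ≤ F.K * (F.D j).κ F.c.tr ^ (k + 2)
  vol_tr : ∀ j, (F.D j).κ F.c.tr ^ (k + 2) ≤ F.K * F.A j ^ qk k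
  σo_nonneg : 0 ≤ F.σo
  ao_ge : ∀ T, F.σo ≤ F.ao T
  ao_en : (F.D F.j0).sys.vol F.c.tr * ∑ T, F.ao T ^ 2 ≤ F.K * (F.D F.j0).sys.D

/-- the normalisations of the power case, raw form -/
structure Pow0 : Prop where
  κr_one : ∀ j, F.κr j = 1
  leaf : ∀ j, (F.D j).κ 0 = F.Λ
  env0 : ∀ j y, ∑ T ∈ (F.D j).W 0, (F.D j).s0 T ^ 2 * (F.D j).wA F.c.P 0 T ((F.D j).pt y) ≤ F.K

end FCfg

/-- `F'` is a frozen version of `F`: same grid, scales, thresholds, base, excess -/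
structure FExt (F F' : FCfg k) : Prop where
  c : F'.c = F.c
  cx : F'.cx = F.cx + 1
  Λ : F'.Λ = F.Λ
  A : F'.A = F.A
  κr : F'.κr = F.κr
  κ : ∀ j i, (F'.D j).κ i = (F.D j).κ i
  j0 : F'.j0 = F.j0
  σo : F'.σo = F.σo

/-- the frozen version with given parameters -/
def FCfg.frz (F : FCfg k) (G' : ℕ → ℝ) (Yf : Finset F.Qc) (Cp εp Rm K Go : ℝ) (L0 : Fin (k + 1) → ℝ)
    (S : ∀ j i, Finset ((((F.D j).restrY (Yf.map (F.e j).toEmbedding)).setG G').sys.C i)) (r : Fin (k + 1) → ℕ → ℝ) : FCfg k where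
  c := F.c
  cx := F.cx + 1
  D := fun j => ((F.D j).restrY (Yf.map (F.e j).toEmbedding)).setG G'
  Qc := {q : F.Qc // q ∈ Yf}
  fQ := inferInstance
  e := fun j => (F.e j).subtypeEquiv fun _ => (Finset.mem_map' (F.e j).toEmbedding).symm
  Λ := F.Λ
  A := F.A
  κr := F.κr
  Cp := Cp
  εp := εp
  L0 := L0
  Rm := Rm
  S := S
  r := r
  K := K
  Go := Go
  j0 := F.j0
  ao := F.ao
  σo := F.σo

/-! ## 1. the frozen version is a configuration of quality `m'` -/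

theorem ft_frz_ext (F : FCfg k) (G' : ℕ → ℝ) (Yf : Finset F.Qc) (Cp εp Rm K Go : ℝ) (L0 : Fin (k + 1) → ℝ)
    (S : ∀ j i, Finset ((((F.D j).restrY (Yf.map (F.e j).toEmbedding)).setG G').sys.C i)) (r : Fin (k + 1) → ℕ → ℝ) : FExt F (F.frz G' Yf Cp εp Rm K Go L0 S r) :=
  ⟨rfl, rfl, rfl, rfl, rfl, fun _ _ => rfl, rfl, rfl⟩

/-- L-257-FR-MONOK: a frozen tree stays frozen with a larger loss.   PLAN: `bud_le`: `0 ≤ D` (`TSys.tpf_D_nonneg`); `le_bud`: the budget is `≥ 0` (`TSys.tsl_bud_nonneg`, `tpf_am_nonneg`, `resA`); `high`: `norm_nonneg`; `card_le`: `Nat.cast_nonneg`. -/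
theorem ft_frozen_mono {𝔖 : TSys} {p : TPar} (h : 𝔖.Ok p) {A K K' G : ℝ} {S : ∀ i, Finset (𝔖.C i)} {r : ℕ → ℝ} {Yf : Finset 𝔖.Y} (hF : 𝔖.Frozen p.q A K G S r Yf) (hK : K ≤ K') :
    𝔖.Frozen p.q A K' G S r Yf := by
  refine ⟨hF.r_pos, hF.r_zero, hF.ratio, hF.occ_le, fun i hi => ?_, fun i hi => ?_, fun i hi z hz => ?_, ?_⟩
  · exact (hF.bud_le i hi).trans (mul_le_mul_of_nonneg_right hK (𝔖.tm_D_nonneg h))
  · refine (hF.le_bud i hi).trans (mul_le_mul_of_nonneg_right hK ?_)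
    refine TSys.tsl_bud_nonneg (𝔖 := 𝔖) h p.q i (fun T => ?_) (h.b_nonneg i)
    unfold TSys.resA
    split_ifs
    · exact 𝔖.tm_am_nonneg h S i T
    · exact le_rfl
  · exact (hF.high i hi z hz).trans (mul_le_mul_of_nonneg_right hK (norm_nonneg _))
  · exact hF.card_le.trans (mul_le_mul_of_nonneg_right hK (Nat.cast_nonneg _))

/-- L-257-FR-OK, **the fields of `FCfg.Ok` for the frozen version** (copying lemma: no idea needed).
PLAN: `cls`, `one_le_A`, `κr_pos`, `σo_nonneg`, `ao_ge`, `lac`: from `hF`.  `good`: `((hF.good j).restrY _).setG G' (fun i _ => hG1 i) hG2`.  `D_pos`, `bal`, `ao_en`: `sys.D`, `sys.vol` of the frozen version are those of `F.D j` (`rfl`: `D = en 0 (b 0)`, `bb 0 = s0`);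
`Fintype.card {q // q ∈ Yf} = Yf.card` (`Fintype.card_coe`).   `L_le`, `ϖ0_le`, `ϖ1_Go`, `η_le`, `Γ_le`, `Γr_le`: unfold `FCfg.tp`, `TDat.tp`, `FCfg.X`; `Γ i = Cp (κ_i/κ_{i+1})^k ≤ Λ * Λ^cx` (`hF.step_le`, `pow_succ`), `Γr` the same with `hF.root_le`.
`trans`: `Transv` is monotone in `Q` (`hK`; the right side is `≥ 0`).   `cube`: `hF.cube q.1`.   `tr_vol`, `vol_tr`, `ao_en`: monotone in `K` (`hK`). -/
theorem ft_frz_ok (F : FCfg k) {m m' : ℕ} (hF : F.Raw m) (hm : m' ≤ m) (G' : ℕ → ℝ) (Yf : Finset F.Qc) (Cp εp Rm K Go : ℝ) (L0 : Fin (k + 1) → ℝ)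
    (S : ∀ j i, Finset ((((F.D j).restrY (Yf.map (F.e j).toEmbedding)).setG G').sys.C i)) (r : Fin (k + 1) → ℕ → ℝ)
    (hG1 : ∀ i, 1 ≤ G' i) (hG2 : ∀ i, i < F.c.ℓ → 2 * (1 + 2 * F.c.Cc) * G' (i + 1) ≤ G' i) (hYf : Yf.Nonempty)
    (hsys : ∀ j, (((F.D j).restrY (Yf.map (F.e j).toEmbedding)).setG G').sys.Ok ((((F.D j).restrY (Yf.map (F.e j).toEmbedding)).setG G').tp Cp εp (L0 j) Rm))
    (hfr : ∀ j, (((F.D j).restrY (Yf.map (F.e j).toEmbedding)).setG G').sys.Frozen (qk k) (F.A j) K Go (S j) (r j) Finset.univ)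
    (hang : ∀ (j : Fin (k + 1)) (I : TAIn (((F.D j).restrY (Yf.map (F.e j).toEmbedding)).setG G')), I.Ew = (k : ℝ) + 2 → I.Q2 = F.c.Q + ((k : ℝ) + 2) * k / 2 →
      I.Cs = 2 ^ (k + 3) * ((F.c.ℓ : ℝ) + 1) * F.c.Cc → I.Ok →
      ((((F.D j).restrY (Yf.map (F.e j).toEmbedding)).setG G').ang I).Ok ((((F.D j).restrY (Yf.map (F.e j).toEmbedding)).setG G').tp Cp εp (L0 j) Rm)
          ((((F.D j).restrY (Yf.map (F.e j).toEmbedding)).setG G').ap Cp εp (tia_qa k)) ∧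
        ((((F.D j).restrY (Yf.map (F.e j).toEmbedding)).setG G').ang I).Var ((((F.D j).restrY (Yf.map (F.e j).toEmbedding)).setG G').kv I Cp))
    (hbal : ∀ j, (F.D j).sys.D ≤ K * (Yf.card * F.A j ^ qk k)) (hK : F.K ≤ K)
    (hL : ∀ j, Cp * ((F.D j).κ 0 / (F.D j).κ F.c.ℓ) ^ εp ≤ K) (hL0 : ∀ j, L0 j ≤ K) (hϖ0 : ∀ j, Cp * (F.D j).ϖ ≤ K) (hCp : Cp ≤ K) (hCp0 : 0 ≤ Cp) (hCpΛ : Cp ≤ F.Λ)
    (hKG : K ^ m' ≤ G' F.c.ℓ) (hϖ1 : ∀ j, Cp * G' 0 ^ (2 * F.c.P) * (F.D j).ϖ ≤ Go) (hGo : Go ^ m' ≤ F.Λ)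
    (hRm : (F.Λ ^ (F.cx + 1)) ^ m' ≤ Rm) (hη : ∀ j, Cp * (F.D j).ηw * (F.D j).κ 0 ^ k * (F.Λ ^ (F.cx + 1)) ^ m' ≤ 1) :
    (F.frz G' Yf Cp εp Rm K Go L0 S r).Ok m' := by
  have hΛ0 : 0 ≤ F.Λ := by
    have := hF.Λ_ge
    have h0 : (0 : ℝ) ≤ m := Nat.cast_nonneg m
    linarith
  have hmm : (m' : ℝ) ≤ m := by exact_mod_cast hm
  have hκ : ∀ j i, 0 < (F.D j).κ i := fun j i => lt_of_lt_of_le one_pos ((hF.good j).one_le_κ i)
  have hA0 : ∀ j, 0 ≤ F.A j := fun j => by linarith [hF.one_le_A j]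
  have f_Γ : ∀ j i, i < F.c.ℓ → Cp * ((F.D j).κ i / (F.D j).κ (i + 1)) ^ k ≤ F.Λ ^ (F.cx + 1) := by
    intro j i hi
    rw [pow_succ, mul_comm (F.Λ ^ F.cx)]
    exact mul_le_mul hCpΛ (hF.step_le j i hi) (by have := hκ j i; have := hκ j (i + 1); positivity) hΛ0
  have f_Γr : ∀ j i, i ≤ F.c.ℓ → Cp * (F.D j).κ i ^ k ≤ F.Λ ^ (F.cx + 1) * F.A j ^ 2 := by
    intro j i hi
    rw [pow_succ, mul_comm (F.Λ ^ F.cx), mul_assoc]
    exact mul_le_mul hCpΛ (hF.root_le j i hi) (by have := hκ j i; positivity) hΛ0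
  have f_bal : ∀ j, (F.D j).sys.D ≤ K * ((Fintype.card {q : F.Qc // q ∈ Yf} : ℝ) * F.A j ^ qk k) := by
    intro j
    rw [Fintype.card_coe]
    exact hbal j
  have f_trans : ∀ lb : ∀ j, (F.D j).Lb F.c.ℓ, Transv K (fun j => (F.D j).fr F.c.ℓ (lb j)) := by
    intro lb t
    exact (hF.trans lb t).trans (mul_le_mul_of_nonneg_right hK (by positivity))
  have f_trans0 : ∀ lb : ∀ j, (F.D j).Lb 0, Transv K (fun j => (F.D j).fr 0 (lb j)) := by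
    intro lb t
    exact (hF.trans0 lb t).trans (mul_le_mul_of_nonneg_right hK (by positivity))
  have f_trvol : ∀ j, F.A j ^ qk k ≤ K * (F.D j).κ F.c.tr ^ (k + 2) := fun j =>
    (hF.tr_vol j).trans (mul_le_mul_of_nonneg_right hK (by have := hκ j F.c.tr; positivity))
  have f_voltr : ∀ j, (F.D j).κ F.c.tr ^ (k + 2) ≤ K * F.A j ^ qk k := fun j =>
    (hF.vol_tr j).trans (mul_le_mul_of_nonneg_right hK (Real.rpow_nonneg (hA0 j) _))
  have f_aoen : (F.D F.j0).sys.vol F.c.tr * ∑ T, F.ao T ^ 2 ≤ K * (F.D F.j0).sys.D :=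
    hF.ao_en.trans (mul_le_mul_of_nonneg_right hK (hF.D_pos _).le)
  exact
    { cls := hF.cls
      good := fun j => ((hF.good j).restrY _).setG G' (fun i _ => hG1 i) hG2
      sys := hsys
      frozen := hfr
      ang := hang
      ne := ⟨⟨hYf.choose, hYf.choose_spec⟩⟩
      one_le_A := hF.one_le_A
      D_pos := hF.D_pos
      bal := f_bal
      κr_pos := hF.κr_pos
      cx_pos := Nat.succ_le_succ (Nat.zero_le _)
      Λ_ge := by show (m' : ℝ) + 3 ≤ F.Λ; linarith [hF.Λ_ge]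
      two_le_K := hF.two_le_K.trans hK
      L_le := hL
      L0_le := hL0
      ϖ0_le := hϖ0
      Cp_le := hCp
      K_G := fun _ => hKG
      ϖ1_Go := hϖ1
      Go_Λ := hGo
      Γ_le := f_Γ
      Γr_le := f_Γr
      Rm_ge := hRm
      η_le := hη
      lac := hF.lac
      trans := f_trans
      trans0 := f_trans0
      full := hF.full
      cube := fun q j j' => hF.cube q.1 j j'
      tr_vol := f_trvol
      vol_tr := f_voltr
      σo_nonneg := hF.σo_nonneg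
      ao_ge := hF.ao_ge
      ao_en := f_aoen }

/-- L-257-FR-SAMP, root witness sampling (H l.737) from the lossless `L²` contract.
PLAN: `h2 (c.ρ c.ℓ) c.Cc c.Cm` gives `C`; apply it with `N = D.κ c.ℓ`, `Λ = D.Lb c.ℓ`, `fr = D.fr c.ℓ` (`Good.mult`), `s = D.W c.ℓ`, `a`, `f` extended by `0` outside `W` (`dite`), `Good.top_bdd`, `Y = univ.image D.pt` (`USep` from `Good.sep`; `Finset.sum_image`, `pt` injective by `sep`);
`Ev ℓ g z = ∑_T msk ℓ .. * g T z` with `msk ℓ = 1` (`¬ ℓ < tr`: `hc.tr_le`); sums over the subtype `D.Cl ℓ` = sums over `D.W ℓ` (`Finset.sum_coe_sort` / `Finset.sum_attach`); `en ℓ a = ∑ κ_ℓ^{k+2} a²`. -/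
theorem ft_samp {c : TCls k} (hc : c.Ok) (h2 : L2At k c.M) : ∃ C : ℝ, 1 ≤ C ∧ ∀ D : TDat c, D.Good → ∀ g a, D.sys.Adm D.sys.ℓ g a →
    ∑ z, ‖D.sys.Ev D.sys.ℓ g z‖ ^ 2 ≤ C * D.sys.en D.sys.ℓ a := by
  classical
  obtain ⟨C, hC, h⟩ := h2 (c.ρ c.ℓ) c.Cc c.Cm
  have main : ∀ D : TDat c, D.Good → ∀ (g : D.Cl c.ℓ → BoundedContinuousFunction (ST k) ℂ) (a : D.Cl c.ℓ → ℝ), D.Adm c.ℓ g a →
      ∑ z, ‖D.Ev c.ℓ g (D.pt z)‖ ^ 2 ≤ C * ∑ T : D.Cl c.ℓ, D.κ c.ℓ ^ (k + 2) * a T ^ 2 := by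
    intro D hD g a hAdm
    have key := h (D.κ c.ℓ) (hD.one_le_κ _) (D.Lb c.ℓ) (D.fr c.ℓ) (hD.mult c.ℓ) (D.W c.ℓ) (fun T => if h : T ∈ D.W c.ℓ then a ⟨T, h⟩ else 0)
      (fun T z => if h : T ∈ D.W c.ℓ then g ⟨T, h⟩ z else 0) (fun T _ => hD.top_bdd T.1)
      (fun T hT => by simp only [dif_pos hT]; exact hAdm ⟨T, hT⟩)
      (Finset.univ.image D.pt) (ti_r1_usep D hD Finset.univ)
    rw [Finset.sum_image (fun y _ y' _ e => ti_r1_inj D hD e)] at key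
    have e2 : ∀ z, ∑ T ∈ D.W c.ℓ, (if h : T ∈ D.W c.ℓ then g ⟨T, h⟩ z else 0) = D.Ev c.ℓ g z := by
      intro z
      rw [ti_r1_Ev hc, ← Finset.sum_coe_sort (D.W c.ℓ)]
      refine Finset.sum_congr rfl fun T _ => ?_
      rw [dif_pos T.2]
    have e3 : ∑ T ∈ D.W c.ℓ, (if h : T ∈ D.W c.ℓ then a ⟨T, h⟩ else 0) ^ 2 = ∑ T : D.Cl c.ℓ, a T ^ 2 := by
      rw [← Finset.sum_coe_sort (D.W c.ℓ)]
      refine Finset.sum_congr rfl fun T _ => ?_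
      rw [dif_pos T.2]
    simp only [e2] at key
    rw [e3] at key
    rw [← Finset.mul_sum, ← mul_assoc]
    exact key
  exact ⟨C, hC, fun D hD g a hAdm => main D hD g a hAdm⟩

/-- L-257-FR-CASE: the normalisations of the subpower case pass to the frozen version (`ratio`, `le_thr`: `mul_le_mul_of_nonneg_right hK` with `0 ≤ F.κr j'` (hypothesis `hκ`), `0 ≤ A²`;
`occ0`: the filter over the subtype injects into the filter over `(F.D j).Y` (`Finset.card_le_card_of_injOn Subtype.val`); all the other fields are `rfl`-copies). -/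
theorem ft_frz_sub (F : FCfg k) (G' : ℕ → ℝ) (Yf : Finset F.Qc) (Cp εp Rm K Go : ℝ) (L0 : Fin (k + 1) → ℝ)
    (S : ∀ j i, Finset ((((F.D j).restrY (Yf.map (F.e j).toEmbedding)).setG G').sys.C i)) (r : Fin (k + 1) → ℕ → ℝ) (hK : F.K ≤ K) (hκ : ∀ j, 0 < F.κr j)
    {m1 : ℕ} {C1 C3 : ℝ} (h : F.Sub m1 C1 C3) : (F.frz G' Yf Cp εp Rm K Go L0 S r).Sub m1 C1 C3 := by
  classical
  have f_le : ∀ j, F.κr j ^ k ≤ K * F.A j ^ 2 := fun j => (h.le_thr j).trans (mul_le_mul_of_nonneg_right hK (sq_nonneg _))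
  have f_ratio : ∀ j j', F.κr j ≤ K * F.κr j' := fun j j' => (h.ratio j j').trans (mul_le_mul_of_nonneg_right hK (hκ j').le)
  have f_occ : ∀ j, ∀ T ∈ (F.D j).W F.c.tr,
      (((Finset.univ.filter fun y : {y : (F.D j).Y // y ∈ Yf.map (F.e j).toEmbedding} => ‖(F.D j).X F.c.tr T ((F.D j).pt y.1)‖ ≤ F.Λ).card : ℕ) : ℝ) ≤ F.Λ ^ C1 := by
    intro j T hT
    refine le_trans ?_ (h.occ0 j T hT)
    have : (Finset.univ.filter fun y : {y : (F.D j).Y // y ∈ Yf.map (F.e j).toEmbedding} => ‖(F.D j).X F.c.tr T ((F.D j).pt y.1)‖ ≤ F.Λ).card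
        ≤ (Finset.univ.filter fun y => ‖(F.D j).X F.c.tr T ((F.D j).pt y)‖ ≤ F.Λ).card := by
      refine Finset.card_le_card_of_injOn Subtype.val ?_ (fun y _ y' _ e => Subtype.ext e)
      intro y hy
      exact Finset.mem_coe.2 (Finset.mem_filter.2 ⟨Finset.mem_univ _, (Finset.mem_filter.1 (Finset.mem_coe.1 hy)).2⟩)
    exact_mod_cast this
  exact
    { thr_le := h.thr_le
      le_thr := f_le
      seam := h.seam
      gap := h.gap
      ratio := f_ratio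
      clip := h.clip
      occ0 := f_occ }

/-! ## 2. the numerology -/

/-- exponent of the range of the root count -/
def ftM2 (cs m' : ℕ) : ℕ := max cs m' + 1

/-- all the subpower factors are `≤ Λ^{1/ftMb}` -/
def ftMb (cs m' nP : ℕ) : ℕ := 8 * ((cs + 1) * m' * nP + cs + 1) * (m' + 1)

/-- the exponent slack of INST -/
def ftEps (cs cx m' nP : ℕ) : ℝ := 1 / (((cx + 1) * ftM2 cs m' * ftMb cs m' nP : ℕ) : ℝ)

theorem ft_num_log (n : ℕ) (B : ℝ) (hB : 0 < B) : ∃ Λ0 : ℝ, ∀ Λ, Λ0 ≤ Λ → (B * Real.log Λ) ^ n ≤ Λ := by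
  have h := (Real.isLittleO_pow_log_id_atTop (n := n)).def (c := (B ^ n)⁻¹) (by positivity)
  obtain ⟨Λ0, h0⟩ := Filter.eventually_atTop.1 h
  refine ⟨max Λ0 0, fun Λ hΛ => ?_⟩
  have h1 := h0 Λ ((le_max_left _ _).trans hΛ)
  have hΛ0 : 0 ≤ Λ := (le_max_right _ _).trans hΛ
  simp only [id, Real.norm_eq_abs, abs_of_nonneg hΛ0] at h1
  rw [mul_pow]
  have h2 := (le_abs_self _).trans h1
  have hBn : 0 < B ^ n := by positivity
  calc B ^ n * Real.log Λ ^ n ≤ B ^ n * ((B ^ n)⁻¹ * Λ) := by gcongr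
    _ = Λ := by field_simp

theorem ft_num_two {y1 y2 Λ : ℝ} (h1 : y1 ^ 2 ≤ Λ) (h2 : y2 ^ 2 ≤ Λ) : y1 * y2 ≤ Λ := by
  nlinarith [sq_nonneg (y1 - y2)]

theorem ft_num_four {x1 x2 x3 x4 Λ : ℝ} (n : ℕ) (h1 : x1 ^ (4 * n) ≤ Λ) (h2 : x2 ^ (4 * n) ≤ Λ) (h3 : x3 ^ (4 * n) ≤ Λ)
    (h4 : x4 ^ (4 * n) ≤ Λ) : (x1 * x2 * x3 * x4) ^ n ≤ Λ := by
  have e : ∀ x : ℝ, x ^ (4 * n) = ((x ^ n) ^ 2) ^ 2 := by
    intro x
    rw [← pow_mul, ← pow_mul]
    congr 1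
    ring
  rw [e] at h1 h2 h3 h4
  have a := ft_num_two h1 h2
  have b := ft_num_two h3 h4
  have a' : (x1 ^ n * x2 ^ n) ^ 2 ≤ Λ := by
    rw [mul_pow]
    exact a
  have b' : (x3 ^ n * x4 ^ n) ^ 2 ≤ Λ := by
    rw [mul_pow]
    exact b
  have h := ft_num_two a' b'
  calc (x1 * x2 * x3 * x4) ^ n = x1 ^ n * x2 ^ n * (x3 ^ n * x4 ^ n) := by
        rw [mul_pow, mul_pow, mul_pow]
        ring
    _ ≤ Λ := h

/-- L-257-FR-NUM, **the numerology of the freezing** (reals only).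
PLAN.  Put `Mb = ftMb`, `a = (cs+1) m' nP + cs + 1`, `t = Rm^ε = Λ^{1/Mb}` (`Real.rpow_natCast`, `← Real.rpow_mul`), so `t^Mb = Λ`.   Choose `m ≥ m'`, `Mb`, `(cx+1) M2 + 1`, `⌈C'^Mb⌉₊`, `⌈(C' g^{ℓ nP})^{2(m'+1)}⌉₊` and `⌈Λ0⌉₊` where `((cx+1) log Λ)^Mb ≤ Λ` for `Λ ≥ Λ0`
(`Real.isLittleO_pow_log_id_atTop` → eventually; or `Real.add_one_le_exp`-type elementary bound).   Then each of `C', Kb, t, λ = log X'` has `x^Mb ≤ Λ`, hence `(K0 λ)^{2a(m'+1)} ≤ Λ` (fourth powers: `(xyzw)^n` with `4n = Mb`… `pow_le_pow_left₀`, `mul_pow`).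
`Ks ≤ (K0λ)^{2a(m'+1)} ≤ Λ ≤ X'`;  `K1 ≤ (K0λ)^{cs+1}`;  `G0^{P2} ≤ G0^{nP}` (`Real.rpow_le_rpow_of_exponent_le`, `1 ≤ G0`);  `Go ≤ C' g^{ℓ nP} (K0λ)^a`;  `Go^{m'} ≤ Go^{m'+1} ≤ √Λ √Λ`-type: `((C' g^{ℓ nP})^{m'+1})² ≤ Λ`, `((K0λ)^{a(m'+1)})² ≤ Λ`, `abs_le_of_sq_le_sq'`/`Real.sqrt`. -/
theorem ft_num (cs cx m' ℓ nP : ℕ) (g C' : ℝ) (hg : 1 ≤ g) (hC : 1 ≤ C') : ∃ m : ℕ, m' ≤ m ∧ ∀ Λ Kb P2 : ℝ, (m : ℝ) + 3 ≤ Λ → 2 ≤ Kb → Kb ^ m ≤ Λ → 0 ≤ P2 → P2 ≤ nP →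
    ∀ X' Rm K0 Ks K1 G0 Go : ℝ, X' = Λ ^ (cx + 1) → Rm = X' ^ ftM2 cs m' → K0 = C' * Kb * Rm ^ ftEps cs cx m' nP → Ks = (K0 * Real.log X') ^ cs → K1 = K0 * Ks →
      G0 = g ^ ℓ * K1 ^ m' → Go = C' * G0 ^ P2 * Kb * Ks →
      C' ≤ Λ ∧ 1 ≤ Real.log X' ∧ 1 ≤ Ks ∧ Ks ≤ X' ∧ Go ^ m' ≤ Λ ∧ C' * X' ^ ftM2 cs m' ≤ Λ ^ m ∧ (Λ ^ cx) ^ ftEps cs cx m' nP ≤ Rm ^ ftEps cs cx m' nP := by
  have hM21 : 1 ≤ ftM2 cs m' := Nat.le_add_left 1 _
  obtain ⟨M2, hM2⟩ : ∃ M2, M2 = ftM2 cs m' := ⟨_, rfl⟩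
  obtain ⟨a, ha⟩ : ∃ a, a = (cs + 1) * m' * nP + cs + 1 := ⟨_, rfl⟩
  obtain ⟨n, hn⟩ : ∃ n, n = 2 * a * (m' + 1) := ⟨_, rfl⟩
  have hMb : ftMb cs m' nP = 4 * n := by
    have h0 : ftMb cs m' nP = 8 * ((cs + 1) * m' * nP + cs + 1) * (m' + 1) := rfl
    rw [h0, hn, ha]
    ring
  have hε : ftEps cs cx m' nP = 1 / (((cx + 1) * M2 * (4 * n) : ℕ) : ℝ) := by
    rw [hM2, ← hMb]
    rfl
  rw [← hM2] at hM21 ⊢
  obtain ⟨ε, hεd⟩ : ∃ ε, ε = ftEps cs cx m' nP := ⟨_, rfl⟩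
  rw [← hεd] at hε ⊢
  have ha1 : 1 ≤ a := by omega
  have hacs : cs ≤ a := by omega
  have han : a ≤ n := by
    rw [hn]
    calc a = 1 * a * 1 := by ring
      _ ≤ 2 * a * (m' + 1) := by gcongr <;> omega
  have hn1 : 1 ≤ n := ha1.trans han
  obtain ⟨Λ0, hΛ0⟩ := ft_num_log (4 * n) ((cx : ℝ) + 1) (by positivity)
  obtain ⟨B, hB⟩ : ∃ B, B = C' * g ^ (ℓ * nP) := ⟨_, rfl⟩
  have hB1 : 1 ≤ B := by
    rw [hB]
    exact one_le_mul_of_one_le_of_one_le hC (one_le_pow₀ hg)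
  obtain ⟨m, hm⟩ : ∃ m, m = m' + 4 * n + ((cx + 1) * M2 + 1) + ⌈C' ^ (4 * n)⌉₊ + ⌈(B ^ (m' + 1)) ^ 2⌉₊ + ⌈Λ0⌉₊ := ⟨_, rfl⟩
  refine ⟨m, by omega, ?_⟩
  intro Λ Kb P2 hmΛ hKb hKbm hP0 hP X' Rm K0 Ks K1 G0 Go hX hRm hK0 hKs hK1 hG0 hGo
  have hm0 : (0 : ℝ) ≤ m := Nat.cast_nonneg m
  have hmΛ' : (m : ℝ) ≤ Λ := by linarith
  have hΛ3 : 3 ≤ Λ := by linarith
  have hΛ1 : 1 ≤ Λ := by linarith
  have hΛp : 0 < Λ := by linarith
  have hKb1 : 1 ≤ Kb := by linarith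
  have m1 : 4 * n ≤ m := by omega
  have m2 : (cx + 1) * M2 + 1 ≤ m := by omega
  have m3 : C' ^ (4 * n) ≤ Λ := by
    refine ((Nat.le_ceil _).trans ?_).trans hmΛ'
    exact Nat.cast_le.2 (by omega)
  have m4 : (B ^ (m' + 1)) ^ 2 ≤ Λ := by
    refine ((Nat.le_ceil _).trans ?_).trans hmΛ'
    exact Nat.cast_le.2 (by omega)
  have m5 : Λ0 ≤ Λ := by
    refine ((Nat.le_ceil _).trans ?_).trans hmΛ'
    exact Nat.cast_le.2 (by omega)
  -- the logarithm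
  have hlogX : Real.log X' = ((cx : ℝ) + 1) * Real.log Λ := by
    rw [hX, Real.log_pow]
    push_cast
    ring
  have hlogΛ : 1 ≤ Real.log Λ := by
    rw [Real.le_log_iff_exp_le hΛp]
    exact Real.exp_one_lt_three.le.trans hΛ3
  have hlog1 : 1 ≤ Real.log X' := by
    rw [hlogX]
    have h0 : (0 : ℝ) ≤ cx := Nat.cast_nonneg cx
    exact one_le_mul_of_one_le_of_one_le (by linarith) hlogΛ
  have c4 : Real.log X' ^ (4 * n) ≤ Λ := by
    rw [hlogX]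
    exact hΛ0 Λ m5
  -- the range
  have hRmΛ : Rm = Λ ^ ((cx + 1) * M2) := by rw [hRm, hX, ← pow_mul]
  have hRm1 : 1 ≤ Rm := by
    rw [hRmΛ]
    exact one_le_pow₀ hΛ1
  have hε0 : 0 ≤ ε := by
    rw [hε]
    positivity
  obtain ⟨t, ht⟩ : ∃ t, t = Rm ^ ε := ⟨_, rfl⟩
  rw [← ht] at hK0
  have ht1 : 1 ≤ t := by
    rw [ht]
    exact Real.one_le_rpow hRm1 hε0
  have hN0 : (cx + 1) * M2 ≠ 0 := by positivity
  have c3 : t ^ (4 * n) = Λ := by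
    rw [ht, ← Real.rpow_natCast, ← Real.rpow_mul (by linarith)]
    have e : ε * ((4 * n : ℕ) : ℝ) = ((((cx + 1) * M2 : ℕ) : ℝ))⁻¹ := by
      rw [hε]
      have h4n : (((4 * n : ℕ) : ℝ)) ≠ 0 := by
        have : 4 * n ≠ 0 := by omega
        exact_mod_cast this
      have hNN : ((((cx + 1) * M2 : ℕ) : ℝ)) ≠ 0 := by exact_mod_cast hN0
      rw [Nat.cast_mul ((cx + 1) * M2) (4 * n)]
      field_simp
    rw [e, hRmΛ]
    exact Real.pow_rpow_inv_natCast hΛp.le hN0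
  have c2 : Kb ^ (4 * n) ≤ Λ := (pow_le_pow_right₀ hKb1 m1).trans hKbm
  obtain ⟨W, hW⟩ : ∃ W, W = K0 * Real.log X' := ⟨_, rfl⟩
  rw [← hW] at hKs
  have hK01 : 1 ≤ K0 := by
    rw [hK0]
    exact one_le_mul_of_one_le_of_one_le (one_le_mul_of_one_le_of_one_le hC hKb1) ht1
  have hW1 : 1 ≤ W := by
    rw [hW]
    exact one_le_mul_of_one_le_of_one_le hK01 hlog1
  have hW0 : 0 ≤ W := by linarith
  have E1 : W ^ n ≤ Λ := by
    rw [hW, hK0]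
    exact ft_num_four n m3 c2 c3.le c4
  have hK0W : K0 ≤ W := by
    rw [hW]
    exact le_mul_of_one_le_right (by linarith) hlog1
  have hKbW : Kb ≤ W := by
    refine le_trans ?_ hK0W
    rw [hK0]
    have h1 : 1 ≤ C' * t := one_le_mul_of_one_le_of_one_le hC ht1
    calc Kb = 1 * Kb := (one_mul _).symm
      _ ≤ (C' * t) * Kb := by gcongr
      _ = C' * Kb * t := by ring
  have hC'Λ : C' ≤ Λ := (le_self_pow₀ hC (by omega)).trans m3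
  have hKs1 : 1 ≤ Ks := by
    rw [hKs]
    exact one_le_pow₀ hW1
  have hΛX : Λ ≤ X' := by
    rw [hX]
    exact le_self_pow₀ hΛ1 (by omega)
  have hKsX : Ks ≤ X' := by
    rw [hKs]
    exact ((pow_le_pow_right₀ hW1 (hacs.trans han)).trans E1).trans hΛX
  have hK11 : 1 ≤ K1 := by
    rw [hK1]
    exact one_le_mul_of_one_le_of_one_le hK01 hKs1
  have hK1W : K1 ≤ W ^ (cs + 1) := by
    rw [hK1, hKs, pow_succ, mul_comm]
    gcongr
  have hG01 : 1 ≤ G0 := by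
    rw [hG0]
    exact one_le_mul_of_one_le_of_one_le (one_le_pow₀ hg) (one_le_pow₀ hK11)
  have hGP : G0 ^ P2 ≤ g ^ (ℓ * nP) * W ^ ((cs + 1) * m' * nP) := by
    calc G0 ^ P2 ≤ G0 ^ (nP : ℝ) := Real.rpow_le_rpow_of_exponent_le hG01 hP
      _ = G0 ^ nP := Real.rpow_natCast _ _
      _ = g ^ (ℓ * nP) * (K1 ^ (m' * nP)) := by rw [hG0, mul_pow, ← pow_mul, ← pow_mul]
      _ ≤ g ^ (ℓ * nP) * ((W ^ (cs + 1)) ^ (m' * nP)) := by gcongr
      _ = g ^ (ℓ * nP) * W ^ ((cs + 1) * m' * nP) := by rw [← pow_mul, mul_assoc]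
  have hGP0 : 0 ≤ G0 ^ P2 := Real.rpow_nonneg (by linarith) _
  have hGo0 : 0 ≤ Go := by
    rw [hGo]
    have : 0 ≤ Ks := by linarith
    have : 0 ≤ Kb := by linarith
    have : 0 ≤ C' := by linarith
    positivity
  have hGoB : Go ≤ B * W ^ a := by
    calc Go = C' * G0 ^ P2 * Kb * Ks := hGo
      _ ≤ C' * (g ^ (ℓ * nP) * W ^ ((cs + 1) * m' * nP)) * W * W ^ cs := by
          rw [hKs]
          have : 0 ≤ C' := by linarith
          have : 0 ≤ g := by linarith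
          gcongr
      _ = B * W ^ a := by
          rw [hB, ha, pow_succ, pow_add]
          ring
  have hBW1 : 1 ≤ B * W ^ a := one_le_mul_of_one_le_of_one_le hB1 (one_le_pow₀ hW1)
  have hGom : Go ^ m' ≤ Λ := by
    calc Go ^ m' ≤ (B * W ^ a) ^ m' := pow_le_pow_left₀ hGo0 hGoB _
      _ ≤ (B * W ^ a) ^ (m' + 1) := pow_le_pow_right₀ hBW1 (Nat.le_succ _)
      _ = B ^ (m' + 1) * W ^ (a * (m' + 1)) := by rw [mul_pow, ← pow_mul]
      _ ≤ Λ := by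
          refine ft_num_two m4 ?_
          rw [← pow_mul]
          have : a * (m' + 1) * 2 = n := by
            rw [hn]
            ring
          rw [this]
          exact E1
  refine ⟨hC'Λ, hlog1, hKs1, hKsX, hGom, ?_, ?_⟩
  · rw [← hRm, hRmΛ]
    calc C' * Λ ^ ((cx + 1) * M2) ≤ Λ * Λ ^ ((cx + 1) * M2) := by gcongr
      _ = Λ ^ ((cx + 1) * M2 + 1) := by rw [pow_succ, mul_comm]
      _ ≤ Λ ^ m := pow_le_pow_right₀ hΛ1 m2
  · refine Real.rpow_le_rpow (by positivity) ?_ hε0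
    rw [hRmΛ]
    refine pow_le_pow_right₀ hΛ1 ?_
    calc cx ≤ (cx + 1) * 1 := by omega
      _ ≤ (cx + 1) * M2 := Nat.mul_le_mul_left _ hM21

/-! ## 3. freezing -/

theorem ft_frozen_transport {𝔗 𝔗' : TSys} (e : 𝔗 = 𝔗') {q A K G : ℝ} (h : ∃ (S : ∀ i, Finset (𝔗'.C i)) (r : ℕ → ℝ), 𝔗'.Frozen q A K G S r Finset.univ) :
    ∃ (S : ∀ i, Finset (𝔗.C i)) (r : ℕ → ℝ), 𝔗.Frozen q A K G S r Finset.univ := by
  subst e
  exact h

theorem ft_eps_pos (cs cx m' nP : ℕ) : 0 < ftEps cs cx m' nP := by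
  unfold ftEps
  have : 0 < (cx + 1) * ftM2 cs m' * ftMb cs m' nP := by
    unfold ftM2 ftMb
    positivity
  have h2 : (0 : ℝ) < (((cx + 1) * ftM2 cs m' * ftMb cs m' nP : ℕ) : ℝ) := by exact_mod_cast this
  positivity

/-- L-257-FR-FREEZE, **a raw configuration of high quality has a frozen version of quality `m'`**.
PLAN.  `cs` from `tm_select (qk k) (ti_qk_gt hk) (k + 1) (fun _ => c.ℓ)`; `nP = ⌈2 c.P⌉₊`; `ε = ftEps cs cx m' nP > 0`; `C1` from `ti_ok_sub hc hW h2 hN (ε := ε)`, `C2` from `ft_samp`; `C' = C1 + C2`; `m` from `ft_num cs cx m' c.ℓ nP (2 (1 + 2 c.Cc)) C'`.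
Given `F` (`subst`): define `X', Rm, K0, Ks, K1`, `G' i = g^{ℓ - i} K1^{m'}`, `Go` as in `ft_num` (`Kb = F.K`, `P2 = 2 c.P`).   Systems `𝔖 j = ((F.D j).setG G').sys`, `p j = ((F.D j).setG G').tp C' ε (C' Rm^ε) Rm`: `Ok` by `ti_ok_sub` and `Good.setG`.
`SelHyp (p j) (A j) K0 X'`: `L = C' (κ0/κℓ)^ε ≤ C' (Λ^cx)^ε ≤ K0` (`span_le`, last item of `ft_num`, `1 ≤ Kb`), `L0 ≤ K0`, `ϖ0 = C' ϖ ≤ K0` (`1 ≤ Rm^ε`), `Γ`, `Γr` as in `ft_frz_ok`, `high`, `balance` (`Fintype.card_congr (F.e j)`; `sys.D`, `Ev 0 g0` do not see `G`: `rfl`).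
`tm_select` with `Q = F.Qc`, `e = F.e`, `G j = Go`: `(K0 log X')^cs = Ks ≤ X'`; `ϖ1 Ks ≤ Go` (`ϖ ≤ Kb`); `X'^cs ≤ Rm` (`cs ≤ M2`); `η X'^cs ≤ 1` (`win`, `C' X'^{M2} ≤ Λ^m`).
It gives `Yf`, `S`, `r`, frozen in `(𝔖 j).restr (Yf.map (e j))`: rewrite the statement `∃ S r, 𝔗.Frozen .. S r univ` along `TDat.restrY_sys`, `TDat.setG_restrY` (do NOT transport `S` itself: choose new masks from the rewritten existential).
`ft_frozen_mono` to the loss `K1`; `Ok` of the restricted systems: `ti_ok_sub` again with `Good.restrY`, `Good.setG`.   `ft_frz_ok` with `K = K1`, `hbal`: `D ≤ Kb #Q A^q ≤ Kb Ks #Yf A^q`.   `ft_frz_ext`, `ft_frz_sub`; `Pow`: `κr_one`, `leaf` by `rfl`-copies, `samp`: `ft_samp` (`C2 ≤ C' ≤ K1`, `en ≥ 0`). -/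
theorem ft_freeze (hk : 1 ≤ k) (c : TCls k) (hc : c.Ok) (hr : (ordOf c).Room k) (hW : WtAt k (qk k) c.Q c.M) (h2 : L2At k c.M) (hN : NcAt k c.Q c.M) (cx m' : ℕ) :
    ∃ m : ℕ, ∀ F : FCfg k, F.c = c → F.cx = cx → F.Raw m →
      ∃ F' : FCfg k, F'.Ok m' ∧ FExt F F' ∧ (F.Pow0 → F'.Pow) ∧ ∀ (m1 : ℕ) (C1 C3 : ℝ), F.Sub m1 C1 C3 → F'.Sub m1 C1 C3 := by
  classical
  obtain ⟨cs, hsel⟩ := tm_select (qk k) (ti_qk_gt hk) (k + 1) (fun _ => c.ℓ)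
  obtain ⟨nP, hnP⟩ : ∃ n : ℕ, n = ⌈2 * c.P⌉₊ := ⟨_, rfl⟩
  obtain ⟨ε, hε⟩ : ∃ x : ℝ, x = ftEps cs cx m' nP := ⟨_, rfl⟩
  have hε0 : 0 < ε := by rw [hε]; exact ft_eps_pos _ _ _ _
  obtain ⟨C1, hC1, hok⟩ := ti_ok_sub hc hW h2 hN hε0
  obtain ⟨C2, hC2, hsamp⟩ := ft_samp hc h2
  obtain ⟨C3, hC3, hang0⟩ := tia_main hc (Ew := (k : ℝ) + 2) (Q2 := c.Q + ((k : ℝ) + 2) * k / 2) (Cs := 2 ^ (k + 3) * ((c.ℓ : ℝ) + 1) * c.Cc) (q' := tia_qa k) (ε := ε)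
    (by linarith) (by
      have h1 := hc.P_gt
      have h2 := hc.P_lt
      have h3 : (0 : ℝ) ≤ k := Nat.cast_nonneg k
      have h4 : 0 ≤ ((k : ℝ) + 2) * k / 2 := by positivity
      linarith) hr.1 hr.2 (tia_qa_gt hk) (tia_qa_le hk) hε0
  obtain ⟨C', hC'⟩ : ∃ x : ℝ, x = C1 + C2 + C3 := ⟨_, rfl⟩
  have hC'1 : 1 ≤ C' := by linarith
  obtain ⟨g, hg⟩ : ∃ x : ℝ, x = 2 * (1 + 2 * c.Cc) := ⟨_, rfl⟩
  have hg1 : 1 ≤ g := by rw [hg]; linarith [hc.one_le_Cc]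
  obtain ⟨m, hmm, hnum⟩ := ft_num cs cx m' c.ℓ nP g C' hg1 hC'1
  refine ⟨m, fun F hFc hFcx hF => ?_⟩
  subst hFc hFcx
  have hk0 : (0 : ℝ) ≤ k := Nat.cast_nonneg k
  have hP0 : 0 ≤ 2 * F.c.P := by linarith [hc.P_gt]
  have hPn : 2 * F.c.P ≤ nP := by rw [hnP]; exact Nat.le_ceil _
  obtain ⟨X', hX'⟩ : ∃ x : ℝ, x = F.Λ ^ (F.cx + 1) := ⟨_, rfl⟩
  obtain ⟨Rm, hRm⟩ : ∃ x : ℝ, x = X' ^ ftM2 cs m' := ⟨_, rfl⟩
  obtain ⟨K0, hK0⟩ : ∃ x : ℝ, x = C' * F.K * Rm ^ ε := ⟨_, rfl⟩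
  obtain ⟨Ks, hKs⟩ : ∃ x : ℝ, x = (K0 * Real.log X') ^ cs := ⟨_, rfl⟩
  obtain ⟨K1, hK1⟩ : ∃ x : ℝ, x = K0 * Ks := ⟨_, rfl⟩
  obtain ⟨G0, hG0⟩ : ∃ x : ℝ, x = g ^ F.c.ℓ * K1 ^ m' := ⟨_, rfl⟩
  obtain ⟨Go, hGo⟩ : ∃ x : ℝ, x = C' * G0 ^ (2 * F.c.P) * F.K * Ks := ⟨_, rfl⟩
  obtain ⟨n1, n2, n3, n4, n5, n6, n7⟩ := hnum F.Λ F.K (2 * F.c.P) hF.Λ_ge hF.two_le_K hF.K_Λ hP0 hPn X' Rm K0 Ks K1 G0 Go hX' hRm
    (by rw [hK0, hε]) hKs hK1 hG0 hGo
  rw [← hε] at n7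
  -- basic sizes
  have hm0 : (0 : ℝ) ≤ m := Nat.cast_nonneg m
  have hΛ3 : 3 ≤ F.Λ := by linarith [hF.Λ_ge]
  have hΛ1 : 1 ≤ F.Λ := by linarith
  have hΛ0 : 0 ≤ F.Λ := by linarith
  have hΛX : F.Λ ≤ X' := by rw [hX']; exact le_self_pow₀ hΛ1 (Nat.succ_ne_zero _)
  have hX3 : 3 ≤ X' := hΛ3.trans hΛX
  have hX1 : 1 ≤ X' := by linarith
  have hRm1 : 1 ≤ Rm := by rw [hRm]; exact one_le_pow₀ hX1
  have ht1 : 1 ≤ Rm ^ ε := Real.one_le_rpow hRm1 hε0.le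
  have hKb2 := hF.two_le_K
  have hKb1 : 1 ≤ F.K := by linarith only [hKb2]
  have hC'0 : 0 ≤ C' := by linarith only [hC'1]
  have hCK : 1 ≤ C' * F.K := one_le_mul_of_one_le_of_one_le hC'1 hKb1
  have a1 : C' * F.K ≤ K0 := by rw [hK0]; exact le_mul_of_one_le_right (by linarith) ht1
  have a2 : C' * Rm ^ ε ≤ K0 := by
    rw [hK0]
    exact mul_le_mul_of_nonneg_right (le_mul_of_one_le_right hC'0 hKb1) (by linarith only [ht1])
  have a3 : F.K ≤ K0 := le_trans (le_mul_of_one_le_left (by linarith only [hKb1]) hC'1) a1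
  have a4 : C' ≤ K0 := le_trans (le_mul_of_one_le_right hC'0 hKb1) a1
  have a5 : 2 ≤ K0 := hKb2.trans a3
  have a6 : K0 ≤ K1 := by rw [hK1]; exact le_mul_of_one_le_right (by linarith) n3
  have a7 : Ks ≤ K1 := by rw [hK1]; exact le_mul_of_one_le_left (by linarith) (by linarith)
  have hK11 : 1 ≤ K1 := by linarith
  have hκ : ∀ j i, 0 < (F.D j).κ i := fun j i => lt_of_lt_of_le one_pos ((hF.good j).one_le_κ i)
  have hA0 : ∀ j, 0 ≤ F.A j := fun j => by linarith [hF.one_le_A j]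
  have hϖ1' : ∀ j, 1 ≤ (F.D j).ϖ := fun j => (hF.good j).one_le_ϖ
  -- the radii
  obtain ⟨G', hG'⟩ : ∃ G' : ℕ → ℝ, G' = fun i => g ^ (F.c.ℓ - i) * K1 ^ m' := ⟨_, rfl⟩
  have hG1 : ∀ i, 1 ≤ G' i := by
    intro i
    rw [hG']
    have b1 : 1 ≤ g ^ (F.c.ℓ - i) := one_le_pow₀ hg1
    have b2 : 1 ≤ K1 ^ m' := one_le_pow₀ hK11
    exact one_le_mul_of_one_le_of_one_le b1 b2
  have hG2 : ∀ i, i < F.c.ℓ → 2 * (1 + 2 * F.c.Cc) * G' (i + 1) ≤ G' i := by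
    intro i hi
    rw [hG', ← hg]
    show g * (g ^ (F.c.ℓ - (i + 1)) * K1 ^ m') ≤ g ^ (F.c.ℓ - i) * K1 ^ m'
    have : F.c.ℓ - i = (F.c.ℓ - (i + 1)) + 1 := by omega
    rw [this, pow_succ]
    exact le_of_eq (by ring)
  have hG'0 : G' 0 = G0 := by rw [hG', hG0]; rfl
  have hG'ℓ : G' F.c.ℓ = K1 ^ m' := by
    rw [hG']
    show g ^ (F.c.ℓ - F.c.ℓ) * K1 ^ m' = K1 ^ m'
    rw [Nat.sub_self, pow_zero, one_mul]
  have hG01 : 1 ≤ G0 := by rw [← hG'0]; exact hG1 0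
  -- concrete inequalities
  have f_L : ∀ j, C' * ((F.D j).κ 0 / (F.D j).κ F.c.ℓ) ^ ε ≤ K0 := by
    intro j
    refine le_trans (mul_le_mul_of_nonneg_left ?_ (by linarith)) a2
    refine le_trans (Real.rpow_le_rpow (div_pos (hκ j 0) (hκ j _)).le (hF.span_le j) hε0.le) n7
  have f_ϖ0 : ∀ j, C' * (F.D j).ϖ ≤ K0 := fun j => le_trans (mul_le_mul_of_nonneg_left (hF.ϖ_le j) (by linarith)) a1
  have f_Γ : ∀ j i, i < F.c.ℓ → C' * ((F.D j).κ i / (F.D j).κ (i + 1)) ^ k ≤ X' := by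
    intro j i hi
    rw [hX', pow_succ, mul_comm (F.Λ ^ F.cx)]
    exact mul_le_mul n1 (hF.step_le j i hi) (by have := hκ j i; have := hκ j (i + 1); positivity) hΛ0
  have f_Γr : ∀ j i, i ≤ F.c.ℓ → C' * (F.D j).κ i ^ k ≤ X' * F.A j ^ 2 := by
    intro j i hi
    rw [hX', pow_succ, mul_comm (F.Λ ^ F.cx), mul_assoc]
    exact mul_le_mul n1 (hF.root_le j i hi) (by have := hκ j i; positivity) hΛ0
  have f_η : ∀ (j : Fin (k + 1)) (n : ℕ), n ≤ ftM2 cs m' → C' * (F.D j).ηw * (F.D j).κ 0 ^ k * X' ^ n ≤ 1 := by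
    intro j n hn
    have b1 : X' ^ n ≤ X' ^ ftM2 cs m' := pow_le_pow_right₀ hX1 hn
    have b2 : 0 ≤ (F.D j).ηw * (F.D j).κ 0 ^ k := mul_nonneg (hF.good j).ηw_nonneg (by have := hκ j 0; positivity)
    calc C' * (F.D j).ηw * (F.D j).κ 0 ^ k * X' ^ n = (F.D j).ηw * (F.D j).κ 0 ^ k * (C' * X' ^ n) := by ring
      _ ≤ (F.D j).ηw * (F.D j).κ 0 ^ k * F.Λ ^ m :=
          mul_le_mul_of_nonneg_left (le_trans (mul_le_mul_of_nonneg_left b1 (by linarith)) n6) b2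
      _ ≤ 1 := hF.win j
  have hcsM : cs ≤ ftM2 cs m' := by unfold ftM2; exact (le_max_left _ _).trans (Nat.le_succ _)
  have hm'M : m' ≤ ftM2 cs m' := by unfold ftM2; exact (le_max_right _ _).trans (Nat.le_succ _)
  have f_ϖ1 : ∀ j, C' * G' 0 ^ (2 * F.c.P) * (F.D j).ϖ * Ks ≤ Go := by
    intro j
    rw [hG'0, hGo]
    have b1 : 0 ≤ C' * G0 ^ (2 * F.c.P) := mul_nonneg (by linarith) (Real.rpow_nonneg (by linarith) _)
    exact mul_le_mul_of_nonneg_right (mul_le_mul_of_nonneg_left (hF.ϖ_le j) b1) (by linarith)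
  -- the systems
  have hgoodG : ∀ j, ((F.D j).setG G').Good := fun j => (hF.good j).setG G' (fun i _ => hG1 i) hG2
  have hOk : ∀ j, ((F.D j).setG G').sys.Ok (((F.D j).setG G').tp C' ε (C' * Rm ^ ε) Rm) :=
    fun j => hok C' (by linarith) _ (hgoodG j) Rm hRm1
  have f_bal : ∀ j, (F.D j).sys.D ≤ K0 * ((Fintype.card (F.D j).Y : ℝ) * F.A j ^ qk k) := by
    intro j
    rw [← Fintype.card_congr (F.e j)]
    exact (hF.bal j).trans (mul_le_mul_of_nonneg_right a3 (mul_nonneg (Nat.cast_nonneg _) (Real.rpow_nonneg (hA0 j) _)))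
  have hSel : ∀ j, ((F.D j).setG G').sys.SelHyp (((F.D j).setG G').tp C' ε (C' * Rm ^ ε) Rm) (F.A j) K0 X' := fun j =>
    { two_le_K := a5
      three_le_X := hX3
      one_le_A := hF.one_le_A j
      L_le := f_L j
      L0_le := a2
      ϖ0_le := f_ϖ0 j
      Γ_le := f_Γ j
      Γr_le := f_Γr j
      high := hF.high j
      balance := f_bal j
      nonempty := ⟨F.e j hF.ne.some⟩ }
  have : Nonempty F.Qc := hF.ne
  obtain ⟨Yf, S, r, hYf, hcard, hfrz⟩ := hsel F.Qc (fun j => ((F.D j).setG G').sys) F.e (fun j => ((F.D j).setG G').tp C' ε (C' * Rm ^ ε) Rm) F.A (fun _ => Go) K0 X'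
    (fun _ => rfl) (fun _ => rfl) hOk hSel (by rw [← hKs]; exact n4) (fun j => by rw [← hKs]; exact f_ϖ1 j)
    (fun j => by show X' ^ cs ≤ Rm; rw [hRm]; exact pow_le_pow_right₀ hX1 hcsM) (fun j => f_η j cs hcsM)
  rw [← hKs] at hcard
  have htr : ∀ j, ∃ (S' : ∀ i, Finset ((((F.D j).restrY (Yf.map (F.e j).toEmbedding)).setG G').sys.C i)) (r' : ℕ → ℝ),
      (((F.D j).restrY (Yf.map (F.e j).toEmbedding)).setG G').sys.Frozen (qk k) (F.A j) Ks Go S' r' Finset.univ := by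
    intro j
    refine ft_frozen_transport (TDat.restrY_sys ((F.D j).setG G') (Yf.map (F.e j).toEmbedding)) ⟨S j, r j, ?_⟩
    have := hfrz j
    rw [← hKs] at this
    exact this
  choose S' r' hfr' using htr
  have hgoodR : ∀ j, (((F.D j).restrY (Yf.map (F.e j).toEmbedding)).setG G').Good :=
    fun j => ((hF.good j).restrY _).setG G' (fun i _ => hG1 i) hG2
  have hsys : ∀ j, (((F.D j).restrY (Yf.map (F.e j).toEmbedding)).setG G').sys.Ok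
      ((((F.D j).restrY (Yf.map (F.e j).toEmbedding)).setG G').tp C' ε (C' * Rm ^ ε) Rm) :=
    fun j => hok C' (by linarith) _ (hgoodR j) Rm hRm1
  have hfr : ∀ j, (((F.D j).restrY (Yf.map (F.e j).toEmbedding)).setG G').sys.Frozen (qk k) (F.A j) K1 Go (S' j) (r' j) Finset.univ :=
    fun j => ft_frozen_mono (hsys j) (hfr' j) a7
  have hang : ∀ (j : Fin (k + 1)) (I : TAIn (((F.D j).restrY (Yf.map (F.e j).toEmbedding)).setG G')), I.Ew = (k : ℝ) + 2 → I.Q2 = F.c.Q + ((k : ℝ) + 2) * k / 2 →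
      I.Cs = 2 ^ (k + 3) * ((F.c.ℓ : ℝ) + 1) * F.c.Cc → I.Ok →
      ((((F.D j).restrY (Yf.map (F.e j).toEmbedding)).setG G').ang I).Ok ((((F.D j).restrY (Yf.map (F.e j).toEmbedding)).setG G').tp C' ε (C' * Rm ^ ε) Rm)
          ((((F.D j).restrY (Yf.map (F.e j).toEmbedding)).setG G').ap C' ε (tia_qa k)) ∧
        ((((F.D j).restrY (Yf.map (F.e j).toEmbedding)).setG G').ang I).Var ((((F.D j).restrY (Yf.map (F.e j).toEmbedding)).setG G').kv I C') :=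
    fun j I h1 h2 h3 hI => ⟨(hang0 C' (by linarith) _ (hgoodR j) I h1 h2 h3 hI).1 _ rfl, (hang0 C' (by linarith) _ (hgoodR j) I h1 h2 h3 hI).2⟩
  have hbal : ∀ j, (F.D j).sys.D ≤ K1 * (Yf.card * F.A j ^ qk k) := by
    intro j
    have b0 : 0 ≤ F.A j ^ qk k := Real.rpow_nonneg (hA0 j) _
    calc (F.D j).sys.D ≤ F.K * (Fintype.card F.Qc * F.A j ^ qk k) := hF.bal j
      _ ≤ F.K * ((Ks * Yf.card) * F.A j ^ qk k) := mul_le_mul_of_nonneg_left (mul_le_mul_of_nonneg_right hcard b0) (by linarith)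
      _ = F.K * Ks * (Yf.card * F.A j ^ qk k) := by ring
      _ ≤ K1 * (Yf.card * F.A j ^ qk k) := by
          rw [hK1]
          exact mul_le_mul_of_nonneg_right (mul_le_mul_of_nonneg_right a3 (by linarith)) (mul_nonneg (Nat.cast_nonneg _) b0)
  have hϖ1 : ∀ j, C' * G' 0 ^ (2 * F.c.P) * (F.D j).ϖ ≤ Go := by
    intro j
    refine le_trans ?_ (f_ϖ1 j)
    have b1 : 0 ≤ C' * G' 0 ^ (2 * F.c.P) * (F.D j).ϖ :=
      mul_nonneg (mul_nonneg (by linarith) (Real.rpow_nonneg (by linarith [hG1 0]) _)) (by linarith [hϖ1' j])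
    exact le_mul_of_one_le_right b1 n3
  refine ⟨F.frz G' Yf C' ε Rm K1 Go (fun _ => C' * Rm ^ ε) S' r',
    ft_frz_ok F hF hmm G' Yf C' ε Rm K1 Go (fun _ => C' * Rm ^ ε) S' r' hG1 hG2 hYf hsys hfr hang hbal (a3.trans a6) (fun j => (f_L j).trans a6) (fun _ => a2.trans a6)
      (fun j => (f_ϖ0 j).trans a6) (a4.trans a6) (by linarith) n1 (by rw [hG'ℓ]) hϖ1 n5
      (by rw [← hX', hRm]; exact pow_le_pow_right₀ hX1 hm'M) (fun j => by rw [← hX']; exact f_η j m' hm'M),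
    ft_frz_ext F G' Yf C' ε Rm K1 Go (fun _ => C' * Rm ^ ε) S' r', fun hP => ?_,
    fun m1 D1 D3 h => ft_frz_sub F G' Yf C' ε Rm K1 Go (fun _ => C' * Rm ^ ε) S' r' (a3.trans a6) hF.κr_pos h⟩
  have f_samp : ∀ j g a, (((F.D j).restrY (Yf.map (F.e j).toEmbedding)).setG G').sys.Adm (((F.D j).restrY (Yf.map (F.e j).toEmbedding)).setG G').sys.ℓ g a →
      ∑ z, ‖(((F.D j).restrY (Yf.map (F.e j).toEmbedding)).setG G').sys.Ev (((F.D j).restrY (Yf.map (F.e j).toEmbedding)).setG G').sys.ℓ g z‖ ^ 2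
        ≤ K1 * (((F.D j).restrY (Yf.map (F.e j).toEmbedding)).setG G').sys.en (((F.D j).restrY (Yf.map (F.e j).toEmbedding)).setG G').sys.ℓ a := by
    intro j g a hA
    refine (hsamp _ (hgoodR j) g a hA).trans (mul_le_mul_of_nonneg_right (by linarith) ?_)
    exact Finset.sum_nonneg fun T _ => mul_nonneg ((hsys j).vol_pos _).le (sq_nonneg _)
  exact { κr_one := hP.κr_one, leaf := hP.leaf, samp := f_samp, env0 := fun j y => (hP.env0 j y.1).trans (a3.trans a6) }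

/-! ## 4. raw towers -/

namespace Tower

variable (T : Tower k)

/-- the common requirements on a raw tower (= `Tower.Base` with `Raw` in the place of `Ok`) -/
structure RawBase : Prop where
  cls : ∀ N n, (T.F N n).c = T.cN N
  cxs : ∀ N n, (T.F N n).cx = T.cx N
  ord : ∀ N, ordOf (T.cN N) = T.o
  room : T.o.Room k
  clsok : ∀ N, (T.cN N).Ok
  raw : ∀ N m, ∀ᶠ n in uf, (T.F N n).Raw m
  μ_pos : ∀ N, 0 < T.μ N
  μ_lim : Tendsto T.μ uf (𝓝 0)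
  mesh : ∀ N, ∀ᶠ n in uf, ∀ j i, i < (T.cN N).ℓ → (T.F N n).s j i - (T.F N n).s j (i + 1) ≤ T.μ N
  exc : ∃ c1 : ℝ, 0 < c1 ∧ ∀ N, ∀ᶠ n in uf, (T.F N n).Λ ^ c1 ≤ (T.F N n).σo ^ 2 * (T.F N n).A (T.F N n).j0 ^ 2

/-- **a raw tower of the power case** -/
structure RawPow (sH : ℝ) : Prop extends T.RawBase where
  pow : ∀ N, ∀ᶠ n in uf, (T.F N n).Pow0
  sH_pos : 0 < sH
  sH_le : sH ≤ 1
  bot : ∀ a : ℝ, 0 < a → ∀ᶠ N in uf, ∀ᶠ n in uf, ∀ j, (T.F N n).s j (T.cN N).ℓ ≤ a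
  seam : ∀ N j, Tendsto (fun n => (T.F N n).s j (T.cN N).tr) uf (𝓝 sH)
  thr : ∀ N j, Tendsto (fun n => Real.logb (T.F N n).Λ ((T.F N n).A j)) uf (𝓝 ((k : ℝ) / 2 * sH))

/-- **a raw tower of the subpower case** -/
structure RawSub (e : Fin (k + 1) → ℝ) (C1 C3 : ℝ) : Prop extends T.RawBase where
  sub : ∀ N m, ∀ᶠ n in uf, (T.F N n).Sub m C1 C3
  e_nonneg : ∀ j, 0 ≤ e j
  top : ∀ N j, Tendsto (fun n => (T.F N n).s j 0) uf (𝓝 (e j))
  bot : ∀ a : ℝ, ∀ᶠ N in uf, ∀ᶠ n in uf, ∀ j, (T.F N n).s j (T.cN N).ℓ ≤ a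

end Tower

/-- L-257-FR-DIAG, **the diagonal**: frozen versions whose quality tends to infinity.
PLAN: fix `N`.  `good m' n := ∃ F', F'.Ok m' ∧ FExt (T.F N n) F' ∧ (..Pow0 → F'.Pow) ∧ ∀ m1 C1 C3, ..Sub.. → F'.Sub..`;  `ft_freeze` with the class `T.cN N` gives `m`; `hT.raw N m`: `∀ m', ∀ᶠ n, good m' n`.   `ulim_diag` gives `κ → ∞` with `good (κ n) n` eventually.
`F' N n := if h : good (κ n) n then h.choose else { T.F N n with cx := (T.F N n).cx + 1 }` (`FExt` holds in both cases: `rfl`s).   Quality: `∀ m, ∀ᶠ n, m ≤ κ n` (`tendsto_atTop`), `FCfg.Ok.mono`. -/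
theorem ft_diag (hk : 1 ≤ k) {T : Tower k} (hT : T.RawBase) (hW : ∀ N, WtAt k (qk k) (T.cN N).Q (T.cN N).M) (h2 : ∀ N, L2At k (T.cN N).M) (hN : ∀ N, NcAt k (T.cN N).Q (T.cN N).M) :
    ∃ F' : ℕ → ℕ → FCfg k, (∀ N n, FExt (T.F N n) (F' N n)) ∧ (∀ N m, ∀ᶠ n in uf, (F' N n).Ok m) ∧ (∀ N, ∀ᶠ n in uf, (T.F N n).Pow0 → (F' N n).Pow) ∧
      ∀ N, ∀ᶠ n in uf, ∀ (m1 : ℕ) (C1 C3 : ℝ), (T.F N n).Sub m1 C1 C3 → (F' N n).Sub m1 C1 C3 := by
  classical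
  set good : ℕ → ℕ → ℕ → Prop := fun N m' n => ∃ F' : FCfg k, F'.Ok m' ∧ FExt (T.F N n) F' ∧ ((T.F N n).Pow0 → F'.Pow) ∧
    ∀ (m1 : ℕ) (C1 C3 : ℝ), (T.F N n).Sub m1 C1 C3 → F'.Sub m1 C1 C3 with hgd
  have hgood : ∀ N m', ∀ᶠ n in uf, good N m' n := by
    intro N m'
    obtain ⟨m, hm⟩ := ft_freeze hk (T.cN N) (hT.clsok N) ((hT.ord N).symm ▸ hT.room) (hW N) (h2 N) (hN N) (T.cx N) m'
    exact (hT.raw N m).mono fun n hn => hm (T.F N n) (hT.cls N n) (hT.cxs N n) hn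
  choose κ hκ1 hκ2 using fun N => ulim_diag (good N) (hgood N)
  set F' : ℕ → ℕ → FCfg k := fun N n => if h : good N (κ N n) n then h.choose else { T.F N n with cx := (T.F N n).cx + 1 } with hF'
  have hpos : ∀ N n (h : good N (κ N n) n), F' N n = h.choose := fun N n h => by simp only [hF', dif_pos h]
  refine ⟨F', fun N n => ?_, fun N m => ?_, fun N => ?_, fun N => ?_⟩
  · by_cases h : good N (κ N n) n
    · rw [hpos N n h]
      exact h.choose_spec.2.1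
    · simp only [hF', dif_neg h]
      exact ⟨rfl, rfl, rfl, rfl, rfl, fun _ _ => rfl, rfl, rfl⟩
  · filter_upwards [hκ2 N, tendsto_atTop.1 (hκ1 N) m] with n h1 h2
    rw [hpos N n h1]
    exact h1.choose_spec.1.mono h2
  · filter_upwards [hκ2 N] with n h1
    rw [hpos N n h1]
    exact h1.choose_spec.2.2.1
  · filter_upwards [hκ2 N] with n h1
    rw [hpos N n h1]
    exact h1.choose_spec.2.2.2

/-- the nodes of a frozen version -/
theorem ft_ext_s {F F' : FCfg k} (h : FExt F F') (j : Fin (k + 1)) (i : ℕ) : F'.s j i = F.s j i := by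
  unfold FCfg.s
  rw [h.Λ, h.κ, h.κr]

/-- the common part of the two towers -/
theorem ft_tower_base {T : Tower k} (hT : T.RawBase) {F' : ℕ → ℕ → FCfg k} (hE : ∀ N n, FExt (T.F N n) (F' N n)) (hok : ∀ N m, ∀ᶠ n in uf, (F' N n).Ok m) :
    (⟨F', T.cN, fun N => T.cx N + 1, T.μ, T.o⟩ : Tower k).Base := by
  obtain ⟨c1, hc1, hexc⟩ := hT.exc
  exact
    { cls := fun N n => (hE N n).c.trans (hT.cls N n)
      cxs := fun N n => by show (F' N n).cx = T.cx N + 1; rw [(hE N n).cx, hT.cxs]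
      ord := hT.ord
      room := hT.room
      ok := hok
      μ_pos := hT.μ_pos
      μ_lim := hT.μ_lim
      mesh := fun N => (hT.mesh N).mono fun n hn j i hi => by
        show (F' N n).s j i - (F' N n).s j (i + 1) ≤ T.μ N
        rw [ft_ext_s (hE N n), ft_ext_s (hE N n)]
        exact hn j i hi
      exc := ⟨c1, hc1, fun N => (hexc N).mono fun n hn => by
        show (F' N n).Λ ^ c1 ≤ (F' N n).σo ^ 2 * (F' N n).A (F' N n).j0 ^ 2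
        rw [(hE N n).Λ, (hE N n).σo, (hE N n).A, (hE N n).j0]
        exact hn⟩ }

/-- L-257-FR-TOWER.   PLAN: `T' = ⟨F', T.cN, fun N => T.cx N + 1, T.μ, T.o⟩` with `F'` from `ft_diag`; every field of `Base` / `PowOk` is the field of `RawBase` / `RawPow` rewritten with `ft_ext_s`, `FExt.Λ`, `FExt.A`, `FExt.σo`, `FExt.j0`, `FExt.c`, `FExt.cx`. -/
theorem ft_tower_pow (hk : 1 ≤ k) {T : Tower k} {sH : ℝ} (hT : T.RawPow sH) (hW : ∀ N, WtAt k (qk k) (T.cN N).Q (T.cN N).M) (h2 : ∀ N, L2At k (T.cN N).M)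
    (hN : ∀ N, NcAt k (T.cN N).Q (T.cN N).M) : ∃ T' : Tower k, T'.PowOk sH := by
  obtain ⟨F', hE, hok, hP, -⟩ := ft_diag hk hT.toRawBase hW h2 hN
  refine ⟨⟨F', T.cN, fun N => T.cx N + 1, T.μ, T.o⟩, ?_⟩
  exact
    { toBase := ft_tower_base hT.toRawBase hE hok
      pow := fun N => by
        filter_upwards [hT.pow N, hP N] with n h1 h2
        exact h2 h1
      sH_pos := hT.sH_pos
      sH_le := hT.sH_le
      bot := fun a ha => (hT.bot a ha).mono fun N hN' => hN'.mono fun n hn j => by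
        show (F' N n).s j (T.cN N).ℓ ≤ a
        rw [ft_ext_s (hE N n)]
        exact hn j
      seam := fun N j => (hT.seam N j).congr fun n => (ft_ext_s (hE N n) j _).symm
      thr := fun N j => (hT.thr N j).congr fun n => by
        show Real.logb (T.F N n).Λ ((T.F N n).A j) = Real.logb (F' N n).Λ ((F' N n).A j)
        rw [(hE N n).Λ, (hE N n).A] }

/-- L-257-FR-TOWER (as `ft_tower_pow`; `sub`: combine `hT.sub N m` with the last item of `ft_diag`). -/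
theorem ft_tower_sub (hk : 1 ≤ k) {T : Tower k} {e : Fin (k + 1) → ℝ} {C1 C3 : ℝ} (hT : T.RawSub e C1 C3) (hW : ∀ N, WtAt k (qk k) (T.cN N).Q (T.cN N).M) (h2 : ∀ N, L2At k (T.cN N).M)
    (hN : ∀ N, NcAt k (T.cN N).Q (T.cN N).M) : ∃ T' : Tower k, T'.SubOk e C1 C3 := by
  obtain ⟨F', hE, hok, -, hS⟩ := ft_diag hk hT.toRawBase hW h2 hN
  refine ⟨⟨F', T.cN, fun N => T.cx N + 1, T.μ, T.o⟩, ?_⟩
  exact
    { toBase := ft_tower_base hT.toRawBase hE hok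
      sub := fun N m => by
        filter_upwards [hT.sub N m, hS N] with n h1 h2
        exact h2 m C1 C3 h1
      e_nonneg := hT.e_nonneg
      top := fun N j => (hT.top N j).congr fun n => (ft_ext_s (hE N n) j _).symm
      bot := fun a => (hT.bot a).mono fun N hN' => hN'.mono fun n hn j => by
        show (F' N n).s j (T.cN N).ℓ ≤ a
        rw [ft_ext_s (hE N n)]
        exact hn j }

/-! ## 5. the link with FR1:  `CoreStmt k` -/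

/-- **the exit of GRID, power case**: a failing `CorePow` produces a raw tower with the orders `Q`, `M` of the class -/
def RawExitPow (c : TCls k) (σ c' : ℝ) : Prop := ¬ FR1.CorePow c σ c' → ∃ T : Tower k, T.o.Q = c.Q ∧ T.o.M = c.M ∧ ∃ sH, T.RawPow sH

/-- **the exit of GRID, subpower case** -/
def RawExitSub (c : TCls k) : Prop := ¬ FR1.CoreSub c → ∃ T : Tower k, T.o.Q = c.Q ∧ T.o.M = c.M ∧ ∃ e C1 C3, T.RawSub e C1 C3

theorem ft_ord_Q {T : Tower k} (h : T.RawBase) (N : ℕ) : (T.cN N).Q = T.o.Q := congrArg TOrd.Q (h.ord N)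

theorem ft_ord_M {T : Tower k} (h : T.RawBase) (N : ℕ) : (T.cN N).M = T.o.M := congrArg TOrd.M (h.ord N)

/-- **TOP, power case** -/
theorem ft_core_pow (hk : 1 ≤ k) (hB : GTestB k) (hM : GTestM k) (hX : GTestX k) (hF : GTestF k) (c : TCls k)
    (hW : WtAt k (qk k) c.Q c.M) (h2 : L2At k c.M) (hN : NcAt k c.Q c.M) (σ c' : ℝ) (hR : RawExitPow c σ c') : FR1.CorePow c σ c' := by
  by_contra hne
  obtain ⟨T, hQ, hM', sH, h⟩ := hR hne
  obtain ⟨T', h'⟩ := ft_tower_pow hk h (fun N => by rw [ft_ord_Q h.toRawBase, ft_ord_M h.toRawBase, hQ, hM']; exact hW)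
    (fun N => by rw [ft_ord_M h.toRawBase, hM']; exact h2) (fun N => by rw [ft_ord_Q h.toRawBase, ft_ord_M h.toRawBase, hQ, hM']; exact hN)
  exact ft_power hk h' hB hM hX hF

/-- **TOP, subpower case** -/
theorem ft_core_sub (hk : 1 ≤ k) (hB : GTestB k) (hM : GTestM k) (hL : GTestL k) (hF : GTestF k) (c : TCls k)
    (hW : WtAt k (qk k) c.Q c.M) (h2 : L2At k c.M) (hN : NcAt k c.Q c.M) (hR : RawExitSub c) : FR1.CoreSub c := by
  by_contra hne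
  obtain ⟨T, hQ, hM', e, C1, C3, h⟩ := hR hne
  obtain ⟨T', h'⟩ := ft_tower_sub hk h (fun N => by rw [ft_ord_Q h.toRawBase, ft_ord_M h.toRawBase, hQ, hM']; exact hW)
    (fun N => by rw [ft_ord_M h.toRawBase, hM']; exact h2) (fun N => by rw [ft_ord_Q h.toRawBase, ft_ord_M h.toRawBase, hQ, hM']; exact hN)
  exact ft_subpower hk h' hB hM hL hF

/-- **TOP, final form**: the core of the frame theorem (consumed by `FR1`: `f1_norm : CoreStmt k → XFrameStmt k`, `fex_main : XFrameStmt k → FrameStmt k`) -/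
theorem ft_core (hk : 1 ≤ k) (hB : GTestB k) (hM : GTestM k) (hX : GTestX k) (hL : GTestL k) (hF : GTestF k)
    (hW : ∀ c : TCls k, c.Ok → WtAt k (qk k) c.Q c.M) (h2 : ∀ c : TCls k, c.Ok → L2At k c.M) (hN : ∀ c : TCls k, c.Ok → NcAt k c.Q c.M)
    (hRp : ∀ c : TCls k, c.Ok → FR1.Room c → c.ℓ = 1 → c.tr = 1 → ∀ σ c' : ℝ, 0 < σ → 0 < c' → RawExitPow c σ c')
    (hRs : ∀ c : TCls k, c.Ok → FR1.Room c → c.ℓ = 1 → c.tr = 1 → RawExitSub c) : FR1.CoreStmt k :=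
  fun c hc hr hℓ htr => ⟨ft_core_sub hk hB hM hL hF c (hW c hc) (h2 c hc) (hN c hc) (hRs c hc hr hℓ htr),
    fun σ c' hσ hc' => ft_core_pow hk hB hM hX hF c (hW c hc) (h2 c hc) (hN c hc) σ c' (hRp c hc hr hℓ htr σ c' hσ hc')⟩

end

end Claimed.Agent.R257.FR3
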