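import Claimed.Agent.R257.PK2.Lin
import Claimed.Agent.R257.Pk.Api
import Claimed.Agent.R257.Frame.Stmt
import Claimed.Agent.R257.Infra.Alg

/-!
# R257 / FR3 / XfA : THE LOCAL MULTILINEAR COUNT (H packets.tex p:local-multilinear l.693-783, as it is used in frame.tex l.1522)        (architect helper212; unit XF-A of FR3, captain helper121)        CONTRACT

EXIT `xa_count`:  `k + 1` band limited packet families of the SAME scale `N` (class `K`), labels `Q`-transverse (labels only, no enlargement), `Y` `1`-separated in a ball of radius `Cr N` about `z₀`,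
separate witnesses `wz j y` within `Cw` of `y` with `th j ≤ ‖V_j (wz j y)‖`, `N^{k/2} B_j(z₀)/th j ≤ U`:
      `#Y ≤ C Q^M U^ε N^{k+1} ∏_j (B_j(z₀)²/th_j²)^{1/k}`.
INPUT `XaMrl` = lossless multilinear restriction above the endpoint for EXACT fields (exit `MR.mrl` of `Lib/MR`, helper13; adapter = last leaf).

PROOF (no Fourier series, no division by `H_v`, no maximal inequality for exponents `< 1`).   `r = p/(k+1)`, `p = p_k + ε`.
1. `xa_thick` (tools of `PK2/Lin`): `θ V_j = ∫ ch (pr z w) G_j w dw`, `|θ| ≥ 1` on the ball, `G_j` continuous, supported within `C₂/N` of the lifted labels, `∫|G_j|² ≤ C N^{k+1} B_j(z₀)²`.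
2. `xa_phase`: for a witness `ζ` and ANY `z` with `|z - ζ| ≤ Cw + 1/2`:  `pr ζ w = (z.1·ξ - z.2|ξ|²) + t₀ σ + ∑_l u_l m_l(w)`, `σ = τ + |ξ|²`, alphabet `l ∈ Fin k ⊕ Bool`, `m_l ∈ {ξ_i, |ξ|², Nσ}` bounded on `supp G`, `|u_l| ≤ ρ`.
3. `xa_expand`: `e^{iφ} = ∑_n (iφ)^n/n!`, `φ^n = ∑_{words of length n} ∏ u ∏ m`:   `|θV_j(ζ)| ≤ ∑_{words α} ρ^{|α|}/|α|! |ext g_{j,α}(z)|`,  `g_{j,α}(ξ) = ∫ e^{i t₀ σ} M_α G_j(ξ,τ) dτ` (`xa_slice`): EXACT fields at the COMMON point `z`.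
4. `xa_sup_sum`: `(∑ d e x)^r ≤ (∑ d)^r ∑ (e x)^r` for every `r > 0`;  integrate over the disjoint balls `B(y,1/2)` (`pk_usep_int`);  `xa_multi` (product of sums = sum over tuples of words, Tonelli), `XaMrl` for every tuple;
   `‖g_{j,α}‖₂² ≤ (2 Cb/N) κ^{2|α|} ∫|G_j|²`;  the sums over the words converge (`xa_words`).
5. transversality of the enlarged supports: `xa_transv` if `Q C₂/N ≤ 1/2`;  otherwise `N ≤ 2 C₂ Q` and `#Y ≤ C N^{k+1}` is absorbed by `Q^M` (`xa_small`: Cauchy-Schwarz `pk_cauchy` gives `N^k B_j(z₀)²/th_j² ≥ c`).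
Every `sorry` is a leaf `L-257-XA-*`: prove IN PLACE on a fresh pull, statement verbatim (a FALSE statement: one line to helper212), auxiliary lemmas directly above, prefix `xa_`; splice only your block.
-/

set_option autoImplicit false

namespace Claimed.Agent.R257

open MeasureTheory Metric Set
open scoped ENNReal InnerProductSpace

variable {k : ℕ} {ι : Type}

/-! ## definitions -/

/-- working class of data: bounded Borel functions vanishing off `closedBall 0 C₀` (`= MR.Dat`) -/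
structure XaDat (C₀ : ℝ) (g : E k → ℂ) : Prop where
  meas : Measurable g
  bdd : ∃ B : ℝ, ∀ ξ, ‖g ξ‖ ≤ B
  supp : ∀ ξ, g ξ ≠ 0 → ‖ξ‖ ≤ C₀

/-- **lossless multilinear restriction with explicit constants** (exponent `p > p_k`; constant `C Q^M`) -/
def XaMrl (k : ℕ) (p C₀ C M : ℝ) : Prop :=
  ∀ (Q : ℝ) (g : Fin (k + 1) → E k → ℂ), 1 ≤ Q → (∀ j, XaDat C₀ (g j)) →
    (∀ ξ : Fin (k + 1) → E k, (∀ j, g j (ξ j) ≠ 0) → Transv Q ξ) →
    ∫⁻ z : ST k, ∏ j, ‖ext (g j) z‖ₑ ^ (p / ((k : ℝ) + 1))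
      ≤ ENNReal.ofReal (C * Q ^ M) * ∏ j, (∫⁻ ξ, ‖g j ξ‖ₑ ^ (2 : ℝ)) ^ (p / (2 * ((k : ℝ) + 1)))

/-- exit of `Lib/MR` -/
def XaMrlStmt (k : ℕ) : Prop := ∀ p C₀ : ℝ, pk' k < p → ∃ C M : ℝ, 0 ≤ C ∧ 0 ≤ M ∧ XaMrl k p C₀ C M

/-- words in the alphabet `Λ` -/
abbrev XaW (Λ : Type) : Type := Σ n : ℕ, (Fin n → Λ)

/-- the alphabet: the `k` coordinates of `ξ`, the paraboloid coordinate `|ξ|²`, the vertical coordinate `N (τ + |ξ|²)` -/
abbrev XaL (k : ℕ) : Type := Fin k ⊕ Bool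

/-- the elementary multipliers -/
noncomputable def xaM (N : ℝ) : XaL k → ST k → ℝ
  | Sum.inl i, w => w.1 i
  | Sum.inr false, w => ‖w.1‖ ^ 2
  | Sum.inr true, w => N * (w.2 + ‖w.1‖ ^ 2)

/-- the coefficients of the phase -/
noncomputable def xaU (N t₀ : ℝ) (z ζ : ST k) : XaL k → ℝ
  | Sum.inl i => ζ.1 i - z.1 i
  | Sum.inr false => -(ζ.2 - z.2)
  | Sum.inr true => (ζ.2 - t₀) / N

/-- the multiplier of a word -/
noncomputable def xaMw (N : ℝ) (α : XaW (XaL k)) (w : ST k) : ℝ := ∏ i, xaM N (α.2 i) w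

/-- the datum of a word: `g_α(ξ) = ∫ e^{i t₀ (τ + |ξ|²)} M_α(ξ,τ) G(ξ,τ) dτ` -/
noncomputable def xaG (N t₀ : ℝ) (G : ST k → ℂ) (α : XaW (XaL k)) (ξ : E k) : ℂ :=
  ∫ τ : ℝ, BD.ch (t₀ * (τ + ‖ξ‖ ^ 2)) * ((xaMw N α (ξ, τ) : ℝ) : ℂ) * G (ξ, τ)

/-- the neighbourhood of thickness `b` of the paraboloid `τ = -|ξ|²` over the ball of radius `C₁` -/
def xaS (C₁ b : ℝ) : Set (ST k) := {w | ‖w.1‖ ≤ C₁ ∧ |w.2 + ‖w.1‖ ^ 2| ≤ b}

/-! ## abstract lemmas (Mathlib only) -/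

/-- **L-257-XA-EXPAND** (~200 l., Mathlib only).   `cexp (I φ) = ∑_n (I φ)^n / n!` (`Complex.exp_eq_exp_ℂ`, `NormedSpace.expSeries_div_hasSum_exp` / `Complex.hasSum_exp`-type lemma);  exchange `∫` and `∑_n`: `hasSum_integral_of_summable_norm`
(`‖e (Iφ)^n/n! G‖ ≤ (card Λ ρ κ)^n/n! ‖G‖` because `|φ w| ≤ card Λ ρ κ` where `G w ≠ 0`; `Real.summable_pow_div_factorial`);  `φ^n = ∑_{p : Fin n → Λ} ∏_i (u (p i) m (p i) w)` (`Fintype.sum_pow`), `integral_finset_sum`;  `|∏ u| ≤ ρ^n`;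
`‖∑' ‖ₑ ≤ ∑' ‖ ‖ₑ`, `ENNReal.tsum_sigma`. -/
theorem xa_expand {Ω : Type} [MeasurableSpace Ω] (μ : Measure Ω) {Λ : Type} [Fintype Λ] (G e : Ω → ℂ) (m : Λ → Ω → ℝ) (u : Λ → ℝ) {ρ κ : ℝ}
    (hG : Integrable G μ) (he : Measurable e) (he1 : ∀ w, ‖e w‖ ≤ 1) (hm : ∀ l, Measurable (m l)) (hmκ : ∀ l w, G w ≠ 0 → |m l w| ≤ κ)
    (hu : ∀ l, |u l| ≤ ρ) :
    ‖∫ w, e w * Complex.exp (Complex.I * ((∑ l, u l * m l w : ℝ) : ℂ)) * G w ∂μ‖ₑ
      ≤ ∑' α : XaW Λ, ENNReal.ofReal (ρ ^ α.1 / (α.1).factorial) * ‖∫ w, e w * ((∏ i, m (α.2 i) w : ℝ) : ℂ) * G w ∂μ‖ₑ := by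
  classical
  set φ : Ω → ℝ := fun w => ∑ l, u l * m l w with hφ
  have hφm : Measurable φ := Finset.measurable_sum _ fun l _ => (hm l).const_mul _
  set B : ℝ := (Fintype.card Λ : ℝ) * (ρ * κ) with hB
  have hφB : ∀ w, G w ≠ 0 → |φ w| ≤ B := by
    intro w hw
    calc |φ w| ≤ ∑ l, |u l * m l w| := Finset.abs_sum_le_sum_abs _ _
      _ ≤ ∑ _l : Λ, ρ * κ := Finset.sum_le_sum fun l _ => by
          rw [abs_mul]
          exact mul_le_mul (hu l) (hmκ l w hw) (abs_nonneg _) ((abs_nonneg _).trans (hu l))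
      _ = B := by rw [Finset.sum_const, Finset.card_univ, nsmul_eq_mul]
  -- a general integrability statement: bounded multiplier on the support
  have hint : ∀ (f : Ω → ℂ) (c : ℝ), Measurable f → (∀ w, G w ≠ 0 → ‖f w‖ ≤ c) → Integrable (fun w => f w * G w) μ ∧ ∀ w, ‖f w * G w‖ ≤ c * ‖G w‖ := by
    intro f c hf hc
    have hb : ∀ w, ‖f w * G w‖ ≤ c * ‖G w‖ := by
      intro w
      by_cases hw : G w = 0
      · simp [hw]
      · rw [norm_mul]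
        exact mul_le_mul_of_nonneg_right (hc w hw) (norm_nonneg _)
    exact ⟨(hG.norm.const_mul c).mono' (hf.aestronglyMeasurable.mul hG.aestronglyMeasurable) (Filter.Eventually.of_forall hb), hb⟩
  set F : ℕ → Ω → ℂ := fun n w => (e w * ((Complex.I * (φ w : ℂ)) ^ n / (n.factorial : ℂ))) * G w with hF
  have hFb := fun n : ℕ => hint (fun w => e w * ((Complex.I * (φ w : ℂ)) ^ n / (n.factorial : ℂ))) (B ^ n / n.factorial)
    (he.mul (((measurable_const.mul (Complex.measurable_ofReal.comp hφm)).pow_const n).div_const _)) (fun w hw => by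
      rw [norm_mul, norm_div, norm_pow, norm_mul, Complex.norm_I, one_mul, Complex.norm_real, Real.norm_eq_abs, Complex.norm_natCast]
      calc ‖e w‖ * (|φ w| ^ n / n.factorial) ≤ 1 * (B ^ n / n.factorial) := by
            apply mul_le_mul (he1 w) _ (by positivity) zero_le_one
            gcongr
            exact hφB w hw
        _ = _ := one_mul _)
  have hsum : Summable fun n => ∫ w, ‖F n w‖ ∂μ := by
    refine Summable.of_nonneg_of_le (fun n => integral_nonneg fun w => norm_nonneg _) (fun n => ?_)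
      ((Real.summable_pow_div_factorial B).mul_right (∫ w, ‖G w‖ ∂μ))
    rw [← integral_const_mul]
    exact integral_mono (hFb n).1.norm (hG.norm.const_mul _) (hFb n).2
  have hHS : HasSum (fun n => ∫ w, F n w ∂μ) (∫ w, ∑' n, F n w ∂μ) := hasSum_integral_of_summable_integral_norm (F := F) (fun n => (hFb n).1) hsum
  have hpt : ∀ w, ∑' n, F n w = e w * Complex.exp (Complex.I * ((φ w : ℝ) : ℂ)) * G w := by
    intro w
    have h1 := NormedSpace.expSeries_div_hasSum_exp (Complex.I * ((φ w : ℝ) : ℂ))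
    rw [← Complex.exp_eq_exp_ℂ] at h1
    exact ((h1.mul_left (e w)).mul_right (G w)).tsum_eq
  simp only [hpt] at hHS
  rw [← hHS.tsum_eq, ENNReal.tsum_sigma']
  refine enorm_tsum_le_tsum_enorm.trans (ENNReal.tsum_le_tsum fun n => ?_)
  rw [tsum_fintype]
  -- the n-th term
  have hw : ∀ p : Fin n → Λ, Integrable (fun w => e w * ((∏ i, m (p i) w : ℝ) : ℂ) * G w) μ := fun p =>
    (hint (fun w => e w * ((∏ i, m (p i) w : ℝ) : ℂ)) (κ ^ n)
      (he.mul (Complex.measurable_ofReal.comp (Finset.measurable_prod _ fun i _ => hm (p i)))) (fun w hw => by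
        rw [norm_mul, Complex.norm_real, Real.norm_eq_abs, Finset.abs_prod]
        calc ‖e w‖ * ∏ i, |m (p i) w| ≤ 1 * ∏ _i : Fin n, κ := by
              apply mul_le_mul (he1 w) _ (Finset.prod_nonneg fun i _ => abs_nonneg _) zero_le_one
              exact Finset.prod_le_prod (fun i _ => abs_nonneg _) fun i _ => hmκ (p i) w hw
          _ = κ ^ n := by rw [one_mul, Finset.prod_const, Finset.card_univ, Fintype.card_fin])).1
  have hFn : ∀ w, F n w = ∑ p : Fin n → Λ, (Complex.I ^ n / (n.factorial : ℂ) * ((∏ i, u (p i) : ℝ) : ℂ)) * (e w * ((∏ i, m (p i) w : ℝ) : ℂ) * G w) := by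
    intro w
    rw [hF]
    simp only
    rw [mul_pow, hφ]
    simp only
    rw [← Complex.ofReal_pow, Fintype.sum_pow]
    push_cast
    simp only [Finset.prod_mul_distrib]
    rw [Finset.mul_sum, Finset.sum_div, Finset.mul_sum, Finset.sum_mul]
    refine Finset.sum_congr rfl fun p _ => ?_
    ring
  simp only [hFn]
  rw [integral_finsetSum _ fun p _ => (hw p).const_mul _]
  refine (enorm_sum_le _ _).trans (Finset.sum_le_sum fun p _ => ?_)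
  rw [integral_const_mul, enorm_mul]
  gcongr
  rw [← ofReal_norm]
  apply ENNReal.ofReal_le_ofReal
  rw [norm_mul, norm_div, norm_pow, Complex.norm_I, one_pow, Complex.norm_natCast, Complex.norm_real, Real.norm_eq_abs, Finset.abs_prod, one_div, inv_mul_eq_div]
  gcongr
  calc ∏ i, |u (p i)| ≤ ∏ _i : Fin n, ρ := Finset.prod_le_prod (fun i _ => abs_nonneg _) fun i _ => hu (p i)
    _ = ρ ^ n := by rw [Finset.prod_const, Finset.card_univ, Fintype.card_fin]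

/-- **L-257-XA-SUPSUM** (~60 l., Mathlib only).   `S = ⨆ e x`;  `∑' d (e x) ≤ (∑' d) S` (`ENNReal.tsum_mul_right`);  `(a S)^r = a^r S^r` (`ENNReal.mul_rpow_of_nonneg`);  `S^r ≤ ∑' (e x)^r`: every `e x ≤ (∑' (e x)^r)^{1/r}` (`ENNReal.le_tsum`, `ENNReal.rpow_le_rpow`, `ENNReal.rpow_mul`). -/
theorem xa_sup_sum {J : Type} (d e x : J → ℝ≥0∞) {r : ℝ} (hr : 0 < r) :
    (∑' α, d α * e α * x α) ^ r ≤ (∑' α, d α) ^ r * ∑' α, (e α * x α) ^ r := by
  obtain ⟨S, hS⟩ : ∃ S : ℝ≥0∞, S = ⨆ α, e α * x α := ⟨_, rfl⟩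
  have h1 : ∑' α, d α * e α * x α ≤ (∑' α, d α) * S := by
    rw [← ENNReal.tsum_mul_right]
    refine ENNReal.tsum_le_tsum fun α => ?_
    rw [mul_assoc]
    refine mul_le_mul' le_rfl ?_
    rw [hS]
    exact le_iSup (fun α => e α * x α) α
  have h2 : S ^ r ≤ ∑' α, (e α * x α) ^ r := by
    have h3 : S ≤ (∑' α, (e α * x α) ^ r) ^ (1 / r) := by
      rw [hS]
      refine iSup_le fun α => ?_
      calc e α * x α = ((e α * x α) ^ r) ^ (1 / r) := by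
            rw [← ENNReal.rpow_mul, mul_one_div_cancel hr.ne', ENNReal.rpow_one]
        _ ≤ _ := ENNReal.rpow_le_rpow (ENNReal.le_tsum α) (by positivity)
    calc S ^ r ≤ ((∑' α, (e α * x α) ^ r) ^ (1 / r)) ^ r := ENNReal.rpow_le_rpow h3 hr.le
      _ = _ := by rw [← ENNReal.rpow_mul, one_div_mul_cancel hr.ne', ENNReal.rpow_one]
  calc (∑' α, d α * e α * x α) ^ r ≤ ((∑' α, d α) * S) ^ r := ENNReal.rpow_le_rpow h1 hr.le
    _ = (∑' α, d α) ^ r * S ^ r := ENNReal.mul_rpow_of_nonneg _ _ hr.le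
    _ ≤ _ := mul_le_mul' le_rfl h2

/-- **L-257-XA-PRODSUM** (~100 l., Mathlib only).   Induction on `m`: `Fin.prod_univ_succ`, `ENNReal.tsum_mul_left/right`, `ENNReal.tsum_prod`, reindex by `Fin.consEquiv`/`Fin.insertNthEquiv` (`Equiv.tsum_eq`). -/
theorem xa_prod_tsum {J : Type} (m : ℕ) (f : Fin m → J → ℝ≥0∞) : ∏ j, ∑' α, f j α = ∑' a : Fin m → J, ∏ j, f j (a j) := by
  induction m with
  | zero => simp
  | succ m ih =>
    rw [Fin.prod_univ_succ, ih fun j => f j.succ, ← (Fin.consEquiv fun _ : Fin (m + 1) => J).tsum_eq]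
    have e : ∀ c : J × (Fin m → J), ∏ j, f j ((Fin.consEquiv fun _ : Fin (m + 1) => J) c j) = f 0 c.1 * ∏ j : Fin m, f j.succ (c.2 j) := by
      intro c
      rw [Fin.prod_univ_succ]
      simp [Fin.consEquiv]
    simp_rw [e]
    rw [ENNReal.tsum_prod (f := fun (α : J) (a : Fin m → J) => f 0 α * ∏ j : Fin m, f j.succ (a j)), ← ENNReal.tsum_mul_right]
    refine tsum_congr fun α => ?_
    rw [← ENNReal.tsum_mul_left]

/-- **L-257-XA-MULTI** (~120 l.).   `(e x)^r = e^r x^r`; `xa_prod_tsum` pointwise; `lintegral_tsum` (countable index `Fin m → J`; measurability: `Finset.measurable_prod`, `Measurable.pow_const`);  `lintegral_const_mul`;  `h`;  `xa_prod_tsum` backwards;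
`∏_j (c * B j) = c^m ∏ B j` (`Finset.prod_mul_distrib`, `Finset.prod_const`). -/
theorem xa_multi {X : Type} [MeasurableSpace X] (μ : Measure X) {J : Type} [Countable J] (m : ℕ) (x : Fin m → J → X → ℝ≥0∞) (hx : ∀ j α, Measurable (x j α))
    (e β : J → ℝ≥0∞) {r : ℝ} (hr : 0 < r) (K₀ : ℝ≥0∞) (B : Fin m → ℝ≥0∞)
    (h : ∀ a : Fin m → J, ∫⁻ z, ∏ j, x j (a j) z ^ r ∂μ ≤ K₀ * ∏ j, (β (a j) * B j)) :
    ∫⁻ z, ∏ j, ∑' α, (e α * x j α z) ^ r ∂μ ≤ K₀ * (∑' α, e α ^ r * β α) ^ m * ∏ j, B j := by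
  have e1 : ∀ z, ∏ j, ∑' α, (e α * x j α z) ^ r = ∑' a : Fin m → J, (∏ j, e (a j) ^ r) * ∏ j, x j (a j) z ^ r := by
    intro z
    rw [xa_prod_tsum]
    refine tsum_congr fun a => ?_
    rw [← Finset.prod_mul_distrib]
    refine Finset.prod_congr rfl fun j _ => ?_
    rw [ENNReal.mul_rpow_of_nonneg _ _ hr.le]
  simp_rw [e1]
  have hm : ∀ a : Fin m → J, Measurable fun z => ∏ j, x j (a j) z ^ r := fun a =>
    Finset.measurable_prod _ fun j _ => (hx j (a j)).pow_const r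
  rw [lintegral_tsum fun a => ((hm a).const_mul _).aemeasurable]
  calc ∑' a : Fin m → J, ∫⁻ z, (∏ j, e (a j) ^ r) * ∏ j, x j (a j) z ^ r ∂μ
      ≤ ∑' a : Fin m → J, (∏ j, e (a j) ^ r) * (K₀ * ∏ j, (β (a j) * B j)) := by
        refine ENNReal.tsum_le_tsum fun a => ?_
        rw [lintegral_const_mul _ (hm a)]
        exact mul_le_mul' le_rfl (h a)
    _ = ∑' a : Fin m → J, (K₀ * ∏ j, B j) * ∏ j, (e (a j) ^ r * β (a j)) := by
        refine tsum_congr fun a => ?_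
        rw [Finset.prod_mul_distrib, Finset.prod_mul_distrib]
        ring
    _ = (K₀ * ∏ j, B j) * ∏ _j : Fin m, ∑' α, e α ^ r * β α := by
        rw [ENNReal.tsum_mul_left, xa_prod_tsum]
    _ = _ := by
        rw [Finset.prod_const, Finset.card_univ, Fintype.card_fin]
        ring

theorem xa_words_term (D s : ℝ) (hD : 0 ≤ D) (hs : 0 < s) (n : ℕ) :
    D ^ n / ((n.factorial : ℝ)) ^ s ≤ Real.exp ((2 * D + 1) ^ (1 / s) * s) * (1 / 2) ^ n := by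
  obtain ⟨B, hBd⟩ : ∃ B : ℝ, B = (2 * D + 1) ^ (1 / s) := ⟨_, rfl⟩
  rw [← hBd]
  have hB : 0 < B := by rw [hBd]; positivity
  have hBs : B ^ s = 2 * D + 1 := by
    rw [hBd, ← Real.rpow_mul (by positivity), one_div_mul_cancel hs.ne', Real.rpow_one]
  have h1 := Real.pow_div_factorial_le_exp B hB.le n
  have hf : (0 : ℝ) < n.factorial := by exact_mod_cast n.factorial_pos
  have h2 : B ^ n ≤ Real.exp B * n.factorial := by rwa [div_le_iff₀ hf] at h1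
  have h3 : (B ^ n) ^ s ≤ (Real.exp B * n.factorial) ^ s := Real.rpow_le_rpow (by positivity) h2 hs.le
  rw [Real.mul_rpow (Real.exp_pos _).le hf.le, ← Real.exp_mul, ← Real.rpow_natCast, ← Real.rpow_mul hB.le, mul_comm (n : ℝ) s,
    Real.rpow_mul hB.le, hBs, Real.rpow_natCast] at h3
  have hfs : 0 < (n.factorial : ℝ) ^ s := by positivity
  rw [div_le_iff₀ hfs]
  have h4 : D ^ n ≤ (1 / 2) ^ n * (2 * D + 1) ^ n := by
    rw [← mul_pow]
    exact pow_le_pow_left₀ hD (by linarith) n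
  calc D ^ n ≤ (1 / 2) ^ n * (2 * D + 1) ^ n := h4
    _ ≤ (1 / 2) ^ n * (Real.exp (B * s) * (n.factorial : ℝ) ^ s) := mul_le_mul_of_nonneg_left h3 (by positivity)
    _ = _ := by ring

/-- **L-257-XA-WORDS** (~120 l., Mathlib only).   `ENNReal.tsum_sigma`: `∑_n (card Λ)^n ofReal (A^n/(n!)^s)`.   For `B > 0`: `B^n/n! ≤ exp B` (`Real.pow_div_factorial_le_exp`), so `(n!)^{-s} ≤ exp (B s) B^{-n s}`; choose `B` with `card Λ A B^{-s} ≤ 1/2`; geometric series. -/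
theorem xa_words (Λ : Type) [Fintype Λ] (A s : ℝ) (hA : 0 ≤ A) (hs : 0 < s) :
    ∑' α : XaW Λ, ENNReal.ofReal (A ^ α.1 / ((α.1).factorial : ℝ) ^ s) < ∞ := by
  rw [ENNReal.tsum_sigma']
  obtain ⟨c, hc⟩ : ∃ c : ℝ, c = Fintype.card Λ := ⟨_, rfl⟩
  have hc0 : 0 ≤ c := by rw [hc]; positivity
  have e : ∀ n : ℕ, ∑' _b : Fin n → Λ, ENNReal.ofReal (A ^ n / (n.factorial : ℝ) ^ s) = ENNReal.ofReal ((c * A) ^ n / (n.factorial : ℝ) ^ s) := by
    intro n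
    rw [tsum_fintype, Finset.sum_const, Finset.card_univ, Fintype.card_fun, Fintype.card_fin, nsmul_eq_mul, ← ENNReal.ofReal_natCast,
      ← ENNReal.ofReal_mul (by positivity)]
    congr 1
    push_cast
    rw [← hc, mul_pow]
    ring
  simp only [e]
  obtain ⟨q, hq⟩ : ∃ q : ℝ≥0∞, q = ENNReal.ofReal (1 / 2) := ⟨_, rfl⟩
  have hq1 : q < 1 := by
    rw [hq, ← ENNReal.ofReal_one]
    exact (ENNReal.ofReal_lt_ofReal_iff one_pos).2 (by norm_num)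
  calc ∑' n : ℕ, ENNReal.ofReal ((c * A) ^ n / (n.factorial : ℝ) ^ s)
      ≤ ∑' n : ℕ, ENNReal.ofReal (Real.exp ((2 * (c * A) + 1) ^ (1 / s) * s)) * q ^ n := by
        refine ENNReal.tsum_le_tsum fun n => ?_
        rw [hq, ← ENNReal.ofReal_pow (by norm_num), ← ENNReal.ofReal_mul (Real.exp_pos _).le]
        exact ENNReal.ofReal_le_ofReal (xa_words_term (c * A) s (by positivity) hs n)
    _ = ENNReal.ofReal (Real.exp ((2 * (c * A) + 1) ^ (1 / s) * s)) * (1 - q)⁻¹ := by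
        rw [ENNReal.tsum_mul_left, ENNReal.tsum_geometric]
    _ < ∞ := by
        refine ENNReal.mul_lt_top ENNReal.ofReal_lt_top ?_
        rw [ENNReal.inv_lt_top]
        exact tsub_pos_of_lt hq1

/-- **L-257-XA-TRANSV** (~40 l.).   `‖∑ t ξ‖ ≤ ‖∑ t ξ'‖ + r ∑|t|` (`norm_sum_le`, `norm_smul`);  `(1 - Q r) ∑|t| ≤ Q (…)`. -/
theorem xa_transv {Q r : ℝ} (hQ : 0 ≤ Q) (hr : Q * r ≤ 1 / 2) {ξ ξ' : Fin (k + 1) → E k} (h : Transv Q ξ) (hξ : ∀ j, ‖ξ' j - ξ j‖ ≤ r) :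
    Transv (2 * Q) ξ' := by
  intro t
  have h1 := h t
  have h2 : ‖∑ i, t i • ξ i‖ ≤ ‖∑ i, t i • ξ' i‖ + r * ∑ i, |t i| := by
    have e : ∑ i, t i • ξ i = ∑ i, t i • ξ' i - ∑ i, t i • (ξ' i - ξ i) := by
      rw [← Finset.sum_sub_distrib]
      refine Finset.sum_congr rfl fun i _ => ?_
      rw [smul_sub]
      abel
    rw [e]
    refine (norm_sub_le _ _).trans (add_le_add le_rfl ?_)
    rw [Finset.mul_sum]
    refine (norm_sum_le _ _).trans (Finset.sum_le_sum fun i _ => ?_)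
    rw [norm_smul, Real.norm_eq_abs, mul_comm]
    exact mul_le_mul_of_nonneg_right (hξ i) (abs_nonneg _)
  obtain ⟨T, hT⟩ : ∃ T : ℝ, T = ∑ i, |t i| := ⟨_, rfl⟩
  rw [← hT] at h1 h2 ⊢
  have hT0 : 0 ≤ T := by
    rw [hT]
    exact Finset.sum_nonneg fun i _ => abs_nonneg _
  have h3 : T ≤ Q * (‖∑ i, t i • ξ' i‖ + r * T + |∑ i, t i|) := h1.trans (mul_le_mul_of_nonneg_left (by linarith) hQ)
  have h4 : Q * r * T ≤ 1 / 2 * T := mul_le_mul_of_nonneg_right hr hT0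
  nlinarith

/-! ## the phase and the slices -/

theorem xa_inner_eq (x y : E k) : ⟪x, y⟫_ℝ = ∑ i, x i * y i := by
  simp [PiLp.inner_apply, mul_comm]

/-- **L-257-XA-PHASE** (~80 l.).   `Fintype.sum_sum_type`, `Fintype.sum_bool`/`Fintype.univ_bool`, `EuclideanSpace.inner_eq_star_dotProduct` / `PiLp.inner_apply` (`⟪x, ξ⟫ = ∑ x i ξ i`), `ring`. -/
theorem xa_phase {N : ℝ} (hN : N ≠ 0) (t₀ : ℝ) (z ζ w : ST k) :
    BD.pr ζ w = (⟪z.1, w.1⟫_ℝ - z.2 * ‖w.1‖ ^ 2) + t₀ * (w.2 + ‖w.1‖ ^ 2) + ∑ l, xaU N t₀ z ζ l * xaM N l w := by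
  rw [Fintype.sum_sum_type, Fintype.sum_bool]
  have e1 : ∑ i : Fin k, xaU N t₀ z ζ (Sum.inl i) * xaM N (Sum.inl i) w = ⟪ζ.1, w.1⟫_ℝ - ⟪z.1, w.1⟫_ℝ := by
    rw [xa_inner_eq, xa_inner_eq, ← Finset.sum_sub_distrib]
    refine Finset.sum_congr rfl fun i _ => ?_
    show (ζ.1 i - z.1 i) * w.1 i = _
    ring
  have e2 : xaU N t₀ z ζ (Sum.inr true) * xaM N (Sum.inr true) w = (ζ.2 - t₀) * (w.2 + ‖w.1‖ ^ 2) := by
    show (ζ.2 - t₀) / N * (N * (w.2 + ‖w.1‖ ^ 2)) = _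
    field_simp
  have e3 : xaU N t₀ z ζ (Sum.inr false) * xaM N (Sum.inr false) w = -(ζ.2 - z.2) * ‖w.1‖ ^ 2 := rfl
  rw [e1, e2, e3]
  unfold BD.pr
  ring

/-- (`xa_phase`, `Complex.exp_add`; `car`, `BD.ch` unfold.) -/
theorem xa_ch {N : ℝ} (hN : N ≠ 0) (t₀ : ℝ) (z ζ w : ST k) :
    BD.ch (BD.pr ζ w) = car w.1 z * BD.ch (t₀ * (w.2 + ‖w.1‖ ^ 2)) * Complex.exp (Complex.I * ((∑ l, xaU N t₀ z ζ l * xaM N l w : ℝ) : ℂ)) := by
  rw [xa_phase hN t₀ z ζ w]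
  unfold BD.ch car
  rw [← Complex.exp_add, ← Complex.exp_add]
  congr 1
  push_cast
  ring

/-- **L-257-XA-MBD** (~60 l.): the multipliers are measurable and bounded on the neighbourhood. -/
theorem xa_M_meas (N : ℝ) (l : XaL k) : Measurable (xaM (k := k) N l) := by
  rcases l with i | b
  · show Measurable fun w : ST k => w.1 i
    exact ((EuclideanSpace.proj i).continuous.comp continuous_fst).measurable
  · cases b
    · show Measurable fun w : ST k => ‖w.1‖ ^ 2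
      fun_prop
    · show Measurable fun w : ST k => N * (w.2 + ‖w.1‖ ^ 2)
      fun_prop

theorem xa_M_le {N C₁ b κ : ℝ} (hN : 0 ≤ N) (h1 : C₁ ≤ κ) (h2 : C₁ ^ 2 ≤ κ) (h3 : N * b ≤ κ) (l : XaL k) {w : ST k} (hw : w ∈ xaS (k := k) C₁ b) :
    |xaM N l w| ≤ κ := by
  obtain ⟨hw1, hw2⟩ := hw
  rcases l with i | b'
  · show |w.1 i| ≤ κ
    have := PiLp.norm_apply_le w.1 i
    rw [Real.norm_eq_abs] at this
    linarith
  · cases b'
    · show |‖w.1‖ ^ 2| ≤ κ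
      rw [abs_of_nonneg (by positivity)]
      exact (pow_le_pow_left₀ (norm_nonneg _) hw1 2).trans h2
    · show |N * (w.2 + ‖w.1‖ ^ 2)| ≤ κ
      rw [abs_mul, abs_of_nonneg hN]
      exact (mul_le_mul_of_nonneg_left hw2 hN).trans h3

theorem xa_Mw_le {N C₁ b κ : ℝ} (hN : 0 ≤ N) (h1 : C₁ ≤ κ) (h2 : C₁ ^ 2 ≤ κ) (h3 : N * b ≤ κ) (α : XaW (XaL k)) {w : ST k} (hw : w ∈ xaS (k := k) C₁ b) :
    |xaMw N α w| ≤ κ ^ α.1 := by
  unfold xaMw
  rw [Finset.abs_prod]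
  calc ∏ i, |xaM N (α.2 i) w| ≤ ∏ _i : Fin α.1, κ :=
        Finset.prod_le_prod (fun i _ => abs_nonneg _) fun i _ => xa_M_le hN h1 h2 h3 (α.2 i) hw
    _ = κ ^ α.1 := by rw [Finset.prod_const, Finset.card_univ, Fintype.card_fin]

/-- the neighbourhood is bounded -/
theorem xa_S_sub (C₁ b : ℝ) : xaS (k := k) C₁ b ⊆ closedBall (0 : ST k) (max C₁ (C₁ ^ 2 + b)) := by
  intro w hw
  obtain ⟨h1, h2⟩ := hw
  rw [mem_closedBall_zero_iff, Prod.norm_def]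
  apply max_le_max h1
  rw [Real.norm_eq_abs]
  have h3 : ‖w.1‖ ^ 2 ≤ C₁ ^ 2 := pow_le_pow_left₀ (norm_nonneg _) h1 2
  have h4 : 0 ≤ ‖w.1‖ ^ 2 := by positivity
  rw [abs_le] at h2 ⊢
  constructor <;> linarith [h2.1, h2.2]

/-- bounded Borel functions supported in the neighbourhood are integrable -/
theorem xa_S_int {C₁ b B : ℝ} (H : ST k → ℂ) (hH : Measurable H) (hB : ∀ w, ‖H w‖ ≤ B) (hS : ∀ w, H w ≠ 0 → w ∈ xaS (k := k) C₁ b) : Integrable H := by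
  have h1 : Integrable ((closedBall (0 : ST k) (max C₁ (C₁ ^ 2 + b))).indicator fun _ => B) :=
    (integrable_indicator_iff measurableSet_closedBall).2 (integrableOn_const measure_closedBall_lt_top.ne)
  refine h1.mono' hH.aestronglyMeasurable (Filter.Eventually.of_forall fun w => ?_)
  by_cases hw : H w = 0
  · rw [hw, norm_zero]
    exact indicator_nonneg (fun _ _ => (norm_nonneg _).trans (hB w)) _
  · rw [indicator_of_mem (xa_S_sub C₁ b (hS w hw))]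
    exact hB w

/-- **L-257-XA-SLICE** (~250 l.): vertical integration of a bounded Borel function supported in the neighbourhood.
(1) measurability: `Measurable.stronglyMeasurable`, `StronglyMeasurable.integral_prod_right`; bound `2 b B` (the `τ`-support is an interval of length `2b`); support.   (2) `volume` on `ST k` is the product: `integral_prod` (integrable: bounded, measurable, support of finite measure `⊆ closedBall 0 C₁ ×ˢ Icc ..`), `integral_const_mul`.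
(3) Cauchy-Schwarz on the interval `{τ : |τ + |ξ|²| ≤ b}`, `lintegral_prod`. -/
theorem xa_slice {C₁ b B : ℝ} (hb : 0 ≤ b) (H : ST k → ℂ) (hH : Measurable H) (hB : ∀ w, ‖H w‖ ≤ B) (hS : ∀ w, H w ≠ 0 → w ∈ xaS (k := k) C₁ b) :
    XaDat C₁ (fun ξ => ∫ τ : ℝ, H (ξ, τ)) ∧ (∀ ξ, (∫ τ : ℝ, H (ξ, τ)) ≠ 0 → ∃ τ, H (ξ, τ) ≠ 0) ∧
    (∀ z, ext (fun ξ => ∫ τ : ℝ, H (ξ, τ)) z = ∫ w : ST k, car w.1 z * H w) ∧
    ∫⁻ ξ : E k, ‖∫ τ : ℝ, H (ξ, τ)‖ₑ ^ (2 : ℝ) ≤ ENNReal.ofReal (2 * b) * ∫⁻ w : ST k, ‖H w‖ₑ ^ (2 : ℝ) := by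
  have hB0 : 0 ≤ B := (norm_nonneg _).trans (hB 0)
  have hne : ∀ ξ, (∫ τ : ℝ, H (ξ, τ)) ≠ 0 → ∃ τ, H (ξ, τ) ≠ 0 := by
    intro ξ h
    by_contra hcon
    push Not at hcon
    exact h (by simp [hcon])
  -- the fibre of the support
  have hI : ∀ ξ τ, H (ξ, τ) ≠ 0 → τ ∈ Icc (-‖ξ‖ ^ 2 - b) (-‖ξ‖ ^ 2 + b) := by
    intro ξ τ h
    have := (hS _ h).2
    simp only at this
    rw [abs_le] at this
    exact ⟨by linarith [this.1], by linarith [this.2]⟩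
  have hvol : ∀ ξ : E k, volume (Icc (-‖ξ‖ ^ 2 - b) (-‖ξ‖ ^ 2 + b)) = ENNReal.ofReal (2 * b) := by
    intro ξ
    rw [Real.volume_Icc]
    congr 1
    ring
  have hle : ∀ ξ, ‖∫ τ : ℝ, H (ξ, τ)‖ₑ ≤ ∫⁻ τ, (Icc (-‖ξ‖ ^ 2 - b) (-‖ξ‖ ^ 2 + b)).indicator (fun _ => (1 : ℝ≥0∞)) τ * ‖H (ξ, τ)‖ₑ := by
    intro ξ
    refine (enorm_integral_le_lintegral_enorm _).trans (le_of_eq (lintegral_congr fun τ => ?_))
    by_cases h : H (ξ, τ) = 0
    · simp [h]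
    · rw [indicator_of_mem (hI ξ τ h), one_mul]
  have hHξ : ∀ ξ : E k, Measurable fun τ : ℝ => ‖H (ξ, τ)‖ₑ := fun ξ => (hH.comp (measurable_const.prodMk measurable_id)).enorm
  refine ⟨⟨?_, ⟨2 * b * B, fun ξ => ?_⟩, fun ξ h => ?_⟩, hne, fun z => ?_, ?_⟩
  · exact (hH.stronglyMeasurable.integral_prod_right').measurable
  · have h1 : ‖∫ τ : ℝ, H (ξ, τ)‖ₑ ≤ ENNReal.ofReal (2 * b * B) := by
      refine (hle ξ).trans ?_
      calc ∫⁻ τ, (Icc (-‖ξ‖ ^ 2 - b) (-‖ξ‖ ^ 2 + b)).indicator (fun _ => (1 : ℝ≥0∞)) τ * ‖H (ξ, τ)‖ₑ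
          ≤ ∫⁻ τ, (Icc (-‖ξ‖ ^ 2 - b) (-‖ξ‖ ^ 2 + b)).indicator (fun _ => (1 : ℝ≥0∞)) τ * ENNReal.ofReal B := by
            refine lintegral_mono fun τ => ?_
            gcongr
            rw [← ofReal_norm]
            exact ENNReal.ofReal_le_ofReal (hB _)
        _ = ENNReal.ofReal (2 * b * B) := by
            rw [lintegral_mul_const _ (measurable_const.indicator measurableSet_Icc), lintegral_indicator_const measurableSet_Icc, one_mul, hvol,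
              ← ENNReal.ofReal_mul (by positivity)]
    rw [← ofReal_norm] at h1
    exact (ENNReal.ofReal_le_ofReal_iff (by positivity)).1 h1
  · obtain ⟨τ, hτ⟩ := hne ξ h
    exact (hS _ hτ).1
  · unfold ext
    have hint : Integrable (fun w : ST k => car w.1 z * H w) (volume.prod volume) := by
      have h1 := xa_S_int H hH hB hS
      refine h1.norm.mono' ?_ (Filter.Eventually.of_forall fun w => ?_)
      · exact ((inf_car_continuous.comp (continuous_fst.prodMk continuous_const)).measurable.mul hH).aestronglyMeasurable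
      · rw [norm_mul, inf_car_norm, one_mul]
    have h2 := integral_prod _ hint
    rw [show (∫ w : ST k, car w.1 z * H w) = ∫ w : ST k, car w.1 z * H w ∂(volume.prod volume) from rfl, h2]
    refine integral_congr_ae (Filter.Eventually.of_forall fun ξ => ?_)
    simp only
    rw [integral_const_mul]
  · have hpt : ∀ ξ : E k, ‖∫ τ : ℝ, H (ξ, τ)‖ₑ ^ (2 : ℝ) ≤ ENNReal.ofReal (2 * b) * ∫⁻ τ, ‖H (ξ, τ)‖ₑ ^ (2 : ℝ) := by
      intro ξ
      have h1 := ENNReal.lintegral_mul_le_Lp_mul_Lq (volume : Measure ℝ) Real.HolderConjugate.two_two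
        (f := (Icc (-‖ξ‖ ^ 2 - b) (-‖ξ‖ ^ 2 + b)).indicator (fun _ => (1 : ℝ≥0∞))) (g := fun τ => ‖H (ξ, τ)‖ₑ)
        (measurable_const.indicator measurableSet_Icc).aemeasurable (hHξ ξ).aemeasurable
      have h2 : ∫⁻ τ, (Icc (-‖ξ‖ ^ 2 - b) (-‖ξ‖ ^ 2 + b)).indicator (fun _ => (1 : ℝ≥0∞)) τ ^ (2 : ℝ) = ENNReal.ofReal (2 * b) := by
        rw [← hvol ξ, ← one_mul (volume _), ← lintegral_indicator_const measurableSet_Icc]
        refine lintegral_congr fun τ => ?_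
        by_cases h : τ ∈ Icc (-‖ξ‖ ^ 2 - b) (-‖ξ‖ ^ 2 + b)
        · simp [indicator_of_mem h]
        · simp [indicator_of_notMem h]
      rw [h2] at h1
      calc ‖∫ τ : ℝ, H (ξ, τ)‖ₑ ^ (2 : ℝ) ≤ (ENNReal.ofReal (2 * b) ^ (1 / 2 : ℝ) * (∫⁻ τ, ‖H (ξ, τ)‖ₑ ^ (2 : ℝ)) ^ (1 / 2 : ℝ)) ^ (2 : ℝ) :=
            ENNReal.rpow_le_rpow ((hle ξ).trans h1) (by norm_num)
        _ = _ := by
            rw [ENNReal.mul_rpow_of_nonneg _ _ (by norm_num), ← ENNReal.rpow_mul, ← ENNReal.rpow_mul]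
            norm_num
    calc ∫⁻ ξ : E k, ‖∫ τ : ℝ, H (ξ, τ)‖ₑ ^ (2 : ℝ) ≤ ∫⁻ ξ : E k, ENNReal.ofReal (2 * b) * ∫⁻ τ, ‖H (ξ, τ)‖ₑ ^ (2 : ℝ) := lintegral_mono hpt
      _ = ENNReal.ofReal (2 * b) * ∫⁻ ξ : E k, ∫⁻ τ, ‖H (ξ, τ)‖ₑ ^ (2 : ℝ) := by
          rw [lintegral_const_mul]
          exact (hH.enorm.pow_const 2).lintegral_prod_right'
      _ = _ := by
          congr 1
          exact (lintegral_prod _ (hH.enorm.pow_const 2).aemeasurable).symm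

theorem xa_G_cpt {C₁ b : ℝ} (G : ST k → ℂ) (hS : ∀ w, G w ≠ 0 → w ∈ xaS (k := k) C₁ b) : HasCompactSupport G := by
  refine HasCompactSupport.intro (isCompact_closedBall (0 : ST k) (max C₁ (b + C₁ ^ 2))) fun w hw => ?_
  by_contra hne
  apply hw
  obtain ⟨h1, h2⟩ := hS w hne
  rw [mem_closedBall_zero_iff, Prod.norm_def]
  refine max_le_max h1 ?_
  rw [Real.norm_eq_abs]
  have e : w.2 = (w.2 + ‖w.1‖ ^ 2) - ‖w.1‖ ^ 2 := by ring
  rw [e]
  refine (abs_sub _ _).trans ?_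
  rw [abs_of_nonneg (sq_nonneg ‖w.1‖)]
  exact add_le_add h2 (pow_le_pow_left₀ (norm_nonneg _) h1 2)

theorem xa_Mw_meas (N : ℝ) (α : XaW (XaL k)) : Measurable (xaMw (k := k) N α) := by
  unfold xaMw
  exact Finset.measurable_prod _ fun i _ => xa_M_meas N (α.2 i)

theorem xa_chσ_meas (t₀ : ℝ) : Measurable fun w : ST k => BD.ch (t₀ * (w.2 + ‖w.1‖ ^ 2)) := by
  unfold BD.ch
  fun_prop

/-- **L-257-XA-DAT** (~120 l.): the data of the words.   `xa_slice` with `H w = ch (t₀ σ) M_α(w) G(w)`, `‖H w‖ ≤ κ^{|α|} ‖G w‖` (`xa_Mw_le`); `G` continuous with bounded support is bounded. -/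
theorem xa_dat {N C₁ b κ : ℝ} (hN : 0 ≤ N) (hb : 0 ≤ b) (h1 : C₁ ≤ κ) (h2 : C₁ ^ 2 ≤ κ) (h3 : N * b ≤ κ) (t₀ : ℝ) (G : ST k → ℂ) (hG : Continuous G)
    (hS : ∀ w, G w ≠ 0 → w ∈ xaS (k := k) C₁ b) (α : XaW (XaL k)) :
    XaDat C₁ (xaG N t₀ G α) ∧ (∀ ξ, xaG N t₀ G α ξ ≠ 0 → ∃ τ, G (ξ, τ) ≠ 0) ∧
    (∀ z, ext (xaG N t₀ G α) z = ∫ w : ST k, (car w.1 z * BD.ch (t₀ * (w.2 + ‖w.1‖ ^ 2))) * ((xaMw N α w : ℝ) : ℂ) * G w) ∧
    ∫⁻ ξ : E k, ‖xaG N t₀ G α ξ‖ₑ ^ (2 : ℝ) ≤ ENNReal.ofReal (2 * b * (κ ^ α.1) ^ 2) * ∫⁻ w : ST k, ‖G w‖ₑ ^ (2 : ℝ) := by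
  have hκ : 0 ≤ κ := (sq_nonneg C₁).trans h2
  obtain ⟨BG, hBG⟩ := hG.bounded_above_of_compact_support (xa_G_cpt G hS)
  obtain ⟨H, hH⟩ : ∃ H : ST k → ℂ, H = fun w => BD.ch (t₀ * (w.2 + ‖w.1‖ ^ 2)) * ((xaMw N α w : ℝ) : ℂ) * G w := ⟨_, rfl⟩
  have hHm : Measurable H := by
    rw [hH]
    exact ((xa_chσ_meas t₀).mul (Complex.measurable_ofReal.comp (xa_Mw_meas N α))).mul hG.measurable
  have hHle : ∀ w, ‖H w‖ ≤ κ ^ α.1 * ‖G w‖ := by
    intro w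
    rw [hH]
    simp only
    by_cases hw : G w = 0
    · simp [hw]
    · rw [norm_mul, norm_mul, BD.norm_ch, one_mul, Complex.norm_real, Real.norm_eq_abs]
      exact mul_le_mul_of_nonneg_right (xa_Mw_le hN h1 h2 h3 α (hS w hw)) (norm_nonneg _)
  have hHB : ∀ w, ‖H w‖ ≤ κ ^ α.1 * BG := fun w => (hHle w).trans (mul_le_mul_of_nonneg_left (hBG w) (by positivity))
  have hHG : ∀ w, H w ≠ 0 → G w ≠ 0 := by
    intro w hw h0
    apply hw
    rw [hH]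
    simp [h0]
  obtain ⟨r1, r2, r3, r4⟩ := xa_slice hb H hHm hHB fun w hw => hS w (hHG w hw)
  have e : xaG N t₀ G α = fun ξ => ∫ τ : ℝ, H (ξ, τ) := by
    funext ξ
    rw [hH]
    rfl
  rw [e]
  refine ⟨r1, fun ξ hξ => ?_, fun z => ?_, ?_⟩
  · obtain ⟨τ, hτ⟩ := r2 ξ hξ
    exact ⟨τ, hHG _ hτ⟩
  · rw [r3 z]
    refine integral_congr_ae (Filter.Eventually.of_forall fun w => ?_)
    rw [hH]
    simp only
    ring
  · refine r4.trans ?_
    rw [ENNReal.ofReal_mul (p := 2 * b) (q := (κ ^ α.1) ^ 2) (by positivity), mul_assoc]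
    refine mul_le_mul' le_rfl ?_
    rw [← lintegral_const_mul' _ _ ENNReal.ofReal_ne_top]
    refine lintegral_mono fun w => ?_
    have h5 : ‖H w‖ₑ ≤ ENNReal.ofReal (κ ^ α.1) * ‖G w‖ₑ := by
      rw [← ofReal_norm, ← ofReal_norm, ← ENNReal.ofReal_mul (by positivity)]
      exact ENNReal.ofReal_le_ofReal (hHle w)
    calc ‖H w‖ₑ ^ (2 : ℝ) ≤ (ENNReal.ofReal (κ ^ α.1) * ‖G w‖ₑ) ^ (2 : ℝ) := ENNReal.rpow_le_rpow h5 (by norm_num)
      _ = _ := by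
          rw [ENNReal.mul_rpow_of_nonneg _ _ (by norm_num), ENNReal.rpow_ofNat, ← ENNReal.ofReal_pow (by positivity)]

/-- **L-257-XA-POINT** (~120 l.): the thick field at `ζ` is dominated by exact fields at `z`.   `xa_ch`, `xa_expand` (`Ω = ST k`, `e w = car w.1 z * ch (t₀ σ)`, `m = xaM N`, `u = xaU N t₀ z ζ`), `xa_dat` (third clause).
`G` is integrable: continuous with compact support (`xaS C₁ b` is bounded). -/
theorem xa_point {N C₁ b κ ρ : ℝ} (hN : 0 < N) (hb : 0 ≤ b) (h1 : C₁ ≤ κ) (h2 : C₁ ^ 2 ≤ κ) (h3 : N * b ≤ κ) (t₀ : ℝ) (G : ST k → ℂ) (hG : Continuous G)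
    (hS : ∀ w, G w ≠ 0 → w ∈ xaS (k := k) C₁ b) (z ζ : ST k) (hu : ∀ l, |xaU N t₀ z ζ l| ≤ ρ) :
    ‖∫ w : ST k, BD.ch (BD.pr ζ w) * G w‖ₑ ≤ ∑' α : XaW (XaL k), ENNReal.ofReal (ρ ^ α.1 / (α.1).factorial) * ‖ext (xaG N t₀ G α) z‖ₑ := by
  have hGi : Integrable G := hG.integrable_of_hasCompactSupport (xa_G_cpt G hS)
  have hcar : Measurable fun w : ST k => car w.1 z := by
    unfold car
    fun_prop
  have h := xa_expand (volume : Measure (ST k)) G (fun w => car w.1 z * BD.ch (t₀ * (w.2 + ‖w.1‖ ^ 2))) (xaM N) (xaU N t₀ z ζ) (ρ := ρ) (κ := κ)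
    hGi (hcar.mul (xa_chσ_meas t₀)) (fun w => by rw [norm_mul, norm_car, BD.norm_ch, one_mul]) (xa_M_meas N)
    (fun l w hw => xa_M_le hN.le h1 h2 h3 l (hS w hw)) hu
  simp only [xa_ch hN.ne' t₀ z ζ]
  refine h.trans (le_of_eq ?_)
  refine tsum_congr fun α => ?_
  rw [(xa_dat hN.le hb h1 h2 h3 t₀ G hG hS α).2.2.1 z]
  rfl

/-- **L-257-XA-U** (~50 l.): the coefficients of the phase are bounded.   `|x i| ≤ ‖x‖` (`PiLp.norm_apply_le`), `‖ζ.1 - z.1‖ ≤ ‖ζ - z‖`, `|ζ.2 - z.2| ≤ ‖ζ - z‖` (sup norm of the product). -/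
theorem xa_U_le {N ρ₁ ρ₂ : ℝ} (hN : 0 < N) (z₀ z ζ : ST k) (h1 : ‖ζ - z‖ ≤ ρ₁) (h2 : ‖ζ - z₀‖ ≤ ρ₂ * N) (l : XaL k) :
    |xaU N z₀.2 z ζ l| ≤ max ρ₁ ρ₂ := by
  have a1 : ‖ζ.1 - z.1‖ ≤ ‖ζ - z‖ := by
    rw [Prod.norm_def]
    exact le_max_left _ _
  have a2 : |ζ.2 - z.2| ≤ ‖ζ - z‖ := by
    rw [Prod.norm_def]
    exact le_max_right _ _
  have a3 : |ζ.2 - z₀.2| ≤ ‖ζ - z₀‖ := by
    rw [Prod.norm_def]
    exact le_max_right _ _
  rcases l with i | b'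
  · show |ζ.1 i - z.1 i| ≤ _
    have := PiLp.norm_apply_le (ζ.1 - z.1) i
    rw [Real.norm_eq_abs] at this
    exact le_trans (le_trans this (a1.trans h1)) (le_max_left _ _)
  · cases b'
    · show |-(ζ.2 - z.2)| ≤ _
      rw [abs_neg]
      exact (a2.trans h1).trans (le_max_left _ _)
    · show |(ζ.2 - z₀.2) / N| ≤ _
      rw [abs_div, abs_of_pos hN, div_le_iff₀ hN]
      exact (a3.trans h2).trans (mul_le_mul_of_nonneg_right (le_max_right _ _) hN.le)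

/-! ## packets -/

/-- **L-257-XA-THICK** (~250 l.): the localised field of a packet family is a thick field with an `L²` density (= first half of the plan of `lin_main`).
`η` of `BD.exists_eta (E k)`, `θ z = η ((Cr N)⁻¹ (z - z₀))`;  `lin_local` (constant `C_l`), `lin_density` with `ϱ = C_l/N` gives `g_T`;  `G = ∑_{T ∈ s} g_T`, `C₂ = 2 C_l`;
`‖G w‖ ≤ C_d C_l N^{k+1} ∑_T a_T (1 + d_T z₀)^{-P'} 1_{B_T}(w)`;  `lin_l2` with this `C₂`. -/
theorem xa_thick (K : PCls) (P Cr : ℝ) (hρ : 0 ≤ K.ρ) (hP' : 0 ≤ K.P') (hP : P + (k : ℝ) + 1 < 2 * K.P') (hCr : 0 < Cr) :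
    ∃ C C₂ : ℝ, 0 < C ∧ 0 < C₂ ∧ ∀ (ι : Type) (A : PFam k ι) (s : Finset ι) (a : ι → ℝ) (z₀ : ST k), A.In s K a →
      ∃ (G θ : ST k → ℂ), Continuous G ∧ (∀ z, ‖z - z₀‖ ≤ Cr * A.N → 1 ≤ ‖θ z‖) ∧
        (∀ w, G w ≠ 0 → ∃ T ∈ s, w ∈ closedBall ((A.v T, -‖A.v T‖ ^ 2) : ST k) (C₂ / A.N)) ∧
        (∀ z, θ z * A.fld s z = ∫ w, BD.ch (BD.pr z w) * G w) ∧
        ∫⁻ w, ‖G w‖ₑ ^ (2 : ℝ) ≤ ENNReal.ofReal (C * A.N ^ ((k : ℝ) + 1) * A.sq P s a z₀) := by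
  classical
  obtain ⟨η, hηFS, hη1, hηd, -⟩ := BD.exists_eta (E k)
  obtain ⟨CL, hCL, hloc⟩ := lin_local K hρ hP' Cr hCr hηFS hηd
  obtain ⟨CD, hCD, hdens⟩ := lin_density k
  obtain ⟨C2, hC2, hl2⟩ := lin_l2 (k := k) K P (2 * CL) hP (by positivity)
  refine ⟨(CD * CL) ^ 2 * C2 + 1, 2 * CL, by positivity, by positivity, ?_⟩
  intro ι A s a z₀ h
  have hN := h.one_le
  have hN0 : 0 < A.N := by linarith
  have hR : 0 < Cr * A.N := by positivity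
  set θ : ST k → ℂ := fun z => η ((Cr * A.N)⁻¹ • (z - z₀)) with hθ
  set wc : ι → ST k := fun T => ((A.v T, -‖A.v T‖ ^ 2) : ST k) with hwc
  set Bl : ι → Set (ST k) := fun T => closedBall (wc T) (2 * CL / A.N) with hBl
  -- the densities
  have hex : ∀ T, ∃ g : ST k → ℂ, T ∈ s → (Continuous g ∧ (∀ w, ‖g w‖ ≤ CD * ∫ z, ‖θ z * A.pk T z‖) ∧ (∀ w, w ∉ Bl T → g w = 0) ∧
      ∀ z, θ z * A.pk T z = ∫ w, BD.ch (BD.pr z w) * g w) := by
    intro T
    by_cases hT : T ∈ s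
    · obtain ⟨h1, h2, -⟩ := hloc ι A s a z₀ h T hT
      obtain ⟨g, hg1, hg2, hg3, hg4⟩ := hdens (wc T) (CL / A.N) _ (by positivity) h1 h2
      refine ⟨g, fun _ => ⟨hg1, hg2, ?_, hg4⟩⟩
      intro w hw
      apply hg3
      rw [hBl] at hw
      simp only at hw
      rwa [mul_div_assoc] at hw
    · exact ⟨0, fun h' => absurd h' hT⟩
  choose g hg using hex
  have hgint : ∀ T ∈ s, Integrable (g T) := by
    intro T hT
    refine (hg T hT).1.integrable_of_hasCompactSupport ?_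
    exact HasCompactSupport.intro (isCompact_closedBall (wc T) (2 * CL / A.N)) fun w hw => (hg T hT).2.2.1 w hw
  set G : ST k → ℂ := fun w => ∑ T ∈ s, g T w with hG
  set S : ST k → ℝ := fun w => ∑ T ∈ s, a T * (1 + A.d T z₀) ^ (-K.P') * (Bl T).indicator (fun _ => (1 : ℝ)) w with hS
  have hD : ∀ T, 0 < 1 + A.d T z₀ := fun T => by have := A.d_nonneg T z₀; positivity
  have hGc : Continuous G := continuous_finsetSum _ fun T hT => (hg T hT).1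
  have e1 : ∀ z, θ z * A.fld s z = ∫ w, BD.ch (BD.pr z w) * G w := by
    intro z
    unfold PFam.fld
    rw [Finset.mul_sum]
    have : ∀ w, BD.ch (BD.pr z w) * G w = ∑ T ∈ s, BD.ch (BD.pr z w) * g T w := fun w => by rw [hG]; simp only; rw [Finset.mul_sum]
    simp only [this]
    rw [integral_finsetSum s fun T hT => BD.bdu_int_ch (hgint T hT) z]
    exact Finset.sum_congr rfl fun T hT => (hg T hT).2.2.2 z
  have hGle : ∀ w, ‖G w‖ ≤ CD * CL * A.N ^ ((k : ℝ) + 1) * S w := by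
    intro w
    rw [hS]
    simp only
    rw [Finset.mul_sum]
    refine (norm_sum_le _ _).trans (Finset.sum_le_sum fun T hT => ?_)
    have ha := h.amp_nonneg hT
    rw [Set.indicator_apply]
    by_cases hw : w ∈ Bl T
    · rw [if_pos hw, mul_one]
      have h3 := (hloc ι A s a z₀ h T hT).2.2
      calc ‖g T w‖ ≤ CD * ∫ z, ‖θ z * A.pk T z‖ := (hg T hT).2.1 w
        _ ≤ CD * (CL * A.N ^ ((k : ℝ) + 1) * a T * (1 + A.d T z₀) ^ (-K.P')) := mul_le_mul_of_nonneg_left h3 hCD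
        _ = _ := by ring
    · rw [if_neg hw, mul_zero, mul_zero, (hg T hT).2.2.1 w hw, norm_zero]
  have hS0 : ∀ w, 0 ≤ S w := by
    intro w
    refine Finset.sum_nonneg fun T hT => ?_
    have ha := h.amp_nonneg hT
    have : 0 ≤ (1 + A.d T z₀) ^ (-K.P') := Real.rpow_nonneg (hD T).le _
    rw [Set.indicator_apply]
    split_ifs <;> positivity
  have hSmem : MemLp S 2 := by
    refine memLp_finsetSum s fun T _ => ?_
    exact (memLp_indicator_const 2 measurableSet_closedBall (1 : ℝ) (Or.inr measure_closedBall_lt_top.ne)).const_mul _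
  have hI1 : ∫ w, S w ^ 2 ≤ C2 * A.N ^ (-((k : ℝ) + 1)) * A.sq P s a z₀ := hl2 ι A s a z₀ h
  have hsq0 : 0 ≤ A.sq P s a z₀ := Finset.sum_nonneg fun T _ => mul_nonneg (sq_nonneg _) (Real.rpow_nonneg (hD T).le _)
  refine ⟨G, θ, hGc, ?_, ?_, e1, ?_⟩
  · intro z hz
    apply hη1
    rw [norm_smul, Real.norm_of_nonneg (inv_nonneg.2 hR.le), inv_mul_le_iff₀ hR, mul_one]
    exact hz
  · intro w hw
    by_contra hcon
    push Not at hcon
    apply hw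
    rw [hG]
    exact Finset.sum_eq_zero fun T hT => (hg T hT).2.2.1 w (hcon T hT)
  · have hSint : Integrable fun w => S w ^ 2 := hSmem.integrable_sq
    have hc0 : 0 ≤ CD * CL * A.N ^ ((k : ℝ) + 1) := by positivity
    calc ∫⁻ w, ‖G w‖ₑ ^ (2 : ℝ) ≤ ∫⁻ w, ENNReal.ofReal ((CD * CL * A.N ^ ((k : ℝ) + 1)) ^ 2 * S w ^ 2) := by
          refine lintegral_mono fun w => ?_
          rw [← ofReal_norm, ENNReal.ofReal_rpow_of_nonneg (norm_nonneg _) (by norm_num)]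
          apply ENNReal.ofReal_le_ofReal
          rw [Real.rpow_two, ← mul_pow]
          exact pow_le_pow_left₀ (norm_nonneg _) (hGle w) 2
      _ = ENNReal.ofReal (∫ w, (CD * CL * A.N ^ ((k : ℝ) + 1)) ^ 2 * S w ^ 2) := by
          rw [ofReal_integral_eq_lintegral_ofReal (hSint.const_mul _) (Filter.Eventually.of_forall fun w => by positivity)]
      _ ≤ ENNReal.ofReal (((CD * CL) ^ 2 * C2 + 1) * A.N ^ ((k : ℝ) + 1) * A.sq P s a z₀) := by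
          apply ENNReal.ofReal_le_ofReal
          rw [integral_const_mul]
          have hNN : (A.N ^ ((k : ℝ) + 1)) ^ 2 * A.N ^ (-((k : ℝ) + 1)) = A.N ^ ((k : ℝ) + 1) := by
            rw [pow_two, mul_assoc, ← Real.rpow_add hN0]
            simp
          calc (CD * CL * A.N ^ ((k : ℝ) + 1)) ^ 2 * ∫ w, S w ^ 2 ≤ (CD * CL * A.N ^ ((k : ℝ) + 1)) ^ 2 * (C2 * A.N ^ (-((k : ℝ) + 1)) * A.sq P s a z₀) := by gcongr
            _ = (CD * CL) ^ 2 * C2 * ((A.N ^ ((k : ℝ) + 1)) ^ 2 * A.N ^ (-((k : ℝ) + 1))) * A.sq P s a z₀ := by ring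
            _ = (CD * CL) ^ 2 * C2 * A.N ^ ((k : ℝ) + 1) * A.sq P s a z₀ := by rw [hNN]
            _ ≤ _ := by
                apply mul_le_mul_of_nonneg_right _ hsq0
                apply mul_le_mul_of_nonneg_right _ (by positivity)
                linarith

/-- **L-257-XA-NBHD** (~60 l.): a ball of radius `C₂/N` about a lifted label lies in the neighbourhood.   `|τ + |ξ|²| ≤ |τ + |v|²| + (|ξ| + |v|) |ξ - v|`. -/
theorem xa_nbhd {C₀ C₂ N : ℝ} (hN : 1 ≤ N) (hC₂ : 0 ≤ C₂) {v : E k} (hv : ‖v‖ ≤ C₀) {w : ST k}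
    (hw : w ∈ closedBall ((v, -‖v‖ ^ 2) : ST k) (C₂ / N)) : w ∈ xaS (k := k) (C₀ + C₂) (C₂ * (1 + 2 * C₀ + C₂) / N) ∧ ‖w.1 - v‖ ≤ C₂ / N := by
  rw [mem_closedBall, dist_eq_norm, Prod.norm_def] at hw
  have hN0 : 0 < N := by linarith
  have b1 : ‖w.1 - v‖ ≤ C₂ / N := (le_max_left _ _).trans hw
  have b2 : |w.2 + ‖v‖ ^ 2| ≤ C₂ / N := by
    have := (le_max_right _ _).trans hw
    simpa [Real.norm_eq_abs] using this
  have b3 : C₂ / N ≤ C₂ := div_le_self hC₂ hN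
  have b4 : ‖w.1‖ ≤ ‖v‖ + C₂ / N := by
    have := norm_add_le (w.1 - v) v
    rw [sub_add_cancel] at this
    linarith
  have b5 : |‖w.1‖ - ‖v‖| ≤ C₂ / N := (abs_norm_sub_norm_le _ _).trans b1
  refine ⟨⟨by linarith, ?_⟩, b1⟩
  have e : w.2 + ‖w.1‖ ^ 2 = (w.2 + ‖v‖ ^ 2) + (‖w.1‖ + ‖v‖) * (‖w.1‖ - ‖v‖) := by ring
  rw [e]
  refine (abs_add_le _ _).trans ?_
  rw [abs_mul, abs_of_nonneg (by positivity : 0 ≤ ‖w.1‖ + ‖v‖)]
  have b6 : ‖w.1‖ + ‖v‖ ≤ 2 * C₀ + C₂ := by linarith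
  have b7 : (‖w.1‖ + ‖v‖) * |‖w.1‖ - ‖v‖| ≤ (2 * C₀ + C₂) * (C₂ / N) :=
    mul_le_mul b6 b5 (abs_nonneg _) (le_trans (by positivity) b6)
  calc |w.2 + ‖v‖ ^ 2| + (‖w.1‖ + ‖v‖) * |‖w.1‖ - ‖v‖| ≤ C₂ / N + (2 * C₀ + C₂) * (C₂ / N) := add_le_add b2 b7
    _ = _ := by ring

end Claimed.Agent.R257
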