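import Claimed.Agent.R257.FR3.XfA

/-!
# R257 / FR3 / XfAMain : THE LOCAL MULTILINEAR COUNT, assembly        (architect helper212)        CONTRACT
`XaCfg` = the configuration;  `xa_core` (large scales, from `XaMrlStmt`), `xa_lower`, `xa_card` (small scales), `xa_arith`, EXIT `xa_count`.
Every `sorry` is a leaf `L-257-XA-*`: prove IN PLACE on a fresh pull, statement verbatim (a FALSE statement: one line to helper212), auxiliary lemmas directly above, prefix `xa_`; splice only your block.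
-/

set_option autoImplicit false

namespace Claimed.Agent.R257

open MeasureTheory Metric Set
open scoped ENNReal InnerProductSpace

variable {k : ℕ} {ι : Type}

/-- **the configuration of the local multilinear count** -/
structure XaCfg (K : PCls) (Cr Cw : ℝ) (A : Fin (k + 1) → PFam k ι) (s : Fin (k + 1) → Finset ι) (a : Fin (k + 1) → ι → ℝ) (N Q : ℝ)
    (th : Fin (k + 1) → ℝ) (Y : Finset (ST k)) (wz : Fin (k + 1) → ST k → ST k) (z₀ : ST k) : Prop where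
  scale : ∀ j, (A j).N = N
  cls : ∀ j, (A j).In (s j) K (a j)
  one_le : 1 ≤ Q
  /-- transversality of the labels (no enlargement) -/
  trans : ∀ lb : Fin (k + 1) → ι, (∀ j, lb j ∈ s j) → Transv Q (fun j => (A j).v (lb j))
  sep : USep Y
  ball : ∀ y ∈ Y, ‖y - z₀‖ ≤ Cr * N
  /-- separate witnesses -/
  near : ∀ y ∈ Y, ∀ j, ‖wz j y - y‖ ≤ Cw
  high : ∀ y ∈ Y, ∀ j, th j ≤ ‖(A j).fld (s j) (wz j y)‖
  pos : ∀ j, 0 < th j

/-- the normalised ratio `X_j = N^k B_j(z₀)²/th_j²` -/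
noncomputable def xaX (P : ℝ) (A : Fin (k + 1) → PFam k ι) (s : Fin (k + 1) → Finset ι) (a : Fin (k + 1) → ι → ℝ) (N : ℝ) (th : Fin (k + 1) → ℝ)
    (z₀ : ST k) (j : Fin (k + 1)) : ℝ := N ^ (k : ℝ) * (A j).sq P (s j) (a j) z₀ / th j ^ 2

/-- **L-257-XA-LOWER** (~100 l.): Cauchy-Schwarz at a witness.   `th_j² ≤ ‖V_j ζ‖² ≤ C m₀ N^k sq(ζ)` (`pk_cauchy` with `P' = K.P'`, `C₀ = K.C₀`), `sq(ζ) ≤ (1 + (1 + 2C₀)(Cr + Cw))^P sq(z₀)` (`PFam.In.sq_peetre`; `‖z₀ - ζ‖ ≤ Cr N + Cw ≤ (Cr + Cw) N`). -/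
theorem xa_lower (K : PCls) (P Cr Cw : ℝ) (hP0 : 0 ≤ P) (hP : P + (k : ℝ) + 1 < 2 * K.P') (hCr : 0 ≤ Cr) (hCw : 0 ≤ Cw) :
    ∃ c : ℝ, 0 < c ∧ ∀ (ι : Type) (A : Fin (k + 1) → PFam k ι) (s : Fin (k + 1) → Finset ι) (a : Fin (k + 1) → ι → ℝ) (N Q : ℝ)
      (th : Fin (k + 1) → ℝ) (Y : Finset (ST k)) (wz : Fin (k + 1) → ST k → ST k) (z₀ : ST k), XaCfg K Cr Cw A s a N Q th Y wz z₀ → Y.Nonempty →
      ∀ j, c ≤ xaX P A s a N th z₀ j := by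
  obtain ⟨C, hC, hcs⟩ := pk_cauchy k hP K.C₀
  obtain ⟨L, hL⟩ : ∃ L : ℝ, L = (1 + (1 + 2 * K.C₀) * (Cr + Cw)) ^ P := ⟨_, rfl⟩
  refine ⟨1 / (C * K.m₀ * |L| + 1), by positivity, fun ι A s a N Q th Y wz z₀ cfg hY j => ?_⟩
  obtain ⟨y, hy⟩ := hY
  have hN : 1 ≤ N := by rw [← cfg.scale 0]; exact (cfg.cls 0).one_le
  have hN0 : 0 < N := by linarith
  have hth := cfg.pos j
  have hhigh := cfg.high y hy j
  -- `K.C₀ ≥ 0`
  have hC₀ : 0 ≤ K.C₀ := by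
    by_contra hneg
    rw [not_le] at hneg
    have hemp : s j = ∅ := by
      rw [Finset.eq_empty_iff_forall_notMem]
      intro T hT
      have := (cfg.cls j).freq T hT
      linarith [norm_nonneg ((A j).v T)]
    have : (A j).fld (s j) (wz j y) = 0 := by
      unfold PFam.fld
      rw [hemp, Finset.sum_empty]
    rw [this, norm_zero] at hhigh
    linarith
  have h1 := hcs ι (A j) (s j) K (a j) (cfg.cls j) le_rfl le_rfl (wz j y)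
  have h2 := (cfg.cls j).sq_peetre hP0 (a j) (wz j y) z₀
  rw [cfg.scale j] at h1 h2
  have hsq0 : 0 ≤ (A j).sq P (s j) (a j) z₀ := pkw_sq_nonneg _ _ _ _ _
  have h3 : ‖z₀ - wz j y‖ ≤ (Cr + Cw) * N := by
    have e : z₀ - wz j y = -((wz j y - y) + (y - z₀)) := by abel
    rw [e, norm_neg]
    refine (norm_add_le _ _).trans ?_
    have := cfg.near y hy j
    have := cfg.ball y hy
    nlinarith
  have h4 : (1 + (1 + 2 * K.C₀) * ‖z₀ - wz j y‖ / N) ^ P ≤ L := by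
    rw [hL]
    refine Real.rpow_le_rpow (by positivity) ?_ hP0
    have : (1 + 2 * K.C₀) * ‖z₀ - wz j y‖ / N ≤ (1 + 2 * K.C₀) * (Cr + Cw) := by
      rw [div_le_iff₀ hN0, mul_assoc]
      exact mul_le_mul_of_nonneg_left h3 (by linarith)
    linarith
  have hL0 : 0 ≤ L := by rw [hL]; positivity
  rw [abs_of_nonneg hL0]
  have h5 : th j ^ 2 ≤ (C * K.m₀ * L + 1) * (N ^ (k : ℝ) * (A j).sq P (s j) (a j) z₀) := by
    rw [Real.rpow_natCast]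
    have hNk : 0 ≤ N ^ k := by positivity
    calc th j ^ 2 ≤ ‖(A j).fld (s j) (wz j y)‖ ^ 2 := pow_le_pow_left₀ hth.le hhigh 2
      _ ≤ C * K.m₀ * N ^ k * (A j).sq P (s j) (a j) (wz j y) := h1
      _ ≤ C * K.m₀ * N ^ k * (L * (A j).sq P (s j) (a j) z₀) := by
          refine mul_le_mul_of_nonneg_left (h2.trans ?_) (by positivity)
          exact mul_le_mul_of_nonneg_right h4 hsq0
      _ = (C * K.m₀ * L) * (N ^ k * (A j).sq P (s j) (a j) z₀) := by ring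
      _ ≤ _ := by
          refine mul_le_mul_of_nonneg_right (by linarith) (by positivity)
  unfold xaX
  rw [div_le_div_iff₀ (by positivity) (by positivity), one_mul]
  linarith

/-- **L-257-XA-CARD** (~50 l.): `pk_usep_ball` with `r = (Cr + 1) N`. -/
theorem xa_card (k : ℕ) (Cr : ℝ) (hCr : 0 ≤ Cr) : ∃ C : ℝ, 0 < C ∧ ∀ (Y : Finset (ST k)) (z₀ : ST k) (N : ℝ), 1 ≤ N → USep Y → (∀ y ∈ Y, ‖y - z₀‖ ≤ Cr * N) →
    (Y.card : ℝ) ≤ C * N ^ ((k : ℝ) + 1) := by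
  obtain ⟨C, hC, h⟩ := pk_usep_ball k
  refine ⟨C * (Cr + 1) ^ (k + 1) + 1, by positivity, fun Y z₀ N hN hY hb => ?_⟩
  have h1 := h Y hY z₀ ((Cr + 1) * N) (by nlinarith)
  have e : Y.filter (fun z => ‖z - z₀‖ ≤ (Cr + 1) * N) = Y := by
    rw [Finset.filter_eq_self]
    intro y hy
    have := hb y hy
    nlinarith
  rw [e] at h1
  have e2 : N ^ ((k : ℝ) + 1) = N ^ (k + 1) := by
    rw [← Real.rpow_natCast]; push_cast; rfl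
  rw [e2]
  have : 0 ≤ N ^ (k + 1) := by positivity
  calc (Y.card : ℝ) ≤ C * ((Cr + 1) * N) ^ (k + 1) := h1
    _ = C * (Cr + 1) ^ (k + 1) * N ^ (k + 1) := by rw [mul_pow]; ring
    _ ≤ _ := by nlinarith

/-- **L-257-XA-REAL** (~120 l., ENNReal → ℝ).   Divide by `∏ ofReal (th j)^r` and by `ofReal c₀`; `D, S` finite: `C = (D^p S^(k+1)).toReal Cm 2^Mm (2 Cb Ct)^{p/2} / c₀`;
`(ofReal (2 Cb/N) ofReal (Ct N^{k+1} sq))^{r/2} = ofReal ((2 Cb Ct)^{r/2} (N^k sq)^{r/2})`, `ofReal (th)^r = ofReal ((th²)^{r/2})`;  `∏_j c = c^{k+1}`, `r (k+1) = p`. -/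
theorem xa_real {c₀ Cm Mm Cb Ct p : ℝ} {D S : ℝ≥0∞} (hc₀ : 0 < c₀) (hCm : 0 ≤ Cm) (hCb : 0 ≤ Cb) (hCt : 0 ≤ Ct) (hp : 0 < p) (hD : D < ∞) (hS : S < ∞) :
    ∃ C : ℝ, 0 < C ∧ ∀ (n : ℕ) (N Q : ℝ) (th sq : Fin (k + 1) → ℝ), 1 ≤ N → 1 ≤ Q → (∀ j, 0 < th j) → (∀ j, 0 ≤ sq j) →
      ENNReal.ofReal c₀ * (n * ∏ j, ENNReal.ofReal (th j) ^ (p / ((k : ℝ) + 1)))
        ≤ D ^ p * (ENNReal.ofReal (Cm * (2 * Q) ^ Mm) * S ^ (k + 1) *
          ∏ j, (ENNReal.ofReal (2 * (Cb / N)) * ENNReal.ofReal (Ct * N ^ ((k : ℝ) + 1) * sq j)) ^ (p / (2 * ((k : ℝ) + 1)))) →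
      (n : ℝ) ≤ C * Q ^ Mm * ∏ j, (N ^ (k : ℝ) * sq j / th j ^ 2) ^ (p / (2 * ((k : ℝ) + 1))) := by
  have hk1 : (0 : ℝ) < (k : ℝ) + 1 := by positivity
  obtain ⟨q, hq⟩ : ∃ q : ℝ, q = p / (2 * ((k : ℝ) + 1)) := ⟨_, rfl⟩
  have hq0 : 0 < q := by rw [hq]; positivity
  have hr : p / ((k : ℝ) + 1) = 2 * q := by rw [hq]; field_simp
  obtain ⟨Dp, hDp⟩ : ∃ Dp : ℝ, Dp = (D ^ p).toReal := ⟨_, rfl⟩
  obtain ⟨Sk, hSk⟩ : ∃ Sk : ℝ, Sk = (S ^ (k + 1)).toReal := ⟨_, rfl⟩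
  have hDp0 : 0 ≤ Dp := by rw [hDp]; exact ENNReal.toReal_nonneg
  have hSk0 : 0 ≤ Sk := by rw [hSk]; exact ENNReal.toReal_nonneg
  have eD : D ^ p = ENNReal.ofReal Dp := by
    rw [hDp, ENNReal.ofReal_toReal (ENNReal.rpow_ne_top_of_nonneg hp.le hD.ne)]
  have eS : S ^ (k + 1) = ENNReal.ofReal Sk := by
    rw [hSk, ENNReal.ofReal_toReal (ENNReal.pow_ne_top hS.ne)]
  refine ⟨Dp * (Cm * 2 ^ Mm) * Sk * ((2 * Cb * Ct) ^ q) ^ (k + 1) / c₀ + 1, by positivity,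
    fun n N Q th sq hN hQ hth hsq h => ?_⟩
  have hN0 : 0 < N := by linarith
  rw [← hq, hr, eD, eS] at h
  rw [← hq]
  have e1 : ∏ j, ENNReal.ofReal (th j) ^ (2 * q) = ENNReal.ofReal (∏ j, (th j ^ 2) ^ q) := by
    rw [ENNReal.ofReal_prod_of_nonneg fun j _ => by have := hth j; positivity]
    refine Finset.prod_congr rfl fun j _ => ?_
    rw [ENNReal.ofReal_rpow_of_pos (hth j), Real.rpow_mul (hth j).le, Real.rpow_two]
  have e2 : ∏ j, (ENNReal.ofReal (2 * (Cb / N)) * ENNReal.ofReal (Ct * N ^ ((k : ℝ) + 1) * sq j)) ^ q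
      = ENNReal.ofReal (((2 * Cb * Ct) ^ q) ^ (k + 1) * ∏ j, (N ^ (k : ℝ) * sq j) ^ q) := by
    have : ((2 * Cb * Ct) ^ q) ^ (k + 1) * ∏ j, (N ^ (k : ℝ) * sq j) ^ q = ∏ j : Fin (k + 1), ((2 * Cb * Ct) ^ q * (N ^ (k : ℝ) * sq j) ^ q) := by
      rw [Finset.prod_mul_distrib, Finset.prod_const, Finset.card_univ, Fintype.card_fin]
    rw [this, ENNReal.ofReal_prod_of_nonneg fun j _ => by have := hsq j; positivity]
    refine Finset.prod_congr rfl fun j _ => ?_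
    have hs := hsq j
    rw [← ENNReal.ofReal_mul (by positivity), ENNReal.ofReal_rpow_of_nonneg (by positivity) hq0.le,
      ← Real.mul_rpow (by positivity) (by positivity)]
    congr 2
    rw [Real.rpow_add_one hN0.ne']
    field_simp
  rw [e1, e2, ← ENNReal.ofReal_natCast, ← ENNReal.ofReal_mul (by positivity), ← ENNReal.ofReal_mul (by positivity),
    ← ENNReal.ofReal_mul (by positivity), ← ENNReal.ofReal_mul (by positivity), ← ENNReal.ofReal_mul (by positivity)] at h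
  have hT0 : 0 < ∏ j, (th j ^ 2) ^ q := Finset.prod_pos fun j _ => by have := hth j; positivity
  have hR0 : 0 ≤ ∏ j, (N ^ (k : ℝ) * sq j) ^ q := Finset.prod_nonneg fun j _ => by have := hsq j; positivity
  rw [ENNReal.ofReal_le_ofReal_iff (by positivity)] at h
  have e3 : ∏ j, (N ^ (k : ℝ) * sq j / th j ^ 2) ^ q = (∏ j, (N ^ (k : ℝ) * sq j) ^ q) / ∏ j, (th j ^ 2) ^ q := by
    rw [← Finset.prod_div_distrib]
    refine Finset.prod_congr rfl fun j _ => ?_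
    have := hth j
    have := hsq j
    rw [Real.div_rpow (by positivity) (by positivity)]
  rw [e3]
  rw [Real.mul_rpow (by norm_num : (0 : ℝ) ≤ 2) (by linarith : (0 : ℝ) ≤ Q)] at h
  obtain ⟨T, hT⟩ : ∃ T : ℝ, T = ∏ j, (th j ^ 2) ^ q := ⟨_, rfl⟩
  obtain ⟨R, hR⟩ : ∃ R : ℝ, R = ∏ j, (N ^ (k : ℝ) * sq j) ^ q := ⟨_, rfl⟩
  rw [← hT, ← hR] at h
  rw [← hT] at hT0
  rw [← hR] at hR0
  rw [← hT, ← hR]
  obtain ⟨W, hW⟩ : ∃ W : ℝ, W = ((2 * Cb * Ct) ^ q) ^ (k + 1) := ⟨_, rfl⟩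
  have hW0 : 0 ≤ W := by rw [hW]; positivity
  rw [← hW] at h
  rw [← hW]
  have hQM : 0 < Q ^ Mm := by positivity
  have h2M : 0 < (2 : ℝ) ^ Mm := by positivity
  have h5 : (n : ℝ) ≤ Dp * (Cm * 2 ^ Mm) * Sk * W / c₀ * Q ^ Mm * (R / T) := by
    rw [show Dp * (Cm * 2 ^ Mm) * Sk * W / c₀ * Q ^ Mm * (R / T) = (Dp * (Cm * (2 ^ Mm * Q ^ Mm) * Sk * (W * R))) / (c₀ * T) by field_simp]
    rw [le_div_iff₀ (by positivity)]
    linarith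
  have h6 : 0 ≤ Q ^ Mm * (R / T) := by positivity
  nlinarith

theorem XaDat.dat {C₀ : ℝ} {g : E k → ℂ} (h : XaDat C₀ g) : Dat C₀ g := by
  obtain ⟨B, hB⟩ := h.bdd
  refine ⟨h.meas, h.supp, ?_⟩
  have h1 : g = (closedBall (0 : E k) C₀).indicator g := by
    funext ξ
    by_cases hξ : ξ ∈ closedBall (0 : E k) C₀
    · rw [indicator_of_mem hξ]
    · rw [indicator_of_notMem hξ]
      by_contra h0
      exact hξ (by simpa using h.supp ξ h0)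
  rw [h1, memLp_indicator_iff_restrict measurableSet_closedBall]
  have : IsFiniteMeasure (volume.restrict (closedBall (0 : E k) C₀)) := ⟨by rw [Measure.restrict_apply_univ]; exact measure_closedBall_lt_top⟩
  exact MemLp.of_bound h.meas.aestronglyMeasurable B (Filter.Eventually.of_forall hB)

theorem xa_ext_meas {C₀ : ℝ} {g : E k → ℂ} (h : XaDat C₀ g) : Measurable (fun z => ‖ext g z‖ₑ) :=
  (inf_ext_continuous h.dat).measurable.enorm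

/-- the square root of the weight `ρ^n/n!` of a word -/
noncomputable def xaD (ρ : ℝ) (α : XaW (XaL k)) : ℝ≥0∞ := ENNReal.ofReal ((√ρ) ^ α.1 / ((α.1).factorial : ℝ) ^ (1 / 2 : ℝ))

theorem xa_D_mul {ρ : ℝ} (hρ : 0 ≤ ρ) (α : XaW (XaL k)) : xaD ρ α * xaD ρ α = ENNReal.ofReal (ρ ^ α.1 / (α.1).factorial) := by
  unfold xaD
  rw [← ENNReal.ofReal_mul (by positivity)]
  congr 1
  rw [div_mul_div_comm, ← mul_pow, Real.mul_self_sqrt hρ, ← Real.rpow_add (by positivity)]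
  norm_num

/-- the pointwise bound at a witness -/
theorem xa_core_pt {N C₁ b κ ρ₁ ρ₂ r th : ℝ} (hN : 1 ≤ N) (hb : 0 ≤ b) (h1 : C₁ ≤ κ) (h2 : C₁ ^ 2 ≤ κ) (h3 : N * b ≤ κ) (hr : 0 < r) (hρ₁ : 0 ≤ ρ₁)
    (z₀ : ST k) (G θ V : ST k → ℂ) (hG : Continuous G) (hS : ∀ w, G w ≠ 0 → w ∈ xaS (k := k) C₁ b)
    (hθ : ∀ z, ‖z - z₀‖ ≤ ρ₂ * N → 1 ≤ ‖θ z‖) (hV : ∀ z, θ z * V z = ∫ w, BD.ch (BD.pr z w) * G w)
    (z ζ : ST k) (hz : ‖ζ - z‖ ≤ ρ₁) (hζ : ‖ζ - z₀‖ ≤ ρ₂ * N) (hth : th ≤ ‖V ζ‖) :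
    ENNReal.ofReal th ^ r ≤ (∑' α : XaW (XaL k), xaD (max ρ₁ ρ₂) α) ^ r *
      ∑' α : XaW (XaL k), (xaD (max ρ₁ ρ₂) α * ‖ext (xaG N z₀.2 G α) z‖ₑ) ^ r := by
  have hN0 : 0 < N := by linarith
  have hρ : 0 ≤ max ρ₁ ρ₂ := le_max_of_le_left hρ₁
  have e1 : ENNReal.ofReal th ≤ ‖∫ w : ST k, BD.ch (BD.pr ζ w) * G w‖ₑ := by
    rw [← hV ζ, ← ofReal_norm, norm_mul]
    apply ENNReal.ofReal_le_ofReal
    calc th ≤ ‖V ζ‖ := hth
      _ = 1 * ‖V ζ‖ := (one_mul _).symm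
      _ ≤ ‖θ ζ‖ * ‖V ζ‖ := by gcongr; exact hθ ζ hζ
  have e2 := xa_point hN0 hb h1 h2 h3 z₀.2 G hG hS z ζ (fun l => xa_U_le hN0 z₀ z ζ hz hζ l)
  have e3 : ∑' α : XaW (XaL k), ENNReal.ofReal ((max ρ₁ ρ₂) ^ α.1 / (α.1).factorial) * ‖ext (xaG N z₀.2 G α) z‖ₑ
      = ∑' α : XaW (XaL k), xaD (max ρ₁ ρ₂) α * xaD (max ρ₁ ρ₂) α * ‖ext (xaG N z₀.2 G α) z‖ₑ := by
    refine tsum_congr fun α => ?_
    rw [xa_D_mul hρ]
  calc ENNReal.ofReal th ^ r ≤ (∑' α : XaW (XaL k), xaD (max ρ₁ ρ₂) α * xaD (max ρ₁ ρ₂) α * ‖ext (xaG N z₀.2 G α) z‖ₑ) ^ r := by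
        rw [← e3]
        exact ENNReal.rpow_le_rpow (e1.trans e2) hr.le
    _ ≤ _ := xa_sup_sum _ _ _ hr

/-- the weight of a word in the `L²` bound -/
noncomputable def xaB (κ q : ℝ) (α : XaW (XaL k)) : ℝ≥0∞ := ENNReal.ofReal ((κ ^ α.1) ^ 2) ^ q

/-- multilinear restriction for one tuple of words -/
theorem xa_core_tuple {p C₁ Cm Mm : ℝ} (hM : XaMrl k p C₁ Cm Mm) (hp : 0 < p) {N b κ Q : ℝ} (hN : 0 ≤ N) (hb : 0 ≤ b) (h1 : C₁ ≤ κ) (h2 : C₁ ^ 2 ≤ κ) (h3 : N * b ≤ κ)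
    (hQ : 1 ≤ Q) (t₀ : ℝ) (G : Fin (k + 1) → ST k → ℂ) (hG : ∀ j, Continuous (G j)) (hS : ∀ j w, G j w ≠ 0 → w ∈ xaS (k := k) C₁ b)
    (htr : ∀ ξ : Fin (k + 1) → E k, (∀ j, ∃ τ, G j (ξ j, τ) ≠ 0) → Transv Q ξ) (I : Fin (k + 1) → ℝ≥0∞) (hI : ∀ j, ∫⁻ w, ‖G j w‖ₑ ^ (2 : ℝ) ≤ I j)
    (a : Fin (k + 1) → XaW (XaL k)) :
    ∫⁻ z : ST k, ∏ j, ‖ext (xaG N t₀ (G j) (a j)) z‖ₑ ^ (p / ((k : ℝ) + 1))
      ≤ ENNReal.ofReal (Cm * Q ^ Mm) * ∏ j, (xaB κ (p / (2 * ((k : ℝ) + 1))) (a j) * (ENNReal.ofReal (2 * b) * I j) ^ (p / (2 * ((k : ℝ) + 1)))) := by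
  have hd := fun j => xa_dat hN hb h1 h2 h3 t₀ (G j) (hG j) (hS j) (a j)
  have hq : 0 ≤ p / (2 * ((k : ℝ) + 1)) := by positivity
  refine (hM Q (fun j => xaG N t₀ (G j) (a j)) hQ (fun j => (hd j).1) (fun ξ hξ => htr ξ fun j => (hd j).2.1 _ (hξ j))).trans ?_
  gcongr with j _
  unfold xaB
  rw [← ENNReal.mul_rpow_of_nonneg _ _ hq]
  apply ENNReal.rpow_le_rpow _ hq
  refine (hd j).2.2.2.trans ?_
  rw [mul_comm (2 * b), ENNReal.ofReal_mul (by positivity), mul_assoc]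
  gcongr
  exact hI j

/-- the count in `ℝ≥0∞` -/
theorem xa_core_enn {p C₁ Cm Mm c₀ : ℝ} (hM : XaMrl k p C₁ Cm Mm) (hp : 0 < p)
    (hint : ∀ (Y : Finset (ST k)), USep Y → ∀ (f : ST k → ℝ≥0∞) (D : ℝ≥0∞), Measurable f →
      (∀ z ∈ Y, ∀ y, ‖y - z‖ ≤ 1 / 2 → f z ≤ D * f y) → ENNReal.ofReal c₀ * ∑ z ∈ Y, f z ≤ D * ∫⁻ y, f y)
    {N b κ Q ρ₁ ρ₂ : ℝ} (hN : 1 ≤ N) (hb : 0 ≤ b) (h1 : C₁ ≤ κ) (h2 : C₁ ^ 2 ≤ κ) (h3 : N * b ≤ κ) (hQ : 1 ≤ Q) (hρ₁ : 0 ≤ ρ₁) (z₀ : ST k)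
    (G θ V : Fin (k + 1) → ST k → ℂ) (hG : ∀ j, Continuous (G j)) (hS : ∀ j w, G j w ≠ 0 → w ∈ xaS (k := k) C₁ b)
    (htr : ∀ ξ : Fin (k + 1) → E k, (∀ j, ∃ τ, G j (ξ j, τ) ≠ 0) → Transv Q ξ) (I : Fin (k + 1) → ℝ≥0∞) (hI : ∀ j, ∫⁻ w, ‖G j w‖ₑ ^ (2 : ℝ) ≤ I j)
    (hθ : ∀ j z, ‖z - z₀‖ ≤ ρ₂ * N → 1 ≤ ‖θ j z‖) (hV : ∀ j z, θ j z * V j z = ∫ w, BD.ch (BD.pr z w) * G j w)
    (Y : Finset (ST k)) (hY : USep Y) (wz : Fin (k + 1) → ST k → ST k) (th : Fin (k + 1) → ℝ)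
    (hnear : ∀ y ∈ Y, ∀ j, ∀ z, ‖z - y‖ ≤ 1 / 2 → ‖wz j y - z‖ ≤ ρ₁) (hfar : ∀ y ∈ Y, ∀ j, ‖wz j y - z₀‖ ≤ ρ₂ * N)
    (hth : ∀ y ∈ Y, ∀ j, th j ≤ ‖V j (wz j y)‖) :
    ENNReal.ofReal c₀ * (Y.card * ∏ j, ENNReal.ofReal (th j) ^ (p / ((k : ℝ) + 1)))
      ≤ (∑' α : XaW (XaL k), xaD (max ρ₁ ρ₂) α) ^ p * (ENNReal.ofReal (Cm * Q ^ Mm) *
          (∑' α : XaW (XaL k), xaD (max ρ₁ ρ₂) α ^ (p / ((k : ℝ) + 1)) * xaB κ (p / (2 * ((k : ℝ) + 1))) α) ^ (k + 1) *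
          ∏ j, (ENNReal.ofReal (2 * b) * I j) ^ (p / (2 * ((k : ℝ) + 1)))) := by
  have hN0 : 0 ≤ N := by linarith
  have hk1 : (0 : ℝ) < (k : ℝ) + 1 := by positivity
  set r : ℝ := p / ((k : ℝ) + 1) with hr
  have hr0 : 0 < r := by positivity
  set D : ℝ≥0∞ := ∑' α : XaW (XaL k), xaD (max ρ₁ ρ₂) α with hD
  set Φ : ST k → ℝ≥0∞ := fun z => ∏ j, ∑' α : XaW (XaL k), (xaD (max ρ₁ ρ₂) α * ‖ext (xaG N z₀.2 (G j) α) z‖ₑ) ^ r with hΦdef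
  set c : ℝ≥0∞ := ∏ j, ENNReal.ofReal (th j) ^ r with hc
  have hxm : ∀ j (α : XaW (XaL k)), Measurable (fun z => ‖ext (xaG N z₀.2 (G j) α) z‖ₑ) := fun j α =>
    xa_ext_meas (xa_dat hN0 hb h1 h2 h3 z₀.2 (G j) (hG j) (hS j) α).1
  have hΦ : Measurable Φ := Finset.measurable_prod _ fun j _ => Measurable.tsum fun α => ((hxm j α).const_mul _).pow_const r
  have hDp : (D ^ r) ^ (k + 1) = D ^ p := by
    rw [← ENNReal.rpow_natCast, ← ENNReal.rpow_mul]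
    congr 1
    rw [hr]
    push_cast
    field_simp
  have key : ∀ y ∈ Y, ∀ z, ‖z - y‖ ≤ 1 / 2 → c ≤ D ^ p * Φ z := by
    intro y hy z hz
    calc c ≤ ∏ j : Fin (k + 1), (D ^ r * ∑' α : XaW (XaL k), (xaD (max ρ₁ ρ₂) α * ‖ext (xaG N z₀.2 (G j) α) z‖ₑ) ^ r) :=
          Finset.prod_le_prod' fun j _ => xa_core_pt hN hb h1 h2 h3 hr0 hρ₁ z₀ (G j) (θ j) (V j) (hG j) (hS j) (hθ j) (hV j) z (wz j y)
            (hnear y hy j z hz) (hfar y hy j) (hth y hy j)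
      _ = D ^ p * Φ z := by
          rw [Finset.prod_mul_distrib, Finset.prod_const, Finset.card_univ, Fintype.card_fin, hDp]
  have hf : Measurable (fun z => min c (D ^ p * Φ z)) := measurable_const.min (hΦ.const_mul _)
  have hfy : ∀ y ∈ Y, ∀ z, ‖z - y‖ ≤ 1 / 2 → min c (D ^ p * Φ z) = c := fun y hy z hz => min_eq_left (key y hy z hz)
  have e1 := hint Y hY (fun z => min c (D ^ p * Φ z)) 1 hf (fun y hy z hz => by
    rw [hfy y hy z hz, hfy y hy y (by simp), one_mul])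
  have e2 : ∑ y ∈ Y, min c (D ^ p * Φ y) = Y.card * c := by
    rw [Finset.sum_congr rfl fun y hy => hfy y hy y (by simp), Finset.sum_const, nsmul_eq_mul]
  have e3 : ∫⁻ z, min c (D ^ p * Φ z) ≤ D ^ p * ∫⁻ z, Φ z := by
    rw [← lintegral_const_mul _ hΦ]
    exact lintegral_mono fun z => min_le_right _ _
  have e4 := xa_multi (volume : Measure (ST k)) (k + 1) (fun j (α : XaW (XaL k)) z => ‖ext (xaG N z₀.2 (G j) α) z‖ₑ) hxm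
    (xaD (max ρ₁ ρ₂)) (xaB κ (p / (2 * ((k : ℝ) + 1)))) hr0 (ENNReal.ofReal (Cm * Q ^ Mm)) (fun j => (ENNReal.ofReal (2 * b) * I j) ^ (p / (2 * ((k : ℝ) + 1))))
    (fun a => xa_core_tuple hM hp hN0 hb h1 h2 h3 hQ z₀.2 G hG hS htr I hI a)
  rw [e2, one_mul] at e1
  exact e1.trans (e3.trans (mul_le_mul_right e4 _))

theorem xa_S_fin {ρ κ p : ℝ} (hκ : 0 ≤ κ) (hp : 0 < p) :
    ∑' α : XaW (XaL k), xaD ρ α ^ (p / ((k : ℝ) + 1)) * xaB κ (p / (2 * ((k : ℝ) + 1))) α < ∞ := by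
  have hk1 : (0 : ℝ) < (k : ℝ) + 1 := by positivity
  set r : ℝ := p / ((k : ℝ) + 1) with hr
  have hr0 : 0 < r := by positivity
  have h := xa_words (XaL k) ((√ρ) ^ r * κ ^ r) (r / 2) (by positivity) (by positivity)
  refine lt_of_le_of_lt (le_of_eq (tsum_congr fun α => ?_)) h
  unfold xaD xaB
  have hq : p / (2 * ((k : ℝ) + 1)) = r / 2 := by rw [hr]; field_simp
  rw [hq, ENNReal.ofReal_rpow_of_nonneg (by positivity) hr0.le, ENNReal.ofReal_rpow_of_nonneg (by positivity) (by positivity),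
    ← ENNReal.ofReal_mul (by positivity)]
  congr 1
  have hf : (0 : ℝ) < ((α.1).factorial : ℝ) := by positivity
  rw [Real.div_rpow (by positivity) (by positivity), ← Real.rpow_mul hf.le, mul_pow, ← Real.rpow_natCast (κ ^ α.1) 2, ← Real.rpow_mul (by positivity),
    ← Real.rpow_natCast (√ρ), ← Real.rpow_natCast κ, ← Real.rpow_natCast (√ρ ^ r), ← Real.rpow_natCast (κ ^ r), ← Real.rpow_mul (by positivity), ← Real.rpow_mul hκ,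
    ← Real.rpow_mul (by positivity), ← Real.rpow_mul hκ]
  have a1 : (1 / 2 : ℝ) * r = r / 2 := by ring
  have a2 : (α.1 : ℝ) * (((2 : ℕ) : ℝ) * (r / 2)) = r * α.1 := by push_cast; ring
  have a3 : (α.1 : ℝ) * r = r * α.1 := by ring
  rw [a1, a2, a3]
  ring

/-- **the count at large scales** (`C₃ Q ≤ N`) -/
theorem xa_core (hmrl : XaMrlStmt k) (K : PCls) (P Cr Cw p : ℝ) (hρ : 0 ≤ K.ρ) (hP' : 0 ≤ K.P') (hP : P + (k : ℝ) + 1 < 2 * K.P')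
    (hCr : 0 < Cr) (hCw : 0 ≤ Cw) (hp : pk' k < p) (hp0 : 0 < p) :
    ∃ C M C₃ : ℝ, 0 < C ∧ 0 ≤ M ∧ 0 < C₃ ∧ ∀ (ι : Type) (A : Fin (k + 1) → PFam k ι) (s : Fin (k + 1) → Finset ι) (a : Fin (k + 1) → ι → ℝ) (N Q : ℝ)
      (th : Fin (k + 1) → ℝ) (Y : Finset (ST k)) (wz : Fin (k + 1) → ST k → ST k) (z₀ : ST k), XaCfg K Cr Cw A s a N Q th Y wz z₀ → C₃ * Q ≤ N →
      (Y.card : ℝ) ≤ C * Q ^ M * ∏ j, xaX P A s a N th z₀ j ^ (p / (2 * ((k : ℝ) + 1))) := by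
  obtain ⟨Ct, C₂, hCt, hC₂, hthick⟩ := xa_thick (k := k) K P (Cr + Cw) hρ hP' hP (by linarith)
  have hC₀ : 0 ≤ |K.C₀| := abs_nonneg _
  set C₀ : ℝ := |K.C₀| with hC₀def
  set C₁ : ℝ := C₀ + C₂ with hC₁
  set Cb : ℝ := C₂ * (1 + 2 * C₀ + C₂) with hCb
  have hCb0 : 0 ≤ Cb := by positivity
  set κ : ℝ := max C₁ (max (C₁ ^ 2) Cb) with hκ
  have h1 : C₁ ≤ κ := le_max_left _ _
  have h2 : C₁ ^ 2 ≤ κ := (le_max_left _ _).trans (le_max_right _ _)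
  have h3 : Cb ≤ κ := (le_max_right _ _).trans (le_max_right _ _)
  have hκ0 : 0 ≤ κ := hCb0.trans h3
  have hρ₁ : 0 ≤ Cw + 1 / 2 := by positivity
  have hρ0 : 0 ≤ max (Cw + 1 / 2) (Cr + Cw) := le_max_of_le_left hρ₁
  obtain ⟨Cm, Mm, hCm, hMm, hM⟩ := hmrl p C₁ hp
  obtain ⟨c₀, hc₀, hint⟩ := pk_usep_int k
  have hD : ∑' α : XaW (XaL k), xaD (max (Cw + 1 / 2) (Cr + Cw)) α < ∞ := xa_words _ _ _ (Real.sqrt_nonneg _) (by norm_num)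
  have hS := xa_S_fin (k := k) (ρ := max (Cw + 1 / 2) (Cr + Cw)) hκ0 hp0
  obtain ⟨C, hC, hreal⟩ := xa_real (k := k) (Mm := Mm) hc₀ hCm hCb0 hCt.le hp0 hD hS
  refine ⟨C, Mm, 2 * C₂, hC, hMm, by positivity, fun ι A s a N Q th Y wz z₀ cfg hNQ => ?_⟩
  have hN : 1 ≤ N := by rw [← cfg.scale 0]; exact (cfg.cls 0).one_le
  have hN0 : 0 < N := by linarith
  have hQ := cfg.one_le
  choose G θ hG hθ hsupp hV hI using fun j => hthick ι (A j) (s j) (a j) z₀ (cfg.cls j)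
  simp only [cfg.scale] at hθ hsupp hI
  have hnb : ∀ j w, G j w ≠ 0 → ∃ T ∈ s j, w ∈ xaS (k := k) C₁ (Cb / N) ∧ ‖w.1 - (A j).v T‖ ≤ C₂ / N := by
    intro j w hw
    obtain ⟨T, hT, hwT⟩ := hsupp j w hw
    exact ⟨T, hT, xa_nbhd hN hC₂.le (((cfg.cls j).freq T hT).trans (le_abs_self _)) hwT⟩
  have htr : ∀ ξ : Fin (k + 1) → E k, (∀ j, ∃ τ, G j (ξ j, τ) ≠ 0) → Transv (2 * Q) ξ := by
    intro ξ hξ
    choose τ hτ using hξ
    choose T hT hT2 using fun j => hnb j _ (hτ j)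
    refine xa_transv (r := C₂ / N) (by linarith) ?_ (cfg.trans T hT) (fun j => (hT2 j).2)
    rw [mul_div_assoc', div_le_iff₀ hN0]
    linarith
  have hsq : ∀ j, 0 ≤ (A j).sq P (s j) (a j) z₀ := fun j => pkw_sq_nonneg _ _ _ _ _
  have main := xa_core_enn hM hp0 hint (N := N) (b := Cb / N) (κ := κ) (Q := 2 * Q) (ρ₁ := Cw + 1 / 2) (ρ₂ := Cr + Cw) hN (by positivity) h1 h2
    (by rw [mul_div_cancel₀ _ hN0.ne']; exact h3) (by linarith) hρ₁ z₀ G θ (fun j => (A j).fld (s j)) hG (fun j w hw => by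
      obtain ⟨T, _, h, _⟩ := hnb j w hw
      exact h) htr _ hI hθ hV Y cfg.sep wz th
    (fun y hy j z hz => by
      have e : wz j y - z = (wz j y - y) - (z - y) := by abel
      rw [e]
      exact (norm_sub_le _ _).trans (add_le_add (cfg.near y hy j) hz))
    (fun y hy j => by
      have e : wz j y - z₀ = (wz j y - y) + (y - z₀) := by abel
      rw [e]
      refine (norm_add_le _ _).trans ?_
      have := cfg.near y hy j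
      have := cfg.ball y hy
      nlinarith)
    cfg.high
  exact hreal Y.card N Q th (fun j => (A j).sq P (s j) (a j) z₀) hN hQ cfg.pos hsq main

/-- **L-257-XA-ARITH** (~120 l., real numbers).   `p = p_k + ε`, `p/(2(k+1)) = 1/k + ε/(2(k+1))`;  `X_j^{ε/(2(k+1))} = (√X_j)^{ε/(k+1)} ≤ U^{ε/(k+1)}`, product of `k+1` factors: `U^ε`;
`X_j^{1/k} = N (sq_j/th_j²)^{1/k}`, product: `N^{k+1} ∏ …`. -/
theorem xa_arith (hk : 1 ≤ k) {ε N U : ℝ} (hε : 0 ≤ ε) (hN : 0 < N) (hU : 1 ≤ U) (th sq : Fin (k + 1) → ℝ) (hth : ∀ j, 0 < th j) (hsq : ∀ j, 0 ≤ sq j)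
    (hX : ∀ j, N ^ ((k : ℝ) / 2) * Real.sqrt (sq j) / th j ≤ U) :
    ∏ j, (N ^ (k : ℝ) * sq j / th j ^ 2) ^ ((pk' k + ε) / (2 * ((k : ℝ) + 1)))
      ≤ U ^ ε * N ^ ((k : ℝ) + 1) * ∏ j, (sq j / th j ^ 2) ^ (1 / (k : ℝ)) := by
  have hk0 : (0 : ℝ) < (k : ℝ) := by exact_mod_cast hk
  have hk1 : (0 : ℝ) < (k : ℝ) + 1 := by positivity
  have hq : (pk' k + ε) / (2 * ((k : ℝ) + 1)) = 1 / (k : ℝ) + ε / (2 * ((k : ℝ) + 1)) := by
    unfold pk'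
    field_simp
  have hterm : ∀ j, (N ^ (k : ℝ) * sq j / th j ^ 2) ^ ((pk' k + ε) / (2 * ((k : ℝ) + 1)))
      ≤ (U ^ (ε / ((k : ℝ) + 1)) * N) * (sq j / th j ^ 2) ^ (1 / (k : ℝ)) := by
    intro j
    have hj := hth j
    have hs := hsq j
    have hX0 : 0 ≤ N ^ (k : ℝ) * sq j / th j ^ 2 := by positivity
    rw [hq, Real.rpow_add_of_nonneg hX0 (by positivity) (by positivity)]
    have e1 : (N ^ (k : ℝ) * sq j / th j ^ 2) ^ (1 / (k : ℝ)) = N * (sq j / th j ^ 2) ^ (1 / (k : ℝ)) := by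
      rw [mul_div_assoc, Real.mul_rpow (by positivity) (by positivity), ← Real.rpow_mul hN.le]
      have : (k : ℝ) * (1 / (k : ℝ)) = 1 := by field_simp
      rw [this, Real.rpow_one]
    have e2 : N ^ (k : ℝ) * sq j / th j ^ 2 = (N ^ ((k : ℝ) / 2) * Real.sqrt (sq j) / th j) ^ 2 := by
      rw [div_pow, mul_pow, Real.sq_sqrt hs, ← Real.rpow_natCast (N ^ ((k : ℝ) / 2)) 2, ← Real.rpow_mul hN.le]
      congr 3
      push_cast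
      ring
    have e3 : (N ^ (k : ℝ) * sq j / th j ^ 2) ^ (ε / (2 * ((k : ℝ) + 1))) ≤ U ^ (ε / ((k : ℝ) + 1)) := by
      have hY0 : 0 ≤ N ^ ((k : ℝ) / 2) * Real.sqrt (sq j) / th j := by positivity
      rw [e2, ← Real.rpow_natCast _ 2, ← Real.rpow_mul hY0]
      have : ((2 : ℕ) : ℝ) * (ε / (2 * ((k : ℝ) + 1))) = ε / ((k : ℝ) + 1) := by
        push_cast; field_simp
      rw [this]
      exact Real.rpow_le_rpow hY0 (hX j) (by positivity)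
    rw [e1]
    have h0 : 0 ≤ N * (sq j / th j ^ 2) ^ (1 / (k : ℝ)) := by positivity
    calc N * (sq j / th j ^ 2) ^ (1 / (k : ℝ)) * (N ^ (k : ℝ) * sq j / th j ^ 2) ^ (ε / (2 * ((k : ℝ) + 1)))
        ≤ N * (sq j / th j ^ 2) ^ (1 / (k : ℝ)) * U ^ (ε / ((k : ℝ) + 1)) := mul_le_mul_of_nonneg_left e3 h0
      _ = _ := by ring
  refine (Finset.prod_le_prod (fun j _ => Real.rpow_nonneg (by have := hth j; have := hsq j; positivity) _) fun j _ => hterm j).trans (le_of_eq ?_)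
  rw [Finset.prod_mul_distrib, Finset.prod_const, Finset.card_univ, Fintype.card_fin, mul_pow]
  congr 2
  · rw [← Real.rpow_natCast, ← Real.rpow_mul (by linarith)]
    congr 1
    push_cast
    field_simp
  · rw [← Real.rpow_natCast]; push_cast; rfl

/-- **EXIT OF XF-A: the local multilinear count** (H frame.tex l.1519-1533). -/
theorem xa_count (hk : 1 ≤ k) (hmrl : XaMrlStmt k) (K : PCls) (P Cr Cw ε : ℝ) (hρ : 0 ≤ K.ρ) (hP' : 0 ≤ K.P') (hP0 : 0 ≤ P)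
    (hP : P + (k : ℝ) + 1 < 2 * K.P') (hCr : 0 < Cr) (hCw : 0 ≤ Cw) (hε : 0 < ε) :
    ∃ C M : ℝ, 0 < C ∧ 0 ≤ M ∧ ∀ (ι : Type) (A : Fin (k + 1) → PFam k ι) (s : Fin (k + 1) → Finset ι) (a : Fin (k + 1) → ι → ℝ) (N Q U : ℝ)
      (th : Fin (k + 1) → ℝ) (Y : Finset (ST k)) (wz : Fin (k + 1) → ST k → ST k) (z₀ : ST k), XaCfg K Cr Cw A s a N Q th Y wz z₀ → 1 ≤ U →
      (∀ j, N ^ ((k : ℝ) / 2) * Real.sqrt ((A j).sq P (s j) (a j) z₀) / th j ≤ U) →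
      (Y.card : ℝ) ≤ C * Q ^ M * U ^ ε * N ^ ((k : ℝ) + 1) * ∏ j, ((A j).sq P (s j) (a j) z₀ / th j ^ 2) ^ (1 / (k : ℝ)) := by
  have hk0 : (0 : ℝ) < (k : ℝ) := by exact_mod_cast hk
  have hpk : 0 < pk' k := by unfold pk'; positivity
  obtain ⟨C₁, M₁, C₃, hC₁, hM₁, hC₃, hcore⟩ := xa_core hmrl K P Cr Cw (pk' k + ε) hρ hP' hP hCr hCw (by linarith) (by linarith)
  obtain ⟨c, hc, hlow⟩ := xa_lower (k := k) K P Cr Cw hP0 hP hCr.le hCw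
  obtain ⟨C₄, hC₄, hcard⟩ := xa_card k Cr hCr.le
  set q : ℝ := (pk' k + ε) / (2 * ((k : ℝ) + 1)) with hq
  have hq0 : 0 < q := by positivity
  refine ⟨C₁ + C₄ * C₃ ^ ((k : ℝ) + 1) / (c ^ q) ^ (k + 1), max M₁ ((k : ℝ) + 1), by positivity, le_max_of_le_left hM₁,
    fun ι A s a N Q U th Y wz z₀ cfg hU hX => ?_⟩
  have hN : 1 ≤ N := by rw [← cfg.scale 0]; exact (cfg.cls 0).one_le
  have hN0 : 0 < N := by linarith
  have hQ := cfg.one_le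
  have hsq : ∀ j, 0 ≤ (A j).sq P (s j) (a j) z₀ := fun j => pkw_sq_nonneg _ _ _ _ _
  have hX0 : ∀ j, 0 ≤ xaX P A s a N th z₀ j := fun j => by
    unfold xaX
    have := hsq j
    have := cfg.pos j
    positivity
  have hprod0 : 0 ≤ ∏ j, xaX P A s a N th z₀ j ^ q := Finset.prod_nonneg fun j _ => Real.rpow_nonneg (hX0 j) _
  have hstep : (Y.card : ℝ) ≤ (C₁ + C₄ * C₃ ^ ((k : ℝ) + 1) / (c ^ q) ^ (k + 1)) * Q ^ (max M₁ ((k : ℝ) + 1)) * ∏ j, xaX P A s a N th z₀ j ^ q := by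
    have hQ1 : Q ^ M₁ ≤ Q ^ (max M₁ ((k : ℝ) + 1)) := Real.rpow_le_rpow_of_exponent_le hQ (le_max_left _ _)
    have hQ2 : Q ^ ((k : ℝ) + 1) ≤ Q ^ (max M₁ ((k : ℝ) + 1)) := Real.rpow_le_rpow_of_exponent_le hQ (le_max_right _ _)
    have hQ0 : 0 ≤ Q ^ (max M₁ ((k : ℝ) + 1)) := by positivity
    have hE0 : 0 ≤ C₄ * C₃ ^ ((k : ℝ) + 1) / (c ^ q) ^ (k + 1) := by positivity
    rcases le_or_gt (C₃ * Q) N with hc1 | hc1
    · calc (Y.card : ℝ) ≤ C₁ * Q ^ M₁ * ∏ j, xaX P A s a N th z₀ j ^ q := hcore ι A s a N Q th Y wz z₀ cfg hc1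
        _ ≤ (C₁ + C₄ * C₃ ^ ((k : ℝ) + 1) / (c ^ q) ^ (k + 1)) * Q ^ (max M₁ ((k : ℝ) + 1)) * ∏ j, xaX P A s a N th z₀ j ^ q := by
            gcongr
            linarith
    · rcases Y.eq_empty_or_nonempty with hY | hY
      · rw [hY]
        simp only [Finset.card_empty, Nat.cast_zero]
        positivity
      · have hl : (c ^ q) ^ (k + 1) ≤ ∏ j, xaX P A s a N th z₀ j ^ q := by
          calc (c ^ q) ^ (k + 1) = ∏ _j : Fin (k + 1), c ^ q := by rw [Finset.prod_const, Finset.card_univ, Fintype.card_fin]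
            _ ≤ _ := Finset.prod_le_prod (fun j _ => by positivity) fun j _ =>
                Real.rpow_le_rpow hc.le (hlow ι A s a N Q th Y wz z₀ cfg hY j) hq0.le
        calc (Y.card : ℝ) ≤ C₄ * N ^ ((k : ℝ) + 1) := hcard Y z₀ N hN cfg.sep cfg.ball
          _ ≤ C₄ * (C₃ * Q) ^ ((k : ℝ) + 1) := by gcongr
          _ = C₄ * C₃ ^ ((k : ℝ) + 1) / (c ^ q) ^ (k + 1) * Q ^ ((k : ℝ) + 1) * (c ^ q) ^ (k + 1) := by
              rw [Real.mul_rpow hC₃.le (by linarith)]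
              field_simp
          _ ≤ (C₁ + C₄ * C₃ ^ ((k : ℝ) + 1) / (c ^ q) ^ (k + 1)) * Q ^ (max M₁ ((k : ℝ) + 1)) * ∏ j, xaX P A s a N th z₀ j ^ q := by
              gcongr
              linarith
  have har := xa_arith hk hε.le hN0 hU th (fun j => (A j).sq P (s j) (a j) z₀) cfg.pos hsq hX
  calc (Y.card : ℝ) ≤ _ := hstep
    _ ≤ (C₁ + C₄ * C₃ ^ ((k : ℝ) + 1) / (c ^ q) ^ (k + 1)) * Q ^ (max M₁ ((k : ℝ) + 1)) *
        (U ^ ε * N ^ ((k : ℝ) + 1) * ∏ j, ((A j).sq P (s j) (a j) z₀ / th j ^ 2) ^ (1 / (k : ℝ))) := by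
        apply mul_le_mul_of_nonneg_left _ (by positivity)
        exact har
    _ = _ := by ring

end Claimed.Agent.R257
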