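import Claimed.Agent.R257.FR3.XfAMain
import Claimed.Agent.Lib.MR.Top

/-!
# R257 / FR3 / XfAMr : the adapter `MR.mrl → XaMrlStmt` and the UNCONDITIONAL local multilinear count `xa_count_mr`        (helper212)
`R257.ext g (x,t) = MR.ext g (x,-t)` (sign of the paraboloid), the reflection preserves the volume; `sx 0 ≥ |ext|`.
-/

set_option autoImplicit false

namespace Claimed.Agent.R257

open MeasureTheory Metric Set
open scoped ENNReal InnerProductSpace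

variable {k : ℕ} {ι : Type}

/-- the time reflection -/
theorem xa_ext_refl (g : E k → ℂ) (z : ST k) : ext g z = MR.ext g (z.1, -z.2) := by
  unfold ext MR.ext
  refine integral_congr_ae (Filter.Eventually.of_forall fun ξ => ?_)
  simp only
  congr 1
  unfold car BD.ch BD.pr MR.gam
  congr 1
  rw [mul_comm]
  congr 2
  simp only
  ring

theorem xa_refl_mp : MeasurePreserving (fun z : ST k => ((z.1, -z.2) : ST k)) volume volume :=
  (MeasurePreserving.id (volume : Measure (E k))).prod (Measure.measurePreserving_neg (volume : Measure ℝ))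

theorem xa_refl_emb : MeasurableEmbedding (fun z : ST k => ((z.1, -z.2) : ST k)) :=
  ((MeasurableEquiv.refl (E k)).prodCongr (MeasurableEquiv.neg ℝ)).measurableEmbedding

/-- **the adapter**: exit of `Lib/MR` in the language of `R257` -/
theorem xa_mrl (hk : 1 ≤ k) : XaMrlStmt k := by
  intro p C₀ hp
  obtain ⟨C, M₀, hC, h⟩ := MR.mrl (V := E k) k hk finrank_euclideanSpace_fin |C₀| 0 p (abs_nonneg _) le_rfl hp
  refine ⟨C, M₀, hC, Nat.cast_nonneg _, fun Q g hQ hg hT => ?_⟩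
  have hk1 : (0 : ℝ) < (k : ℝ) + 1 := by positivity
  have hp0 : 0 < p := lt_trans (by unfold pk'; positivity) hp
  have h1 := h Q g hQ hT (fun i => (hg i).meas) (fun i ξ hξ => ((hg i).supp ξ hξ).trans (le_abs_self _))
    (fun i => (⟨(hg i).meas, (hg i).bdd, (hg i).supp⟩ : MR.Dat C₀ (g i)).l2_lt_top)
  have h2 : ∫⁻ z : ST k, ∏ j, ‖ext (g j) z‖ₑ ^ (p / ((k : ℝ) + 1)) = ∫⁻ z : ST k, ∏ j, ‖MR.ext (g j) z‖ₑ ^ (p / ((k : ℝ) + 1)) := by
    rw [← xa_refl_mp.lintegral_comp_emb xa_refl_emb (fun z : ST k => ∏ j, ‖MR.ext (g j) z‖ₑ ^ (p / ((k : ℝ) + 1)))]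
    simp only [xa_ext_refl]
  rw [h2, Real.rpow_natCast]
  have h3 : p / (2 * ((k : ℝ) + 1)) = p / ((k : ℝ) + 1) / 2 := by rw [div_div, mul_comm]
  rw [h3]
  refine le_trans (lintegral_mono fun z => ?_) h1
  exact Finset.prod_le_prod' fun j _ => ENNReal.rpow_le_rpow (MR.le_sx le_rfl _ _) (by positivity)

/-- **EXIT OF XF-A, unconditional form** -/
theorem xa_count_mr (hk : 1 ≤ k) (K : PCls) (P Cr Cw ε : ℝ) (hρ : 0 ≤ K.ρ) (hP' : 0 ≤ K.P') (hP0 : 0 ≤ P)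
    (hP : P + (k : ℝ) + 1 < 2 * K.P') (hCr : 0 < Cr) (hCw : 0 ≤ Cw) (hε : 0 < ε) :
    ∃ C M : ℝ, 0 < C ∧ 0 ≤ M ∧ ∀ (ι : Type) (A : Fin (k + 1) → PFam k ι) (s : Fin (k + 1) → Finset ι) (a : Fin (k + 1) → ι → ℝ) (N Q U : ℝ)
      (th : Fin (k + 1) → ℝ) (Y : Finset (ST k)) (wz : Fin (k + 1) → ST k → ST k) (z₀ : ST k), XaCfg K Cr Cw A s a N Q th Y wz z₀ → 1 ≤ U →
      (∀ j, N ^ ((k : ℝ) / 2) * Real.sqrt ((A j).sq P (s j) (a j) z₀) / th j ≤ U) →
      (Y.card : ℝ) ≤ C * Q ^ M * U ^ ε * N ^ ((k : ℝ) + 1) * ∏ j, ((A j).sq P (s j) (a j) z₀ / th j ^ 2) ^ (1 / (k : ℝ)) :=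
  xa_count hk (xa_mrl hk) K P Cr Cw ε hρ hP' hP0 hP hCr hCw hε

end Claimed.Agent.R257
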