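import Claimed.Agent.R257.FR3.XfAMain
import Claimed.Agent.R257.FR3.InflTree
import Claimed.Agent.R257.PK1.WTree
import Claimed.Agent.R257.FR2.Prof

/-!
# ROW 257, package FR3, unit XF-B (`f:cross-field-inflation`, H frame.tex l.1487-1575), file 1: ONE STEP `K → R` FOR `k + 1` DIFFERENT FIELDS      (architect helper57; prefix `xb_`)          CONTRACT

Every `sorry` is a leaf `L-257-XB-*` (name in the docstring): prove IN PLACE on a fresh pull, statement verbatim (a FALSE statement: one line to helper57), auxiliary lemmas directly above your theorem, prefix `xb_<leaf>_`; splice only your block.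

THE `k + 1` FIELDS LIVE ON DIFFERENT TREES `D j : TDat c`, with DIFFERENT heights: start `a j` (scale `N ≤ κ_j (a j) ≤ lam N`), terminal `b j ≤ a j` (scale `R ≤ κ_j (b j) ≤ lam R`);  `lam N ≤ R`, `2 R ≤ N²`.      `lam = Λ^{o(1)}`: every loss in `lam` is `lam^E`, `E = xbExp k Q` (orders only).
`xbE D S h z = ∑_{T ∈ S h} am_T² (1 + |X_T z|)^{-Q}` = the local square envelope `𝓔_{j,h}` of the selected outputs (`= D.fiE 1 0 c.Q h (S h) (am S h)` of helper271: the frame `(K0, w0) = (1, 0)`).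
PROOF OF `xb_tree` (no covering, no Peetre in the summation):
1. `xb_tree_pt`  = XF-A at EVERY centre `x` (212's `xa_thick`, `xa_core_enn`, `xa_real`, `xa_arith`; variant `xb_core` for scales `N_j ∈ [N, lam N]`: put `sq' j = (N_j/N)^{k+1} sq j`):   `#(Y ∩ B_N(x)) ≤ K₁ N^{k+1} ∏_j (𝓔_{j,a}(x)/th_j²)^{1/k}`.
2. `xb_avg`      `#(Y ∩ B_R(z₀)) |B_N| ≤ ∫_{B_{R+N}(z₀)} #(Y ∩ B_N(x)) dx`.
3. `xb_mk`       local multilinear Kakeya (162's PROVED `fi3_mk_pw'`) at the common scale `N' = lam N`:  `pw P N_j v u z ≤ pw P N' v (δu) z ≤ lam^{2P} pw P N_j v u z` POINTWISE (`xb_pw_up`, `xb_pw_dn`).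
4. `xb_tree_l2`  the `L²` fact over the skipped masks, ONE field: `∫_{B(z₀, Cb κ_b)} 𝓔_a ≤ K₃ κ_b^{k+1} 𝓔_b(X')` from `FiL2At` (`fi_env_l2` of 271 with `V = True`, `fi_E_peetre`) and the chain `xb_ch_avg`.
-/

set_option autoImplicit false

namespace Claimed.Agent.R257

open MeasureTheory Metric Set
open Claimed.Agent.R257.Tree Claimed.Agent.R257.FR2
open scoped ENNReal BigOperators BoundedContinuousFunction Classical

noncomputable section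

variable {k : ℕ}

/-! ## 1. averaging -/

theorem xb_vol {N : ℝ} (hN : 0 ≤ N) : ENNReal.ofReal ((2 * N / ((k : ℝ) + 1)) ^ (k + 1)) ≤ volume (closedBall (0 : ST k) N) := by
  have hk : (0 : ℝ) < (k : ℝ) + 1 := by positivity
  have h := (fi_Q_ball (0 : ST k) (N / ((k : ℝ) + 1)) (by positivity)).2
  have e : ((k : ℝ) + 1) * (N / ((k : ℝ) + 1)) = N := by field_simp
  rw [e] at h
  calc ENNReal.ofReal ((2 * N / ((k : ℝ) + 1)) ^ (k + 1)) = volume (fiQ (0 : ST k) (N / ((k : ℝ) + 1))) := by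
        rw [fi_Q_vol _ _ (by positivity)]
        congr 2
        ring
    _ ≤ _ := measure_mono h

theorem xb_avg_aux {ι : Type} (Y : Finset ι) (pos : ι → ST k) (z₀ : ST k) (N R : ℝ) (f : ST k → ℝ≥0∞)
    (h : ∀ x, ((Y.filter fun y => ‖pos y - x‖ ≤ N).card : ℝ≥0∞) ≤ f x) :
    ((Y.filter fun y => ‖pos y - z₀‖ ≤ R).card : ℝ≥0∞) * volume (closedBall (0 : ST k) N) ≤ ∫⁻ x in closedBall z₀ (R + N), f x := by
  have hh : (volume : Measure (ST k)).IsAddHaarMeasure := by rw [Measure.volume_eq_prod]; infer_instance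
  obtain ⟨Y', hY'⟩ : ∃ Y' : Finset ι, Y' = Y.filter fun y => ‖pos y - z₀‖ ≤ R := ⟨_, rfl⟩
  rw [← hY']
  have e1 : (Y'.card : ℝ≥0∞) * volume (closedBall (0 : ST k) N) = ∑ y ∈ Y', ∫⁻ x, (closedBall (pos y) N).indicator (fun _ => (1 : ℝ≥0∞)) x := by
    rw [← nsmul_eq_mul, ← Finset.sum_const]
    refine Finset.sum_congr rfl fun y _ => ?_
    rw [lintegral_indicator measurableSet_closedBall, setLIntegral_const, one_mul]
    exact (Measure.addHaar_closedBall_center volume (pos y) N).symm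
  rw [e1, ← lintegral_finsetSum _ (fun y _ => measurable_const.indicator measurableSet_closedBall), ← lintegral_indicator measurableSet_closedBall]
  refine lintegral_mono fun x => ?_
  by_cases hx : x ∈ closedBall z₀ (R + N)
  · rw [Set.indicator_of_mem hx]
    refine le_trans ?_ (h x)
    simp only [Set.indicator_apply]
    rw [Finset.sum_boole]
    refine Nat.cast_le.2 (Finset.card_le_card ?_)
    intro y hy
    rw [Finset.mem_filter] at hy ⊢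
    rw [hY', Finset.mem_filter] at hy
    refine ⟨hy.1.1, ?_⟩
    have h2 := hy.2
    rw [mem_closedBall, dist_eq_norm, norm_sub_rev] at h2
    exact h2
  · rw [Set.indicator_of_notMem hx]
    refine le_of_eq (Finset.sum_eq_zero fun y hy => ?_)
    refine Set.indicator_of_notMem (fun hc => hx ?_) _
    rw [hY', Finset.mem_filter] at hy
    rw [mem_closedBall] at hc ⊢
    calc dist x z₀ ≤ dist x (pos y) + dist (pos y) z₀ := dist_triangle _ _ _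
      _ ≤ N + R := add_le_add hc (by rw [dist_eq_norm]; exact hy.2)
      _ = R + N := add_comm _ _

/-- **LEAF L-257-XB-AVG** (~80 l., Mathlib only).   `Y' = Y.filter (‖pos y - z₀‖ ≤ R)`, `g x = ∑_{y ∈ Y'} (closedBall (pos y) N).indicator 1 x`.
`#Y' · vol(B_N) = ∑_{y ∈ Y'} vol (closedBall (pos y) N)` (`Measure.addHaar_closedBall_center` / `measure_preimage_add`-type translation invariance; `Finset.sum_const`) `= ∑ ∫⁻ indicator` (`lintegral_indicator_one`, `measurableSet_closedBall`) `= ∫⁻ g` (`lintegral_finset_sum`);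
`g = 0` off `closedBall z₀ (R + N)` (triangle inequality), so `∫⁻ g = ∫⁻ x in closedBall z₀ (R+N), g x` (`setLIntegral_eq_of_support…`/ `lintegral_indicator` + pointwise equality);   `g x = #{y ∈ Y' | ‖x - pos y‖ ≤ N} ≤ #(Y.filter (‖pos y - x‖ ≤ N)) ≤ f x` (`Finset.sum_indicator…`/`Finset.card_filter`, `norm_sub_rev`, `Finset.card_le_card`);  `lintegral_mono`. -/
theorem xb_avg {ι : Type} (Y : Finset ι) (pos : ι → ST k) (z₀ : ST k) (N R : ℝ) (f : ST k → ℝ≥0∞)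
    (h : ∀ x, ((Y.filter fun y => ‖pos y - x‖ ≤ N).card : ℝ≥0∞) ≤ f x) :
    ((Y.filter fun y => ‖pos y - z₀‖ ≤ R).card : ℝ≥0∞) * volume (closedBall (0 : ST k) N) ≤ ∫⁻ x in closedBall z₀ (R + N), f x :=
  xb_avg_aux Y pos z₀ N R f h

/-! ## 2. the weights at two comparable scales -/

/-- the parabolic dilation of the native centres -/
def xbDil (θ : ℝ) (u : ST k) : ST k := (θ • u.1, θ ^ 2 * u.2)

theorem xb_natX_dil_aux {N N' : ℝ} (hN : N ≠ 0) (hN' : N' ≠ 0) (v : E k) (z : ST k) : natX N' v z = xbDil (N / N') (natX N v z) := by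
  unfold natX xbDil
  refine Prod.ext ?_ ?_
  · show N'⁻¹ • (z.1 - (2 * z.2) • v) = (N / N') • N⁻¹ • (z.1 - (2 * z.2) • v)
    rw [smul_smul]
    congr 1
    field_simp
  · show z.2 / N' ^ 2 = (N / N') ^ 2 * (z.2 / N ^ 2)
    field_simp

theorem xb_pw_dil_sub (θ : ℝ) (X u : ST k) : xbDil θ X - xbDil θ u = xbDil θ (X - u) := by
  unfold xbDil
  refine Prod.ext ?_ ?_
  · show θ • X.1 - θ • u.1 = θ • (X.1 - u.1)
    rw [smul_sub]
  · show θ ^ 2 * X.2 - θ ^ 2 * u.2 = θ ^ 2 * (X.2 - u.2)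
    ring

theorem xb_pw_dil_norm {θ : ℝ} (h0 : 0 ≤ θ) (h1 : θ ≤ 1) (w : ST k) : ‖xbDil θ w‖ ≤ ‖w‖ ∧ θ ^ 2 * ‖w‖ ≤ ‖xbDil θ w‖ := by
  have e1 : ‖θ • w.1‖ = θ * ‖w.1‖ := by rw [norm_smul, Real.norm_of_nonneg h0]
  have e2 : ‖θ ^ 2 * w.2‖ = θ ^ 2 * ‖w.2‖ := by rw [norm_mul, Real.norm_of_nonneg (by positivity)]
  have hsq : θ ^ 2 ≤ θ := by nlinarith
  have hsq1 : θ ^ 2 ≤ 1 := hsq.trans h1
  have n1 := norm_nonneg w.1
  have n2 := norm_nonneg w.2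
  unfold xbDil
  rw [Prod.norm_def, Prod.norm_def]
  show max ‖θ • w.1‖ ‖θ ^ 2 * w.2‖ ≤ max ‖w.1‖ ‖w.2‖ ∧ θ ^ 2 * max ‖w.1‖ ‖w.2‖ ≤ max ‖θ • w.1‖ ‖θ ^ 2 * w.2‖
  rw [e1, e2]
  constructor
  · exact max_le_max (mul_le_of_le_one_left n1 h1) (mul_le_of_le_one_left n2 hsq1)
  · rw [mul_max_of_nonneg _ _ (by positivity)]
    exact max_le_max (mul_le_mul_of_nonneg_right hsq n1) le_rfl

theorem xb_pw_up_aux {P N N' : ℝ} (hP : 0 ≤ P) (hN : 0 < N) (hNN : N ≤ N') (v : E k) (u z : ST k) : pw P N v u z ≤ pw P N' v (xbDil (N / N') u) z := by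
  have hN' : 0 < N' := hN.trans_le hNN
  have h0 : 0 ≤ N / N' := by positivity
  have h1 : N / N' ≤ 1 := (div_le_one hN').2 hNN
  unfold pw
  rw [xb_natX_dil_aux hN.ne' hN'.ne' v z, xb_pw_dil_sub]
  refine Real.rpow_le_rpow_of_nonpos (by positivity) ?_ (by linarith)
  linarith [(xb_pw_dil_norm h0 h1 (natX N v z - u)).1]

theorem xb_pw_dn_aux {P N N' : ℝ} (hP : 0 ≤ P) (hN : 0 < N) (hNN : N ≤ N') (v : E k) (u z : ST k) :
    pw P N' v (xbDil (N / N') u) z ≤ (N' / N) ^ (2 * P) * pw P N v u z := by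
  have hN' : 0 < N' := hN.trans_le hNN
  have h0 : 0 ≤ N / N' := by positivity
  have h1 : N / N' ≤ 1 := (div_le_one hN').2 hNN
  unfold pw
  rw [xb_natX_dil_aux hN.ne' hN'.ne' v z, xb_pw_dil_sub]
  obtain ⟨w, hw⟩ : ∃ w : ST k, w = natX N v z - u := ⟨_, rfl⟩
  rw [← hw]
  have h2 := (xb_pw_dil_norm h0 h1 w).2
  obtain ⟨a, ha⟩ : ∃ a : ℝ, a = ‖xbDil (N / N') w‖ := ⟨_, rfl⟩
  obtain ⟨b, hb⟩ : ∃ b : ℝ, b = ‖w‖ := ⟨_, rfl⟩
  rw [← ha, ← hb] at h2 ⊢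
  have ha0 : 0 ≤ a := by rw [ha]; exact norm_nonneg _
  have hb0 : 0 ≤ b := by rw [hb]; exact norm_nonneg _
  obtain ⟨lam, hlam⟩ : ∃ lam : ℝ, lam = N' / N := ⟨_, rfl⟩
  have hl1 : 1 ≤ lam := by rw [hlam]; exact (one_le_div hN).2 hNN
  have hl0 : 0 < lam := by linarith
  have hθ : N / N' = lam⁻¹ := by rw [hlam, inv_div]
  rw [hθ] at h2
  rw [← hlam]
  have h3 : (1 + b) / lam ^ 2 ≤ 1 + a := by
    rw [div_le_iff₀ (by positivity)]
    have e1 : b ≤ lam ^ 2 * a := by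
      have : lam ^ 2 * (lam⁻¹ ^ 2 * b) ≤ lam ^ 2 * a := mul_le_mul_of_nonneg_left h2 (by positivity)
      rw [← mul_assoc, ← mul_pow, mul_inv_cancel₀ hl0.ne', one_pow, one_mul] at this
      exact this
    have e2 : 1 ≤ lam ^ 2 := one_le_pow₀ hl1
    nlinarith
  have h4 : (1 + a) ^ (-P) ≤ ((1 + b) / lam ^ 2) ^ (-P) := Real.rpow_le_rpow_of_nonpos (by positivity) h3 (by linarith)
  refine h4.trans (le_of_eq ?_)
  rw [Real.div_rpow (by positivity) (by positivity), Real.rpow_neg (x := lam ^ 2) (by positivity), ← Real.rpow_natCast lam 2, ← Real.rpow_mul hl0.le,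
    div_inv_eq_mul, mul_comm]
  norm_num

/-- **LEAF L-257-XB-PW** (~90 l. for the three).   `natX N' v z = xbDil (N/N') (natX N v z)` (`unfold natX xbDil`, `Prod.ext`, `smul_smul`, `field_simp`). -/
theorem xb_natX_dil {N N' : ℝ} (hN : N ≠ 0) (hN' : N' ≠ 0) (v : E k) (z : ST k) : natX N' v z = xbDil (N / N') (natX N v z) :=
  xb_natX_dil_aux hN hN' v z

/-- `‖xbDil θ X - xbDil θ u‖ ≤ ‖X - u‖` for `0 ≤ θ ≤ 1` (`Prod.norm_def`, `max_le_max`, `norm_smul`, `← smul_sub`, `← mul_sub`, `θ² ≤ 1`); `Real.rpow_le_rpow_of_nonpos`/`Real.rpow_neg` + `inv_anti₀` + `Real.rpow_le_rpow`. -/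
theorem xb_pw_up {P N N' : ℝ} (hP : 0 ≤ P) (hN : 0 < N) (hNN : N ≤ N') (v : E k) (u z : ST k) : pw P N v u z ≤ pw P N' v (xbDil (N / N') u) z :=
  xb_pw_up_aux hP hN hNN v u z

/-- `‖X - u‖ ≤ θ^{-2} ‖xbDil θ X - xbDil θ u‖`, `θ = N/N' ≤ 1`, so `1 + ‖X - u‖ ≤ (N'/N)² (1 + ‖xbDil θ X - xbDil θ u‖)`; `Real.mul_rpow`, `← Real.rpow_natCast`, `← Real.rpow_mul`. -/
theorem xb_pw_dn {P N N' : ℝ} (hP : 0 ≤ P) (hN : 0 < N) (hNN : N ≤ N') (v : E k) (u z : ST k) :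
    pw P N' v (xbDil (N / N') u) z ≤ (N' / N) ^ (2 * P) * pw P N v u z :=
  xb_pw_dn_aux hP hN hNN v u z

/-! ## 3. local multilinear Kakeya for fields of comparable scales, index types depending on the field -/

/-- the envelope `∑_{T ∈ s} c_T (1 + |natX N (v T) z - u T|)^{-P}` -/
def xbEnv {ι : Type} (P N : ℝ) (s : Finset ι) (v : ι → E k) (u : ι → ST k) (cf : ι → ℝ) (z : ST k) : ℝ := ∑ T ∈ s, cf T * pw P N (v T) (u T) z

theorem xb_env_nonneg {ι : Type} (P N : ℝ) (s : Finset ι) (v : ι → E k) (u : ι → ST k) (cf : ι → ℝ) (hc : ∀ T ∈ s, 0 ≤ cf T) (z : ST k) : 0 ≤ xbEnv P N s v u cf z :=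
  Finset.sum_nonneg fun T hT => mul_nonneg (hc T hT) (by unfold pw; positivity)

theorem xb_mk_env_up {ι : Type} {P N N' : ℝ} (hP : 0 ≤ P) (hN : 0 < N) (hNN : N ≤ N') (s : Finset ι) (v : ι → E k) (u : ι → ST k) (cf : ι → ℝ)
    (hc : ∀ T ∈ s, 0 ≤ cf T) (z : ST k) :
    xbEnv P N s v u cf z ≤ xbEnv P N' s v (fun T => xbDil (N / N') (u T)) cf z :=
  Finset.sum_le_sum fun T hT => mul_le_mul_of_nonneg_left (xb_pw_up hP hN hNN (v T) (u T) z) (hc T hT)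

theorem xb_mk_env_dn {ι : Type} {P N N' lam : ℝ} (hP : 0 ≤ P) (hN : 0 < N) (hNN : N ≤ N') (hl : N' ≤ lam * N) (s : Finset ι) (v : ι → E k) (u : ι → ST k) (cf : ι → ℝ)
    (hc : ∀ T ∈ s, 0 ≤ cf T) (z : ST k) :
    xbEnv P N' s v (fun T => xbDil (N / N') (u T)) cf z ≤ lam ^ (2 * P) * xbEnv P N s v u cf z := by
  unfold xbEnv
  rw [Finset.mul_sum]
  refine Finset.sum_le_sum fun T hT => ?_
  have h1 := xb_pw_dn hP hN hNN (v T) (u T) z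
  have h2 : (N' / N) ^ (2 * P) ≤ lam ^ (2 * P) := by
    refine Real.rpow_le_rpow (div_nonneg (hN.le.trans hNN) hN.le) ?_ (by positivity)
    rwa [div_le_iff₀ hN]
  have h3 : 0 ≤ pw P N (v T) (u T) z := by unfold pw; positivity
  calc cf T * pw P N' (v T) (xbDil (N / N') (u T)) z ≤ cf T * (lam ^ (2 * P) * pw P N (v T) (u T) z) :=
        mul_le_mul_of_nonneg_left (h1.trans (mul_le_mul_of_nonneg_right h2 h3)) (hc T hT)
    _ = lam ^ (2 * P) * (cf T * pw P N (v T) (u T) z) := by ring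

/-- **LEAF L-257-XB-MK** (~150 l.).   `fi3_mk_pw'.{0} k hk B hB P hP` gives `C, M`.   Index type `ι' = Σ j, ι j`, `s' j = (s j).map ⟨Sigma.mk j, sigma_mk_injective⟩`, `v' _ x = v x.1 x.2`, `u' _ x = xbDil (Nj x.1 / N') (u x.1 x.2)`, `c' _ x = cf x.1 x.2` (`Finset.sum_map`: the sums over `s' j` are the sums over `s j`;
a tuple `T i ∈ s' i` is `⟨i, t i⟩`, `Finset.mem_map`).   Scale `S = N'`.   LEFT: `xb_pw_up` termwise, `ENNReal.ofReal_le_ofReal`, `ENNReal.rpow_le_rpow`, `Finset.prod_le_prod'`, `lintegral_mono`.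
HYPOTHESIS of `fi3_mk_pw'` with `F' i = ofReal (lam^{2P}) * F i`:  `xb_pw_dn` termwise and `(N'/Nj)^{2P} ≤ lam^{2P}` (`Real.rpow_le_rpow`, `div_le_iff₀`), `ENNReal.ofReal_mul`, `lintegral_const_mul'`.   RIGHT: `fi_prod_rpow` (`InflAbs`): `∏ (ofReal K * F i)^{1/k} = ofReal (K^{(k+1)/k}) ∏ F i^{1/k}`;  `(lam^{2P})^{(k+1)/k} = lam^{2P(k+1)/k}` (`← Real.rpow_mul`). -/
theorem xb_mk (k : ℕ) (hk : 1 ≤ k) (B : ℝ) (hB : 0 ≤ B) (P : ℝ) (hP : 0 ≤ P) :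
    ∃ C : ℝ, ∃ M : ℕ, 0 < C ∧ ∀ (N' R Q lam : ℝ) (Nj : Fin (k + 1) → ℝ), 0 < N' → N' ≤ R → R ≤ N' ^ 2 → 1 ≤ Q → (∀ j, 0 < Nj j ∧ Nj j ≤ N' ∧ N' ≤ lam * Nj j) →
    ∀ (ι : Fin (k + 1) → Type) (s : ∀ j, Finset (ι j)) (v : ∀ j, ι j → E k) (u : ∀ j, ι j → ST k) (cf : ∀ j, ι j → ℝ),
    (∀ j, ∀ T ∈ s j, 0 ≤ cf j T) → (∀ j, ∀ T ∈ s j, ‖v j T‖ ≤ B) → (∀ T : ∀ j, ι j, (∀ j, T j ∈ s j) → Transv Q (fun j => v j (T j))) →
    ∀ (z₀ : ST k) (F : Fin (k + 1) → ℝ≥0∞),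
    (∀ j, ∫⁻ z in closedBall z₀ ((2 + 4 * B) * R), ENNReal.ofReal (xbEnv P (Nj j) (s j) (v j) (u j) (cf j) z) ≤ ENNReal.ofReal (R ^ (k + 1)) * F j) →
    ∫⁻ z in closedBall z₀ R, ∏ j, ENNReal.ofReal (xbEnv P (Nj j) (s j) (v j) (u j) (cf j) z) ^ (1 / (k : ℝ))
      ≤ ENNReal.ofReal (C * Q ^ M * lam ^ (2 * P * ((k : ℝ) + 1) / k) * R ^ (k + 1)) * ∏ j, F j ^ (1 / (k : ℝ)) := by
  obtain ⟨C, M, hC, H⟩ := fi3_mk_pw'.{0} k hk B hB P hP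
  refine ⟨C, M, hC, fun N' R Q lam Nj hN' hN'R hRN' hQ hNj ι s v u cf hcf hv htr z₀ F hF => ?_⟩
  have hlam : 0 < lam := by
    obtain ⟨h1, _, h3⟩ := hNj 0
    by_contra hcon
    have : lam * Nj 0 ≤ 0 := mul_nonpos_of_nonpos_of_nonneg (not_lt.1 hcon) h1.le
    linarith
  have hR0 : 0 < R := lt_of_lt_of_le hN' hN'R
  have hk0 : (0 : ℝ) ≤ 1 / (k : ℝ) := by positivity
  have hsum : ∀ (j : Fin (k + 1)) (z : ST k),
      ∑ T ∈ (s j).map ⟨Sigma.mk j, sigma_mk_injective⟩, cf T.1 T.2 * pw P N' (v T.1 T.2) (xbDil (Nj T.1 / N') (u T.1 T.2)) z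
        = xbEnv P N' (s j) (v j) (fun T => xbDil (Nj j / N') (u j T)) (cf j) z := by
    intro j z
    rw [Finset.sum_map]
    rfl
  have key := H N' R Q hN' hN'R hRN' hQ (Σ j, ι j) (fun j => (s j).map ⟨Sigma.mk j, sigma_mk_injective⟩) (fun _ T => v T.1 T.2)
    (fun _ T => xbDil (Nj T.1 / N') (u T.1 T.2)) (fun _ T => cf T.1 T.2)
    (by
      intro j T hT
      obtain ⟨t, ht, rfl⟩ := Finset.mem_map.1 hT
      exact hcf j t ht)
    (by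
      intro j T hT
      obtain ⟨t, ht, rfl⟩ := Finset.mem_map.1 hT
      exact hv j t ht)
    (by
      intro T hT
      choose t ht hTt using fun j => Finset.mem_map.1 (hT j)
      have e : (fun j => v (T j).1 (T j).2) = fun j => v j (t j) := by
        funext j
        rw [← hTt j]
        rfl
      rw [e]
      exact htr t ht)
    z₀ (fun j => ENNReal.ofReal (lam ^ (2 * P)) * F j)
    (by
      intro j
      simp only [hsum]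
      obtain ⟨h1, h2, h3⟩ := hNj j
      calc ∫⁻ z in closedBall z₀ ((2 + 4 * B) * R), ENNReal.ofReal (xbEnv P N' (s j) (v j) (fun T => xbDil (Nj j / N') (u j T)) (cf j) z)
          ≤ ∫⁻ z in closedBall z₀ ((2 + 4 * B) * R), ENNReal.ofReal (lam ^ (2 * P)) * ENNReal.ofReal (xbEnv P (Nj j) (s j) (v j) (u j) (cf j) z) := by
            refine lintegral_mono fun z => ?_
            rw [← ENNReal.ofReal_mul (by positivity)]
            exact ENNReal.ofReal_le_ofReal (xb_mk_env_dn hP h1 h2 h3 (s j) (v j) (u j) (cf j) (hcf j) z)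
        _ = ENNReal.ofReal (lam ^ (2 * P)) * ∫⁻ z in closedBall z₀ ((2 + 4 * B) * R), ENNReal.ofReal (xbEnv P (Nj j) (s j) (v j) (u j) (cf j) z) :=
            lintegral_const_mul' _ _ ENNReal.ofReal_ne_top
        _ ≤ ENNReal.ofReal (lam ^ (2 * P)) * (ENNReal.ofReal (R ^ (k + 1)) * F j) := by
            gcongr
            exact hF j
        _ = ENNReal.ofReal (R ^ (k + 1)) * (ENNReal.ofReal (lam ^ (2 * P)) * F j) := by ring)
  simp only [hsum] at key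
  calc ∫⁻ z in closedBall z₀ R, ∏ j, ENNReal.ofReal (xbEnv P (Nj j) (s j) (v j) (u j) (cf j) z) ^ (1 / (k : ℝ))
      ≤ ∫⁻ z in closedBall z₀ R, ∏ j, ENNReal.ofReal (xbEnv P N' (s j) (v j) (fun T => xbDil (Nj j / N') (u j T)) (cf j) z) ^ (1 / (k : ℝ)) := by
        refine lintegral_mono fun z => Finset.prod_le_prod' fun j _ => ENNReal.rpow_le_rpow (ENNReal.ofReal_le_ofReal ?_) hk0
        exact xb_mk_env_up hP (hNj j).1 (hNj j).2.1 (s j) (v j) (u j) (cf j) (hcf j) z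
    _ ≤ ENNReal.ofReal (C * Q ^ M * R ^ (k + 1)) * ∏ j, (ENNReal.ofReal (lam ^ (2 * P)) * F j) ^ (1 / (k : ℝ)) := key
    _ = ENNReal.ofReal (C * Q ^ M * lam ^ (2 * P * ((k : ℝ) + 1) / k) * R ^ (k + 1)) * ∏ j, F j ^ (1 / (k : ℝ)) := by
        rw [fi_prod_rpow k _ (by positivity), ← mul_assoc, ← ENNReal.ofReal_mul (by positivity), ← Real.rpow_mul hlam.le]
        congr 2
        have : 2 * P * (((k : ℝ) + 1) / k) = 2 * P * ((k : ℝ) + 1) / k := by ring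
        rw [this]
        ring

theorem xb_mid_prod (e th : Fin (k + 1) → ℝ) (he : ∀ j, 0 ≤ e j) :
    ∏ j, (e j / th j ^ 2) ^ (1 / (k : ℝ)) = (∏ j, e j ^ (1 / (k : ℝ))) / ∏ j, (th j ^ 2) ^ (1 / (k : ℝ)) := by
  rw [← Finset.prod_div_distrib]
  refine Finset.prod_congr rfl fun j _ => ?_
  rw [Real.div_rpow (he j) (sq_nonneg _)]

theorem xb_mid_ofReal (e : Fin (k + 1) → ℝ) (he : ∀ j, 0 ≤ e j) :
    ENNReal.ofReal (∏ j, e j ^ (1 / (k : ℝ))) = ∏ j, ENNReal.ofReal (e j) ^ (1 / (k : ℝ)) := by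
  rw [ENNReal.ofReal_prod_of_nonneg fun j _ => Real.rpow_nonneg (he j) _]
  refine Finset.prod_congr rfl fun j _ => ?_
  rw [ENNReal.ofReal_rpow_of_nonneg (he j) (by positivity)]

/-- **LEAF L-257-XB-MID: from the count on the `N`-balls to the count on the `R`-ball** (~200 l., `ℝ≥0∞ ↔ ℝ`).   `C, M` of `xb_mk`; constant `C' = C (k+1)^{k+1}`.   `R' = R + N ≤ 2R`, `N' = lam N ≤ R'`, `R' ≤ 2R ≤ N² ≤ N'²`.
`f x = ofReal (K₁ N^{k+1} ∏_j th_j^{-2/k}) * ∏_j ofReal (env j x)^{1/k}`  (`(e/th²)^{1/k} = e^{1/k} (th²)^{-1/k}`: `Real.div_rpow`; `ENNReal.ofReal_prod_of_nonneg`, `ENNReal.ofReal_rpow_of_nonneg`, `ENNReal.ofReal_mul`; `(n : ℝ≥0∞) = ofReal n`: `ENNReal.ofReal_natCast`).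
`xb_avg`, `xb_vol`:  `#Y' · ofReal ((2N/(k+1))^{k+1}) ≤ ∫_{B_{R'}} f = ofReal (…) ∫ ∏ ofReal (env)^{1/k}` (`lintegral_const_mul'`), `xb_mk` with `F j = ofReal (Fj j)`.   Back to `ℝ` (`ENNReal.ofReal_le_ofReal_iff`), cancel `N^{k+1}`, `R'^{k+1} ≤ 2^{k+1} R^{k+1}`, `((k+1)/2)^{k+1} 2^{k+1} = (k+1)^{k+1}`. -/
theorem xb_mid (k : ℕ) (hk : 1 ≤ k) (B : ℝ) (hB : 0 ≤ B) (P : ℝ) (hP : 0 ≤ P) :
    ∃ C : ℝ, ∃ M : ℕ, 0 < C ∧ ∀ (N R Q lam K₁ : ℝ) (Nj th Fj : Fin (k + 1) → ℝ), 0 < N → 1 ≤ lam → lam * N ≤ R → 2 * R ≤ N ^ 2 → 1 ≤ Q → 0 ≤ K₁ →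
    (∀ j, N ≤ Nj j ∧ Nj j ≤ lam * N) → (∀ j, 0 < th j) → (∀ j, 0 ≤ Fj j) →
    ∀ (ι : Fin (k + 1) → Type) (s : ∀ j, Finset (ι j)) (v : ∀ j, ι j → E k) (u : ∀ j, ι j → ST k) (cf : ∀ j, ι j → ℝ),
    (∀ j, ∀ T ∈ s j, 0 ≤ cf j T) → (∀ j, ∀ T ∈ s j, ‖v j T‖ ≤ B) → (∀ T : ∀ j, ι j, (∀ j, T j ∈ s j) → Transv Q (fun j => v j (T j))) →
    ∀ (ι₀ : Type) (Y : Finset ι₀) (pos : ι₀ → ST k) (z₀ : ST k),
    (∀ x, ((Y.filter fun y => ‖pos y - x‖ ≤ N).card : ℝ) ≤ K₁ * N ^ ((k : ℝ) + 1) * ∏ j, (xbEnv P (Nj j) (s j) (v j) (u j) (cf j) x / th j ^ 2) ^ (1 / (k : ℝ))) →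
    (∀ j, ∫⁻ z in closedBall z₀ ((2 + 4 * B) * (R + N)), ENNReal.ofReal (xbEnv P (Nj j) (s j) (v j) (u j) (cf j) z) ≤ ENNReal.ofReal ((R + N) ^ (k + 1) * Fj j)) →
    ((Y.filter fun y => ‖pos y - z₀‖ ≤ R).card : ℝ) ≤ C * K₁ * Q ^ M * lam ^ (2 * P * ((k : ℝ) + 1) / k) * R ^ (k + 1) * ∏ j, (Fj j / th j ^ 2) ^ (1 / (k : ℝ)) := by
  obtain ⟨C, M, hC, H⟩ := xb_mk k hk B hB P hP
  refine ⟨C * ((k : ℝ) + 1) ^ (k + 1), M, by positivity, ?_⟩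
  intro N R Q lam K₁ Nj th Fj hN hlam hlNR hRN hQ hK₁ hNj hth hFj ι s v u cf hcf hv htr ι₀ Y pos z₀ hcnt hint
  have hlam0 : 0 < lam := by linarith
  have hNlN : N ≤ lam * N := by nlinarith
  have hNR : N ≤ R := hNlN.trans hlNR
  have hR0 : 0 < R := lt_of_lt_of_le hN hNR
  have hk1 : (0 : ℝ) < (k : ℝ) + 1 := by positivity
  obtain ⟨Tt, hTt⟩ : ∃ Tt, Tt = ∏ j, (th j ^ 2) ^ (1 / (k : ℝ)) := ⟨_, rfl⟩
  have hTt0 : 0 < Tt := by
    rw [hTt]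
    exact Finset.prod_pos fun j _ => Real.rpow_pos_of_pos (by have := hth j; positivity) _
  have henv0 : ∀ j z, 0 ≤ xbEnv P (Nj j) (s j) (v j) (u j) (cf j) z := fun j z => xb_env_nonneg _ _ _ _ _ _ (hcf j) z
  have hsq : N ^ 2 ≤ (lam * N) ^ 2 := pow_le_pow_left₀ hN.le hNlN 2
  have hmk := H (lam * N) (R + N) Q lam Nj (by positivity) (by linarith) (by linarith) hQ
    (fun j => ⟨by linarith [(hNj j).1], (hNj j).2, mul_le_mul_of_nonneg_left (hNj j).1 hlam0.le⟩) ι s v u cf hcf hv htr z₀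
    (fun j => ENNReal.ofReal (Fj j)) (fun j => by rw [← ENNReal.ofReal_mul (by positivity)]; exact hint j)
  obtain ⟨A, hA⟩ : ∃ A, A = K₁ * N ^ ((k : ℝ) + 1) / Tt := ⟨_, rfl⟩
  have hA0 : 0 ≤ A := by rw [hA]; positivity
  have havg := xb_avg Y pos z₀ N R
    (fun x => ENNReal.ofReal A * ∏ j, ENNReal.ofReal (xbEnv P (Nj j) (s j) (v j) (u j) (cf j) x) ^ (1 / (k : ℝ))) (fun x => by
      rw [← xb_mid_ofReal _ (fun j => henv0 j x), ← ENNReal.ofReal_mul hA0, ← ENNReal.ofReal_natCast]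
      refine ENNReal.ofReal_le_ofReal ((hcnt x).trans (le_of_eq ?_))
      rw [xb_mid_prod _ _ (fun j => henv0 j x), ← hTt, hA]
      ring)
  rw [lintegral_const_mul' _ _ ENNReal.ofReal_ne_top] at havg
  obtain ⟨G, hG⟩ : ∃ G, G = C * Q ^ M * lam ^ (2 * P * ((k : ℝ) + 1) / k) * (R + N) ^ (k + 1) := ⟨_, rfl⟩
  have hG0 : 0 ≤ G := by rw [hG]; positivity
  rw [← hG, ← xb_mid_ofReal _ hFj, ← ENNReal.ofReal_mul hG0] at hmk
  have hF0 : 0 ≤ ∏ j, Fj j ^ (1 / (k : ℝ)) := Finset.prod_nonneg fun j _ => Real.rpow_nonneg (hFj j) _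
  have h1 : ENNReal.ofReal (((Y.filter fun y => ‖pos y - z₀‖ ≤ R).card : ℝ) * (2 * N / ((k : ℝ) + 1)) ^ (k + 1))
      ≤ ENNReal.ofReal (A * (G * ∏ j, Fj j ^ (1 / (k : ℝ)))) := by
    rw [ENNReal.ofReal_mul (Nat.cast_nonneg _), ENNReal.ofReal_natCast, ENNReal.ofReal_mul hA0]
    calc ((Y.filter fun y => ‖pos y - z₀‖ ≤ R).card : ℝ≥0∞) * ENNReal.ofReal ((2 * N / ((k : ℝ) + 1)) ^ (k + 1))
        ≤ ((Y.filter fun y => ‖pos y - z₀‖ ≤ R).card : ℝ≥0∞) * volume (closedBall (0 : ST k) N) := by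
          gcongr
          exact xb_vol hN.le
      _ ≤ _ := havg
      _ ≤ _ := by
          gcongr
  have h2 := (ENNReal.ofReal_le_ofReal_iff (by positivity)).1 h1
  have hNk : N ^ ((k : ℝ) + 1) = N ^ (k + 1) := by
    rw [← Real.rpow_natCast]
    push_cast
    rfl
  have hRN' : (R + N) ^ (k + 1) ≤ 2 ^ (k + 1) * R ^ (k + 1) := by
    rw [← mul_pow]
    exact pow_le_pow_left₀ (by positivity) (by linarith) _
  rw [xb_mid_prod _ _ hFj, ← hTt]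
  obtain ⟨c0, hc0⟩ : ∃ c0 : ℝ, c0 = ((Y.filter fun y => ‖pos y - z₀‖ ≤ R).card : ℝ) := ⟨_, rfl⟩
  rw [← hc0] at h2 ⊢
  obtain ⟨Φ, hΦ⟩ : ∃ Φ, Φ = ∏ j, Fj j ^ (1 / (k : ℝ)) := ⟨_, rfl⟩
  rw [← hΦ] at h2 hF0 ⊢
  obtain ⟨W, hW⟩ : ∃ W, W = C * Q ^ M * lam ^ (2 * P * ((k : ℝ) + 1) / k) := ⟨_, rfl⟩
  have hW0 : 0 ≤ W := by rw [hW]; positivity
  have hG' : G = W * (R + N) ^ (k + 1) := by rw [hG, hW]
  rw [hA, hG', hNk] at h2
  have hNk0 : 0 < N ^ (k + 1) := by positivity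
  have e1 : c0 * (2 * N / ((k : ℝ) + 1)) ^ (k + 1) = N ^ (k + 1) * (c0 * (2 ^ (k + 1) / ((k : ℝ) + 1) ^ (k + 1))) := by
    rw [div_pow, mul_pow]; ring
  have e2 : K₁ * N ^ (k + 1) / Tt * (W * (R + N) ^ (k + 1) * Φ) = N ^ (k + 1) * (K₁ / Tt * (W * (R + N) ^ (k + 1) * Φ)) := by ring
  rw [e1, e2] at h2
  have h3 := le_of_mul_le_mul_left h2 hNk0
  have h4 : c0 * 2 ^ (k + 1) ≤ ((k : ℝ) + 1) ^ (k + 1) * (K₁ / Tt * (W * (R + N) ^ (k + 1) * Φ)) := by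
    have := mul_le_mul_of_nonneg_left h3 (by positivity : (0 : ℝ) ≤ ((k : ℝ) + 1) ^ (k + 1))
    calc c0 * 2 ^ (k + 1) = ((k : ℝ) + 1) ^ (k + 1) * (c0 * (2 ^ (k + 1) / ((k : ℝ) + 1) ^ (k + 1))) := by field_simp
      _ ≤ _ := this
  have h5 : ((k : ℝ) + 1) ^ (k + 1) * (K₁ / Tt * (W * (R + N) ^ (k + 1) * Φ))
      ≤ ((k : ℝ) + 1) ^ (k + 1) * (K₁ / Tt * (W * (2 ^ (k + 1) * R ^ (k + 1)) * Φ)) := by
    gcongr
  have h6 : c0 * 2 ^ (k + 1) ≤ (C * ((k : ℝ) + 1) ^ (k + 1) * K₁ * Q ^ M * lam ^ (2 * P * ((k : ℝ) + 1) / k) * R ^ (k + 1) * (Φ / Tt)) * 2 ^ (k + 1) := by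
    refine (h4.trans h5).trans (le_of_eq ?_)
    rw [hW]
    ring
  exact le_of_mul_le_mul_right h6 (by positivity)

/-! ## 4. the `L²` chain of ONE field (single-field copy of `fi_l2_cube`, `fi_l2_iter`, `fi_avg_le` of helper271: no Kakeya hypothesis) -/

/-- a chain of envelopes of one field: `l2` = one tree step, `peetre` = polynomial variation at the own scale -/
structure XbCh (κ : ℕ → ℝ) (E : ℕ → ST k → ℝ≥0∞) (bot top : ℕ) (K2 Kp P : ℝ) : Prop where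
  K2_nonneg : 0 ≤ K2
  Kp_nonneg : 0 ≤ Kp
  P_nonneg : 0 ≤ P
  κ_pos : ∀ h, 0 < κ h
  κ_anti : ∀ h, κ (h + 1) ≤ κ h
  l2 : ∀ h, bot ≤ h → h < top → ∀ (c X' : ST k), ‖X' - c‖ ≤ κ h →
    ∫⁻ X in closedBall c (κ h), E (h + 1) X ≤ ENNReal.ofReal (K2 * κ h ^ (k + 1)) * E h X'
  peetre : ∀ h, bot ≤ h → h ≤ top → ∀ (X X' : ST k), E h X ≤ ENNReal.ofReal (Kp * (1 + ‖X - X'‖ / κ h) ^ P) * E h X'

section chain

variable {κ : ℕ → ℝ} {E : ℕ → ST k → ℝ≥0∞} {bot top : ℕ} {K2 Kp P : ℝ}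

theorem xb_ch_anti (hF : XbCh κ E bot top K2 Kp P) (h d : ℕ) : κ (h + d) ≤ κ h := by
  induction d with
  | zero => exact le_rfl
  | succ d ih => exact (hF.κ_anti (h + d)).trans ih

theorem xb_ch_cube (hF : XbCh κ E bot top K2 Kp P) (h : ℕ) (hb : bot ≤ h) (ht : h < top) (m : (Fin k → ℤ) × ℤ) :
    ∫⁻ X in cubeS (κ h / ((k : ℝ) + 1)) m, E (h + 1) X ≤ ENNReal.ofReal (fiK2 k K2) * ∫⁻ X in cubeS (κ h / ((k : ℝ) + 1)) m, E h X := by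
  have hk : (0 : ℝ) < (k : ℝ) + 1 := by positivity
  have hκ := hF.κ_pos h
  have ha : 0 < κ h / ((k : ℝ) + 1) := by positivity
  have hK2 : 0 ≤ fiK2 k K2 := by
    unfold fiK2
    have := hF.K2_nonneg
    positivity
  refine fi_cube_avg _ _ _ ha _ hK2 m fun X' hX' => ?_
  have hsub := fi_cube_ball (κ h) hκ m
  have hX : ‖X' - fiCor (κ h / ((k : ℝ) + 1)) m‖ ≤ κ h := by
    rw [← dist_eq_norm]
    exact hsub hX'
  refine (lintegral_mono_set hsub).trans ((hF.l2 h hb ht _ X' hX).trans (le_of_eq ?_))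
  congr 2
  unfold fiK2
  rw [div_pow]
  field_simp

theorem xb_ch_iter (hF : XbCh κ E bot top K2 Kp P) (h : ℕ) (hb : bot ≤ h) (d : ℕ) (ht : h + d ≤ top) (c : ST k) (ρ : ℝ) :
    ∫⁻ X in fiQ c ρ, E (h + d) X ≤ ENNReal.ofReal (max 1 (fiK2 k K2) ^ d) * ∫⁻ X in fiQ c (ρ + d * κ h), E h X := by
  induction d generalizing ρ with
  | zero => simp
  | succ d ih =>
    have hk : (0 : ℝ) < (k : ℝ) + 1 := by positivity
    have hκd := hF.κ_pos (h + d)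
    have ha : 0 < κ (h + d) / ((k : ℝ) + 1) := by positivity
    have hale : κ (h + d) / ((k : ℝ) + 1) ≤ κ h := by
      refine le_trans ?_ (xb_ch_anti hF h d)
      exact div_le_self hκd.le (by linarith [(Nat.cast_nonneg k : (0 : ℝ) ≤ k)])
    have h1 := fi_grid (E (h + d + 1)) (E (h + d)) _ ha (ENNReal.ofReal (fiK2 k K2))
      (fun m => xb_ch_cube hF (h + d) (by omega) (by omega) m) c ρ
    have h2 : ∫⁻ z in fiQ c (ρ + κ (h + d) / ((k : ℝ) + 1)), E (h + d) z ≤ ∫⁻ z in fiQ c (ρ + κ h), E (h + d) z :=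
      lintegral_mono_set (fi_Q_mono c (by linarith))
    have h3 := ih (by omega) (ρ + κ h)
    have e : ρ + κ h + d * κ h = ρ + ((d + 1 : ℕ) : ℝ) * κ h := by
      push_cast
      ring
    rw [e] at h3
    have hM : (0 : ℝ) ≤ max 1 (fiK2 k K2) := le_trans zero_le_one (le_max_left _ _)
    calc ∫⁻ X in fiQ c ρ, E (h + (d + 1)) X
        ≤ ENNReal.ofReal (fiK2 k K2) * ∫⁻ z in fiQ c (ρ + κ (h + d) / ((k : ℝ) + 1)), E (h + d) z := h1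
      _ ≤ ENNReal.ofReal (max 1 (fiK2 k K2)) * (ENNReal.ofReal (max 1 (fiK2 k K2) ^ d) *
            ∫⁻ X in fiQ c (ρ + ((d + 1 : ℕ) : ℝ) * κ h), E h X) :=
          mul_le_mul' (ENNReal.ofReal_le_ofReal (le_max_right _ _)) (h2.trans h3)
      _ = ENNReal.ofReal (max 1 (fiK2 k K2) ^ (d + 1)) * ∫⁻ X in fiQ c (ρ + ((d + 1 : ℕ) : ℝ) * κ h), E h X := by
          rw [← mul_assoc, ← ENNReal.ofReal_mul hM, pow_succ, mul_comm (max 1 (fiK2 k K2))]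

/-- **the `L²` fact over `d ≤ n` heights on the ball of radius `Cb κ h`** -/
theorem xb_ch_avg (hF : XbCh κ E bot top K2 Kp P) {Cb : ℝ} (hC : 0 ≤ Cb) (h : ℕ) (hb : bot ≤ h) (d n : ℕ) (hd : d ≤ n) (ht : h + d ≤ top) (c X' : ST k) (hX : ‖X' - c‖ ≤ κ h) :
    ∫⁻ X in closedBall c (Cb * κ h), E (h + d) X ≤ ENNReal.ofReal (fiK3 k n K2 Kp P Cb * κ h ^ (k + 1)) * E h X' := by
  obtain ⟨κ', hκdef⟩ : ∃ κ' : ℝ, κ' = κ h := ⟨_, rfl⟩
  have hκ : 0 < κ' := by rw [hκdef]; exact hF.κ_pos h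
  rw [← hκdef] at hX ⊢
  have hKp := hF.Kp_nonneg
  have hP := hF.P_nonneg
  have hd0 : (0 : ℝ) ≤ d := Nat.cast_nonneg d
  have hk0 : (0 : ℝ) ≤ k := Nat.cast_nonneg k
  have hρ : 0 ≤ Cb * κ' + d * κ' := by positivity
  have s1 : ∫⁻ X in closedBall c (Cb * κ'), E (h + d) X ≤ ∫⁻ X in fiQ c (Cb * κ'), E (h + d) X :=
    lintegral_mono_set (fi_Q_ball c _ (by positivity)).1
  have s2 := xb_ch_iter hF h hb d ht c (Cb * κ')
  rw [← hκdef] at s2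
  have s3 : ∀ X ∈ fiQ c (Cb * κ' + d * κ'), E h X ≤ ENNReal.ofReal (Kp * (2 + ((k : ℝ) + 1) * (Cb + d)) ^ P) * E h X' := by
    intro X hXQ
    have hXb := (fi_Q_ball c _ hρ).2 hXQ
    rw [mem_closedBall, dist_eq_norm] at hXb
    have htri : ‖X - X'‖ ≤ ((k : ℝ) + 1) * (Cb * κ' + d * κ') + κ' := by
      have : X - X' = (X - c) - (X' - c) := by abel
      rw [this]
      exact (norm_sub_le _ _).trans (add_le_add hXb hX)
    refine (hF.peetre h hb (by omega) X X').trans (mul_le_mul_left (ENNReal.ofReal_le_ofReal ?_) _)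
    refine mul_le_mul_of_nonneg_left (Real.rpow_le_rpow (by rw [← hκdef]; positivity) ?_ hP) hKp
    rw [← hκdef]
    have : ‖X - X'‖ / κ' ≤ ((k : ℝ) + 1) * (Cb + d) + 1 := by
      rw [div_le_iff₀ hκ]
      refine htri.trans (le_of_eq ?_)
      ring
    linarith
  have s4 : ∫⁻ X in fiQ c (Cb * κ' + d * κ'), E h X
      ≤ ENNReal.ofReal (Kp * (2 + ((k : ℝ) + 1) * (Cb + d)) ^ P) * E h X' * ENNReal.ofReal ((2 * (Cb * κ' + d * κ')) ^ (k + 1)) := by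
    refine (setLIntegral_mono' (fi_Q_meas c _) s3).trans (le_of_eq ?_)
    rw [setLIntegral_const, fi_Q_vol c _ hρ]
  have hM0 : (0 : ℝ) ≤ max 1 (fiK2 k K2) := le_trans zero_le_one (le_max_left _ _)
  have hA0 : 0 ≤ (2 + ((k : ℝ) + 1) * (Cb + d)) ^ P := Real.rpow_nonneg (by positivity) _
  calc ∫⁻ X in closedBall c (Cb * κ'), E (h + d) X
      ≤ ENNReal.ofReal (max 1 (fiK2 k K2) ^ d) * (ENNReal.ofReal (Kp * (2 + ((k : ℝ) + 1) * (Cb + d)) ^ P) * E h X' *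
          ENNReal.ofReal ((2 * (Cb * κ' + d * κ')) ^ (k + 1))) := s1.trans (s2.trans (mul_le_mul_right s4 _))
    _ = ENNReal.ofReal (max 1 (fiK2 k K2) ^ d * (Kp * (2 + ((k : ℝ) + 1) * (Cb + d)) ^ P * (2 * (Cb * κ' + d * κ')) ^ (k + 1))) * E h X' := by
        exact fi_ofReal3 _ _ _ (by positivity) (by positivity) _
    _ ≤ ENNReal.ofReal (fiK3 k n K2 Kp P Cb * κ' ^ (k + 1)) * E h X' :=
        mul_le_mul_left (ENNReal.ofReal_le_ofReal (fi_K3_mono k d n hd K2 Kp P Cb κ' hKp hP hC hκ)) _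

end chain

/-! ## 5. XF-A for fields of comparable scales (variant of `xa_core`, `xa_count` of helper212; index types depending on the field) -/

theorem xb_S_mono {C₁ b b' : ℝ} (h : b ≤ b') {w : ST k} (hw : w ∈ xaS (k := k) C₁ b) : w ∈ xaS (k := k) C₁ b' := ⟨hw.1, hw.2.trans h⟩

/-- **the count at large scales** (`C₃ Q ≤ N`), scales `N ≤ (A j).N`:   the square envelopes enter through `sq' j = ((A j).N / N)^{k+1} sq j`. -/
theorem xb_core (hmrl : XaMrlStmt k) (K : PCls) (P Cr Cw p : ℝ) (hρ : 0 ≤ K.ρ) (hP' : 0 ≤ K.P') (hP : P + (k : ℝ) + 1 < 2 * K.P')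
    (hCr : 0 < Cr) (hCw : 0 ≤ Cw) (hp : pk' k < p) (hp0 : 0 < p) :
    ∃ C M C₃ : ℝ, 0 < C ∧ 0 ≤ M ∧ 0 < C₃ ∧ ∀ (ι : Fin (k + 1) → Type) (A : ∀ j, PFam k (ι j)) (s : ∀ j, Finset (ι j)) (a : ∀ j, ι j → ℝ) (N Q : ℝ)
      (th : Fin (k + 1) → ℝ) (Y : Finset (ST k)) (wz : Fin (k + 1) → ST k → ST k) (z₀ : ST k), 1 ≤ N → (∀ j, N ≤ (A j).N) → (∀ j, (A j).In (s j) K (a j)) → 1 ≤ Q →
      (∀ lb : ∀ j, ι j, (∀ j, lb j ∈ s j) → Transv Q (fun j => (A j).v (lb j))) → USep Y → (∀ y ∈ Y, ‖y - z₀‖ ≤ Cr * N) → (∀ y ∈ Y, ∀ j, ‖wz j y - y‖ ≤ Cw) →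
      (∀ y ∈ Y, ∀ j, th j ≤ ‖(A j).fld (s j) (wz j y)‖) → (∀ j, 0 < th j) → C₃ * Q ≤ N →
      (Y.card : ℝ) ≤ C * Q ^ M * ∏ j, (N ^ (k : ℝ) * (((A j).N / N) ^ ((k : ℝ) + 1) * (A j).sq P (s j) (a j) z₀) / th j ^ 2) ^ (p / (2 * ((k : ℝ) + 1))) := by
  obtain ⟨Ct, C₂, hCt, hC₂, hthick⟩ := xa_thick (k := k) K P (Cr + Cw) hρ hP' hP (by linarith)
  have hC₀ : 0 ≤ |K.C₀| := abs_nonneg _
  set C₀ : ℝ := |K.C₀| with hC₀def
  set C₁ : ℝ := C₀ + C₂ with hC₁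
  set Cb : ℝ := C₂ * (1 + 2 * C₀ + C₂) with hCb
  have hCb0 : 0 ≤ Cb := by positivity
  set κ : ℝ := max C₁ (max (C₁ ^ 2) Cb) with hκ
  have h1 : C₁ ≤ κ := le_max_left _ _
  have h2 : C₁ ^ 2 ≤ κ := (le_max_left _ _).trans (le_max_right _ _)
  have h3 : Cb ≤ κ := (le_max_right _ _).trans (le_max_right _ _)
  have hκ0 : 0 ≤ κ := hCb0.trans h3
  have hρ₁ : 0 ≤ Cw + 1 / 2 := by positivity
  obtain ⟨Cm, Mm, hCm, hMm, hM⟩ := hmrl p C₁ hp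
  obtain ⟨c₀, hc₀, hint⟩ := pk_usep_int k
  have hD : ∑' α : XaW (XaL k), xaD (max (Cw + 1 / 2) (Cr + Cw)) α < ∞ := xa_words _ _ _ (Real.sqrt_nonneg _) (by norm_num)
  have hS := xa_S_fin (k := k) (ρ := max (Cw + 1 / 2) (Cr + Cw)) hκ0 hp0
  obtain ⟨C, hC, hreal⟩ := xa_real (k := k) (Mm := Mm) hc₀ hCm hCb0 hCt.le hp0 hD hS
  refine ⟨C, Mm, 2 * C₂, hC, hMm, by positivity, fun ι A s a N Q th Y wz z₀ hN hNj hcls hQ htrans hsep hball hnear hhigh hth hNQ => ?_⟩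
  have hN0 : 0 < N := by linarith
  have hNj0 : ∀ j, 0 < (A j).N := fun j => hN0.trans_le (hNj j)
  choose G θ hG hθ hsupp hV hI using fun j => hthick (ι j) (A j) (s j) (a j) z₀ (hcls j)
  have hnb : ∀ j w, G j w ≠ 0 → ∃ T ∈ s j, w ∈ xaS (k := k) C₁ (Cb / N) ∧ ‖w.1 - (A j).v T‖ ≤ C₂ / N := by
    intro j w hw
    obtain ⟨T, hT, hwT⟩ := hsupp j w hw
    obtain ⟨e1, e2⟩ := xa_nbhd (hcls j).one_le hC₂.le (((hcls j).freq T hT).trans (le_abs_self _)) hwT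
    exact ⟨T, hT, xb_S_mono (div_le_div_of_nonneg_left hCb0 hN0 (hNj j)) e1, e2.trans (div_le_div_of_nonneg_left hC₂.le hN0 (hNj j))⟩
  have htr : ∀ ξ : Fin (k + 1) → E k, (∀ j, ∃ τ, G j (ξ j, τ) ≠ 0) → Transv (2 * Q) ξ := by
    intro ξ hξ
    choose τ hτ using hξ
    choose T hT hT2 using fun j => hnb j _ (hτ j)
    refine xa_transv (r := C₂ / N) (by linarith) ?_ (htrans T hT) (fun j => (hT2 j).2)
    rw [mul_div_assoc', div_le_iff₀ hN0]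
    linarith
  have hsq : ∀ j, 0 ≤ (A j).sq P (s j) (a j) z₀ := fun j => pkw_sq_nonneg _ _ _ _ _
  have hsq' : ∀ j, 0 ≤ ((A j).N / N) ^ ((k : ℝ) + 1) * (A j).sq P (s j) (a j) z₀ := fun j =>
    mul_nonneg (Real.rpow_nonneg (div_nonneg (hNj0 j).le hN0.le) _) (hsq j)
  have hI' : ∀ j, ∫⁻ w, ‖G j w‖ₑ ^ (2 : ℝ) ≤ ENNReal.ofReal (Ct * N ^ ((k : ℝ) + 1) * (((A j).N / N) ^ ((k : ℝ) + 1) * (A j).sq P (s j) (a j) z₀)) := by
    intro j
    refine (hI j).trans (le_of_eq ?_)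
    congr 1
    rw [Real.div_rpow (hNj0 j).le hN0.le]
    have : 0 < N ^ ((k : ℝ) + 1) := Real.rpow_pos_of_pos hN0 _
    field_simp
  have main := xa_core_enn hM hp0 hint (N := N) (b := Cb / N) (κ := κ) (Q := 2 * Q) (ρ₁ := Cw + 1 / 2) (ρ₂ := Cr + Cw) hN (by positivity) h1 h2
    (by rw [mul_div_cancel₀ _ hN0.ne']; exact h3) (by linarith) hρ₁ z₀ G θ (fun j => (A j).fld (s j)) hG (fun j w hw => by
      obtain ⟨T, _, h, _⟩ := hnb j w hw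
      exact h) htr _ hI'
    (fun j z hz => hθ j z (hz.trans (mul_le_mul_of_nonneg_left (hNj j) (by linarith)))) hV Y hsep wz th
    (fun y hy j z hz => by
      have e : wz j y - z = (wz j y - y) - (z - y) := by abel
      rw [e]
      exact (norm_sub_le _ _).trans (add_le_add (hnear y hy j) hz))
    (fun y hy j => by
      have e : wz j y - z₀ = (wz j y - y) + (y - z₀) := by abel
      rw [e]
      refine (norm_add_le _ _).trans ?_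
      have := hnear y hy j
      have := hball y hy
      nlinarith)
    hhigh
  exact hreal Y.card N Q th (fun j => ((A j).N / N) ^ ((k : ℝ) + 1) * (A j).sq P (s j) (a j) z₀) hN hQ hth hsq' main

/-- **LEAF L-257-XB-ARITH** (~120 l., real numbers).   `xa_arith hk hε hN (U := √lam * U) th (fun j => (Nj j / N)^{k+1} * sq j)`:   its hypothesis: `N^{k/2} √((Nj/N)^{k+1} sq) = (Nj/N)^{1/2} Nj^{k/2} √sq ≤ √lam · (Nj^{k/2} √sq)`
(`Real.sqrt_mul`, `Real.sqrt_eq_rpow`, `← Real.rpow_mul`, `Real.div_rpow`, `← Real.rpow_add`; `Nj/N ≤ lam`).   Then `(√lam U)^ε = lam^{ε/2} U^ε` and `∏_j ((Nj/N)^{k+1} sq/th²)^{1/k} ≤ ∏_j (lam^{k+1})^{1/k} (sq/th²)^{1/k} = lam^{(k+1)²/k} ∏ …`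
(`Real.mul_rpow`, `Finset.prod_mul_distrib`, `Finset.prod_const`, `Finset.card_univ`, `Fintype.card_fin`, `← Real.rpow_natCast`, `← Real.rpow_mul`, `← Real.rpow_add`). -/
theorem xb_arith (hk : 1 ≤ k) {ε N U lam : ℝ} (hε : 0 ≤ ε) (hN : 0 < N) (hU : 1 ≤ U) (hlam : 1 ≤ lam) (Nj th sq : Fin (k + 1) → ℝ) (hNj : ∀ j, N ≤ Nj j ∧ Nj j ≤ lam * N)
    (hth : ∀ j, 0 < th j) (hsq : ∀ j, 0 ≤ sq j) (hX : ∀ j, Nj j ^ ((k : ℝ) / 2) * Real.sqrt (sq j) / th j ≤ U) :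
    ∏ j, (N ^ (k : ℝ) * ((Nj j / N) ^ ((k : ℝ) + 1) * sq j) / th j ^ 2) ^ ((pk' k + ε) / (2 * ((k : ℝ) + 1)))
      ≤ lam ^ (ε / 2 + ((k : ℝ) + 1) ^ 2 / k) * U ^ ε * N ^ ((k : ℝ) + 1) * ∏ j, (sq j / th j ^ 2) ^ (1 / (k : ℝ)) := by
  have hk0 : (0 : ℝ) < (k : ℝ) := by exact_mod_cast hk
  have hk1 : (0 : ℝ) < (k : ℝ) + 1 := by positivity
  have hlam0 : 0 < lam := by linarith
  have hU0 : 0 < U := by linarith
  have hsl : 1 ≤ Real.sqrt lam := by rw [Real.one_le_sqrt]; exact hlam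
  have hr : ∀ j, 1 ≤ Nj j / N ∧ Nj j / N ≤ lam := fun j =>
    ⟨by rw [le_div_iff₀ hN]; linarith [(hNj j).1], by rw [div_le_iff₀ hN]; exact (hNj j).2⟩
  have hX' : ∀ j, N ^ ((k : ℝ) / 2) * Real.sqrt ((Nj j / N) ^ ((k : ℝ) + 1) * sq j) / th j ≤ Real.sqrt lam * U := by
    intro j
    obtain ⟨h1, h2⟩ := hr j
    have hq0 : 0 < Nj j / N := by linarith
    have hNj0 : 0 < Nj j := by linarith [(hNj j).1]
    have hj := hth j
    have e1 : Real.sqrt ((Nj j / N) ^ ((k : ℝ) + 1) * sq j) = (Nj j / N) ^ ((k : ℝ) / 2) * Real.sqrt (Nj j / N) * Real.sqrt (sq j) := by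
      rw [Real.sqrt_mul (by positivity)]
      congr 1
      rw [Real.sqrt_eq_rpow, Real.sqrt_eq_rpow, ← Real.rpow_mul hq0.le, ← Real.rpow_add hq0]
      congr 1
      ring
    have e2 : N ^ ((k : ℝ) / 2) * (Nj j / N) ^ ((k : ℝ) / 2) = Nj j ^ ((k : ℝ) / 2) := by
      rw [← Real.mul_rpow hN.le hq0.le]
      congr 1
      field_simp
    calc N ^ ((k : ℝ) / 2) * Real.sqrt ((Nj j / N) ^ ((k : ℝ) + 1) * sq j) / th j
        = Real.sqrt (Nj j / N) * (Nj j ^ ((k : ℝ) / 2) * Real.sqrt (sq j) / th j) := by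
          rw [e1, ← e2]
          ring
      _ ≤ Real.sqrt lam * U := mul_le_mul (Real.sqrt_le_sqrt h2) (hX j) (by positivity) (Real.sqrt_nonneg _)
  have main := xa_arith hk hε hN (U := Real.sqrt lam * U) (by nlinarith) th (fun j => (Nj j / N) ^ ((k : ℝ) + 1) * sq j) hth
    (fun j => mul_nonneg (Real.rpow_nonneg (by have := (hr j).1; linarith) _) (hsq j)) hX'
  refine main.trans ?_
  have e3 : (Real.sqrt lam * U) ^ ε = lam ^ (ε / 2) * U ^ ε := by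
    rw [Real.mul_rpow (Real.sqrt_nonneg _) hU0.le, Real.sqrt_eq_rpow, ← Real.rpow_mul hlam0.le]
    congr 2
    ring
  have hprod : ∏ j, ((Nj j / N) ^ ((k : ℝ) + 1) * sq j / th j ^ 2) ^ (1 / (k : ℝ))
      ≤ lam ^ (((k : ℝ) + 1) ^ 2 / k) * ∏ j, (sq j / th j ^ 2) ^ (1 / (k : ℝ)) := by
    have hterm : ∀ j, ((Nj j / N) ^ ((k : ℝ) + 1) * sq j / th j ^ 2) ^ (1 / (k : ℝ))
        ≤ lam ^ (((k : ℝ) + 1) / k) * (sq j / th j ^ 2) ^ (1 / (k : ℝ)) := by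
      intro j
      obtain ⟨h1, h2⟩ := hr j
      have hq0 : 0 < Nj j / N := by linarith
      have hj := hth j
      rw [mul_div_assoc, Real.mul_rpow (by positivity) (div_nonneg (hsq j) (by positivity)), ← Real.rpow_mul hq0.le]
      apply mul_le_mul_of_nonneg_right _ (Real.rpow_nonneg (div_nonneg (hsq j) (by positivity)) _)
      have : ((k : ℝ) + 1) * (1 / (k : ℝ)) = ((k : ℝ) + 1) / k := by ring
      rw [this]
      exact Real.rpow_le_rpow hq0.le h2 (by positivity)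
    calc _ ≤ ∏ j, (lam ^ (((k : ℝ) + 1) / k) * (sq j / th j ^ 2) ^ (1 / (k : ℝ))) :=
          Finset.prod_le_prod (fun j _ => Real.rpow_nonneg (div_nonneg (mul_nonneg (Real.rpow_nonneg (by have := (hr j).1; linarith) _) (hsq j))
            (by have := hth j; positivity)) _) (fun j _ => hterm j)
      _ = _ := by
          rw [Finset.prod_mul_distrib, Finset.prod_const, Finset.card_univ, Fintype.card_fin, ← Real.rpow_natCast, ← Real.rpow_mul hlam0.le]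
          congr 2
          push_cast
          field_simp
  rw [e3]
  calc lam ^ (ε / 2) * U ^ ε * N ^ ((k : ℝ) + 1) * ∏ j, ((Nj j / N) ^ ((k : ℝ) + 1) * sq j / th j ^ 2) ^ (1 / (k : ℝ))
      ≤ lam ^ (ε / 2) * U ^ ε * N ^ ((k : ℝ) + 1) * (lam ^ (((k : ℝ) + 1) ^ 2 / k) * ∏ j, (sq j / th j ^ 2) ^ (1 / (k : ℝ))) :=
        mul_le_mul_of_nonneg_left hprod (by positivity)
    _ = _ := by
        rw [Real.rpow_add hlam0]
        ring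

/-- **the local multilinear count for fields of comparable scales** -/
theorem xb_count (hk : 1 ≤ k) (hmrl : XaMrlStmt k) (K : PCls) (P Cr Cw ε : ℝ) (hρ : 0 ≤ K.ρ) (hP' : 0 ≤ K.P') (hP : P + (k : ℝ) + 1 < 2 * K.P')
    (hCr : 0 < Cr) (hCw : 0 ≤ Cw) (hε : 0 < ε) :
    ∃ C M C₃ : ℝ, 0 < C ∧ 0 ≤ M ∧ 0 < C₃ ∧ ∀ (ι : Fin (k + 1) → Type) (A : ∀ j, PFam k (ι j)) (s : ∀ j, Finset (ι j)) (a : ∀ j, ι j → ℝ) (N Q U lam : ℝ)
      (th : Fin (k + 1) → ℝ) (Y : Finset (ST k)) (wz : Fin (k + 1) → ST k → ST k) (z₀ : ST k), 1 ≤ N → 1 ≤ lam → (∀ j, N ≤ (A j).N ∧ (A j).N ≤ lam * N) → (∀ j, (A j).In (s j) K (a j)) → 1 ≤ Q →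
      (∀ lb : ∀ j, ι j, (∀ j, lb j ∈ s j) → Transv Q (fun j => (A j).v (lb j))) → USep Y → (∀ y ∈ Y, ‖y - z₀‖ ≤ Cr * N) → (∀ y ∈ Y, ∀ j, ‖wz j y - y‖ ≤ Cw) →
      (∀ y ∈ Y, ∀ j, th j ≤ ‖(A j).fld (s j) (wz j y)‖) → (∀ j, 0 < th j) → C₃ * Q ≤ N → 1 ≤ U →
      (∀ j, (A j).N ^ ((k : ℝ) / 2) * Real.sqrt ((A j).sq P (s j) (a j) z₀) / th j ≤ U) →
      (Y.card : ℝ) ≤ C * Q ^ M * lam ^ (ε / 2 + ((k : ℝ) + 1) ^ 2 / k) * U ^ ε * N ^ ((k : ℝ) + 1) * ∏ j, ((A j).sq P (s j) (a j) z₀ / th j ^ 2) ^ (1 / (k : ℝ)) := by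
  have hk0 : (0 : ℝ) < (k : ℝ) := by exact_mod_cast hk
  have hpk : 0 < pk' k := by unfold pk'; positivity
  obtain ⟨C, M, C₃, hC, hM, hC₃, hcore⟩ := xb_core hmrl K P Cr Cw (pk' k + ε) hρ hP' hP hCr hCw (by linarith) (by linarith)
  refine ⟨C, M, C₃, hC, hM, hC₃, fun ι A s a N Q U lam th Y wz z₀ hN hlam hNj hcls hQ htr hsep hball hnear hhigh hth hNQ hU hX => ?_⟩
  have h1 := hcore ι A s a N Q th Y wz z₀ hN (fun j => (hNj j).1) hcls hQ htr hsep hball hnear hhigh hth hNQ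
  have h2 := xb_arith hk hε.le (by linarith : 0 < N) hU hlam (fun j => (A j).N) th (fun j => (A j).sq P (s j) (a j) z₀) hNj hth (fun j => pkw_sq_nonneg _ _ _ _ _) hX
  calc (Y.card : ℝ) ≤ _ := h1
    _ ≤ C * Q ^ M * (lam ^ (ε / 2 + ((k : ℝ) + 1) ^ 2 / k) * U ^ ε * N ^ ((k : ℝ) + 1) * ∏ j, ((A j).sq P (s j) (a j) z₀ / th j ^ 2) ^ (1 / (k : ℝ))) :=
        mul_le_mul_of_nonneg_left h2 (by positivity)
    _ = _ := by ring

/-- the count in index form: points `pos y`, witnesses `wz j y`, `y ∈ Y : Finset ι₀` -/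
theorem xb_count_ix (hk : 1 ≤ k) (hmrl : XaMrlStmt k) (K : PCls) (P Cr Cw ε : ℝ) (hρ : 0 ≤ K.ρ) (hP' : 0 ≤ K.P') (hP : P + (k : ℝ) + 1 < 2 * K.P')
    (hCr : 0 < Cr) (hCw : 0 ≤ Cw) (hε : 0 < ε) :
    ∃ C M C₃ : ℝ, 0 < C ∧ 0 ≤ M ∧ 0 < C₃ ∧ ∀ (ι : Fin (k + 1) → Type) (A : ∀ j, PFam k (ι j)) (s : ∀ j, Finset (ι j)) (a : ∀ j, ι j → ℝ) (N Q U lam : ℝ)
      (th : Fin (k + 1) → ℝ) (ι₀ : Type) (Y : Finset ι₀) (pos : ι₀ → ST k) (wz : Fin (k + 1) → ι₀ → ST k) (z₀ : ST k), 1 ≤ N → 1 ≤ lam → (∀ j, N ≤ (A j).N ∧ (A j).N ≤ lam * N) →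
      (∀ j, (A j).In (s j) K (a j)) → 1 ≤ Q → (∀ lb : ∀ j, ι j, (∀ j, lb j ∈ s j) → Transv Q (fun j => (A j).v (lb j))) →
      (∀ y ∈ Y, ∀ y' ∈ Y, y ≠ y' → 1 ≤ ‖pos y - pos y'‖) → (∀ y ∈ Y, ‖pos y - z₀‖ ≤ Cr * N) → (∀ y ∈ Y, ∀ j, ‖wz j y - pos y‖ ≤ Cw) →
      (∀ y ∈ Y, ∀ j, th j ≤ ‖(A j).fld (s j) (wz j y)‖) → (∀ j, 0 < th j) → C₃ * Q ≤ N → 1 ≤ U →
      (∀ j, (A j).N ^ ((k : ℝ) / 2) * Real.sqrt ((A j).sq P (s j) (a j) z₀) / th j ≤ U) →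
      (Y.card : ℝ) ≤ C * Q ^ M * lam ^ (ε / 2 + ((k : ℝ) + 1) ^ 2 / k) * U ^ ε * N ^ ((k : ℝ) + 1) * ∏ j, ((A j).sq P (s j) (a j) z₀ / th j ^ 2) ^ (1 / (k : ℝ)) := by
  obtain ⟨C, M, C₃, hC, hM, hC₃, H⟩ := xb_count hk hmrl K P Cr Cw ε hρ hP' hP hCr hCw hε
  refine ⟨C, M, C₃, hC, hM, hC₃, fun ι A s a N Q U lam th ι₀ Y pos wz z₀ hN hlam hNj hcls hQ htr hsep hball hnear hhigh hth hNQ hU hX => ?_⟩
  have hinj : Set.InjOn pos (Y : Set ι₀) := by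
    intro y hy y' hy' e
    by_contra hne
    have := hsep y hy y' hy' hne
    rw [e, sub_self, norm_zero] at this
    linarith
  set wz' : Fin (k + 1) → ST k → ST k := fun j z => if h : ∃ y ∈ Y, pos y = z then wz j h.choose else z with hwz'
  have hw : ∀ y ∈ Y, ∀ j, wz' j (pos y) = wz j y := by
    intro y hy j
    have hex : ∃ y' ∈ Y, pos y' = pos y := ⟨y, hy, rfl⟩
    have e : hex.choose = y := hinj hex.choose_spec.1 hy hex.choose_spec.2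
    simp only [hwz', dif_pos hex, e]
  have key := H ι A s a N Q U lam th (Y.image pos) wz' z₀ hN hlam hNj hcls hQ htr
    (by
      intro z hz z' hz' hne
      obtain ⟨y, hy, rfl⟩ := Finset.mem_image.1 hz
      obtain ⟨y', hy', rfl⟩ := Finset.mem_image.1 hz'
      exact hsep y hy y' hy' fun e => hne (by rw [e]))
    (by
      intro z hz
      obtain ⟨y, hy, rfl⟩ := Finset.mem_image.1 hz
      exact hball y hy)
    (by
      intro z hz j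
      obtain ⟨y, hy, rfl⟩ := Finset.mem_image.1 hz
      rw [hw y hy j]
      exact hnear y hy j)
    (by
      intro z hz j
      obtain ⟨y, hy, rfl⟩ := Finset.mem_image.1 hz
      rw [hw y hy j]
      exact hhigh y hy j)
    hth hNQ hU hX
  rwa [Finset.card_image_of_injOn hinj] at key

/-! ## 6. the concrete trees -/

variable {c : TCls k}

/-- the exponent of all the losses in `lam` (orders only) -/
def xbExp (k : ℕ) (Q : ℝ) : ℝ := 1 + 2 * ((k : ℝ) + 1) * ((k : ℝ) + 1 + Q) / k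

/-- the bound of the labels of all the heights `≤ ℓ` -/
def xbB (c : TCls k) : ℝ := ((c.ℓ : ℝ) + 1) * c.Cc

/-- the local square envelope `𝓔_h(z) = ∑_{T ∈ S h} am_T² (1 + |X_T z|)^{-Q}` of the selected outputs of height `h` -/
def xbE (D : TDat c) (S : ∀ i, Finset (D.Cl i)) (h : ℕ) (z : ST k) : ℝ := D.fiE 1 0 c.Q h (S h) (D.sys.am S h) z

theorem xb_E_eq (D : TDat c) (S : ∀ i, Finset (D.Cl i)) (h : ℕ) (z : ST k) :
    xbE D S h z = xbEnv c.Q (D.κ h) (S h) (fun T => D.fr h T.1.1) (fun T => lat T.1.2) (fun T => D.sys.am S h T ^ 2) z := by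
  unfold xbE TDat.fiE TDat.fiW xbEnv
  simp only [div_one, one_smul, sub_zero]

theorem xb_E_nonneg (D : TDat c) (S : ∀ i, Finset (D.Cl i)) (h : ℕ) (z : ST k) : 0 ≤ xbE D S h z := fi_E_nonneg D 1 0 c.Q h _ _ z

theorem xb_anc_aux (hc : c.Ok) (D : TDat c) (hD : D.Good) : ∀ (d h : ℕ), h + d = c.ℓ → ∀ v : D.Lb h,
    ∃ w : D.Lb c.ℓ, ‖D.fr h v - D.fr c.ℓ w‖ ≤ d * c.Cc / D.κ c.ℓ := by
  have hCc : 0 ≤ c.Cc := by linarith [hc.one_le_Cc]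
  have hκ : 0 < D.κ c.ℓ := lt_of_lt_of_le one_pos (hD.one_le_κ _)
  intro d
  induction d with
  | zero =>
    intro h hh v
    have hh' : h = c.ℓ := by omega
    subst hh'
    exact ⟨v, by simp⟩
  | succ d ih =>
    intro h hh v
    obtain ⟨w, hw⟩ := ih (h + 1) (by omega) (D.par h v)
    refine ⟨w, ?_⟩
    have h1 := hD.par_near h v
    have h2 : c.Cc / D.κ (h + 1) ≤ c.Cc / D.κ c.ℓ := div_le_div_of_nonneg_left hCc hκ (ti_kappa_anti D hD (by omega))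
    have e : D.fr h v - D.fr c.ℓ w = (D.fr h v - D.fr (h + 1) (D.par h v)) + (D.fr (h + 1) (D.par h v) - D.fr c.ℓ w) := by abel
    rw [e]
    refine (norm_add_le _ _).trans ?_
    have e2 : ((d + 1 : ℕ) : ℝ) * c.Cc / D.κ c.ℓ = c.Cc / D.κ c.ℓ + d * c.Cc / D.κ c.ℓ := by
      push_cast
      ring
    rw [e2]
    linarith

/-- **LEAF L-257-XB-ANC** (~50 l.): every label has an ancestor in the coarsest layer.   PLAN: `∀ d h, h + d = c.ℓ → ∀ v : D.Lb h, ∃ w : D.Lb c.ℓ, ‖fr h v - fr ℓ w‖ ≤ d * Cc / κ ℓ` by induction on `d` (`d = 0`: `subst`, `w = v`; step: the ancestor of `par h v`, triangle inequality,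
`hD.par_near h v : … ≤ Cc / κ (h+1) ≤ Cc / κ ℓ` by `TDat.κ_le`/`ti_kappa_anti`, `div_le_div_of_nonneg_left`).   `d ≤ ℓ`. -/
theorem xb_anc (hc : c.Ok) (D : TDat c) (hD : D.Good) (h : ℕ) (hh : h ≤ c.ℓ) (v : D.Lb h) : ∃ w : D.Lb c.ℓ, ‖D.fr h v - D.fr c.ℓ w‖ ≤ c.ℓ * c.Cc / D.κ c.ℓ := by
  obtain ⟨w, hw⟩ := xb_anc_aux hc D hD (c.ℓ - h) h (by omega) v
  refine ⟨w, hw.trans ?_⟩
  have hCc : 0 ≤ c.Cc := by linarith [hc.one_le_Cc]
  have hκ : 0 < D.κ c.ℓ := lt_of_lt_of_le one_pos (hD.one_le_κ _)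
  have hd : ((c.ℓ - h : ℕ) : ℝ) ≤ (c.ℓ : ℝ) := by exact_mod_cast Nat.sub_le _ _
  exact div_le_div_of_nonneg_right (mul_le_mul_of_nonneg_right hd hCc) hκ.le

theorem xb_lab (hc : c.Ok) (D : TDat c) (hD : D.Good) (h : ℕ) (hh : h ≤ c.ℓ) (v : D.Lb h) : ‖D.fr h v‖ ≤ xbB c := by
  obtain ⟨w, hw⟩ := xb_anc hc D hD h hh v
  have h1 := hD.top_bdd w
  have h2 := hD.one_le_κ c.ℓ
  have hCc : 0 ≤ c.Cc := by linarith [hc.one_le_Cc]
  have h3 : (c.ℓ : ℝ) * c.Cc / D.κ c.ℓ ≤ c.ℓ * c.Cc := div_le_self (by positivity) h2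
  have e : D.fr h v = (D.fr h v - D.fr c.ℓ w) + D.fr c.ℓ w := by abel
  rw [e]
  refine (norm_add_le _ _).trans ?_
  unfold xbB
  linarith

theorem xb_B_nonneg (hc : c.Ok) : 0 ≤ xbB c := by
  have := hc.one_le_Cc
  unfold xbB
  positivity

/-- the chain of the envelopes of one tree -/
theorem xb_tree_ch (hc : c.Ok) {K2 : ℝ} (hK2 : 0 ≤ K2) (hL2 : FiL2At c c.Q (xbB c) K2) (D : TDat c) (hD : D.Good) (p : TPar) (hO : D.sys.Ok p) (S : ∀ i, Finset (D.Cl i)) :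
    XbCh D.κ (fun h X => ENNReal.ofReal (xbE D S h X)) 0 c.ℓ K2 ((1 + 2 * xbB c) ^ c.Q) c.Q where
  K2_nonneg := hK2
  Kp_nonneg := Real.rpow_nonneg (by have := xb_B_nonneg hc; positivity) _
  P_nonneg := by linarith [hc.P_gt, hc.P_lt, (Nat.cast_nonneg k : (0 : ℝ) ≤ k)]
  κ_pos := fun h => lt_of_lt_of_le one_pos (hD.one_le_κ h)
  κ_anti := hD.κ_anti
  l2 := by
    intro h _ ht cc X' hX
    have := fi_env_l2 hL2 D hD p hO S h ht 1 0 one_pos (hD.one_le_κ _) (fun _ => True)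
      (fun T' _ _ => by rw [sub_zero, div_one]; exact xb_lab hc D hD h (by omega) _) cc X' (by rwa [div_one])
    simp only [div_one, Finset.filter_true] at this
    exact this
  peetre := by
    intro h _ ht X X'
    have hQ : 0 ≤ c.Q := by linarith [hc.P_gt, hc.P_lt, (Nat.cast_nonneg k : (0 : ℝ) ≤ k)]
    have := fi_E_peetre D (K0 := 1) (A := c.Q) (B := xbB c) 0 hQ (xb_B_nonneg hc) h (by rw [div_one]; exact hD.one_le_κ h) (S h) (D.sys.am S h)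
      (fun T _ => by rw [one_smul, sub_zero]; exact xb_lab hc D hD h ht _) X X'
    rw [div_one] at this
    rw [← ENNReal.ofReal_mul (by have := xb_B_nonneg hc; have := hD.one_le_κ h; positivity)]
    exact ENNReal.ofReal_le_ofReal this

/-- **the `L²` fact over the skipped masks, one field** -/
theorem xb_tree_l2 (hc : c.Ok) {K2 : ℝ} (hK2 : 0 ≤ K2) (hL2 : FiL2At c c.Q (xbB c) K2) {Cb : ℝ} (hCb : 0 ≤ Cb) :
    ∃ K3 : ℝ, 0 ≤ K3 ∧ ∀ (D : TDat c), D.Good → ∀ (p : TPar), D.sys.Ok p → ∀ (S : ∀ i, Finset (D.Cl i)) (b a : ℕ), b ≤ a → a ≤ c.ℓ → ∀ z₀ X' : ST k, ‖X' - z₀‖ ≤ D.κ b →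
      ∫⁻ z in closedBall z₀ (Cb * D.κ b), ENNReal.ofReal (xbE D S a z) ≤ ENNReal.ofReal (K3 * D.κ b ^ (k + 1) * xbE D S b X') := by
  have hB := xb_B_nonneg hc
  have hKp : 0 ≤ (1 + 2 * xbB c) ^ c.Q := Real.rpow_nonneg (by positivity) _
  have hK3 : 0 ≤ fiK3 k c.ℓ K2 ((1 + 2 * xbB c) ^ c.Q) c.Q Cb := by
    have hM0 : (0 : ℝ) ≤ max 1 (fiK2 k K2) := le_trans zero_le_one (le_max_left _ _)
    have hA0 : 0 ≤ (2 + ((k : ℝ) + 1) * (Cb + c.ℓ)) ^ c.Q := Real.rpow_nonneg (by positivity) _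
    unfold fiK3
    positivity
  refine ⟨_, hK3, fun D hD p hO S b a hba ha z₀ X' hX => ?_⟩
  have h := xb_ch_avg (xb_tree_ch hc hK2 hL2 D hD p hO S) hCb b (Nat.zero_le _) (a - b) c.ℓ (by omega) (by omega) z₀ X' hX
  have e : b + (a - b) = a := by omega
  rw [e] at h
  have hκ : 0 < D.κ b := lt_of_lt_of_le one_pos (hD.one_le_κ b)
  rwa [← ENNReal.ofReal_mul (by positivity)] at h

/-- the packet family of the layer `h` (profiles `F`) -/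
def xbFam (D : TDat c) (h : ℕ) (F : D.Cl h → ST k → ℂ) : PFam k (D.Cl h) := ⟨D.κ h, fun T => D.fr h T.1.1, fun T => lat T.1.2, F⟩

/-- the packet class of all the layers -/
def xbK (c : TCls k) : PCls := ⟨c.ρ c.ℓ, c.M, xbB c, 5 ^ (k + 1) * ⌊c.Cm⌋₊⟩

/-- **LEAF L-257-XB-IN** (~120 l.): a layer of a concrete tree is a family of the packet class.   PLAN: `pkw_tree_in (hD.one_le_κ h) (D.fr h) (hD.mult h) (s.image Subtype.val) a' f' _ _` (`PK1/WTree.lean`, PROVED) with `a' T = if h : T ∈ D.W _ then a ⟨T, h⟩ else 0`, `f'` likewise (as in `ti_nc_top`, `Tree/Root.lean`),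
`ρ = c.ρ c.ℓ` (`ti_pk_mono_rho`, `ti_h1_rho_mono hc hh`), `Cc = xbB c` (`xb_lab`).   It gives `F'` on `D.Lb h × Lat k`; put `F T = F' T.1`.   `one_le`, `fs`, `decay`, `freq`: the same statements at `T.1 ∈ s.image val` (`Finset.mem_image_of_mem`, `dif_pos T.2`, `Subtype.coe_eta`);
`mult`: for `t ⊆ s` apply the field `mult` to `t.image Subtype.val` (`Finset.card_image_of_injective _ Subtype.val_injective`, `Finset.image_subset_image`). -/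
theorem xb_tree_in (hc : c.Ok) (D : TDat c) (hD : D.Good) (h : ℕ) (hh : h ≤ c.ℓ) (g : D.Cl h → (ST k →ᵇ ℂ)) (a : D.Cl h → ℝ) (hA : D.Adm h g a) (s : Finset (D.Cl h)) :
    ∃ F : D.Cl h → ST k → ℂ, (xbFam D h F).In s (xbK c) a ∧ ∀ T ∈ s, ∀ z, (xbFam D h F).pk T z = g T z := by
  have hmono : Monotone c.ρ := monotone_nat_of_le_succ fun i => by
    have h1 := hc.ρ_step i
    have h2 := hc.ρ_nonneg i
    have h3 := hc.one_le_Cc
    have h4 := hc.ρχ_nonneg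
    nlinarith
  obtain ⟨a', ha'⟩ : ∃ a' : D.Lb h × Lat k → ℝ, ∀ T : D.Cl h, a' T.1 = a T :=
    ⟨fun T => if hT : T ∈ D.W h then a ⟨T, hT⟩ else 0, fun T => by simp only [dif_pos T.2, Subtype.coe_eta]⟩
  obtain ⟨f', hf'⟩ : ∃ f' : D.Lb h × Lat k → ST k → ℂ, ∀ T : D.Cl h, f' T.1 = g T :=
    ⟨fun T => if hT : T ∈ D.W h then g ⟨T, hT⟩ else 0, fun T => by simp only [dif_pos T.2, Subtype.coe_eta]⟩
  obtain ⟨F', hIn, hpk⟩ := pkw_tree_in (ρ := c.ρ c.ℓ) (Cc := xbB c) (Cm := c.Cm) (M := c.M) (hD.one_le_κ h) (D.fr h) (hD.mult h)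
    (s.image Subtype.val) a' f' (fun T _ => xb_lab hc D hD h hh T.1) (fun T hT => by
      obtain ⟨T0, _, rfl⟩ := Finset.mem_image.1 hT
      rw [ha', hf']
      exact ti_pk_mono_rho (hA T0) (hmono hh))
  refine ⟨fun T => F' T.1, ⟨hIn.one_le, fun T hT => hIn.fs T.1 (Finset.mem_image_of_mem _ hT), fun T hT X => ?_,
    fun T hT => hIn.freq T.1 (Finset.mem_image_of_mem _ hT), fun ξ y τ t ht hcond => ?_⟩, fun T hT z => ?_⟩
  · have := hIn.decay T.1 (Finset.mem_image_of_mem _ hT) X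
    rw [ha'] at this
    exact this
  · have := hIn.mult ξ y τ (t.image Subtype.val) (Finset.image_subset_image ht) (fun T hT => by
      obtain ⟨T0, hT0, rfl⟩ := Finset.mem_image.1 hT
      exact hcond T0 hT0)
    rwa [Finset.card_image_of_injective _ Subtype.val_injective] at this
  · have := hpk T.1 (Finset.mem_image_of_mem _ hT) z
    rw [hf'] at this
    exact this

/-- the family of the tree with the masks `S` at the height `h` (as bounded continuous functions) -/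
def xbFld (D : TDat c) (S : ∀ i, Finset (D.Cl i)) (h : ℕ) : D.Cl h → (ST k →ᵇ ℂ) := D.sys.fld S h

theorem xb_sq_eq (D : TDat c) (S : ∀ i, Finset (D.Cl i)) (h : ℕ) (F : D.Cl h → ST k → ℂ) (z : ST k) : (xbFam D h F).sq c.Q (S h) (D.sys.am S h) z = xbE D S h z := by
  rw [xb_E_eq]
  rfl

/-- **XF-A at every centre `x`, in the language of the trees** -/
theorem xb_tree_pt (hk : 1 ≤ k) (hmrl : XaMrlStmt k) (hc : c.Ok) (Cw ε : ℝ) (hCw : 0 ≤ Cw) (hε : 0 < ε) :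
    ∃ C M C₃ : ℝ, 0 < C ∧ 0 ≤ M ∧ 0 < C₃ ∧ ∀ (D : Fin (k + 1) → TDat c) (p : Fin (k + 1) → TPar) (S : ∀ j i, Finset ((D j).Cl i)), (∀ j, (D j).Good) → (∀ j, (D j).sys.Ok (p j)) →
      ∀ (a : Fin (k + 1) → ℕ) (N lam Q U : ℝ) (th : Fin (k + 1) → ℝ), (∀ j, a j ≤ c.ℓ) → 1 ≤ N → 1 ≤ lam → 1 ≤ Q → 1 ≤ U → (∀ j, 0 < th j) →
      (∀ j, N ≤ (D j).κ (a j) ∧ (D j).κ (a j) ≤ lam * N) → C₃ * Q ≤ N → (∀ lb : ∀ j, (D j).Lb (a j), Transv Q (fun j => (D j).fr (a j) (lb j))) →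
      ∀ (ι₀ : Type) (Y : Finset ι₀) (pos : ι₀ → ST k) (wz : Fin (k + 1) → ι₀ → ST k),
      (∀ y ∈ Y, ∀ y' ∈ Y, y ≠ y' → 1 ≤ ‖pos y - pos y'‖) → (∀ y ∈ Y, ∀ j, ‖wz j y - pos y‖ ≤ Cw) →
      (∀ y ∈ Y, ∀ j, th j ≤ ‖∑ T ∈ S j (a j), xbFld (D j) (S j) (a j) T (wz j y)‖) →
      (∀ y ∈ Y, ∀ j, (D j).κ (a j) ^ ((k : ℝ) / 2) * Real.sqrt (xbE (D j) (S j) (a j) (wz j y)) / th j ≤ U) →
      ∀ x : ST k, ((Y.filter fun y => ‖pos y - x‖ ≤ N).card : ℝ)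
        ≤ C * Q ^ M * lam ^ (ε / 2 + ((k : ℝ) + 1) ^ 2 / k) * U ^ ε * N ^ ((k : ℝ) + 1) * ∏ j, (xbE (D j) (S j) (a j) x / th j ^ 2) ^ (1 / (k : ℝ)) := by
  have hB := xb_B_nonneg hc
  have hk0 : (0 : ℝ) ≤ k := Nat.cast_nonneg k
  have hQ0 : 0 ≤ c.Q := by linarith [hc.P_gt, hc.P_lt]
  obtain ⟨C, M, C₃, hC, hM, hC₃, H⟩ := xb_count_ix hk hmrl (xbK c) c.Q 1 Cw ε (hc.ρ_nonneg _) (by show 0 ≤ c.M; linarith [hc.M_gt])
    (by show c.Q + (k : ℝ) + 1 < 2 * c.M; linarith [hc.M_gt]) one_pos hCw hε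
  set Cpe : ℝ := (1 + (1 + 2 * xbB c) * (Cw + 1)) ^ c.Q with hCpe
  have hCpe1 : 1 ≤ Cpe := Real.one_le_rpow (by nlinarith) hQ0
  refine ⟨C * Real.sqrt Cpe ^ ε, M, C₃, by positivity, hM, hC₃, ?_⟩
  intro D p S hD hO a N lam Q U th ha hN hlam hQ hU hth hNj hNQ htr ι₀ Y pos wz hsep hnear hhigh hUb x
  have hN0 : 0 < N := by linarith
  have hE0 : ∀ j z, 0 ≤ xbE (D j) (S j) (a j) z := fun j z => xb_E_nonneg _ _ _ _
  have hprod0 : 0 ≤ ∏ j, (xbE (D j) (S j) (a j) x / th j ^ 2) ^ (1 / (k : ℝ)) :=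
    Finset.prod_nonneg fun j _ => Real.rpow_nonneg (div_nonneg (hE0 j x) (by have := hth j; positivity)) _
  rcases (Y.filter fun y => ‖pos y - x‖ ≤ N).eq_empty_or_nonempty with he | ⟨y₁, hy₁⟩
  · rw [he, Finset.card_empty, Nat.cast_zero]
    positivity
  obtain ⟨hy₁Y, hy₁x⟩ := Finset.mem_filter.1 hy₁
  choose F hIn hpk using fun j => xb_tree_in hc (D j) (hD j) (a j) (ha j) (xbFld (D j) (S j) (a j)) ((D j).sys.am (S j) (a j)) (TSys.tpf_adm (hO j) (S j) (a j) (ha j)) (S j (a j))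
  have hUx : ∀ j, (xbFam (D j) (a j) (F j)).N ^ ((k : ℝ) / 2) * Real.sqrt ((xbFam (D j) (a j) (F j)).sq c.Q (S j (a j)) ((D j).sys.am (S j) (a j)) x) / th j ≤ Real.sqrt Cpe * U := by
    intro j
    have hκ : 0 < (D j).κ (a j) := hN0.trans_le (hNj j).1
    have h1 := (hIn j).sq_peetre hQ0 ((D j).sys.am (S j) (a j)) x (wz j y₁)
    rw [xb_sq_eq, xb_sq_eq] at h1
    have h2 : ‖wz j y₁ - x‖ ≤ (Cw + 1) * (D j).κ (a j) := by
      have e : wz j y₁ - x = (wz j y₁ - pos y₁) + (pos y₁ - x) := by abel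
      rw [e]
      refine (norm_add_le _ _).trans ?_
      have := hnear y₁ hy₁Y j
      have := (hNj j).1
      nlinarith
    have h3 : (1 + (1 + 2 * xbB c) * ‖wz j y₁ - x‖ / (D j).κ (a j)) ^ c.Q ≤ Cpe := by
      refine Real.rpow_le_rpow (by positivity) ?_ hQ0
      have : (1 + 2 * xbB c) * ‖wz j y₁ - x‖ / (D j).κ (a j) ≤ (1 + 2 * xbB c) * (Cw + 1) := by
        rw [div_le_iff₀ hκ, mul_assoc]
        exact mul_le_mul_of_nonneg_left h2 (by positivity)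
      linarith
    have h4 : xbE (D j) (S j) (a j) x ≤ Cpe * xbE (D j) (S j) (a j) (wz j y₁) := h1.trans (mul_le_mul_of_nonneg_right h3 (hE0 j _))
    rw [xb_sq_eq]
    have h5 : Real.sqrt (xbE (D j) (S j) (a j) x) ≤ Real.sqrt Cpe * Real.sqrt (xbE (D j) (S j) (a j) (wz j y₁)) := by
      rw [← Real.sqrt_mul (by linarith)]
      exact Real.sqrt_le_sqrt h4
    have h6 := hUb y₁ hy₁Y j
    have hκk : 0 ≤ (D j).κ (a j) ^ ((k : ℝ) / 2) := Real.rpow_nonneg hκ.le _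
    calc (D j).κ (a j) ^ ((k : ℝ) / 2) * Real.sqrt (xbE (D j) (S j) (a j) x) / th j
        ≤ (D j).κ (a j) ^ ((k : ℝ) / 2) * (Real.sqrt Cpe * Real.sqrt (xbE (D j) (S j) (a j) (wz j y₁))) / th j :=
          div_le_div_of_nonneg_right (mul_le_mul_of_nonneg_left h5 hκk) (hth j).le
      _ = Real.sqrt Cpe * ((D j).κ (a j) ^ ((k : ℝ) / 2) * Real.sqrt (xbE (D j) (S j) (a j) (wz j y₁)) / th j) := by ring
      _ ≤ Real.sqrt Cpe * U := mul_le_mul_of_nonneg_left h6 (Real.sqrt_nonneg _)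
  have hs1 : 1 ≤ Real.sqrt Cpe := by rw [Real.one_le_sqrt]; exact hCpe1
  have key := H (fun j => (D j).Cl (a j)) (fun j => xbFam (D j) (a j) (F j)) (fun j => S j (a j)) (fun j => (D j).sys.am (S j) (a j)) N Q (Real.sqrt Cpe * U) lam th ι₀
    (Y.filter fun y => ‖pos y - x‖ ≤ N) pos wz x hN hlam hNj hIn hQ (fun lb _ => htr fun j => (lb j).1.1)
    (fun y hy y' hy' => hsep y (Finset.mem_filter.1 hy).1 y' (Finset.mem_filter.1 hy').1)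
    (fun y hy => by rw [one_mul]; exact (Finset.mem_filter.1 hy).2)
    (fun y hy => hnear y (Finset.mem_filter.1 hy).1)
    (fun y hy j => by
      have := hhigh y (Finset.mem_filter.1 hy).1 j
      unfold PFam.fld
      rwa [Finset.sum_congr rfl fun T hT => hpk j T hT (wz j y)])
    hth hNQ (by nlinarith) hUx
  simp only [xb_sq_eq] at key
  refine key.trans (le_of_eq ?_)
  rw [Real.mul_rpow (Real.sqrt_nonneg _) (by linarith)]
  ring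

/-- **LEAF L-257-XB-NUM** (~100 l., real numbers).   `∏_j (K3 lam^{k+1} e_j/th_j²)^{1/k} = (K3 lam^{k+1})^{(k+1)/k} ∏_j (e_j/th_j²)^{1/k}` (`mul_div_assoc`, `Real.mul_rpow`, `Finset.prod_mul_distrib`, `Finset.prod_const`, `Finset.card_univ`, `Fintype.card_fin`, `← Real.rpow_natCast`, `← Real.rpow_mul`);
`Q^{M₁} Q^{M₂} = Q^{M₁ + M₂}` (`Real.rpow_add`, `Real.rpow_natCast`);   exponents of `lam`: `ε/2 + (k+1)²/k + 2 Qo (k+1)/k + (k+1)²/k ≤ xbExp k Qo` because `ε ≤ 1` (`← Real.rpow_add`, `Real.rpow_le_rpow_of_exponent_le hlam`; `unfold xbExp`, `field_simp`/`ring_nf`). -/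
theorem xb_tree_num (hk : 1 ≤ k) {C₁ C₂ K3 M₁ Qo ε Q lam U R : ℝ} (M₂ : ℕ) (hC₁ : 0 ≤ C₁) (hC₂ : 0 ≤ C₂) (hK3 : 0 ≤ K3) (hε : 0 ≤ ε) (hε1 : ε ≤ 1) (hQ : 1 ≤ Q) (hlam : 1 ≤ lam) (hU : 1 ≤ U) (hR : 0 ≤ R)
    (e th : Fin (k + 1) → ℝ) (he : ∀ j, 0 ≤ e j) (hth : ∀ j, 0 < th j) :
    C₂ * (C₁ * Q ^ M₁ * lam ^ (ε / 2 + ((k : ℝ) + 1) ^ 2 / k) * U ^ ε) * Q ^ M₂ * lam ^ (2 * Qo * ((k : ℝ) + 1) / k) * R ^ (k + 1) * ∏ j, (K3 * lam ^ (k + 1) * e j / th j ^ 2) ^ (1 / (k : ℝ))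
      ≤ C₂ * C₁ * K3 ^ (((k : ℝ) + 1) / k) * Q ^ (M₁ + M₂) * lam ^ xbExp k Qo * U ^ ε * R ^ (k + 1) * ∏ j, (e j / th j ^ 2) ^ (1 / (k : ℝ)) := by
  have hk0 : (0 : ℝ) < (k : ℝ) := by exact_mod_cast hk
  have hlam0 : 0 < lam := by linarith
  have hQ0 : 0 < Q := by linarith
  have hU0 : 0 < U := by linarith
  have hPr0 : 0 ≤ ∏ j, (e j / th j ^ 2) ^ (1 / (k : ℝ)) :=
    Finset.prod_nonneg fun j _ => Real.rpow_nonneg (div_nonneg (he j) (by have := hth j; positivity)) _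
  have e1 : ∏ j, (K3 * lam ^ (k + 1) * e j / th j ^ 2) ^ (1 / (k : ℝ))
      = K3 ^ (((k : ℝ) + 1) / k) * lam ^ (((k : ℝ) + 1) ^ 2 / k) * ∏ j, (e j / th j ^ 2) ^ (1 / (k : ℝ)) := by
    have hterm : ∀ j, (K3 * lam ^ (k + 1) * e j / th j ^ 2) ^ (1 / (k : ℝ))
        = (K3 ^ (1 / (k : ℝ)) * lam ^ (((k : ℝ) + 1) / k)) * (e j / th j ^ 2) ^ (1 / (k : ℝ)) := by
      intro j
      have hj := hth j
      rw [mul_div_assoc, Real.mul_rpow (by positivity) (div_nonneg (he j) (by positivity)), Real.mul_rpow hK3 (by positivity),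
        ← Real.rpow_natCast lam (k + 1), ← Real.rpow_mul hlam0.le]
      congr 3
      push_cast
      ring
    simp only [hterm]
    rw [Finset.prod_mul_distrib, Finset.prod_const, Finset.card_univ, Fintype.card_fin, mul_pow, ← Real.rpow_natCast (K3 ^ _),
      ← Real.rpow_natCast (lam ^ _), ← Real.rpow_mul hK3, ← Real.rpow_mul hlam0.le]
    congr 3
    · push_cast
      field_simp
    · push_cast
      field_simp
  have e2 : Q ^ M₁ * Q ^ M₂ = Q ^ (M₁ + M₂) := by rw [Real.rpow_add hQ0, Real.rpow_natCast]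
  have e3 : lam ^ (ε / 2 + ((k : ℝ) + 1) ^ 2 / k) * lam ^ (2 * Qo * ((k : ℝ) + 1) / k) * lam ^ (((k : ℝ) + 1) ^ 2 / k) ≤ lam ^ xbExp k Qo := by
    rw [← Real.rpow_add hlam0, ← Real.rpow_add hlam0]
    apply Real.rpow_le_rpow_of_exponent_le hlam
    unfold xbExp
    have : 2 * ((k : ℝ) + 1) * ((k : ℝ) + 1 + Qo) / k = ((k : ℝ) + 1) ^ 2 / k + 2 * Qo * ((k : ℝ) + 1) / k + ((k : ℝ) + 1) ^ 2 / k := by ring
    linarith
  rw [e1]
  calc _ = (C₂ * C₁ * K3 ^ (((k : ℝ) + 1) / k) * (Q ^ M₁ * Q ^ M₂) * U ^ ε * R ^ (k + 1) * ∏ j, (e j / th j ^ 2) ^ (1 / (k : ℝ)))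
        * (lam ^ (ε / 2 + ((k : ℝ) + 1) ^ 2 / k) * lam ^ (2 * Qo * ((k : ℝ) + 1) / k) * lam ^ (((k : ℝ) + 1) ^ 2 / k)) := by ring
    _ ≤ (C₂ * C₁ * K3 ^ (((k : ℝ) + 1) / k) * (Q ^ M₁ * Q ^ M₂) * U ^ ε * R ^ (k + 1) * ∏ j, (e j / th j ^ 2) ^ (1 / (k : ℝ))) * lam ^ xbExp k Qo :=
        mul_le_mul_of_nonneg_left e3 (by positivity)
    _ = _ := by
        rw [e2]
        ring

/-- **XF-B ON THE CONCRETE TREES** (f:cross-field-inflation-bound), explicit constants. -/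
theorem xb_tree (hk : 1 ≤ k) (hmrl : XaMrlStmt k) (hc : c.Ok) {K2 : ℝ} (hK2 : 0 ≤ K2) (hL2 : FiL2At c c.Q (xbB c) K2) (Cw ε : ℝ) (hCw : 0 ≤ Cw) (hε : 0 < ε) (hε1 : ε ≤ 1) :
    ∃ C M : ℝ, 1 ≤ C ∧ 0 ≤ M ∧ ∀ (D : Fin (k + 1) → TDat c) (p : Fin (k + 1) → TPar) (S : ∀ j i, Finset ((D j).Cl i)), (∀ j, (D j).Good) → (∀ j, (D j).sys.Ok (p j)) →
      ∀ (a b : Fin (k + 1) → ℕ) (N R lam Q U : ℝ) (th : Fin (k + 1) → ℝ), (∀ j, b j ≤ a j ∧ a j ≤ c.ℓ) → 1 ≤ lam → 1 ≤ Q → 1 ≤ U → (∀ j, 0 < th j) →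
      (∀ j, N ≤ (D j).κ (a j) ∧ (D j).κ (a j) ≤ lam * N) → (∀ j, R ≤ (D j).κ (b j) ∧ (D j).κ (b j) ≤ lam * R) → lam * N ≤ R → 2 * R ≤ N ^ 2 → C * Q ≤ N →
      (∀ lb : ∀ j, (D j).Lb (a j), Transv Q (fun j => (D j).fr (a j) (lb j))) →
      ∀ (ι₀ : Type) (Y : Finset ι₀) (pos : ι₀ → ST k) (wz : Fin (k + 1) → ι₀ → ST k),
      (∀ y ∈ Y, ∀ y' ∈ Y, y ≠ y' → 1 ≤ ‖pos y - pos y'‖) → (∀ y ∈ Y, ∀ j, ‖wz j y - pos y‖ ≤ Cw) →
      (∀ y ∈ Y, ∀ j, th j ≤ ‖∑ T ∈ S j (a j), xbFld (D j) (S j) (a j) T (wz j y)‖) →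
      (∀ y ∈ Y, ∀ j, (D j).κ (a j) ^ ((k : ℝ) / 2) * Real.sqrt (xbE (D j) (S j) (a j) (wz j y)) / th j ≤ U) →
      ∀ y₀ ∈ Y, ((Y.filter fun y => ‖pos y - pos y₀‖ ≤ R).card : ℝ)
        ≤ C * Q ^ M * lam ^ xbExp k c.Q * U ^ ε * R ^ (k + 1) * ∏ j, (xbE (D j) (S j) (b j) (wz j y₀) / th j ^ 2) ^ (1 / (k : ℝ)) := by
  have hB := xb_B_nonneg hc
  have hk0 : (0 : ℝ) ≤ k := Nat.cast_nonneg k
  have hQ0 : 0 ≤ c.Q := by linarith [hc.P_gt, hc.P_lt]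
  obtain ⟨C₁, M₁, C₃, hC₁, hM₁, hC₃, Hpt⟩ := xb_tree_pt hk hmrl hc Cw ε hCw hε
  obtain ⟨C₂, M₂, hC₂, Hmid⟩ := xb_mid k hk (xbB c) hB c.Q hQ0
  obtain ⟨K3, hK3, Hl2⟩ := xb_tree_l2 hc hK2 hL2 (Cb := 2 * (2 + 4 * xbB c)) (by positivity)
  have hK3' : 0 ≤ K3 ^ (((k : ℝ) + 1) / k) := Real.rpow_nonneg hK3 _
  refine ⟨max (1 + C₃ + Cw) (C₂ * C₁ * K3 ^ (((k : ℝ) + 1) / k)), M₁ + M₂, le_max_of_le_left (by linarith), by positivity, ?_⟩
  intro D p S hD hO a b N R lam Q U th hab hlam hQ hU hth hNj hRj hlNR hRN hCN htr ι₀ Y pos wz hsep hnear hhigh hUb y₀ hy₀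
  have hCQ : (1 + C₃ + Cw) * Q ≤ N := le_trans (mul_le_mul_of_nonneg_right (le_max_left _ _) (by linarith)) hCN
  have hN1 : 1 ≤ N := by nlinarith
  have hC₃N : C₃ * Q ≤ N := by nlinarith
  have hCwN : Cw ≤ N := by nlinarith
  have hN0 : 0 < N := by linarith
  have hNR : N ≤ R := le_trans (by nlinarith) hlNR
  have hR0 : 0 < R := by linarith
  have hpt := Hpt D p S hD hO a N lam Q U th (fun j => (hab j).2) hN1 hlam hQ hU hth hNj hC₃N htr ι₀ Y pos wz hsep hnear hhigh hUb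
  have hE0 : ∀ j, 0 ≤ xbE (D j) (S j) (b j) (wz j y₀) := fun j => xb_E_nonneg _ _ _ _
  have hl2 : ∀ j, ∫⁻ z in closedBall (pos y₀) ((2 + 4 * xbB c) * (R + N)), ENNReal.ofReal (xbE (D j) (S j) (a j) z)
      ≤ ENNReal.ofReal ((R + N) ^ (k + 1) * (K3 * lam ^ (k + 1) * xbE (D j) (S j) (b j) (wz j y₀))) := by
    intro j
    have hκb := (hRj j).1
    have h1 := Hl2 (D j) (hD j) (p j) (hO j) (S j) (b j) (a j) (hab j).1 (hab j).2 (pos y₀) (wz j y₀) ((hnear y₀ hy₀ j).trans (by linarith))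
    refine (lintegral_mono_set (closedBall_subset_closedBall ?_)).trans (h1.trans (ENNReal.ofReal_le_ofReal ?_))
    · have : R + N ≤ 2 * (D j).κ (b j) := by linarith
      calc (2 + 4 * xbB c) * (R + N) ≤ (2 + 4 * xbB c) * (2 * (D j).κ (b j)) := mul_le_mul_of_nonneg_left this (by positivity)
        _ = _ := by ring
    · have h2 : (D j).κ (b j) ^ (k + 1) ≤ ((R + N) * lam) ^ (k + 1) := by
        refine pow_le_pow_left₀ (by linarith) ?_ _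
        have := (hRj j).2
        nlinarith
      calc K3 * (D j).κ (b j) ^ (k + 1) * xbE (D j) (S j) (b j) (wz j y₀) ≤ K3 * ((R + N) * lam) ^ (k + 1) * xbE (D j) (S j) (b j) (wz j y₀) :=
            mul_le_mul_of_nonneg_right (mul_le_mul_of_nonneg_left h2 hK3) (hE0 j)
        _ = _ := by rw [mul_pow]; ring
  have hK₁ : 0 ≤ C₁ * Q ^ M₁ * lam ^ (ε / 2 + ((k : ℝ) + 1) ^ 2 / k) * U ^ ε := by positivity
  have key := Hmid N R Q lam (C₁ * Q ^ M₁ * lam ^ (ε / 2 + ((k : ℝ) + 1) ^ 2 / k) * U ^ ε) (fun j => (D j).κ (a j)) th (fun j => K3 * lam ^ (k + 1) * xbE (D j) (S j) (b j) (wz j y₀))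
    hN0 hlam hlNR hRN hQ hK₁ hNj hth (fun j => mul_nonneg (by positivity) (hE0 j))
    (fun j => (D j).Cl (a j)) (fun j => S j (a j)) (fun j T => (D j).fr (a j) T.1.1) (fun j T => lat T.1.2) (fun j T => (D j).sys.am (S j) (a j) T ^ 2)
    (fun j T _ => sq_nonneg _) (fun j T _ => xb_lab hc (D j) (hD j) (a j) (hab j).2 _) (fun T _ => htr fun j => (T j).1.1)
    ι₀ Y pos (pos y₀) (fun x => by simp only [← xb_E_eq]; exact hpt x) (fun j => by simp only [← xb_E_eq]; exact hl2 j)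
  refine key.trans ((xb_tree_num hk M₂ hC₁.le hC₂.le hK3 hε.le hε1 hQ hlam hU hR0.le _ th hE0 hth).trans ?_)
  have hprod0 : 0 ≤ ∏ j, (xbE (D j) (S j) (b j) (wz j y₀) / th j ^ 2) ^ (1 / (k : ℝ)) :=
    Finset.prod_nonneg fun j _ => Real.rpow_nonneg (div_nonneg (hE0 j) (by have := hth j; positivity)) _
  have hlamE : 0 ≤ lam ^ xbExp k c.Q := Real.rpow_nonneg (by linarith) _
  have hQM : 0 ≤ Q ^ (M₁ + M₂) := Real.rpow_nonneg (by linarith) _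
  have hUe : 0 ≤ U ^ ε := Real.rpow_nonneg (by linarith) _
  gcongr
  exact le_max_right _ _

end

end Claimed.Agent.R257
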