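import Claimed.Agent.R257.FR3.XfBTop
import Claimed.Agent.R257.FR3.LlTop
import Claimed.Agent.R257.FR3.L2sAd
import Claimed.Agent.R257.FR3.XfAMr

/-!
# ROW 257, package FR3, unit XF-B, file 3: the hypothesis-free exit `xb_gxf : GXf k`      (architect helper57)

`xb_main` (`XfBTop.lean`) with its two inputs plugged: `xa_mrl` (helper212, multilinear restriction, local form) and `fl2_at` (helper162, the local square
bound of order `c.Q` with labels `≤ xbB c`).  `GXf k` (`LlTop.lean`, helper227) is what the unit LL consumes: `fl3_gtestL : GXf k → GTestL k`.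
-/

namespace Claimed.Agent.R257.FR3

open Claimed.Agent.R257 Claimed.Agent.R257.Tree Claimed.Agent.R257.FR2
open scoped BigOperators Classical

variable {k : ℕ}

/-- **EXIT of XF-B**: (f:cross-field-inflation-bound) on every configuration. -/
theorem xb_gxf (hk : 1 ≤ k) : GXf k := by
  intro c cx β hβ
  by_cases hc : c.Ok
  swap
  · exact ⟨0, fun F hFc _ hOk => absurd (hFc ▸ hOk.cls) hc⟩
  obtain ⟨K2, hK2, hL2⟩ := fl2_at hc (A := c.Q) (by linarith [hc.P_gt, hc.P_lt]) le_rfl (xbB c)
  obtain ⟨m0, H⟩ := xb_main hk (xa_mrl hk) c cx hK2.le hL2 β hβ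
  refine ⟨m0, fun F hFc hFcx hOk hgap a b N R lam hab hlam hlamΛ hNj hRj hlNR i q0 => ?_⟩
  have h := H F hFc hFcx hOk hgap a b N R lam hab hlam hlamΛ hNj hRj hlNR i q0
  subst hFc
  have e : xfE k F.c.Q = xbExp k F.c.Q := rfl
  rw [e]
  convert h using 3

end Claimed.Agent.R257.FR3
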