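import Claimed.Agent.R257.FR3.XfB
import Claimed.Agent.R257.FR3.TopDefs
import Claimed.Agent.R257.Tree.TG

/-!
# ROW 257, package FR3, unit XF-B (`f:cross-field-inflation`, as it is used in `f:left-limit`, H frame.tex l.1670-1716), file 2: THE EXIT ON `FCfg`      (architect helper57; prefix `xb_`)          CONTRACT

Every `sorry` is a leaf `L-257-XB-T*` (name in the docstring): prove IN PLACE on a fresh pull, statement verbatim (a FALSE statement: one line to helper57), auxiliary lemmas directly above your theorem, prefix `xb_<leaf>_`.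

EXIT **`xb_main`** (consumer: helper227, `hXF` of `fl3_main`):  for every class `c`, `cx`, `β > 0` there is `m0` such that for every configuration `F` of quality `m0` whose coarsest layers are `≥ Λ^{m0}` (`FCfg.Sub.gap`), all START heights `a j` and TERMINAL heights `b j`
(`tr ≤ b j ≤ a j ≤ ℓ`, `N ≤ κ_j (a j) ≤ lam N`, `R ≤ κ_j (b j) ≤ lam R`, `lam N ≤ R`, `1 ≤ lam ≤ Λ`), every field `i` and every retained cube `q₀`:
      `#{q : ‖pt_i q - pt_i q₀‖ ≤ R} ≤ Λ^β lam^E R^{k+1} ∏_j (r_j (b j)² / A_j²)^{1/k}`,      `E = xbExp k Q` (orders only).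
WHY THE START HEIGHTS ARE FREE: `Frozen.high` holds at EVERY height, and for `h ≥ tr` the root field `Ev h` is the plain sum of the selected packets of height `h` (`xb_Ev`).
PARAMETERS of `xb_tree`:  `Q = 2K` (`xb_top_trans`), `th j = A j / K`, `Cw = k + 1`, `U = xbU F` `≤ Λ^{xbCU}` (`xb_top_U`; exponent depends on the grid: allowed, `ε = xbEps β cx ℓ` is chosen after the grid), terminal bound `𝓔_{j,b}(pt) ≤ 4 r_b² ϖ0` (`xb_env_le`).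
-/

set_option autoImplicit false

namespace Claimed.Agent.R257.FR3

open MeasureTheory Metric Set
open Claimed.Agent.R257 Claimed.Agent.R257.Tree Claimed.Agent.R257.FR2
open scoped ENNReal BigOperators BoundedContinuousFunction Classical

noncomputable section

variable {k : ℕ}

theorem xb_prod_smul (k : ℕ) {c : ℝ} (hc : 0 ≤ c) (u : Fin (k + 1) → ℝ) (hu : ∀ j, 0 ≤ u j) :
    ∏ j, (c * u j) ^ (1 / (k : ℝ)) = c ^ (((k : ℝ) + 1) / k) * ∏ j, u j ^ (1 / (k : ℝ)) := by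
  simp only [Real.mul_rpow hc (hu _)]
  rw [Finset.prod_mul_distrib, Finset.prod_const, Finset.card_univ, Fintype.card_fin, ← Real.rpow_natCast, ← Real.rpow_mul hc]
  congr 2
  push_cast
  ring

/-! ## 1. one tree above the transition height -/

section tree

variable {c : TCls k}

/-- **LEAF L-257-XB-T1** (~50 l.): above the transition height the root field is the plain sum of the selected packets.   PLAN: `TSys.Ev`, `TSys.res`; `D.sys.ev h T f y = D.msk h T.1.1 (D.pt y) * f (D.pt y)` (`rfl`), `TDat.msk`, `if_neg (not_lt.2 hh)`, `one_mul`;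
`∑ T, (if T ∈ S h then g T else 0) z = ∑ T ∈ S h, g T z` (`apply_ite`, `BoundedContinuousFunction.coe_zero`, `Finset.sum_ite_mem`, `Finset.univ_inter`); `xbFld` unfolds to `D.sys.fld S h`. -/
theorem xb_Ev (D : TDat c) (S : ∀ i, Finset (D.Cl i)) (h : ℕ) (hh : c.tr ≤ h) (y : D.Y) :
    D.sys.Ev h (D.sys.res (S h) (D.sys.fld S h)) y = ∑ T ∈ S h, xbFld D S h T (D.pt y) := by
  unfold TSys.Ev
  have h1 : ∀ T : D.Cl h, D.sys.ev h T (D.sys.res (S h) (D.sys.fld S h) T) y = if T ∈ S h then xbFld D S h T (D.pt y) else 0 := by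
    intro T
    by_cases hT : T ∈ S h
    · have e : D.sys.res (S h) (D.sys.fld S h) T = D.sys.fld S h T := if_pos hT
      rw [e, if_pos hT]
      show D.msk h T.1.1 (D.pt y) * (xbFld D S h T) (D.pt y) = _
      unfold TDat.msk
      rw [if_neg (not_lt.2 hh), one_mul]
    · have e : D.sys.res (S h) (D.sys.fld S h) T = 0 := if_neg hT
      rw [e, if_neg hT]
      show D.msk h T.1.1 (D.pt y) * (0 : ST k →ᵇ ℂ) (D.pt y) = 0
      simp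
  calc ∑ T : D.sys.C h, D.sys.ev h T (D.sys.res (S h) (D.sys.fld S h) T) y
      = ∑ T : D.Cl h, if T ∈ S h then xbFld D S h T (D.pt y) else 0 := Finset.sum_congr rfl fun T _ => h1 T
    _ = ∑ T ∈ S h, xbFld D S h T (D.pt y) := by
        rw [Finset.sum_ite_mem, Finset.univ_inter]

/-- **LEAF L-257-XB-T2** (~50 l.): above the transition height the envelope at a witness is the square function of the system.   PLAN: `xb_E_eq`, `xbEnv`; `TSys.sq`, `TSys.resA`; `D.sys.w h T y = D.ker c.Q h T.1 (D.pt y)` (`rfl`), `tg_ker_ge D c.Q (not_lt.2 hh)`, `TDat.wA_eq_pw`;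
`∑ T, (if T ∈ S h then a T else 0)^2 * w T = ∑ T ∈ S h, a T^2 * w T` (`Finset.sum_ite_mem`-type: `ite_pow`, `zero_pow`, `ite_mul`, `zero_mul`, `Finset.sum_ite_mem`, `Finset.univ_inter`). -/
theorem xb_E_sq (D : TDat c) (S : ∀ i, Finset (D.Cl i)) (h : ℕ) (hh : c.tr ≤ h) (y : D.Y) :
    xbE D S h (D.pt y) = D.sys.sq h (D.sys.resA (S h) (D.sys.am S h)) y := by
  rw [xb_E_eq]
  unfold xbEnv TSys.sq
  have h1 : ∀ T : D.Cl h, D.sys.resA (S h) (D.sys.am S h) T ^ 2 * D.sys.w h T y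
      = if T ∈ S h then D.sys.am S h T ^ 2 * pw c.Q (D.κ h) (D.fr h T.1.1) (lat T.1.2) (D.pt y) else 0 := by
    intro T
    have e : D.sys.w h T y = pw c.Q (D.κ h) (D.fr h T.1.1) (lat T.1.2) (D.pt y) := by
      show D.ker c.Q h T.1 (D.pt y) = _
      rw [tg_ker_ge D c.Q (not_lt.2 hh), TDat.wA_eq_pw]
    by_cases hT : T ∈ S h
    · have e' : D.sys.resA (S h) (D.sys.am S h) T = D.sys.am S h T := if_pos hT
      rw [e', if_pos hT, e]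
    · have e' : D.sys.resA (S h) (D.sys.am S h) T = 0 := if_neg hT
      rw [e', if_neg hT]
      simp
  symm
  calc ∑ T : D.sys.C h, D.sys.resA (S h) (D.sys.am S h) T ^ 2 * D.sys.w h T y
      = ∑ T : D.Cl h, if T ∈ S h then D.sys.am S h T ^ 2 * pw c.Q (D.κ h) (D.fr h T.1.1) (lat T.1.2) (D.pt y) else 0 :=
        Finset.sum_congr rfl fun T _ => h1 T
    _ = _ := by rw [Finset.sum_ite_mem, Finset.univ_inter]

/-- the clipped square bound (H l.1707-1709) -/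
theorem xb_env_le (D : TDat c) {p : TPar} (hO : D.sys.Ok p) {A K G : ℝ} {S : ∀ i, Finset (D.Cl i)} {r : ℕ → ℝ} {Yf : Finset D.Y} (hF : D.sys.Frozen p.q A K G S r Yf)
    (h : ℕ) (hh : c.tr ≤ h) (hl : h ≤ c.ℓ) (y : D.Y) : xbE D S h (D.pt y) ≤ 4 * r h ^ 2 * p.ϖ0 := by
  rw [xb_E_sq D S h hh y]
  have hri := hF.r_pos h
  calc D.sys.sq h (D.sys.resA (S h) (D.sys.am S h)) y ≤ ∑ T, 4 * r h ^ 2 * (D.sys.b h T ^ 2 * D.sys.w h T y) := by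
        unfold TSys.sq
        refine Finset.sum_le_sum fun T _ => ?_
        calc D.sys.resA (S h) (D.sys.am S h) T ^ 2 * D.sys.w h T y ≤ (4 * r h ^ 2 * D.sys.b h T ^ 2) * D.sys.w h T y :=
              mul_le_mul_of_nonneg_right (TSys.tpf_resA_le hO hF h hl T) (hO.w_nonneg h T y)
          _ = _ := by ring
    _ = 4 * r h ^ 2 * D.sys.sq h (D.sys.b h) y := by unfold TSys.sq; rw [Finset.mul_sum]
    _ ≤ _ := mul_le_mul_of_nonneg_left (hO.sq_le h hl y) (by positivity)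

end tree

/-! ## 2. the sizes of a configuration -/

/-- **LEAF L-257-XB-T3** (~70 l.): `K^{m²} ≤ Λ`.   PLAN (any `j`, e.g. `0`): `K^m ≤ G ℓ` (`h.K_G`) `≤ G 0` (`ti_G_le h.cls _ (h.good j) (Nat.zero_le _) le_rfl`) `≤ ϖ1 = Cp G0^{2P} ϖ` (`FCfg.tp`, `TDat.tp`: `rfl`;  `1 ≤ Cp`: `(h.sys j).one_le_Γ2`;  `1 ≤ ϖ`: `(h.good j).one_le_ϖ`;
`1 ≤ G 0`: `(h.good j).one_le_G 0 (Nat.zero_le _)`;  `G0 ≤ G0^{2P}`: `Real.self_le_rpow_of_one_le`, `1 ≤ 2P` from `h.cls.P_gt`) `≤ Go` (`h.ϖ1_Go`);   `K^{m m} = (K^m)^m ≤ Go^m ≤ Λ` (`pow_mul`, `pow_le_pow_left₀`, `h.Go_Λ`). -/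
theorem xb_top_K {F : FCfg k} {m : ℕ} (h : F.Ok m) : F.K ^ (m * m) ≤ F.Λ := by
  have j : Fin (k + 1) := 0
  have hK0 : 0 ≤ F.K := by linarith [h.two_le_K]
  have h1 : F.K ^ m ≤ (F.D j).G F.c.ℓ := h.K_G j
  have h2 : (F.D j).G F.c.ℓ ≤ (F.D j).G 0 := ti_G_le h.cls _ (h.good j) (Nat.zero_le _) le_rfl
  have hG : 1 ≤ (F.D j).G 0 := (h.good j).one_le_G 0 (Nat.zero_le _)
  have hCp : 1 ≤ F.Cp := (h.sys j).one_le_Γ2
  have hϖ : 1 ≤ (F.D j).ϖ := (h.good j).one_le_ϖ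
  have hP : 1 ≤ 2 * F.c.P := by
    have := h.cls.P_gt
    have hk : (0 : ℝ) ≤ k := Nat.cast_nonneg k
    linarith
  have h3 : (F.D j).G 0 ≤ (F.D j).G 0 ^ (2 * F.c.P) := Real.self_le_rpow_of_one_le hG hP
  have h4 : (F.D j).G 0 ≤ (F.tp j).ϖ1 := by
    show (F.D j).G 0 ≤ F.Cp * (F.D j).G 0 ^ (2 * F.c.P) * (F.D j).ϖ
    have h5 : 0 ≤ (F.D j).G 0 ^ (2 * F.c.P) := by linarith
    calc (F.D j).G 0 ≤ (F.D j).G 0 ^ (2 * F.c.P) := h3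
      _ = 1 * (F.D j).G 0 ^ (2 * F.c.P) * 1 := by ring
      _ ≤ F.Cp * (F.D j).G 0 ^ (2 * F.c.P) * (F.D j).ϖ := by
          refine mul_le_mul (mul_le_mul_of_nonneg_right hCp h5) hϖ zero_le_one (by positivity)
  have h6 : F.K ^ m ≤ F.Go := h1.trans (h2.trans (h4.trans (h.ϖ1_Go j)))
  calc F.K ^ (m * m) = (F.K ^ m) ^ m := pow_mul _ _ _
    _ ≤ F.Go ^ m := pow_le_pow_left₀ (pow_nonneg hK0 _) h6 _
    _ ≤ F.Λ := h.Go_Λ

/-- **LEAF L-257-XB-T4** (~60 l.): `r_i ≤ (2 √X)^i`.   PLAN: induction on `i`: `(h.frozen j).r_zero`;  step: `TSys.ts_prof_cauchy (h.sys j) (h.frozen j) ⟨F.e j q, Finset.mem_univ _⟩ (A > 0) i hi : r (i+1) ≤ 2 √(Γ i) r i` (`q` from `h.ne`; `(F.tp j).q = qk k` by `rfl`; `(F.D j).sys.ℓ = F.c.ℓ` by `rfl`),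
`Real.sqrt_le_sqrt (h.Γ_le j i hi)`, `pow_succ`. -/
theorem xb_top_r {F : FCfg k} {m : ℕ} (h : F.Ok m) (j : Fin (k + 1)) (i : ℕ) (hi : i ≤ F.c.ℓ) : F.r j i ≤ (2 * Real.sqrt F.X) ^ i := by
  obtain ⟨q⟩ := h.ne
  have hA : 0 < F.A j := lt_of_lt_of_le one_pos (h.one_le_A j)
  induction i with
  | zero => rw [(h.frozen j).r_zero, pow_zero]
  | succ i ih =>
    have hi' : i < F.c.ℓ := hi
    have h1 : F.r j (i + 1) ≤ 2 * Real.sqrt ((F.tp j).Γ i) * F.r j i :=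
      TSys.ts_prof_cauchy (p := F.tp j) (h.sys j) (h.frozen j) ⟨F.e j q, Finset.mem_univ _⟩ hA i hi'
    have h2 : Real.sqrt ((F.tp j).Γ i) ≤ Real.sqrt F.X := Real.sqrt_le_sqrt (h.Γ_le j i hi')
    have h3 := ih hi'.le
    have h4 : 0 ≤ F.r j i := ((h.frozen j).r_pos i).le
    calc F.r j (i + 1) ≤ 2 * Real.sqrt ((F.tp j).Γ i) * F.r j i := h1
      _ ≤ 2 * Real.sqrt F.X * (2 * Real.sqrt F.X) ^ i := by
          refine mul_le_mul (by linarith) h3 h4 (by positivity)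
      _ = (2 * Real.sqrt F.X) ^ (i + 1) := by rw [pow_succ]; ring

theorem xb_top_kap_step {F : FCfg k} {m : ℕ} (h : F.Ok m) (j : Fin (k + 1)) (i : ℕ) (hi : i < F.c.ℓ) : (F.D j).κ i ≤ F.X * (F.D j).κ (i + 1) := by
  have h1 : F.Cp * ((F.D j).κ i / (F.D j).κ (i + 1)) ^ k ≤ F.X := h.Γ_le j i hi
  have hCp : 1 ≤ F.Cp := (h.sys j).one_le_Γ2
  have hκ1 : 0 < (F.D j).κ (i + 1) := lt_of_lt_of_le one_pos ((h.good j).one_le_κ _)
  have hρ : 1 ≤ (F.D j).κ i / (F.D j).κ (i + 1) := by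
    rw [one_le_div hκ1]
    exact (h.good j).κ_anti i
  have hk : k ≠ 0 := by have := h.cls.k_pos; omega
  have h2 : (F.D j).κ i / (F.D j).κ (i + 1) ≤ ((F.D j).κ i / (F.D j).κ (i + 1)) ^ k := le_self_pow₀ hρ hk
  have h3 : ((F.D j).κ i / (F.D j).κ (i + 1)) ^ k ≤ F.Cp * ((F.D j).κ i / (F.D j).κ (i + 1)) ^ k := by
    have : 0 ≤ ((F.D j).κ i / (F.D j).κ (i + 1)) ^ k := by positivity
    nlinarith
  have h4 : (F.D j).κ i / (F.D j).κ (i + 1) ≤ F.X := h2.trans (h3.trans h1)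
  rwa [div_le_iff₀ hκ1] at h4

/-- **LEAF L-257-XB-T5** (~70 l.): `κ_b ≤ X^ℓ κ_a` for `b ≤ a ≤ ℓ`.   PLAN: one step `κ_i ≤ X κ_{i+1}` (`i < ℓ`): `h.Γ_le j i hi : Cp (κ_i/κ_{i+1})^k ≤ X` (`FCfg.tp`, `TDat.tp`: `rfl`), `1 ≤ Cp` (`(h.sys j).one_le_Γ2`), `ρ := κ_i/κ_{i+1} ≥ 1` (`κ_anti`), `ρ ≤ ρ^k` (`1 ≤ k`: `h.cls.k_pos`; `le_self_pow₀`);
induction on `d = a - b`: `κ_b ≤ X^d κ_a`;  `X^d ≤ X^ℓ` (`1 ≤ X`: from the one-step bound or `one_le_pow₀` with `1 ≤ Λ`, `h.Λ_ge`). -/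
theorem xb_top_kap {F : FCfg k} {m : ℕ} (h : F.Ok m) (j : Fin (k + 1)) (b a : ℕ) (hba : b ≤ a) (ha : a ≤ F.c.ℓ) : (F.D j).κ b ≤ F.X ^ F.c.ℓ * (F.D j).κ a := by
  have hX : 1 ≤ F.X := by
    have : (1 : ℝ) ≤ F.Λ := by linarith [h.Λ_ge, (Nat.cast_nonneg m : (0 : ℝ) ≤ m)]
    exact one_le_pow₀ this
  have hκ : ∀ i, 0 < (F.D j).κ i := fun i => lt_of_lt_of_le one_pos ((h.good j).one_le_κ _)
  have key : ∀ d : ℕ, b + d ≤ F.c.ℓ → (F.D j).κ b ≤ F.X ^ d * (F.D j).κ (b + d) := by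
    intro d
    induction d with
    | zero => intro _; simp
    | succ d ih =>
      intro hd
      have h1 := ih (by omega)
      have h2 := xb_top_kap_step h j (b + d) (by omega)
      calc (F.D j).κ b ≤ F.X ^ d * (F.D j).κ (b + d) := h1
        _ ≤ F.X ^ d * (F.X * (F.D j).κ (b + d + 1)) := mul_le_mul_of_nonneg_left h2 (by positivity)
        _ = F.X ^ (d + 1) * (F.D j).κ (b + (d + 1)) := by rw [pow_succ, ← add_assoc]; ring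
  have h1 := key (a - b) (by omega)
  have e : b + (a - b) = a := by omega
  rw [e] at h1
  refine h1.trans (mul_le_mul_of_nonneg_right (pow_le_pow_right₀ hX (by omega)) (hκ a).le)

/-- **LEAF L-257-XB-T6** (~60 l.): transversality of the labels of arbitrary heights.   PLAN: `xb_anc h.cls (F.D j) (h.good j) (a j) (ha j) (lb j)` gives ancestors `w j` (`choose`);  `‖fr (a j) (lb j) - fr ℓ (w j)‖ ≤ ℓ Cc / κ_j ℓ ≤ ℓ Cc / L` (`div_le_div_of_nonneg_left`);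
`xa_transv (Q := F.K) (r := ℓ Cc / L) _ _ (h.trans w) _` with `K (ℓ Cc / L) ≤ 1/2` from `hL` (`mul_div_assoc'`, `div_le_iff₀`). -/
theorem xb_top_trans {F : FCfg k} {m : ℕ} (h : F.Ok m) {L : ℝ} (hL0 : 0 < L) (hgap : ∀ j, L ≤ (F.D j).κ F.c.ℓ) (hL : 2 * F.K * (F.c.ℓ * F.c.Cc) ≤ L) (a : Fin (k + 1) → ℕ) (ha : ∀ j, a j ≤ F.c.ℓ)
    (lb : ∀ j, (F.D j).Lb (a j)) : Transv (2 * F.K) (fun j => (F.D j).fr (a j) (lb j)) := by
  have hanc := fun j => xb_anc h.cls (F.D j) (h.good j) (a j) (ha j) (lb j)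
  choose w hw using hanc
  have hK0 : 0 ≤ F.K := by linarith [h.two_le_K]
  have hCc : 0 ≤ F.c.Cc := by linarith [h.cls.one_le_Cc]
  have hnum : 0 ≤ (F.c.ℓ : ℝ) * F.c.Cc := by positivity
  refine xa_transv (Q := F.K) (r := F.c.ℓ * F.c.Cc / L) hK0 ?_ (h.trans w) (fun j => ?_)
  · rw [mul_div_assoc', div_le_iff₀ hL0]
    linarith
  · exact (hw j).trans (div_le_div_of_nonneg_left hnum hL0 (hgap j))

/-- the bound of the normalised ratios `κ^{k/2} 𝓔^{1/2} / th` -/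
def xbU (F : FCfg k) : ℝ := 2 * F.K * Real.sqrt (F.X * F.K) * (2 * Real.sqrt F.X) ^ F.c.ℓ

/-- **LEAF L-257-XB-T7** (~120 l.): the normalised ratios at the witnesses.   PLAN: `xb_env_le (F.D j) (h.sys j) (h.frozen j) a htr ha y : 𝓔 ≤ 4 r_a² ϖ0 ≤ 4 r_a² K` (`h.ϖ0_le`), so `√𝓔 ≤ 2 r_a √K` (`Real.sqrt_le_sqrt`, `Real.sqrt_mul_self`/`Real.sqrt_sq`);
`κ_a^{k/2} = √(κ_a^k)` (`Real.sqrt_eq_rpow`, `← Real.rpow_natCast`, `← Real.rpow_mul`) `≤ √(X A²) = √X A` (`h.Γr_le j a ha : Cp κ_a^k ≤ X A²`, `1 ≤ Cp`);   `r_a ≤ (2√X)^a ≤ (2√X)^ℓ` (`xb_top_r`, `pow_le_pow_right₀`, `1 ≤ X`);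
`√X A · 2 r √K / (A/K) = 2 K √X √K r` (`field_simp`), `√X √K = √(X K)`. -/
theorem xb_top_U {F : FCfg k} {m : ℕ} (h : F.Ok m) (j : Fin (k + 1)) (a : ℕ) (htr : F.c.tr ≤ a) (ha : a ≤ F.c.ℓ) (y : (F.D j).Y) :
    (F.D j).κ a ^ ((k : ℝ) / 2) * Real.sqrt (xbE (F.D j) (F.S j) a ((F.D j).pt y)) / (F.A j / F.K) ≤ xbU F := by
  have hK := h.two_le_K
  have hΛ1 : (1 : ℝ) ≤ F.Λ := by linarith [h.Λ_ge, (Nat.cast_nonneg m : (0 : ℝ) ≤ m)]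
  have hX : 1 ≤ F.X := one_le_pow₀ hΛ1
  have hA : 1 ≤ F.A j := h.one_le_A j
  have hκ : 0 < (F.D j).κ a := lt_of_lt_of_le one_pos ((h.good j).one_le_κ a)
  have hCp : 1 ≤ F.Cp := (h.sys j).one_le_Γ2
  have hr0 : 0 < F.r j a := (h.frozen j).r_pos a
  have hsX : 1 ≤ Real.sqrt F.X := by rw [Real.one_le_sqrt]; exact hX
  have h1 := xb_env_le (F.D j) (h.sys j) (h.frozen j) a htr ha y
  have h2 : xbE (F.D j) (F.S j) a ((F.D j).pt y) ≤ (2 * F.r j a) ^ 2 * F.K := by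
    refine h1.trans ?_
    have h0 := mul_le_mul_of_nonneg_left (h.ϖ0_le j) (by positivity : 0 ≤ 4 * F.r j a ^ 2)
    calc _ ≤ 4 * F.r j a ^ 2 * F.K := h0
      _ = _ := by ring
  have h3 : Real.sqrt (xbE (F.D j) (F.S j) a ((F.D j).pt y)) ≤ 2 * F.r j a * Real.sqrt F.K := by
    calc _ ≤ Real.sqrt ((2 * F.r j a) ^ 2 * F.K) := Real.sqrt_le_sqrt h2
      _ = _ := by rw [Real.sqrt_mul (by positivity), Real.sqrt_sq (by positivity)]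
  have h4 : (F.D j).κ a ^ ((k : ℝ) / 2) = Real.sqrt ((F.D j).κ a ^ k) := by
    rw [Real.sqrt_eq_rpow, ← Real.rpow_natCast, ← Real.rpow_mul hκ.le]
    congr 1
    ring
  have h5 : (F.D j).κ a ^ k ≤ F.X * F.A j ^ 2 := by
    have h6 : F.Cp * (F.D j).κ a ^ k ≤ F.X * F.A j ^ 2 := h.Γr_le j a ha
    have h0 : 0 ≤ (F.D j).κ a ^ k := by positivity
    nlinarith
  have h7 : (F.D j).κ a ^ ((k : ℝ) / 2) ≤ Real.sqrt F.X * F.A j := by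
    rw [h4]
    calc _ ≤ Real.sqrt (F.X * F.A j ^ 2) := Real.sqrt_le_sqrt h5
      _ = _ := by rw [Real.sqrt_mul (by linarith), Real.sqrt_sq (by linarith)]
  have h8 : F.r j a ≤ (2 * Real.sqrt F.X) ^ F.c.ℓ :=
    (xb_top_r h j a ha).trans (pow_le_pow_right₀ (by linarith) ha)
  rw [div_le_iff₀ (div_pos (by linarith) (by linarith))]
  unfold xbU
  calc (F.D j).κ a ^ ((k : ℝ) / 2) * Real.sqrt (xbE (F.D j) (F.S j) a ((F.D j).pt y))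
      ≤ (Real.sqrt F.X * F.A j) * (2 * (2 * Real.sqrt F.X) ^ F.c.ℓ * Real.sqrt F.K) := by
        apply mul_le_mul h7 (h3.trans ?_) (Real.sqrt_nonneg _) (by positivity)
        gcongr
    _ = 2 * F.K * Real.sqrt (F.X * F.K) * (2 * Real.sqrt F.X) ^ F.c.ℓ * (F.A j / F.K) := by
        rw [Real.sqrt_mul (by linarith)]
        field_simp

/-! ## 3. the numbers -/

/-- the exponent of `U ≤ Λ^{xbCU}` -/
def xbCU (cx ℓ : ℕ) : ℝ := 3 + cx + ℓ * (1 + cx)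

/-- the `ε` of XF-A -/
def xbEps (β : ℝ) (cx ℓ : ℕ) : ℝ := min 1 (β / (4 * xbCU cx ℓ))

/-- `U ≤ Λ^(3 + cx + ℓ (1 + cx))` -/
theorem xb_top_num_U (cx ℓ : ℕ) {Λ K : ℝ} (hΛ : 2 ≤ Λ) (hK1 : 1 ≤ K) (hK : K ≤ Λ) :
    2 * K * Real.sqrt (Λ ^ cx * K) * (2 * Real.sqrt (Λ ^ cx)) ^ ℓ ≤ Λ ^ (3 + cx + ℓ * (1 + cx)) := by
  have hΛ1 : 1 ≤ Λ := by linarith
  have hΛ0 : 0 < Λ := by linarith
  have hc1 : 1 ≤ Λ ^ cx := one_le_pow₀ hΛ1
  have hsq : ∀ x : ℝ, 1 ≤ x → Real.sqrt x ≤ x := by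
    intro x hx
    rw [Real.sqrt_le_iff]
    exact ⟨by linarith, by nlinarith⟩
  have s1 : Real.sqrt (Λ ^ cx * K) ≤ Λ ^ (cx + 1) := by
    have h1 : 1 ≤ Λ ^ cx * K := by nlinarith
    refine (hsq _ h1).trans ?_
    rw [pow_succ]
    exact mul_le_mul_of_nonneg_left hK (by positivity)
  have s3 : 2 * Real.sqrt (Λ ^ cx) ≤ Λ ^ (1 + cx) := by
    rw [pow_add, pow_one]
    exact mul_le_mul hΛ (hsq _ hc1) (Real.sqrt_nonneg _) hΛ0.le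
  have s4 : (2 * Real.sqrt (Λ ^ cx)) ^ ℓ ≤ Λ ^ ((1 + cx) * ℓ) := by
    rw [pow_mul]
    exact pow_le_pow_left₀ (by positivity) s3 ℓ
  have s5 : 2 * K ≤ Λ ^ 2 := by
    rw [sq]
    exact mul_le_mul hΛ hK (by linarith) hΛ0.le
  calc 2 * K * Real.sqrt (Λ ^ cx * K) * (2 * Real.sqrt (Λ ^ cx)) ^ ℓ
      ≤ Λ ^ 2 * Λ ^ (cx + 1) * Λ ^ ((1 + cx) * ℓ) := by
        apply mul_le_mul _ s4 (by positivity) (by positivity)
        exact mul_le_mul s5 s1 (Real.sqrt_nonneg _) (by positivity)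
    _ = Λ ^ (3 + cx + ℓ * (1 + cx)) := by
        rw [← pow_add, ← pow_add]; congr 1; ring

/-- `K^(2M+10) ≤ Λ^(β/4)` -/
theorem xb_top_num_K {K Λ M β : ℝ} {m0 : ℕ} (hm : 1 ≤ m0) (hK : 2 ≤ K) (hKΛ : K ^ (m0 * m0) ≤ Λ) (hβ : 0 < β)
    (hm0 : 4 * (2 * M + 10) / β ≤ m0) : K ^ (2 * M + 10) ≤ Λ ^ (β / 4) := by
  have hK1 : 1 ≤ K := by linarith
  have hK0 : 0 < K := by linarith
  have hmr : (1 : ℝ) ≤ m0 := by exact_mod_cast hm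
  have hn : (m0 : ℝ) ≤ ((m0 * m0 : ℕ) : ℝ) := by
    push_cast; nlinarith
  have h1 : 2 * M + 10 ≤ ((m0 * m0 : ℕ) : ℝ) * (β / 4) := by
    have h2 : 4 * (2 * M + 10) / β ≤ ((m0 * m0 : ℕ) : ℝ) := hm0.trans hn
    rw [div_le_iff₀ hβ] at h2
    linarith
  calc K ^ (2 * M + 10) ≤ K ^ (((m0 * m0 : ℕ) : ℝ) * (β / 4)) := Real.rpow_le_rpow_of_exponent_le hK1 h1
    _ = (K ^ (m0 * m0)) ^ (β / 4) := by rw [Real.rpow_mul hK0.le, Real.rpow_natCast]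
    _ ≤ Λ ^ (β / 4) := Real.rpow_le_rpow (by positivity) hKΛ (by positivity)

/-- `(2K)^M (4K³)^((k+1)/k) ≤ K^(2M+10)` -/
theorem xb_top_num_P (k : ℕ) (hk : 1 ≤ k) {K M : ℝ} (hK : 2 ≤ K) (hM : 0 ≤ M) :
    (2 * K) ^ M * (4 * K ^ 3) ^ (((k : ℝ) + 1) / k) ≤ K ^ (2 * M + 10) := by
  have hK1 : 1 ≤ K := by linarith
  have hK0 : 0 < K := by linarith
  have hkr : (1 : ℝ) ≤ k := by exact_mod_cast hk
  have a1 : (2 * K) ^ M ≤ K ^ (2 * M) := by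
    have h1 : 2 * K ≤ K ^ 2 := by nlinarith
    calc (2 * K) ^ M ≤ (K ^ 2) ^ M := Real.rpow_le_rpow (by positivity) h1 hM
      _ = K ^ (2 * M) := by
          rw [← Real.rpow_natCast, ← Real.rpow_mul hK0.le]; norm_num
  have he0 : 0 ≤ ((k : ℝ) + 1) / k := by positivity
  have he2 : ((k : ℝ) + 1) / k ≤ 2 := by
    rw [div_le_iff₀ (by linarith)]; linarith
  have a2 : (4 * K ^ 3) ^ (((k : ℝ) + 1) / k) ≤ K ^ (10 : ℝ) := by
    have h1 : 4 * K ^ 3 ≤ K ^ 5 := by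
      have h2 : 4 ≤ K ^ 2 := by nlinarith
      have h3 : K ^ 5 = K ^ 2 * K ^ 3 := by ring
      rw [h3]
      exact mul_le_mul_of_nonneg_right h2 (by positivity)
    have h5 : 1 ≤ K ^ 5 := one_le_pow₀ hK1
    calc (4 * K ^ 3) ^ (((k : ℝ) + 1) / k) ≤ (K ^ 5) ^ (((k : ℝ) + 1) / k) := Real.rpow_le_rpow (by positivity) h1 he0
      _ ≤ (K ^ 5) ^ (2 : ℝ) := Real.rpow_le_rpow_of_exponent_le h5 he2
      _ = K ^ (10 : ℝ) := by
          rw [← Real.rpow_natCast, ← Real.rpow_mul hK0.le]; norm_num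
  calc (2 * K) ^ M * (4 * K ^ 3) ^ (((k : ℝ) + 1) / k) ≤ K ^ (2 * M) * K ^ (10 : ℝ) :=
        mul_le_mul a1 a2 (Real.rpow_nonneg (by positivity) _) (Real.rpow_nonneg hK0.le _)
    _ = K ^ (2 * M + 10) := by rw [← Real.rpow_add hK0]

/-- **LEAF L-257-XB-T8: THE CHOICE OF `m0`** (~250 l., REAL NUMBERS ONLY).   `Λ` large, `K^{m0²} ≤ Λ`.
PLAN.  `m0 ≥ max (cx ℓ + 5) ⌈C^{4/β}⌉ ⌈ℓ Cc⌉ ⌈√(4 (2M + 10)/β)⌉ …`.    `2 ≤ K ≤ Λ` (`K ≤ K^{m0²}`), `C ≤ Λ^{β/4}` (`C^{4/β} ≤ m0 ≤ Λ`; `Real.rpow_le_rpow`, `← Real.rpow_mul`), also `C ≤ Λ` if `m0 ≥ C`.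
(i) `C (2K) ≤ Λ Λ Λ = Λ³ ≤ Λ^{m0-1}`;   (ii) `2 (Λ^cx)^ℓ Λ ≤ Λ^{cx ℓ + 2} ≤ Λ^{m0-1}`;   (iii) `2 K (ℓ Cc) ≤ Λ³ ≤ Λ^{m0}`.
(iv) `(2K)^M (4K³)^{(k+1)/k} ≤ K^{2M} K^{10}` (`2 ≤ K`, `4 ≤ K²`, `(k+1)/k ≤ 2`) `= K^{2M+10} ≤ Λ^{(2M+10)/m0²} ≤ Λ^{β/4}`;    `U = 2 K √(Λ^cx K) (2 √(Λ^cx))^ℓ ≤ Λ^{xbCU cx ℓ}` (`√x ≤ x` for `x ≥ 1`), `U^ε ≤ Λ^{xbCU ε} ≤ Λ^{β/4}`;   product `≤ Λ^{3β/4} ≤ Λ^β`. -/
theorem xb_top_num (k : ℕ) (hk : 1 ≤ k) (cx ℓ : ℕ) (Cc C M β : ℝ) (hC : 1 ≤ C) (hM : 0 ≤ M) (hβ : 0 < β) :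
    ∃ m0 : ℕ, 1 ≤ m0 ∧ ∀ Λ K : ℝ, (m0 : ℝ) + 3 ≤ Λ → 2 ≤ K → K ^ (m0 * m0) ≤ Λ →
      C * (2 * K) ≤ Λ ^ (m0 - 1) ∧ 2 * (Λ ^ cx) ^ ℓ * Λ ≤ Λ ^ (m0 - 1) ∧ 2 * K * (ℓ * Cc) ≤ Λ ^ m0 ∧
      C * (2 * K) ^ M * (4 * K ^ 3) ^ (((k : ℝ) + 1) / k) * (2 * K * Real.sqrt (Λ ^ cx * K) * (2 * Real.sqrt (Λ ^ cx)) ^ ℓ) ^ xbEps β cx ℓ ≤ Λ ^ β := by
  set m0 : ℕ := max (cx * ℓ + 5) (max ⌈C ^ (4 / β)⌉₊ (max ⌈C⌉₊ (max ⌈(ℓ : ℝ) * |Cc|⌉₊ ⌈4 * (2 * M + 10) / β⌉₊))) with hm0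
  have b1 : cx * ℓ + 5 ≤ m0 := le_max_left _ _
  have b2 : C ^ (4 / β) ≤ m0 := by
    refine (Nat.le_ceil _).trans ?_
    exact_mod_cast (le_max_left _ _).trans (le_max_right (cx * ℓ + 5) _)
  have b3 : C ≤ m0 := by
    refine (Nat.le_ceil _).trans ?_
    exact_mod_cast ((le_max_left _ _).trans (le_max_right _ _)).trans (le_max_right (cx * ℓ + 5) _)
  have b4 : (ℓ : ℝ) * |Cc| ≤ m0 := by
    refine (Nat.le_ceil _).trans ?_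
    exact_mod_cast (((le_max_left _ _).trans (le_max_right _ _)).trans (le_max_right _ _)).trans (le_max_right (cx * ℓ + 5) _)
  have b5 : 4 * (2 * M + 10) / β ≤ m0 := by
    refine (Nat.le_ceil _).trans ?_
    exact_mod_cast (((le_max_right _ _).trans (le_max_right _ _)).trans (le_max_right _ _)).trans (le_max_right (cx * ℓ + 5) _)
  clear_value m0
  have hm1 : 1 ≤ m0 := by omega
  refine ⟨m0, hm1, ?_⟩
  intro Λ K hΛ hK hKΛ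
  have hm0r : (0 : ℝ) ≤ m0 := Nat.cast_nonneg _
  have hΛ2 : 2 ≤ Λ := by linarith
  have hΛ1 : 1 ≤ Λ := by linarith
  have hΛ0 : 0 < Λ := by linarith
  have hK1 : 1 ≤ K := by linarith
  have hK0 : 0 < K := by linarith
  have hKle : K ≤ Λ := by
    refine le_trans ?_ hKΛ
    exact le_self_pow₀ hK1 (by positivity)
  have hCΛ : C ≤ Λ := by linarith
  have h2K : 2 * K ≤ Λ * Λ := mul_le_mul hΛ2 hKle hK0.le hΛ0.le
  have hp3 : ∀ n : ℕ, 3 ≤ n → Λ * (Λ * Λ) ≤ Λ ^ n := by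
    intro n hn
    have : Λ * (Λ * Λ) = Λ ^ 3 := by ring
    rw [this]
    exact pow_le_pow_right₀ hΛ1 hn
  refine ⟨?_, ?_, ?_, ?_⟩
  · exact (mul_le_mul hCΛ h2K (by positivity) hΛ0.le).trans (hp3 _ (by omega))
  · calc 2 * (Λ ^ cx) ^ ℓ * Λ ≤ Λ * (Λ ^ cx) ^ ℓ * Λ := by
          apply mul_le_mul_of_nonneg_right _ hΛ0.le
          exact mul_le_mul_of_nonneg_right hΛ2 (by positivity)
      _ = Λ ^ (cx * ℓ + 2) := by rw [← pow_mul]; ring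
      _ ≤ Λ ^ (m0 - 1) := pow_le_pow_right₀ hΛ1 (by omega)
  · have h1 : (ℓ : ℝ) * Cc ≤ Λ := by
      have : (ℓ : ℝ) * Cc ≤ (ℓ : ℝ) * |Cc| := mul_le_mul_of_nonneg_left (le_abs_self _) (Nat.cast_nonneg _)
      linarith
    calc 2 * K * (ℓ * Cc) ≤ 2 * K * Λ := mul_le_mul_of_nonneg_left h1 (by positivity)
      _ ≤ Λ * Λ * Λ := mul_le_mul_of_nonneg_right h2K hΛ0.le
      _ = Λ * (Λ * Λ) := by ring
      _ ≤ Λ ^ m0 := hp3 _ (by omega)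
  · -- (iv)
    have c1 : C ≤ Λ ^ (β / 4) := by
      have h1 : C ^ (4 / β) ≤ Λ := by linarith
      have h2 : (C ^ (4 / β)) ^ (β / 4) ≤ Λ ^ (β / 4) :=
        Real.rpow_le_rpow (Real.rpow_nonneg (by linarith) _) h1 (by positivity)
      have h3 : (C ^ (4 / β)) ^ (β / 4) = C := by
        rw [← Real.rpow_mul (by linarith)]
        have : 4 / β * (β / 4) = 1 := by field_simp
        rw [this, Real.rpow_one]
      rwa [h3] at h2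
    have c2 : (2 * K) ^ M * (4 * K ^ 3) ^ (((k : ℝ) + 1) / k) ≤ Λ ^ (β / 4) :=
      (xb_top_num_P k hk hK hM).trans (xb_top_num_K hm1 hK hKΛ hβ b5)
    have hCU : 0 < xbCU cx ℓ := by unfold xbCU; positivity
    have hε0 : 0 < xbEps β cx ℓ := lt_min one_pos (by positivity)
    have c3 : (2 * K * Real.sqrt (Λ ^ cx * K) * (2 * Real.sqrt (Λ ^ cx)) ^ ℓ) ^ xbEps β cx ℓ ≤ Λ ^ (β / 4) := by
      have h1 := xb_top_num_U cx ℓ hΛ2 hK1 hKle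
      have h2 : ((3 + cx + ℓ * (1 + cx) : ℕ) : ℝ) = xbCU cx ℓ := by
        unfold xbCU; push_cast; ring
      calc (2 * K * Real.sqrt (Λ ^ cx * K) * (2 * Real.sqrt (Λ ^ cx)) ^ ℓ) ^ xbEps β cx ℓ
          ≤ (Λ ^ (3 + cx + ℓ * (1 + cx))) ^ xbEps β cx ℓ := Real.rpow_le_rpow (by positivity) h1 hε0.le
        _ = Λ ^ (xbCU cx ℓ * xbEps β cx ℓ) := by
            rw [← Real.rpow_natCast, ← Real.rpow_mul hΛ0.le, h2]
        _ ≤ Λ ^ (β / 4) := by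
            apply Real.rpow_le_rpow_of_exponent_le hΛ1
            have h3 : xbEps β cx ℓ ≤ β / (4 * xbCU cx ℓ) := min_le_right _ _
            have h4 : xbCU cx ℓ * xbEps β cx ℓ ≤ xbCU cx ℓ * (β / (4 * xbCU cx ℓ)) := mul_le_mul_of_nonneg_left h3 hCU.le
            have h5 : xbCU cx ℓ * (β / (4 * xbCU cx ℓ)) = β / 4 := by field_simp
            linarith
    have hq : 0 ≤ Λ ^ (β / 4) := Real.rpow_nonneg hΛ0.le _
    calc C * (2 * K) ^ M * (4 * K ^ 3) ^ (((k : ℝ) + 1) / k) * (2 * K * Real.sqrt (Λ ^ cx * K) * (2 * Real.sqrt (Λ ^ cx)) ^ ℓ) ^ xbEps β cx ℓ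
        = C * ((2 * K) ^ M * (4 * K ^ 3) ^ (((k : ℝ) + 1) / k)) * (2 * K * Real.sqrt (Λ ^ cx * K) * (2 * Real.sqrt (Λ ^ cx)) ^ ℓ) ^ xbEps β cx ℓ := by ring
      _ ≤ Λ ^ (β / 4) * Λ ^ (β / 4) * Λ ^ (β / 4) := by
          apply mul_le_mul _ c3 (Real.rpow_nonneg (by positivity) _) (by positivity)
          apply mul_le_mul c1 c2 _ hq
          exact mul_nonneg (Real.rpow_nonneg (by positivity) _) (Real.rpow_nonneg (by positivity) _)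
      _ = Λ ^ (3 * β / 4) := by
          rw [← Real.rpow_add hΛ0, ← Real.rpow_add hΛ0]; congr 1; ring
      _ ≤ Λ ^ β := Real.rpow_le_rpow_of_exponent_le hΛ1 (by linarith)

theorem xb_eps_pos {β : ℝ} (hβ : 0 < β) (cx ℓ : ℕ) : 0 < xbEps β cx ℓ := by
  have : 0 < xbCU cx ℓ := by unfold xbCU; positivity
  exact lt_min one_pos (by positivity)

theorem xb_X_ge {F : FCfg k} {m : ℕ} (h : F.Ok m) : 1 ≤ F.X := by
  have : (1 : ℝ) ≤ F.Λ := by linarith [h.Λ_ge, (Nat.cast_nonneg m : (0 : ℝ) ≤ m)]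
  exact one_le_pow₀ this

theorem xb_U_ge {F : FCfg k} {m : ℕ} (h : F.Ok m) : 1 ≤ xbU F := by
  have hX := xb_X_ge h
  have hK := h.two_le_K
  have h1 : 1 ≤ Real.sqrt (F.X * F.K) := by rw [Real.one_le_sqrt]; nlinarith
  have h2 : 1 ≤ Real.sqrt F.X := by rw [Real.one_le_sqrt]; exact hX
  have h3 : 1 ≤ (2 * Real.sqrt F.X) ^ F.c.ℓ := one_le_pow₀ (by linarith)
  unfold xbU
  have h4 : 1 ≤ 2 * F.K * Real.sqrt (F.X * F.K) := by nlinarith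
  nlinarith

/-- **EXIT OF XF-B ON `FCfg`** -/
theorem xb_main (hk : 1 ≤ k) (hmrl : XaMrlStmt k) (c : TCls k) (cx : ℕ) {K2 : ℝ} (hK2 : 0 ≤ K2) (hL2 : FiL2At c c.Q (xbB c) K2) (β : ℝ) (hβ : 0 < β) :
    ∃ m0 : ℕ, ∀ F : FCfg k, F.c = c → F.cx = cx → F.Ok m0 → (∀ j, F.Λ ^ m0 ≤ (F.D j).κ F.c.ℓ) →
      ∀ (a b : Fin (k + 1) → ℕ) (N R lam : ℝ), (∀ j, F.c.tr ≤ b j ∧ b j ≤ a j ∧ a j ≤ F.c.ℓ) → 1 ≤ lam → lam ≤ F.Λ →
      (∀ j, N ≤ (F.D j).κ (a j) ∧ (F.D j).κ (a j) ≤ lam * N) → (∀ j, R ≤ (F.D j).κ (b j) ∧ (F.D j).κ (b j) ≤ lam * R) → lam * N ≤ R →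
      ∀ (i : Fin (k + 1)) (q₀ : F.Qc),
        ((Finset.univ.filter fun q => ‖(F.D i).pt (F.e i q) - (F.D i).pt (F.e i q₀)‖ ≤ R).card : ℝ)
          ≤ F.Λ ^ β * lam ^ xbExp k F.c.Q * R ^ (k + 1) * ∏ j, (F.r j (b j) ^ 2 / F.A j ^ 2) ^ (1 / (k : ℝ)) := by
  by_cases hc : c.Ok
  swap
  · exact ⟨0, fun F hFc _ hOk => absurd (hFc ▸ hOk.cls) hc⟩
  obtain ⟨C, M, hC, hM, H⟩ := xb_tree hk hmrl hc hK2 hL2 ((k : ℝ) + 1) (xbEps β cx c.ℓ) (by positivity) (xb_eps_pos hβ cx c.ℓ) (min_le_left _ _)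
  obtain ⟨m0, hm0, Hn⟩ := xb_top_num k hk cx c.ℓ c.Cc C M β hC hM hβ
  refine ⟨m0, ?_⟩
  intro F hFc hFcx hOk hgap a b N R lam hab hlam hlamΛ hNj hRj hlNR i q₀
  subst hFc
  subst hFcx
  obtain ⟨n1, n2, n3, n4⟩ := Hn F.Λ F.K hOk.Λ_ge hOk.two_le_K (xb_top_K hOk)
  have hK := hOk.two_le_K
  have hΛ1 : 1 ≤ F.Λ := by linarith [hOk.Λ_ge, (Nat.cast_nonneg m0 : (0 : ℝ) ≤ m0)]
  have hΛ0 : 0 < F.Λ := by linarith
  have hlam0 : 0 < lam := by linarith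
  have hκ0 : ∀ j h, 0 < (F.D j).κ h := fun j h => lt_of_lt_of_le one_pos ((hOk.good j).one_le_κ h)
  have hN0 : 0 < N := by
    have h1 := (hNj 0).2
    have h2 := hκ0 0 (a 0)
    by_contra hneg
    have : lam * N ≤ 0 := mul_nonpos_of_nonneg_of_nonpos hlam0.le (not_lt.1 hneg)
    linarith
  have hNlow : F.Λ ^ (m0 - 1) ≤ N := by
    have h1 : F.Λ ^ m0 ≤ F.Λ * N := by
      calc F.Λ ^ m0 ≤ (F.D 0).κ F.c.ℓ := hgap 0
        _ ≤ (F.D 0).κ (a 0) := TDat.κ_le (F.D 0) (hOk.good 0) (hab 0).2.2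
        _ ≤ lam * N := (hNj 0).2
        _ ≤ F.Λ * N := mul_le_mul_of_nonneg_right hlamΛ hN0.le
    have e : F.Λ ^ m0 = F.Λ * F.Λ ^ (m0 - 1) := by
      rw [← pow_succ']
      congr 1
      omega
    rw [e] at h1
    exact le_of_mul_le_mul_left h1 hΛ0
  have hCN : C * (2 * F.K) ≤ N := n1.trans hNlow
  have hRN : 2 * R ≤ N ^ 2 := by
    have h1 : R ≤ F.X ^ F.c.ℓ * (F.Λ * N) := by
      calc R ≤ (F.D 0).κ (b 0) := (hRj 0).1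
        _ ≤ F.X ^ F.c.ℓ * (F.D 0).κ (a 0) := xb_top_kap hOk 0 (b 0) (a 0) (hab 0).2.1 (hab 0).2.2
        _ ≤ F.X ^ F.c.ℓ * (F.Λ * N) := by
            refine mul_le_mul_of_nonneg_left (((hNj 0).2).trans (mul_le_mul_of_nonneg_right hlamΛ hN0.le)) ?_
            have := xb_X_ge hOk
            positivity
    have h2 : 2 * F.X ^ F.c.ℓ * F.Λ ≤ N := n2.trans hNlow
    calc 2 * R ≤ 2 * (F.X ^ F.c.ℓ * (F.Λ * N)) := by linarith
      _ = (2 * F.X ^ F.c.ℓ * F.Λ) * N := by ring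
      _ ≤ N * N := mul_le_mul_of_nonneg_right h2 hN0.le
      _ = N ^ 2 := by ring
  have hA0 : ∀ j, 0 < F.A j := fun j => lt_of_lt_of_le one_pos (hOk.one_le_A j)
  have hth : ∀ j, 0 < F.A j / F.K := fun j => div_pos (hA0 j) (by linarith)
  have key := H F.D F.tp F.S hOk.good hOk.sys a b N R lam (2 * F.K) (xbU F) (fun j => F.A j / F.K) (fun j => (hab j).2) hlam (by linarith) (xb_U_ge hOk) hth hNj hRj hlNR hRN hCN
    (xb_top_trans hOk (pow_pos hΛ0 m0) hgap n3 a fun j => (hab j).2.2)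
    F.Qc Finset.univ (fun q => (F.D i).pt (F.e i q)) (fun j q => (F.D j).pt (F.e j q))
    (fun q _ q' _ hne => (hOk.good i).sep _ _ fun e => hne ((F.e i).injective e))
    (fun q _ j => hOk.cube q j i)
    (fun q _ j => by
      have h1 := (hOk.frozen j).high (a j) (hab j).2.2 (F.e j q) (Finset.mem_univ _)
      rw [xb_Ev (F.D j) (F.S j) (a j) ((hab j).1.trans (hab j).2.1)] at h1
      rw [div_le_iff₀ (by linarith), mul_comm]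
      exact h1)
    (fun q _ j => xb_top_U hOk j (a j) ((hab j).1.trans (hab j).2.1) (hab j).2.2 _)
    q₀ (Finset.mem_univ _)
  have hr0 : ∀ j, 0 ≤ F.r j (b j) ^ 2 / F.A j ^ 2 := fun j => by positivity
  have hfac : ∀ j, xbE (F.D j) (F.S j) (b j) ((F.D j).pt (F.e j q₀)) / (F.A j / F.K) ^ 2 ≤ 4 * F.K ^ 3 * (F.r j (b j) ^ 2 / F.A j ^ 2) := by
    intro j
    have h1 := xb_env_le (F.D j) (hOk.sys j) (hOk.frozen j) (b j) (hab j).1 ((hab j).2.1.trans (hab j).2.2) (F.e j q₀)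
    have h2 : 4 * F.r j (b j) ^ 2 * (F.tp j).ϖ0 ≤ 4 * F.r j (b j) ^ 2 * F.K := mul_le_mul_of_nonneg_left (hOk.ϖ0_le j) (by positivity)
    have hA := hA0 j
    rw [div_le_iff₀ (by have := hth j; positivity)]
    refine (h1.trans h2).trans (le_of_eq ?_)
    field_simp
  have hprod : ∏ j, (xbE (F.D j) (F.S j) (b j) ((F.D j).pt (F.e j q₀)) / (F.A j / F.K) ^ 2) ^ (1 / (k : ℝ))
      ≤ (4 * F.K ^ 3) ^ (((k : ℝ) + 1) / k) * ∏ j, (F.r j (b j) ^ 2 / F.A j ^ 2) ^ (1 / (k : ℝ)) := by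
    rw [← xb_prod_smul k (by positivity) _ hr0]
    refine Finset.prod_le_prod (fun j _ => Real.rpow_nonneg (div_nonneg (xb_E_nonneg _ _ _ _) (by positivity)) _) fun j _ => ?_
    exact Real.rpow_le_rpow (div_nonneg (xb_E_nonneg _ _ _ _) (by positivity)) (hfac j) (by positivity)
  have hP0 : 0 ≤ ∏ j, (F.r j (b j) ^ 2 / F.A j ^ 2) ^ (1 / (k : ℝ)) := Finset.prod_nonneg fun j _ => Real.rpow_nonneg (hr0 j) _
  have hR0 : 0 ≤ R := by nlinarith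
  have hlamE : 0 ≤ lam ^ xbExp k F.c.Q := Real.rpow_nonneg hlam0.le _
  have hUe : 0 ≤ xbU F ^ xbEps β F.cx F.c.ℓ := Real.rpow_nonneg (by linarith [xb_U_ge hOk]) _
  have hKM : 0 ≤ (2 * F.K) ^ M := Real.rpow_nonneg (by linarith) _
  calc ((Finset.univ.filter fun q => ‖(F.D i).pt (F.e i q) - (F.D i).pt (F.e i q₀)‖ ≤ R).card : ℝ)
      ≤ C * (2 * F.K) ^ M * lam ^ xbExp k F.c.Q * xbU F ^ xbEps β F.cx F.c.ℓ * R ^ (k + 1) *
          ∏ j, (xbE (F.D j) (F.S j) (b j) ((F.D j).pt (F.e j q₀)) / (F.A j / F.K) ^ 2) ^ (1 / (k : ℝ)) := key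
    _ ≤ C * (2 * F.K) ^ M * lam ^ xbExp k F.c.Q * xbU F ^ xbEps β F.cx F.c.ℓ * R ^ (k + 1) *
          ((4 * F.K ^ 3) ^ (((k : ℝ) + 1) / k) * ∏ j, (F.r j (b j) ^ 2 / F.A j ^ 2) ^ (1 / (k : ℝ))) :=
        mul_le_mul_of_nonneg_left hprod (by positivity)
    _ = (C * (2 * F.K) ^ M * (4 * F.K ^ 3) ^ (((k : ℝ) + 1) / k) * xbU F ^ xbEps β F.cx F.c.ℓ) * (lam ^ xbExp k F.c.Q * R ^ (k + 1) *
          ∏ j, (F.r j (b j) ^ 2 / F.A j ^ 2) ^ (1 / (k : ℝ))) := by ring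
    _ ≤ F.Λ ^ β * (lam ^ xbExp k F.c.Q * R ^ (k + 1) * ∏ j, (F.r j (b j) ^ 2 / F.A j ^ 2) ^ (1 / (k : ℝ))) :=
        mul_le_mul_of_nonneg_right n4 (by positivity)
    _ = _ := by ring

end

end Claimed.Agent.R257.FR3
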